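-- KEEP
import Claimed.Agent.R289.Pl.Jordan

/-!
# Row 289 (S0537), box ARM, block A1b (planar half of the strand calculus), file Arm/NonCross      (helper42; prefix `pvan`)

A STRAND = the dual path through the bichromatic faces.  Darts of a strand: `d` with `s (src d) = true` (BLACK) and `s (tgt d) = false` (WHITE); the strand crosses the edge of `d` from the face on the right of `d` to the face on
its left, so it travels with BLACK ON ITS LEFT HAND and WHITE ON ITS RIGHT HAND.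

* sec.1  `pvanOk`, `pvanStep`, `pvanBack`: the step is a bijection of the black-white darts
* sec.2  `PvanStr T s A`: a strand which enters the face set `A` through `e 0` and leaves it through `e n`; its darts are pairwise distinct; `Crossed`; the crossed edges form a cocycle on the faces of `A`
* sec.3  **CUT** (`pvan_cut`): in the disc of record the strand has two SIDES, in potential form: `S : Set V` such that an edge of the closed disc joins `S` to `Sᶜ` iff it is crossed; black layer in `S`, white layer in `Sᶜ`.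
         Consequences: monochromatic paths of the closed disc stay on one side; a path from one side to the other runs through an edge black layer - white layer; each face of the disc is on one side or visited
* sec.4  the two boundary arcs; **NON-CROSSING** of the pairing (`pvan_noncross`), nested sides
-/

set_option autoImplicit false

namespace Claimed.Agent.R289

open Relation

variable {V D : Type} (T : PvMap V D) (s : V → Bool)

/-! ## 1. the step -/

/-- black-white dart -/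
def pvanOk (d : D) : Prop := s (T.src d) = true ∧ s (T.tgt d) = false

/-- the next dart of the strand: cross the face on the left of `d` -/
def pvanStep (d : D) : D := if s (T.apex d) = true then T.opp (T.nxt d) else T.opp (T.nxt (T.nxt d))

/-- the previous dart of the strand -/
def pvanBack (d : D) : D := if s (T.apex (T.opp d)) = true then T.nxt (T.nxt (T.opp d)) else T.nxt (T.opp d)

theorem pvan_eqns_cite : True := by
  have := @pvanOk.eq_1; have := @pvanStep.eq_1; have := @pvanBack.eq_1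
  trivial

variable {T s}

theorem pvan_step_ok {d : D} (h : pvanOk T s d) : pvanOk T s (pvanStep T s d) := by
  unfold pvanStep
  split_ifs with ha
  · exact ⟨by rw [T.src_opp', T.tgt_nxt]; exact ha, by rw [T.tgt_opp, T.src_nxt]; exact h.2⟩
  · exact ⟨by rw [T.src_opp', T.tgt_nxt2]; exact h.1, by rw [T.tgt_opp, T.src_nxt2]; exact Bool.eq_false_iff.2 ha⟩

/-- the opposite of the next dart lies in the face of `d` -/
theorem pvan_step_sf (d : D) : T.SF d (T.opp (pvanStep T s d)) := by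
  unfold pvanStep
  split_ifs
  · rw [T.opp_opp]; exact T.sf_nxt d
  · rw [T.opp_opp]; exact T.sf_nxt2 d

theorem pvan_back_step {d : D} (h : pvanOk T s d) : pvanBack T s (pvanStep T s d) = d := by
  unfold pvanStep pvanBack
  split_ifs with ha hb hb
  · rw [T.opp_opp, T.nxt3]
  · rw [T.opp_opp, T.apex_nxt] at hb
    exact absurd h.1 hb
  · rw [T.opp_opp, T.apex_nxt2, h.2] at hb
    exact absurd hb (by simp)
  · rw [T.opp_opp, T.nxt3]

theorem pvan_step_inj {d d' : D} (h : pvanOk T s d) (h' : pvanOk T s d') (he : pvanStep T s d = pvanStep T s d') : d = d' := by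
  rw [← pvan_back_step h, he, pvan_back_step h']

theorem pvan_ok_not_opp {d : D} (h : pvanOk T s d) : ¬ pvanOk T s (T.opp d) := by
  intro h'
  have := h'.1
  rw [T.src_opp', h.2] at this
  exact absurd this (by simp)

/-- the black vertices of two consecutive darts are equal or joined by an edge of the face -/
theorem pvan_step_src (d : D) : T.src (pvanStep T s d) = T.src d ∨ (T.src (pvanStep T s d) = T.apex d ∧ s (T.apex d) = true) := by
  unfold pvanStep
  split_ifs with ha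
  · right; exact ⟨by rw [T.src_opp', T.tgt_nxt], ha⟩
  · left; rw [T.src_opp', T.tgt_nxt2]

theorem pvan_step_tgt (d : D) : T.tgt (pvanStep T s d) = T.tgt d ∨ (T.tgt (pvanStep T s d) = T.apex d ∧ s (T.apex d) = false) := by
  unfold pvanStep
  split_ifs with ha
  · left; rw [T.tgt_opp, T.src_nxt]
  · right; exact ⟨by rw [T.tgt_opp, T.src_nxt2], Bool.eq_false_iff.2 ha⟩

/-! ## 2. strands through a face set -/

variable (T s)

/-- a strand which enters the face set `A` through the edge of `e 0` and leaves it through the edge of `e n`; the visited faces are those of `e 0, …, e (n-1)` -/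
structure PvanStr (A : Set D) where
  n : ℕ
  e : ℕ → D
  pos : 0 < n
  ok0 : pvanOk T s (e 0)
  step : ∀ k, k < n → e (k + 1) = pvanStep T s (e k)
  mem : ∀ k, k < n → e k ∈ A
  ent : T.opp (e 0) ∉ A
  ext : e n ∉ A

variable {T s} {A : Set D}

namespace PvanStr

/-- the edge of `d` is crossed by the strand -/
def Crossed (γ : PvanStr T s A) (d : D) : Prop := ∃ k, k ≤ γ.n ∧ (d = γ.e k ∨ d = T.opp (γ.e k))
/-- black layer -/
def LayB (γ : PvanStr T s A) : Set V := {v | ∃ k, k ≤ γ.n ∧ T.src (γ.e k) = v}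
/-- white layer -/
def LayW (γ : PvanStr T s A) : Set V := {v | ∃ k, k ≤ γ.n ∧ T.tgt (γ.e k) = v}
/-- the face of `d` is visited -/
def Vis (γ : PvanStr T s A) (d : D) : Prop := ∃ k, k < γ.n ∧ T.SF (γ.e k) d

end PvanStr

theorem pvan_str_eqns_cite : True := by
  have := @PvanStr.Crossed.eq_1; have := @PvanStr.LayB.eq_1; have := @PvanStr.LayW.eq_1; have := @PvanStr.Vis.eq_1
  trivial

theorem pvan_ok (γ : PvanStr T s A) (k : ℕ) (hk : k ≤ γ.n) : pvanOk T s (γ.e k) := by
  induction k with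
  | zero => exact γ.ok0
  | succ k ih =>
    rw [γ.step k hk]
    exact pvan_step_ok (ih (Nat.le_of_succ_le hk))

theorem pvan_crossed_opp (γ : PvanStr T s A) (d : D) : γ.Crossed (T.opp d) ↔ γ.Crossed d := by
  constructor
  · rintro ⟨k, hk, h | h⟩
    · exact ⟨k, hk, Or.inr (by rw [← h, T.opp_opp])⟩
    · exact ⟨k, hk, Or.inl (T.opp_injective h)⟩
  · rintro ⟨k, hk, h | h⟩
    · exact ⟨k, hk, Or.inr (by rw [h])⟩
    · exact ⟨k, hk, Or.inl (by rw [h, T.opp_opp])⟩

/-- a crossed black-white dart is a dart of the strand -/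
theorem pvan_crossed_ok (γ : PvanStr T s A) {d : D} (hd : pvanOk T s d) (h : γ.Crossed d) : ∃ k, k ≤ γ.n ∧ d = γ.e k := by
  obtain ⟨k, hk, h | h⟩ := h
  · exact ⟨k, hk, h⟩
  · exact absurd (h ▸ hd) (pvan_ok_not_opp (pvan_ok γ k hk))

/-- crossed edges are bichromatic -/
theorem pvan_crossed_occ (γ : PvanStr T s A) {d : D} (h : γ.Crossed d) : s (T.src d) ≠ s (T.tgt d) := by
  obtain ⟨k, hk, rfl | rfl⟩ := h
  · rw [(pvan_ok γ k hk).1, (pvan_ok γ k hk).2]; simp
  · rw [T.src_opp', T.tgt_opp, (pvan_ok γ k hk).1, (pvan_ok γ k hk).2]; simp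

/-- for a black-white dart of `A`: crossed iff the next dart is crossed -/
theorem pvan_crossed_step (hA : T.FaceSet A) (γ : PvanStr T s A) {d : D} (hd : pvanOk T s d) (hdA : d ∈ A) :
    γ.Crossed (pvanStep T s d) ↔ γ.Crossed d := by
  constructor
  · intro h
    obtain ⟨k, hk, hk'⟩ := pvan_crossed_ok γ (pvan_step_ok hd) h
    rcases Nat.eq_zero_or_pos k with rfl | hpos
    · exfalso
      apply γ.ent
      rw [← hk']
      exact (hA.sf T (pvan_step_sf d)).2 hdA
    · obtain ⟨m, rfl⟩ : ∃ m, k = m + 1 := ⟨k - 1, by omega⟩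
      rw [γ.step m hk] at hk'
      exact ⟨m, Nat.le_of_succ_le hk, Or.inl (pvan_step_inj hd (pvan_ok γ m (Nat.le_of_succ_le hk)) hk')⟩
  · intro h
    obtain ⟨k, hk, rfl⟩ := pvan_crossed_ok γ hd h
    have hlt : k < γ.n := by
      rcases Nat.lt_or_ge k γ.n with h1 | h1
      · exact h1
      · have : k = γ.n := le_antisymm hk h1
        exact absurd (this ▸ hdA) γ.ext
    exact ⟨k + 1, hlt, Or.inl (γ.step k hlt).symm⟩

open Classical in
/-- the cochain of the crossed edges -/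
noncomputable def pvanF (γ : PvanStr T s A) (d : D) : ZMod 2 := if γ.Crossed d then 1 else 0

theorem pvan_F_sym (γ : PvanStr T s A) : T.Sym (pvanF γ) := by
  intro d
  unfold pvanF
  by_cases h : γ.Crossed d
  · rw [if_pos h, if_pos ((pvan_crossed_opp γ d).2 h)]
  · rw [if_neg h, if_neg (fun h' => h ((pvan_crossed_opp γ d).1 h'))]

/-- in a face of `A` whose first dart is black-white -/
theorem pvan_F_coc_aux (hA : T.FaceSet A) (γ : PvanStr T s A) {d : D} (hd : pvanOk T s d) (hdA : d ∈ A) :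
    pvanF γ d + pvanF γ (T.nxt d) + pvanF γ (T.nxt (T.nxt d)) = 0 := by
  have h1 := pvan_crossed_step hA γ hd hdA
  unfold pvanStep at h1
  unfold pvanF
  by_cases ha : s (T.apex d) = true
  · rw [if_pos ha, pvan_crossed_opp] at h1
    have h3 : ¬ γ.Crossed (T.nxt (T.nxt d)) := fun h => by
      have := pvan_crossed_occ γ h
      rw [T.src_nxt2, T.tgt_nxt2, ha, hd.1] at this
      exact this rfl
    rw [if_neg h3]
    by_cases hc : γ.Crossed d
    · rw [if_pos hc, if_pos (h1.2 hc)]; decide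
    · rw [if_neg hc, if_neg (fun h => hc (h1.1 h))]; decide
  · rw [if_neg ha, pvan_crossed_opp] at h1
    have h3 : ¬ γ.Crossed (T.nxt d) := fun h => by
      have := pvan_crossed_occ γ h
      rw [T.src_nxt, T.tgt_nxt, Bool.eq_false_iff.2 ha, hd.2] at this
      exact this rfl
    rw [if_neg h3]
    by_cases hc : γ.Crossed d
    · rw [if_pos hc, if_pos (h1.2 hc)]; decide
    · rw [if_neg hc, if_neg (fun h => hc (h1.1 h))]; decide

/-- **the crossed edges form a cocycle on the faces of `A`** -/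
theorem pvan_F_coc (hA : T.FaceSet A) (γ : PvanStr T s A) {d : D} (hdA : d ∈ A) :
    pvanF γ d + pvanF γ (T.nxt d) + pvanF γ (T.nxt (T.nxt d)) = 0 := by
  -- one of the three darts of the face is black-white, or the face carries no black-white dart and then no white-black dart either
  by_cases h0 : pvanOk T s d
  · exact pvan_F_coc_aux hA γ h0 hdA
  by_cases h1 : pvanOk T s (T.nxt d)
  · have := pvan_F_coc_aux hA γ h1 ((hA d).2 hdA)
    rw [T.nxt3] at this
    rw [← this]; ring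
  by_cases h2 : pvanOk T s (T.nxt (T.nxt d))
  · have := pvan_F_coc_aux hA γ h2 ((hA.nxt2 T d).2 hdA)
    rw [T.nxt3] at this
    rw [← this]; ring
  -- the face is monochromatic
  have hmono : s (T.src d) = s (T.tgt d) ∧ s (T.tgt d) = s (T.apex d) := by
    unfold pvanOk at h0 h1 h2
    rw [T.src_nxt, T.tgt_nxt] at h1
    rw [T.src_nxt2, T.tgt_nxt2] at h2
    cases ha : s (T.src d) <;> cases hb : s (T.tgt d) <;> cases hc : s (T.apex d) <;> simp_all
  have n0 : ¬ γ.Crossed d := fun h => pvan_crossed_occ γ h hmono.1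
  have n1 : ¬ γ.Crossed (T.nxt d) := fun h => pvan_crossed_occ γ h (by rw [T.src_nxt, T.tgt_nxt]; exact hmono.2)
  have n2 : ¬ γ.Crossed (T.nxt (T.nxt d)) := fun h => pvan_crossed_occ γ h (by rw [T.src_nxt2, T.tgt_nxt2, ← hmono.2, hmono.1])
  unfold pvanF
  rw [if_neg n0, if_neg n1, if_neg n2]; decide

/-- the opposite of a later dart lies in the previous face, hence in `A` -/
theorem pvan_opp_mem (hA : T.FaceSet A) (γ : PvanStr T s A) (k : ℕ) (hk : k < γ.n) : T.opp (γ.e (k + 1)) ∈ A := by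
  rw [γ.step k hk]
  exact (hA.sf T (pvan_step_sf (γ.e k))).2 (γ.mem k hk)

/-- every crossed edge is an edge of the closed region -/
theorem pvan_crossed_in (hA : T.FaceSet A) (γ : PvanStr T s A) {d : D} (h : γ.Crossed d) : d ∈ A ∨ T.opp d ∈ A := by
  have key : ∀ k, k ≤ γ.n → γ.e k ∈ A ∨ T.opp (γ.e k) ∈ A := by
    intro k hk
    rcases Nat.lt_or_ge k γ.n with h1 | h1
    · exact Or.inl (γ.mem k h1)
    · have hkn : k = γ.n := le_antisymm hk h1
      obtain ⟨m, hm⟩ : ∃ m, γ.n = m + 1 := ⟨γ.n - 1, by have := γ.pos; omega⟩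
      right
      rw [hkn, hm]
      exact pvan_opp_mem hA γ m (by omega)
  obtain ⟨k, hk, rfl | rfl⟩ := h
  · exact key k hk
  · rw [T.opp_opp]
    exact (key k hk).symm

/-- a face of `A` with a crossed dart is visited -/
theorem pvan_vis_of_crossed (γ : PvanStr T s A) {d : D} (hdA : d ∈ A) (h : γ.Crossed d) : γ.Vis d := by
  obtain ⟨k, hk, rfl | rfl⟩ := h
  · rcases Nat.lt_or_ge k γ.n with h1 | h1
    · exact ⟨k, h1, T.sf_refl _⟩
    · have hkn : k = γ.n := le_antisymm hk h1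
      exact absurd (hkn ▸ hdA) γ.ext
  · rcases Nat.eq_zero_or_pos k with rfl | hpos
    · exact absurd hdA γ.ent
    · obtain ⟨m, rfl⟩ : ∃ m, k = m + 1 := ⟨k - 1, by omega⟩
      refine ⟨m, hk, ?_⟩
      rw [γ.step m hk]
      exact pvan_step_sf _

/-! ## 3. CUT: the two sides of a strand in the disc of record -/

/-- `S` = the BLACK side of the strand `γ` in the closed disc of `c` (only `S ∩ T.VOf c.Left` matters) -/
structure PvanSide (c : T.Cyc) (γ : PvanStr T s c.Left) (S : Set V) : Prop where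
  edge : ∀ d, (d ∈ c.Left ∨ T.opp d ∈ c.Left) → ((T.src d ∈ S ↔ T.tgt d ∈ S) ↔ ¬ γ.Crossed d)
  black : γ.LayB ⊆ S
  white : γ.LayW ⊆ Sᶜ

theorem pvan_z2_iff (a b x : ZMod 2) : ((a = x ↔ b = x) ↔ a + b = 0) := by revert a b x; decide

/-- **CUT**: the strand has two sides -/
theorem pvan_cut (hT : T.IsSph) (c : T.Cyc) (hfin : c.Left.Finite) (γ : PvanStr T s c.Left) : ∃ S : Set V, PvanSide c γ S := by
  have hL := pl_left_face c
  obtain ⟨u, hu⟩ := pl_inside_h1 hT c hfin (pvanF γ) (pvan_F_sym γ) (fun d hd => pvan_F_coc hL γ hd)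
  have hedge : ∀ d, (d ∈ c.Left ∨ T.opp d ∈ c.Left) →
      ((T.src d ∈ {v | u v = u (T.src (γ.e 0))} ↔ T.tgt d ∈ {v | u v = u (T.src (γ.e 0))}) ↔ ¬ γ.Crossed d) := by
    intro d hd
    show ((u (T.src d) = u (T.src (γ.e 0)) ↔ u (T.tgt d) = u (T.src (γ.e 0))) ↔ ¬ γ.Crossed d)
    rw [pvan_z2_iff, ← hu d hd]
    unfold pvanF
    by_cases h : γ.Crossed d
    · rw [if_pos h]; simp [h]
    · rw [if_neg h]; simp [h]
  have hblack : ∀ k, k ≤ γ.n → T.src (γ.e k) ∈ {v | u v = u (T.src (γ.e 0))} := by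
    intro k
    induction k with
    | zero => intro _; rfl
    | succ k ih =>
      intro hk
      have ihk := ih (Nat.le_of_succ_le hk)
      rw [γ.step k hk]
      rcases pvan_step_src (s := s) (γ.e k) with h | ⟨h, ha⟩
      · rw [h]; exact ihk
      · rw [h]
        have hin : T.nxt (T.nxt (γ.e k)) ∈ c.Left := (hL.nxt2 T _).2 (γ.mem k hk)
        have hnc : ¬ γ.Crossed (T.nxt (T.nxt (γ.e k))) := fun hc => by
          have := pvan_crossed_occ γ hc
          rw [T.src_nxt2, T.tgt_nxt2, ha, (pvan_ok γ k (Nat.le_of_succ_le hk)).1] at this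
          exact this rfl
        have := (hedge _ (Or.inl hin)).2 hnc
        rw [T.src_nxt2, T.tgt_nxt2] at this
        exact this.2 ihk
  refine ⟨{v | u v = u (T.src (γ.e 0))}, hedge, ?_, ?_⟩
  · rintro v ⟨k, hk, rfl⟩
    exact hblack k hk
  · rintro v ⟨k, hk, rfl⟩ hv
    have hc : γ.Crossed (γ.e k) := ⟨k, hk, Or.inl rfl⟩
    exact (hedge _ (pvan_crossed_in hL γ hc)).1 ⟨fun _ => hv, fun _ => hblack k hk⟩ hc

variable {c : T.Cyc} {γ : PvanStr T s c.Left} {S : Set V}

/-- an uncrossed edge of the closed disc stays on one side -/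
theorem PvanSide.edgeIn (h : PvanSide c γ S) {a b : V} (hab : T.EdgeIn c.Left a b) (hs : s a = s b) : a ∈ S ↔ b ∈ S := by
  obtain ⟨d, hd, rfl, rfl⟩ := hab
  exact (h.edge d hd).2 fun hc => pvan_crossed_occ γ hc hs

/-- **monochromatic paths of the closed disc stay on one side** -/
theorem PvanSide.mono (h : PvanSide c γ S) {X : Set V} {col : Bool} (hX : ∀ v ∈ X, s v = col) {a b : V} (hab : T.Join c.Left X a b) : a ∈ S ↔ b ∈ S := by
  obtain ⟨ha, hp⟩ := hab
  have key : b ∈ X ∧ (a ∈ S ↔ b ∈ S) := by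
    induction hp with
    | refl => exact ⟨ha, Iff.rfl⟩
    | @tail x y _ hxy ih =>
      exact ⟨hxy.2, ih.2.trans (h.edgeIn hxy.1 (by rw [hX x ih.1, hX y hxy.2]))⟩
  exact key.2

/-- **a path of the closed disc from one side to the other runs through a crossed edge** -/
theorem PvanSide.cross (h : PvanSide c γ S) {X : Set V} {a b : V} (hab : T.Join c.Left X a b) (hne : ¬ (a ∈ S ↔ b ∈ S)) :
    ∃ d, γ.Crossed d ∧ T.src d ∈ X ∧ T.tgt d ∈ X := by
  obtain ⟨ha, hp⟩ := hab
  by_contra hcon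
  have key : ∀ y, ReflTransGen (fun u v => T.EdgeIn c.Left u v ∧ v ∈ X) a y → y ∈ X ∧ (a ∈ S ↔ y ∈ S) := by
    intro y hy
    induction hy with
    | refl => exact ⟨ha, Iff.rfl⟩
    | @tail x y _ hxy ih =>
      obtain ⟨d, hd, hsrc, htgt⟩ := hxy.1
      refine ⟨hxy.2, ih.2.trans ?_⟩
      rw [← hsrc, ← htgt]
      exact (h.edge d hd).2 fun hc => hcon ⟨d, hc, hsrc ▸ ih.1, htgt ▸ hxy.2⟩
  exact hne (key b hp).2

theorem pvan_vis_sf {A : Set D} (γ : PvanStr T s A) {d d' : D} (h : T.SF d d') (hv : γ.Vis d) : γ.Vis d' := by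
  obtain ⟨k, hk, hs⟩ := hv
  exact ⟨k, hk, T.sf_trans hs h⟩

/-- **every face of the disc is visited, or on the black side, or on the white side** -/
theorem PvanSide.face (h : PvanSide c γ S) {d : D} (hd : d ∈ c.Left) :
    γ.Vis d ∨ (T.src d ∈ S ∧ T.tgt d ∈ S ∧ T.apex d ∈ S) ∨ (T.src d ∉ S ∧ T.tgt d ∉ S ∧ T.apex d ∉ S) := by
  have hL := pl_left_face c
  by_cases h0 : γ.Crossed d
  · exact Or.inl (pvan_vis_of_crossed γ hd h0)
  by_cases h1 : γ.Crossed (T.nxt d)
  · exact Or.inl (pvan_vis_sf γ (T.sf_symm (T.sf_nxt d)) (pvan_vis_of_crossed γ ((hL d).2 hd) h1))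
  right
  have e0 := (h.edge d (Or.inl hd)).2 h0
  have e1 := (h.edge _ (Or.inl ((hL d).2 hd))).2 h1
  rw [T.src_nxt, T.tgt_nxt] at e1
  by_cases hs : T.src d ∈ S
  · exact Or.inl ⟨hs, e0.1 hs, e1.1 (e0.1 hs)⟩
  · exact Or.inr ⟨hs, fun h => hs (e0.2 h), fun h => hs (e0.2 (e1.2 h))⟩

/-! ## 4. the boundary arcs, non-crossing -/

theorem pvan_mod_ne {n i k : ℕ} (h1 : i < k) (h2 : k < i + n) : i % n ≠ k % n := by
  intro h
  obtain ⟨t, rfl⟩ := Nat.exists_eq_add_of_lt h1
  have h3 : (i + 0) ≡ (i + (t + 1)) [MOD n] := by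
    show (i + 0) % n = (i + (t + 1)) % n
    rw [add_zero, h, add_assoc]
  have h4 := Nat.ModEq.add_left_cancel' i h3
  have hd : n ∣ t + 1 := (Nat.modEq_zero_iff_dvd.1 h4.symm)
  exact absurd (Nat.le_of_dvd (Nat.succ_pos t) hd) (by omega)

theorem pvan_cyc_ne (c : T.Cyc) {i k : ℕ} (h1 : i < k) (h2 : k < i + c.n) : c.e i ≠ c.e k := fun h =>
  pvan_mod_ne h1 h2 (pl_cyc_src_inj c (by rw [h]))

theorem pvan_entry_idx (hT : T.IsSph) (γ : PvanStr T s c.Left) : ∃ i, c.e i = γ.e 0 := by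
  obtain ⟨j1, j2, j3, j4⟩ := pl_jordan hT c
  have hB : T.Bd c.Left (γ.e 0) := fun h => γ.ent (h.1 (γ.mem 0 γ.pos))
  rcases (j4 _).1 hB with ⟨i, hi⟩ | ⟨i, hi⟩
  · exact ⟨i, hi⟩
  · exact absurd (hi ▸ j2 i) γ.ent

theorem pvan_last_opp_mem {A : Set D} (hA : T.FaceSet A) (γ : PvanStr T s A) : T.opp (γ.e γ.n) ∈ A := by
  obtain ⟨m, hm⟩ : ∃ m, γ.n = m + 1 := ⟨γ.n - 1, by have := γ.pos; omega⟩
  rw [hm]
  exact pvan_opp_mem hA γ m (by omega)

theorem pvan_exit_idx (hT : T.IsSph) (γ : PvanStr T s c.Left) : ∃ j, c.e j = T.opp (γ.e γ.n) := by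
  obtain ⟨j1, j2, j3, j4⟩ := pl_jordan hT c
  have hin := pvan_last_opp_mem (pl_left_face c) γ
  have hB : T.Bd c.Left (γ.e γ.n) := fun h => γ.ext (h.2 hin)
  rcases (j4 _).1 hB with ⟨i, hi⟩ | ⟨i, hi⟩
  · exact absurd (hi ▸ j2 i) γ.ext
  · exact ⟨i, hi⟩

/-- the strand crosses the boundary cycle at its entry and at its exit only -/
theorem pvan_bd_crossed (hT : T.IsSph) (γ : PvanStr T s c.Left) (k : ℕ) : γ.Crossed (c.e k) ↔ c.e k = γ.e 0 ∨ c.e k = T.opp (γ.e γ.n) := by
  obtain ⟨j1, j2, j3, j4⟩ := pl_jordan hT c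
  have hL := pl_left_face c
  have hopp : T.opp (c.e k) ∉ c.Left := by
    have := j3 k
    rw [j1] at this
    exact this
  constructor
  · rintro ⟨m, hm, h | h⟩
    · left
      rcases Nat.eq_zero_or_pos m with rfl | hpos
      · exact h
      · obtain ⟨m', rfl⟩ : ∃ m', m = m' + 1 := ⟨m - 1, by omega⟩
        exact absurd (h ▸ pvan_opp_mem hL γ m' hm) hopp
    · right
      rcases Nat.lt_or_ge m γ.n with h1 | h1
      · exfalso
        apply hopp
        rw [h, T.opp_opp]
        exact γ.mem m h1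
      · rw [h, le_antisymm hm h1]
  · rintro (h | h)
    · exact ⟨0, Nat.zero_le _, Or.inl h⟩
    · exact ⟨γ.n, le_rfl, Or.inr h⟩

/-- **the two boundary arcs**: from the entry `i` to the exit `j` in the positive sense the boundary is on the WHITE side, from the exit back to the entry on the BLACK side -/
theorem PvanSide.arcs (hT : T.IsSph) (h : PvanSide c γ S) {i j : ℕ} (hi : c.e i = γ.e 0) (hj : c.e j = T.opp (γ.e γ.n)) (hij : i < j) (hji : j < i + c.n) :
    (∀ k, i + 1 ≤ k → k ≤ j → T.src (c.e k) ∉ S) ∧ (∀ k, j + 1 ≤ k → k ≤ i + c.n → T.src (c.e k) ∈ S) := by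
  obtain ⟨j1, j2, j3, j4⟩ := pl_jordan hT c
  have hstep : ∀ k, c.e k ≠ c.e i → c.e k ≠ c.e j → (T.src (c.e k) ∈ S ↔ T.src (c.e (k + 1)) ∈ S) := by
    intro k h1 h2
    rw [← c.chain k]
    refine (h.edge _ (Or.inl (j2 k))).2 fun hc => ?_
    rcases (pvan_bd_crossed hT γ k).1 hc with h3 | h3
    · exact h1 (by rw [h3, hi])
    · exact h2 (by rw [h3, hj])
  constructor
  · intro k hk
    induction k, hk using Nat.le_induction with
    | base =>
      intro _
      rw [← c.chain i, hi]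
      exact h.white ⟨0, Nat.zero_le _, rfl⟩
    | succ k hk ih =>
      intro hkj
      have ihk := ih (by omega)
      rw [← hstep k (pvan_cyc_ne c (by omega) (by omega)).symm (pvan_cyc_ne c (by omega) (by omega))]
      exact ihk
  · intro k hk
    induction k, hk using Nat.le_induction with
    | base =>
      intro _
      rw [← c.chain j, hj, T.tgt_opp]
      exact h.black ⟨γ.n, le_rfl, rfl⟩
    | succ k hk ih =>
      intro hkj
      have ihk := ih (by omega)
      rw [← hstep k (pvan_cyc_ne c (by omega) (by omega)).symm (pvan_cyc_ne c (by omega) (by omega)).symm]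
      exact ihk

/-- normalised indices of the entry and of the exit -/
theorem pvan_idx (hT : T.IsSph) (γ : PvanStr T s c.Left) : ∃ i j, i < j ∧ j < i + c.n ∧ c.e i = γ.e 0 ∧ c.e j = T.opp (γ.e γ.n) := by
  obtain ⟨i0, hi0⟩ := pvan_entry_idx hT γ
  obtain ⟨j0, hj0⟩ := pvan_exit_idx hT γ
  have hn := pl_cyc_pos c
  have hi : c.e (i0 % c.n) = γ.e 0 := by rw [pl_cyc_mod, hi0]
  have hj : c.e (j0 % c.n) = T.opp (γ.e γ.n) := by rw [pl_cyc_mod, hj0]
  have hne : i0 % c.n ≠ j0 % c.n := by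
    intro h
    rw [h, hj] at hi
    exact pvan_ok_not_opp (pvan_ok γ γ.n le_rfl) (hi ▸ γ.ok0)
  have h1 := Nat.mod_lt i0 hn
  have h2 := Nat.mod_lt j0 hn
  rcases Nat.lt_or_ge (i0 % c.n) (j0 % c.n) with h | h
  · exact ⟨i0 % c.n, j0 % c.n, h, by omega, hi, hj⟩
  · exact ⟨i0 % c.n, j0 % c.n + c.n, by omega, by omega, hi, by rw [c.per, hj]⟩

/-! ### existence and uniqueness of the strand through an entry dart -/

theorem pvan_iter_ok {d : D} (hd : pvanOk T s d) (k : ℕ) : pvanOk T s ((pvanStep T s)^[k] d) := by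
  induction k with
  | zero => exact hd
  | succ k ih => rw [Function.iterate_succ_apply']; exact pvan_step_ok ih

theorem pvan_iter_inj {d : D} (hd : pvanOk T s d) {k l : ℕ} (h : (pvanStep T s)^[k + l] d = (pvanStep T s)^[k] d) : (pvanStep T s)^[l] d = d := by
  induction k with
  | zero => simpa using h
  | succ k ih =>
    apply ih
    have e1 : k + 1 + l = (k + l) + 1 := by omega
    rw [e1, Function.iterate_succ_apply', Function.iterate_succ_apply'] at h
    exact pvan_step_inj (pvan_iter_ok hd _) (pvan_iter_ok hd _) h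

/-- **a strand which enters a finite face set leaves it** -/
theorem pvan_exists {A : Set D} (hA : T.FaceSet A) (hfin : A.Finite) {d : D} (hd : pvanOk T s d) (hdA : d ∈ A) (hopp : T.opp d ∉ A) :
    ∃ γ : PvanStr T s A, γ.e 0 = d := by
  classical
  have hex : ∃ k, (pvanStep T s)^[k] d ∉ A := by
    by_contra hcon
    have hall : ∀ k, (pvanStep T s)^[k] d ∈ A := fun k => by_contra fun h => hcon ⟨k, h⟩
    obtain ⟨k, l, hkl, heq⟩ : ∃ k l : ℕ, k ≠ l ∧ (pvanStep T s)^[k] d = (pvanStep T s)^[l] d := by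
      by_contra hno
      have hinj : Function.Injective fun k : ℕ => (pvanStep T s)^[k] d := fun k l h => by_contra fun hne => hno ⟨k, l, hne, h⟩
      exact Set.infinite_of_injective_forall_mem hinj hall hfin
    -- a period `m + 1`
    obtain ⟨m, hm⟩ : ∃ m, (pvanStep T s)^[m + 1] d = d := by
      rcases Nat.lt_or_ge k l with h | h
      · obtain ⟨t, rfl⟩ := Nat.exists_eq_add_of_lt h
        exact ⟨t, pvan_iter_inj hd (k := k) (by rw [← add_assoc]; exact heq.symm)⟩
      · have h' : l < k := lt_of_le_of_ne h (Ne.symm hkl)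
        obtain ⟨t, rfl⟩ := Nat.exists_eq_add_of_lt h'
        exact ⟨t, pvan_iter_inj hd (k := l) (by rw [← add_assoc]; exact heq)⟩
    apply hopp
    rw [Function.iterate_succ_apply'] at hm
    rw [← hm]
    exact (hA.sf T (pvan_step_sf _)).2 (hall m)
  refine ⟨⟨Nat.find hex, fun k => (pvanStep T s)^[k] d, ?_, hd, fun k _ => Function.iterate_succ_apply' _ _ _, ?_, hopp, Nat.find_spec hex⟩, rfl⟩
  · rcases Nat.eq_zero_or_pos (Nat.find hex) with h | h
    · have := Nat.find_spec hex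
      rw [h] at this
      exact absurd hdA this
    · exact h
  · intro k hk
    exact by_contra fun h => Nat.find_min hex hk h

theorem pvan_e_iter {A : Set D} (γ : PvanStr T s A) (k : ℕ) (hk : k ≤ γ.n) : γ.e k = (pvanStep T s)^[k] (γ.e 0) := by
  induction k with
  | zero => rfl
  | succ k ih => rw [γ.step k hk, ih (Nat.le_of_succ_le hk), Function.iterate_succ_apply']

/-- uniqueness -/
theorem pvan_unique {A : Set D} (γ γ' : PvanStr T s A) (h : γ.e 0 = γ'.e 0) : γ.n = γ'.n ∧ ∀ k, k ≤ γ.n → γ.e k = γ'.e k := by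
  have hn : γ.n = γ'.n := by
    rcases Nat.lt_trichotomy γ.n γ'.n with h1 | h1 | h1
    · exfalso
      apply γ.ext
      rw [pvan_e_iter γ _ le_rfl, h, ← pvan_e_iter γ' _ h1.le]
      exact γ'.mem _ h1
    · exact h1
    · exfalso
      apply γ'.ext
      rw [pvan_e_iter γ' _ le_rfl, ← h, ← pvan_e_iter γ _ h1.le]
      exact γ.mem _ h1
  exact ⟨hn, fun k hk => by rw [pvan_e_iter γ k hk, h, ← pvan_e_iter γ' k (hn ▸ hk)]⟩

theorem pvan_back {A : Set D} (γ : PvanStr T s A) (k : ℕ) (hk : k < γ.n) : pvanBack T s (γ.e (k + 1)) = γ.e k := by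
  rw [γ.step k hk, pvan_back_step (pvan_ok γ k hk.le)]

/-- two strands with different entries have no common dart -/
theorem pvan_disj_aux {A : Set D} (hA : T.FaceSet A) (γ γ' : PvanStr T s A) (hne : γ.e 0 ≠ γ'.e 0) (k : ℕ) :
    ∀ k', k ≤ γ.n → k' ≤ γ'.n → γ.e k ≠ γ'.e k' := by
  induction k with
  | zero =>
    intro k' _ hk' h
    rcases Nat.eq_zero_or_pos k' with rfl | hpos
    · exact hne h
    · obtain ⟨m, rfl⟩ : ∃ m, k' = m + 1 := ⟨k' - 1, by omega⟩
      exact γ.ent (h ▸ pvan_opp_mem hA γ' m hk')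
  | succ k ih =>
    intro k' hk hk' h
    rcases Nat.eq_zero_or_pos k' with rfl | hpos
    · exact γ'.ent (h ▸ pvan_opp_mem hA γ k hk)
    · obtain ⟨m, rfl⟩ : ∃ m, k' = m + 1 := ⟨k' - 1, by omega⟩
      refine ih m (Nat.le_of_succ_le hk) (Nat.le_of_succ_le hk') ?_
      rw [← pvan_back γ k hk, h, pvan_back γ' m hk']

/-- **distinct strands are edge disjoint** -/
theorem pvan_disj {A : Set D} (hA : T.FaceSet A) (γ γ' : PvanStr T s A) (hne : γ.e 0 ≠ γ'.e 0) (d : D) (h : γ.Crossed d) : ¬ γ'.Crossed d := by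
  rintro ⟨k', hk', h'⟩
  obtain ⟨k, hk, h⟩ := h
  rcases h with rfl | rfl <;> rcases h' with h' | h'
  · exact pvan_disj_aux hA γ γ' hne k k' hk hk' h'
  · exact pvan_ok_not_opp (pvan_ok γ' k' hk') (h' ▸ pvan_ok γ k hk)
  · exact pvan_ok_not_opp (pvan_ok γ k hk) (h' ▸ pvan_ok γ' k' hk')
  · exact pvan_disj_aux hA γ γ' hne k k' hk hk' (T.opp_injective h')

/-- **NON-CROSSING, side form**: another strand lies, with both its layers, on one side -/
theorem PvanSide.other (h : PvanSide c γ S) (γ' : PvanStr T s c.Left) (hne : γ.e 0 ≠ γ'.e 0) :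
    (γ'.LayB ⊆ S ∧ γ'.LayW ⊆ S) ∨ (γ'.LayB ⊆ Sᶜ ∧ γ'.LayW ⊆ Sᶜ) := by
  have hL := pl_left_face c
  have hbw : ∀ k, k ≤ γ'.n → (T.src (γ'.e k) ∈ S ↔ T.tgt (γ'.e k) ∈ S) := by
    intro k hk
    have hc : γ'.Crossed (γ'.e k) := ⟨k, hk, Or.inl rfl⟩
    exact (h.edge _ (pvan_crossed_in hL γ' hc)).2 fun hc' => pvan_disj hL γ γ' hne _ hc' hc
  have hb : ∀ k, k ≤ γ'.n → (T.src (γ'.e k) ∈ S ↔ T.src (γ'.e 0) ∈ S) := by
    intro k
    induction k with
    | zero => intro _; exact Iff.rfl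
    | succ k ih =>
      intro hk
      refine Iff.trans ?_ (ih (Nat.le_of_succ_le hk))
      rw [γ'.step k hk]
      rcases pvan_step_src (s := s) (γ'.e k) with h1 | ⟨h1, ha⟩
      · rw [h1]
      · rw [h1]
        have hin : T.nxt (T.nxt (γ'.e k)) ∈ c.Left := (hL.nxt2 T _).2 (γ'.mem k hk)
        have := (h.edge _ (Or.inl hin)).2 fun hc => by
          have := pvan_crossed_occ γ hc
          rw [T.src_nxt2, T.tgt_nxt2, ha, (pvan_ok γ' k (Nat.le_of_succ_le hk)).1] at this
          exact this rfl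
        rwa [T.src_nxt2, T.tgt_nxt2] at this
  by_cases h0 : T.src (γ'.e 0) ∈ S
  · left
    constructor
    · rintro v ⟨k, hk, rfl⟩; exact (hb k hk).2 h0
    · rintro v ⟨k, hk, rfl⟩; exact (hbw k hk).1 ((hb k hk).2 h0)
  · right
    constructor
    · rintro v ⟨k, hk, rfl⟩ hv; exact h0 ((hb k hk).1 hv)
    · rintro v ⟨k, hk, rfl⟩ hv; exact h0 ((hb k hk).1 ((hbw k hk).2 hv))

/-- **NON-CROSSING, index form**: entry `i`, exit `j` of `γ` with `i < j < i + n`; the entry `i'` and the exit `j'` of another strand, taken in `[i, i + n)`, lie both in `(i, j)` or both in `(j, i + n)` -/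
theorem pvan_noncross (hT : T.IsSph) (hfin : c.Left.Finite) (γ γ' : PvanStr T s c.Left) (hne : γ.e 0 ≠ γ'.e 0) {i j i' j' : ℕ}
    (hi : c.e i = γ.e 0) (hj : c.e j = T.opp (γ.e γ.n)) (hij : i < j) (hji : j < i + c.n)
    (hi' : c.e i' = γ'.e 0) (hj' : c.e j' = T.opp (γ'.e γ'.n)) (h1 : i ≤ i') (h2 : i' < i + c.n) (h3 : i ≤ j') (h4 : j' < i + c.n) :
    (i < i' ∧ i' < j ∧ i < j' ∧ j' < j) ∨ (j < i' ∧ j < j') := by
  obtain ⟨S, hS⟩ := pvan_cut hT c hfin γ
  obtain ⟨a1, a2⟩ := hS.arcs hT hi hj hij hji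
  have hL := pl_left_face c
  -- the four indices are pairwise different
  have n1 : i' ≠ i := fun h => hne (by rw [← hi, ← hi', h])
  have n2 : i' ≠ j := fun h => pvan_ok_not_opp (pvan_ok γ γ.n le_rfl) (by rw [← hj, ← h, hi']; exact γ'.ok0)
  have n3 : j' ≠ i := fun h => pvan_ok_not_opp (pvan_ok γ' γ'.n le_rfl) (by rw [← hj', h, hi]; exact γ.ok0)
  have n4 : j' ≠ j := fun h => by
    have he : γ.e γ.n = γ'.e γ'.n := T.opp_injective (by rw [← hj, ← hj', h])
    exact pvan_disj hL γ γ' hne _ ⟨γ.n, le_rfl, Or.inl rfl⟩ ⟨γ'.n, le_rfl, Or.inl he⟩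
  have hb : T.src (c.e i') ∈ γ'.LayB := ⟨0, Nat.zero_le _, by rw [hi']⟩
  have hw : T.src (c.e j') ∈ γ'.LayW := ⟨γ'.n, le_rfl, by rw [hj', T.src_opp']⟩
  rcases hS.other γ' hne with ⟨o1, o2⟩ | ⟨o1, o2⟩
  · right
    constructor
    · by_contra hcon
      exact a1 i' (by omega) (by omega) (o1 hb)
    · by_contra hcon
      exact a1 j' (by omega) (by omega) (o2 hw)
  · left
    have k1 : i' < j := by
      by_contra hcon
      exact o1 hb (a2 i' (by omega) (by omega))
    have k2 : j' < j := by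
      by_contra hcon
      exact o2 hw (a2 j' (by omega) (by omega))
    exact ⟨by omega, k1, by omega, k2⟩

/-! ### connectivity of the closed disc and of the two sides -/

/-- the closed disc is connected: every vertex of a face of the disc is joined to `src (e 0)` by edges of the disc -/
theorem pvan_disc_conn (c : T.Cyc) {v : V} (hv : v ∈ T.VOf c.Left) : T.Join c.Left Set.univ (T.src (c.e 0)) v := by
  obtain ⟨d, hd, rfl⟩ := hv
  have hL := pl_left_face c
  refine ⟨Set.mem_univ _, ?_⟩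
  have hd' : T.DJoin c.darts (c.e 0) d := hd
  -- along the dual path all the darts stay in `Left` and their sources are joined
  have key : d ∈ c.Left ∧ ReflTransGen (fun u v => T.EdgeIn c.Left u v ∧ v ∈ Set.univ) (T.src (c.e 0)) (T.src d) := by
    induction hd' with
    | refl => exact ⟨ReflTransGen.refl, ReflTransGen.refl⟩
    | @tail x y hx hxy ih =>
      have hxL : x ∈ c.Left := hx
      have ih' := (ih hxL).2
      have hedge : T.EdgeIn c.Left (T.src x) (T.tgt x) := ⟨x, Or.inl hxL, rfl, rfl⟩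
      have hyL : y ∈ c.Left := hx.tail hxy
      rcases hxy with rfl | ⟨rfl, -⟩
      · exact ⟨hyL, ih'.tail ⟨hedge, Set.mem_univ _⟩⟩
      · rw [T.src_opp']
        exact ⟨hyL, ih'.tail ⟨hedge, Set.mem_univ _⟩⟩
  exact key.2

theorem pvan_join_tail {A : Set D} {X : Set V} {a b b' : V} (h : T.Join A X a b) (he : T.EdgeIn A b b') (hb : b' ∈ X) : T.Join A X a b' :=
  ⟨h.1, h.2.tail ⟨he, hb⟩⟩

theorem pvan_join_trans {A : Set D} {X : Set V} {a b b' : V} (h : T.Join A X a b) (h' : T.Join A X b b') : T.Join A X a b' :=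
  ⟨h.1, h.2.trans h'.2⟩

theorem pvan_join_refl {A : Set D} {X : Set V} {a : V} (h : a ∈ X) : T.Join A X a a := ⟨h, ReflTransGen.refl⟩

/-- the white layer is a walk on the white side -/
theorem PvanSide.layW_join (h : PvanSide c γ S) (k : ℕ) (hk : k ≤ γ.n) : T.Join c.Left (Sᶜ ∩ {v | s v = false}) (T.tgt (γ.e 0)) (T.tgt (γ.e k)) := by
  have hL := pl_left_face c
  have hmem : ∀ k, k ≤ γ.n → T.tgt (γ.e k) ∈ Sᶜ ∩ {v | s v = false} := fun k hk => ⟨h.white ⟨k, hk, rfl⟩, (pvan_ok γ k hk).2⟩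
  induction k with
  | zero => exact pvan_join_refl (hmem 0 hk)
  | succ k ih =>
    have ihk := ih (Nat.le_of_succ_le hk)
    have hm := hmem (k + 1) hk
    rw [γ.step k hk] at hm ⊢
    rcases pvan_step_tgt (s := s) (γ.e k) with h1 | ⟨h1, -⟩
    · rw [h1]; exact ihk
    · rw [h1] at hm ⊢
      refine pvan_join_tail ihk ⟨T.nxt (γ.e k), Or.inl ((hL _).2 (γ.mem k hk)), ?_, ?_⟩ hm
      · rw [T.src_nxt]
      · rw [T.tgt_nxt]

/-- the black layer is a walk on the black side -/
theorem PvanSide.layB_join (h : PvanSide c γ S) (k : ℕ) (hk : k ≤ γ.n) : T.Join c.Left (S ∩ {v | s v = true}) (T.src (γ.e 0)) (T.src (γ.e k)) := by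
  have hL := pl_left_face c
  have hmem : ∀ k, k ≤ γ.n → T.src (γ.e k) ∈ S ∩ {v | s v = true} := fun k hk => ⟨h.black ⟨k, hk, rfl⟩, (pvan_ok γ k hk).1⟩
  induction k with
  | zero => exact pvan_join_refl (hmem 0 hk)
  | succ k ih =>
    have ihk := ih (Nat.le_of_succ_le hk)
    have hm := hmem (k + 1) hk
    rw [γ.step k hk] at hm ⊢
    rcases pvan_step_src (s := s) (γ.e k) with h1 | ⟨h1, -⟩
    · rw [h1]; exact ihk
    · rw [h1] at hm ⊢
      refine pvan_join_tail ihk ⟨T.opp (T.nxt (T.nxt (γ.e k))), Or.inr (by rw [T.opp_opp]; exact (hL.nxt2 T _).2 (γ.mem k hk)), ?_, ?_⟩ hm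
      · rw [T.src_opp', T.tgt_nxt2]
      · rw [T.tgt_opp, T.src_nxt2]

theorem pvan_join_mono {A : Set D} {X Y : Set V} (hXY : X ⊆ Y) {a b : V} (h : T.Join A X a b) : T.Join A Y a b :=
  ⟨hXY h.1, ReflTransGen.mono (fun _ _ hh => ⟨hh.1, hXY hh.2⟩) _ _ h.2⟩

theorem pvan_edgeIn_symm {A : Set D} {a b : V} (h : T.EdgeIn A a b) : T.EdgeIn A b a := by
  obtain ⟨d, hd, rfl, rfl⟩ := h
  exact ⟨T.opp d, by rw [T.opp_opp]; exact hd.symm, T.src_opp' d, T.tgt_opp d⟩

theorem pvan_join_univ_symm {A : Set D} {a b : V} (h : T.Join A Set.univ a b) : T.Join A Set.univ b a := by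
  refine ⟨Set.mem_univ _, ?_⟩
  obtain ⟨-, hp⟩ := h
  induction hp with
  | refl => exact ReflTransGen.refl
  | @tail x y _ hxy ih => exact ReflTransGen.head ⟨pvan_edgeIn_symm hxy.1, Set.mem_univ _⟩ ih

theorem pvan_src0_mem (γ : PvanStr T s c.Left) : T.src (γ.e 0) ∈ T.VOf c.Left := ⟨γ.e 0, γ.mem 0 γ.pos, rfl⟩

/-- **the white side is connected through the white layer** -/
theorem PvanSide.white_conn (h : PvanSide c γ S) {v : V} (hv : v ∈ T.VOf c.Left) (hvS : v ∉ S) : T.Join c.Left Sᶜ (T.tgt (γ.e 0)) v := by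
  have hp : T.Join c.Left Set.univ (T.src (γ.e 0)) v :=
    pvan_join_trans (pvan_join_univ_symm (pvan_disc_conn c (pvan_src0_mem γ))) (pvan_disc_conn c hv)
  have key : ∀ y, ReflTransGen (fun u v => T.EdgeIn c.Left u v ∧ v ∈ Set.univ) (T.src (γ.e 0)) y → y ∉ S → T.Join c.Left Sᶜ (T.tgt (γ.e 0)) y := by
    intro y hy
    induction hy with
    | refl => intro hn; exact absurd (h.black ⟨0, Nat.zero_le _, rfl⟩) hn
    | @tail x y _ hxy ih =>
      intro hyS
      by_cases hx : x ∈ S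
      · obtain ⟨d, hd, rfl, rfl⟩ := hxy.1
        have hc : γ.Crossed d := by
          by_contra hnc
          exact hyS (((h.edge d hd).2 hnc).1 hx)
        obtain ⟨k, hk, rfl | rfl⟩ := hc
        · exact pvan_join_mono Set.inter_subset_left (h.layW_join k hk)
        · rw [T.src_opp'] at hx
          exact absurd hx (h.white ⟨k, hk, rfl⟩)
      · exact pvan_join_tail (ih hx) hxy.1 hyS
  exact key v hp.2 hvS

/-- **the black side is connected through the black layer** -/
theorem PvanSide.black_conn (h : PvanSide c γ S) {v : V} (hv : v ∈ T.VOf c.Left) (hvS : v ∈ S) : T.Join c.Left S (T.src (γ.e 0)) v := by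
  have ht : T.tgt (γ.e 0) ∈ T.VOf c.Left := ⟨T.nxt (γ.e 0), (pl_left_face c _).2 (γ.mem 0 γ.pos), rfl⟩
  have hp : T.Join c.Left Set.univ (T.tgt (γ.e 0)) v :=
    pvan_join_trans (pvan_join_univ_symm (pvan_disc_conn c ht)) (pvan_disc_conn c hv)
  have key : ∀ y, ReflTransGen (fun u v => T.EdgeIn c.Left u v ∧ v ∈ Set.univ) (T.tgt (γ.e 0)) y → y ∈ S → T.Join c.Left S (T.src (γ.e 0)) y := by
    intro y hy
    induction hy with
    | refl => intro hn; exact absurd hn (h.white ⟨0, Nat.zero_le _, rfl⟩)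
    | @tail x y _ hxy ih =>
      intro hyS
      by_cases hx : x ∈ S
      · exact pvan_join_tail (ih hx) hxy.1 hyS
      · obtain ⟨d, hd, rfl, rfl⟩ := hxy.1
        have hc : γ.Crossed d := by
          by_contra hnc
          exact hx (((h.edge d hd).2 hnc).2 hyS)
        obtain ⟨k, hk, rfl | rfl⟩ := hc
        · exact absurd hyS (h.white ⟨k, hk, rfl⟩)
        · rw [T.tgt_opp]
          exact pvan_join_mono Set.inter_subset_left (h.layB_join k hk)
  exact key v hp.2 hvS

/-- a set of vertices of the closed disc which is joined inside itself and carries no edge crossed by `γ` lies on one side -/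
theorem PvanSide.const_on (h : PvanSide c γ S) {X : Set V} (hX : ∀ d, γ.Crossed d → ¬ (T.src d ∈ X ∧ T.tgt d ∈ X)) {a b : V} (hab : T.Join c.Left X a b) : a ∈ S ↔ b ∈ S := by
  by_contra hne
  obtain ⟨d, hc, h1, h2⟩ := h.cross hab hne
  exact hX d hc ⟨h1, h2⟩

/-- **NESTED SIDES**: if `γ'` lies on the black side of `γ`, the white side of `γ` lies on one side of `γ'` -/
theorem PvanSide.nested_white {γ' : PvanStr T s c.Left} {S' : Set V} (h : PvanSide c γ S) (h' : PvanSide c γ' S') (hB : γ'.LayB ⊆ S) :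
    (T.VOf c.Left ∩ Sᶜ ⊆ S') ∨ (T.VOf c.Left ∩ Sᶜ ⊆ S'ᶜ) := by
  have hX : ∀ d, γ'.Crossed d → ¬ (T.src d ∈ Sᶜ ∧ T.tgt d ∈ Sᶜ) := by
    rintro d ⟨k, hk, rfl | rfl⟩ ⟨h1, h2⟩
    · exact h1 (hB ⟨k, hk, rfl⟩)
    · rw [T.tgt_opp] at h2
      exact h2 (hB ⟨k, hk, rfl⟩)
  by_cases h0 : T.tgt (γ.e 0) ∈ S'
  · left
    rintro v ⟨hv, hvS⟩
    exact (h'.const_on hX (h.white_conn hv hvS)).1 h0
  · right
    rintro v ⟨hv, hvS⟩ hv'
    exact h0 ((h'.const_on hX (h.white_conn hv hvS)).2 hv')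

/-- if `γ'` lies on the white side of `γ`, the black side of `γ` lies on one side of `γ'` -/
theorem PvanSide.nested_black {γ' : PvanStr T s c.Left} {S' : Set V} (h : PvanSide c γ S) (h' : PvanSide c γ' S') (hW : γ'.LayW ⊆ Sᶜ) :
    (T.VOf c.Left ∩ S ⊆ S') ∨ (T.VOf c.Left ∩ S ⊆ S'ᶜ) := by
  have hX : ∀ d, γ'.Crossed d → ¬ (T.src d ∈ S ∧ T.tgt d ∈ S) := by
    rintro d ⟨k, hk, rfl | rfl⟩ ⟨h1, h2⟩
    · exact hW ⟨k, hk, rfl⟩ h2
    · rw [T.src_opp'] at h1
      exact hW ⟨k, hk, rfl⟩ h1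
  by_cases h0 : T.src (γ.e 0) ∈ S'
  · left
    rintro v ⟨hv, hvS⟩
    exact (h'.const_on hX (h.black_conn hv hvS)).1 h0
  · right
    rintro v ⟨hv, hvS⟩ hv'
    exact h0 ((h'.const_on hX (h.black_conn hv hvS)).2 hv')

/-- the side is unique on the closed disc -/
theorem PvanSide.unique {S' : Set V} (h : PvanSide c γ S) (h' : PvanSide c γ S') {v : V} (hv : v ∈ T.VOf c.Left) : v ∈ S ↔ v ∈ S' := by
  constructor
  · intro hvS
    have hX : ∀ d, γ.Crossed d → ¬ (T.src d ∈ S ∧ T.tgt d ∈ S) := by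
      rintro d ⟨k, hk, rfl | rfl⟩ ⟨h1, h2⟩
      · exact h.white ⟨k, hk, rfl⟩ h2
      · rw [T.src_opp'] at h1
        exact h.white ⟨k, hk, rfl⟩ h1
    exact (h'.const_on hX (h.black_conn hv hvS)).1 (h'.black ⟨0, Nat.zero_le _, rfl⟩)
  · intro hvS
    have hX : ∀ d, γ.Crossed d → ¬ (T.src d ∈ S' ∧ T.tgt d ∈ S') := by
      rintro d ⟨k, hk, rfl | rfl⟩ ⟨h1, h2⟩
      · exact h'.white ⟨k, hk, rfl⟩ h2
      · rw [T.src_opp'] at h1
        exact h'.white ⟨k, hk, rfl⟩ h1
    exact (h.const_on hX (h'.black_conn hv hvS)).1 (h.black ⟨0, Nat.zero_le _, rfl⟩)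

end Claimed.Agent.R289
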