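import Mathlib

/-!
# Row 289 (S0537, Cardy for Poisson-Voronoi), box ARM, block A0, file Arm/Stop : FAIR BITS, STOPPING SETS, FRESH COPIES      (owner helper128; architect of ARM helper241; prefix `pva_`, defs `pva…` / `Pva…`)

Blueprint `origin/helper241:notes/R289/ARM_241.md`, `S2_241.md` (v2 addendum).      NO planarity, NO graph: pure counting on colourings.
`V` any type, colourings `ω : V → Bool` (as in `Pl/Defs`), `A : Finset V` = the FRESH vertices, `ξ : V → Bool` = the BACKGROUND (read off `A` only).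

* `pvaE A ξ f`      mean of `f` when the colours of `A` are fair independent bits and the colours off `A` are those of `ξ`;      `pvaP A ξ K` probability of an event
* `PvaCfg A ξ ω`    `ω = ξ` off `A`;      `pvaMix T ω ω'` = `ω` on `T`, `ω'` off `T`;      `pvaFl R ω` = `ω` flipped on `R`
* `PvaMeas S F`     `F` is determined by the exploration `S`: `ω' = ω` on `S ω` implies `F ω' = F ω`;      `PvaStop S := PvaMeas S S` STOPPING SET
* `PvaDep A R ξ G`  given the background, `G` reads the colours of `R` only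
The conditional law given the exploration is `pvaE (A \ S ω) ω`.

sec. 1 kit (linearity, monotonicity, congruence)      sec. 2 counting, `pva_markov`, `pva_tower`, `pva_E_dep`, **`pva_E_mix`** (mix identity), `pva_P_fresh` ("a circuit of the copy gives a fresh arc")
sec. 3 **`pva_fresh`** (fresh copy: involution of pairs), **`pva_smarkov`** (strong Markov), event forms      sec. 4 stopping sets: unions, adaptive compositions
sec. 5 **`pva_E_prod`** (independence on disjoint fresh regions), conditional form      sec. 6 flips: `pva_E_fl`, **`pva_E_fl_meas`** (colour switching on an explored-measurable region), `pva_E_not`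
sec. 7 **`pva_chain`** (successive explorations)      sec. 8 **`pva_fkg`** (Harris)
-/

set_option autoImplicit false
set_option linter.unusedSectionVars false
set_option linter.unusedVariables false

namespace Claimed.Agent.R289

open Finset

variable {V : Type} [DecidableEq V]

/-! ## 0. definitions -/

/-- the colouring `1_B` on `A`, `ξ` off `A` -/
def pvaMk (A B : Finset V) (ξ : V → Bool) : V → Bool := fun v => if v ∈ A then decide (v ∈ B) else ξ v

/-- mean: fair independent bits on `A`, background `ξ` -/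
noncomputable def pvaE (A : Finset V) (ξ : V → Bool) (f : (V → Bool) → ℝ) : ℝ :=
  (∑ B ∈ A.powerset, f (pvaMk A B ξ)) / 2 ^ A.card

open Classical in
/-- probability -/
noncomputable def pvaP (A : Finset V) (ξ : V → Bool) (K : (V → Bool) → Prop) : ℝ :=
  pvaE A ξ (fun ω => if K ω then 1 else 0)

/-- `ω` is a configuration of the problem `(A, ξ)` -/
def PvaCfg (A : Finset V) (ξ ω : V → Bool) : Prop := ∀ v, v ∉ A → ω v = ξ v

/-- `ω` on `T`, `ω'` off `T` -/
def pvaMix (T : Finset V) (ω ω' : V → Bool) : V → Bool := fun v => if v ∈ T then ω v else ω' v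

/-- `ω` flipped on `R` -/
def pvaFl (R : Finset V) (ω : V → Bool) : V → Bool := fun v => if v ∈ R then !ω v else ω v

/-- `F` is determined by the exploration `S` -/
def PvaMeas {β : Type} (S : (V → Bool) → Finset V) (F : (V → Bool) → β) : Prop :=
  ∀ ω ω' : V → Bool, (∀ v ∈ S ω, ω' v = ω v) → F ω' = F ω

/-- stopping set -/
def PvaStop (S : (V → Bool) → Finset V) : Prop := PvaMeas S S

/-- given the background `ξ` off `A`, `G` reads the colours of `R` only -/
def PvaDep {β : Type} (A R : Finset V) (ξ : V → Bool) (G : (V → Bool) → β) : Prop :=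
  ∀ ω₁ ω₂ : V → Bool, PvaCfg A ξ ω₁ → PvaCfg A ξ ω₂ → (∀ v ∈ R, ω₁ v = ω₂ v) → G ω₁ = G ω₂

/-- the black set of `ω` inside `A` -/
def pvaBl (A : Finset V) (ω : V → Bool) : Finset V := A.filter (fun v => ω v = true)

theorem pva_eqns_cite : True := by
  have := @pvaMk.eq_1
  have := @pvaE.eq_1
  have := @pvaP.eq_1
  have := @PvaCfg.eq_1
  have := @pvaMix.eq_1
  have := @pvaFl.eq_1
  have := @PvaMeas.eq_1
  have := @PvaStop.eq_1
  have := @PvaDep.eq_1
  have := @pvaBl.eq_1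
  trivial

/-! ## 1. kit -/

theorem pva_mk_in {A B : Finset V} {ξ : V → Bool} {v : V} (hv : v ∈ A) : pvaMk A B ξ v = decide (v ∈ B) := by
  unfold pvaMk; rw [if_pos hv]

theorem pva_mk_out {A B : Finset V} {ξ : V → Bool} {v : V} (hv : v ∉ A) : pvaMk A B ξ v = ξ v := by
  unfold pvaMk; rw [if_neg hv]

theorem pva_mk_cfg (A B : Finset V) (ξ : V → Bool) : PvaCfg A ξ (pvaMk A B ξ) := fun _ hv => pva_mk_out hv

theorem pva_bl_mem (A : Finset V) (ω : V → Bool) : pvaBl A ω ∈ A.powerset := mem_powerset.2 (filter_subset _ _)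

theorem pva_mk_bl {A : Finset V} {ξ ω : V → Bool} (h : PvaCfg A ξ ω) : pvaMk A (pvaBl A ω) ξ = ω := by
  funext v
  by_cases hv : v ∈ A
  · rw [pva_mk_in hv]
    unfold pvaBl
    cases hω : ω v <;> simp [hv, hω]
  · rw [pva_mk_out hv, h v hv]

theorem pva_bl_mk {A B : Finset V} (hB : B ⊆ A) (ξ : V → Bool) : pvaBl A (pvaMk A B ξ) = B := by
  ext v
  unfold pvaBl
  rw [mem_filter]
  constructor
  · rintro ⟨hv, h⟩
    rw [pva_mk_in hv] at h
    exact of_decide_eq_true h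
  · intro hv
    exact ⟨hB hv, by rw [pva_mk_in (hB hv)]; exact decide_eq_true hv⟩

theorem pva_cfg_refl (A : Finset V) (ξ : V → Bool) : PvaCfg A ξ ξ := fun _ _ => rfl

theorem pva_cfg_mono {A A' : Finset V} (h : A' ⊆ A) {ξ ω : V → Bool} (hω : PvaCfg A' ξ ω) : PvaCfg A ξ ω :=
  fun v hv => hω v (fun h' => hv (h h'))

theorem pva_cfg_trans {A A' : Finset V} (h : A' ⊆ A) {ξ ω ω' : V → Bool} (hω : PvaCfg A ξ ω) (hω' : PvaCfg A' ω ω') :
    PvaCfg A ξ ω' := fun v hv => (hω' v (fun h' => hv (h h'))).trans (hω v hv)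

theorem pva_E_congr {A : Finset V} {ξ : V → Bool} {f g : (V → Bool) → ℝ} (h : ∀ ω, PvaCfg A ξ ω → f ω = g ω) :
    pvaE A ξ f = pvaE A ξ g := by
  unfold pvaE
  congr 1
  exact sum_congr rfl fun B _ => h _ (pva_mk_cfg A B ξ)

/-- only the background off `A` matters -/
theorem pva_E_bg {A : Finset V} {ξ ξ' : V → Bool} (h : PvaCfg A ξ ξ') (f : (V → Bool) → ℝ) : pvaE A ξ' f = pvaE A ξ f := by
  unfold pvaE
  congr 1
  refine sum_congr rfl fun B _ => ?_
  congr 1
  funext v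
  by_cases hv : v ∈ A
  · rw [pva_mk_in hv, pva_mk_in hv]
  · rw [pva_mk_out hv, pva_mk_out hv, h v hv]

theorem pva_E_mono {A : Finset V} {ξ : V → Bool} {f g : (V → Bool) → ℝ} (h : ∀ ω, PvaCfg A ξ ω → f ω ≤ g ω) :
    pvaE A ξ f ≤ pvaE A ξ g := by
  unfold pvaE
  exact div_le_div_of_nonneg_right (sum_le_sum fun B _ => h _ (pva_mk_cfg A B ξ)) (by positivity)

theorem pva_E_const (A : Finset V) (ξ : V → Bool) (c : ℝ) : pvaE A ξ (fun _ => c) = c := by
  unfold pvaE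
  rw [sum_const, card_powerset, nsmul_eq_mul]
  push_cast
  field_simp

theorem pva_E_add (A : Finset V) (ξ : V → Bool) (f g : (V → Bool) → ℝ) :
    pvaE A ξ (fun ω => f ω + g ω) = pvaE A ξ f + pvaE A ξ g := by
  unfold pvaE
  rw [sum_add_distrib, add_div]

theorem pva_E_mul_left (A : Finset V) (ξ : V → Bool) (c : ℝ) (f : (V → Bool) → ℝ) :
    pvaE A ξ (fun ω => c * f ω) = c * pvaE A ξ f := by
  unfold pvaE
  rw [← mul_sum, mul_div_assoc]

theorem pva_E_mul_right (A : Finset V) (ξ : V → Bool) (c : ℝ) (f : (V → Bool) → ℝ) :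
    pvaE A ξ (fun ω => f ω * c) = pvaE A ξ f * c := by
  unfold pvaE
  rw [← sum_mul, div_mul_eq_mul_div]

theorem pva_E_neg (A : Finset V) (ξ : V → Bool) (f : (V → Bool) → ℝ) : pvaE A ξ (fun ω => - f ω) = - pvaE A ξ f := by
  unfold pvaE
  rw [sum_neg_distrib, neg_div]

theorem pva_E_sub (A : Finset V) (ξ : V → Bool) (f g : (V → Bool) → ℝ) :
    pvaE A ξ (fun ω => f ω - g ω) = pvaE A ξ f - pvaE A ξ g := by
  unfold pvaE
  rw [sum_sub_distrib, sub_div]

theorem pva_E_sum {ι : Type*} (A : Finset V) (ξ : V → Bool) (I : Finset ι) (f : ι → (V → Bool) → ℝ) :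
    pvaE A ξ (fun ω => ∑ i ∈ I, f i ω) = ∑ i ∈ I, pvaE A ξ (f i) := by
  unfold pvaE
  rw [sum_comm, sum_div]

theorem pva_E_nonneg {A : Finset V} {ξ : V → Bool} {f : (V → Bool) → ℝ} (h : ∀ ω, PvaCfg A ξ ω → 0 ≤ f ω) : 0 ≤ pvaE A ξ f := by
  rw [← pva_E_const A ξ 0]
  exact pva_E_mono h

theorem pva_E_le_const {A : Finset V} {ξ : V → Bool} {f : (V → Bool) → ℝ} {c : ℝ} (h : ∀ ω, PvaCfg A ξ ω → f ω ≤ c) :
    pvaE A ξ f ≤ c := by
  rw [← pva_E_const A ξ c]
  exact pva_E_mono h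

theorem pva_E_ge_const {A : Finset V} {ξ : V → Bool} {f : (V → Bool) → ℝ} {c : ℝ} (h : ∀ ω, PvaCfg A ξ ω → c ≤ f ω) :
    c ≤ pvaE A ξ f := by
  rw [← pva_E_const A ξ c]
  exact pva_E_mono h

theorem pva_E_empty (ξ : V → Bool) (f : (V → Bool) → ℝ) : pvaE ∅ ξ f = f ξ := by
  unfold pvaE
  rw [powerset_empty, sum_singleton, card_empty, pow_zero, div_one]
  congr 1

/-! ### probabilities -/

theorem pva_P_nonneg (A : Finset V) (ξ : V → Bool) (K : (V → Bool) → Prop) : 0 ≤ pvaP A ξ K := by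
  classical
  unfold pvaP
  exact pva_E_nonneg fun ω _ => by split_ifs <;> norm_num

theorem pva_P_le_one (A : Finset V) (ξ : V → Bool) (K : (V → Bool) → Prop) : pvaP A ξ K ≤ 1 := by
  classical
  unfold pvaP
  exact pva_E_le_const fun ω _ => by split_ifs <;> norm_num

theorem pva_P_mono {A : Finset V} {ξ : V → Bool} {K L : (V → Bool) → Prop} (h : ∀ ω, PvaCfg A ξ ω → K ω → L ω) :
    pvaP A ξ K ≤ pvaP A ξ L := by
  classical
  unfold pvaP
  refine pva_E_mono fun ω hω => ?_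
  by_cases hk : K ω
  · rw [if_pos hk, if_pos (h ω hω hk)]
  · rw [if_neg hk]; split_ifs <;> norm_num

theorem pva_P_congr {A : Finset V} {ξ : V → Bool} {K L : (V → Bool) → Prop} (h : ∀ ω, PvaCfg A ξ ω → (K ω ↔ L ω)) :
    pvaP A ξ K = pvaP A ξ L :=
  le_antisymm (pva_P_mono fun ω hω => (h ω hω).1) (pva_P_mono fun ω hω => (h ω hω).2)

theorem pva_P_true {A : Finset V} {ξ : V → Bool} {K : (V → Bool) → Prop} (h : ∀ ω, PvaCfg A ξ ω → K ω) : pvaP A ξ K = 1 := by
  classical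
  unfold pvaP
  exact (pva_E_congr fun ω hω => if_pos (h ω hω)).trans (pva_E_const A ξ 1)

theorem pva_P_false {A : Finset V} {ξ : V → Bool} {K : (V → Bool) → Prop} (h : ∀ ω, PvaCfg A ξ ω → ¬ K ω) : pvaP A ξ K = 0 := by
  classical
  unfold pvaP
  exact (pva_E_congr fun ω hω => if_neg (h ω hω)).trans (pva_E_const A ξ 0)

theorem pva_P_not (A : Finset V) (ξ : V → Bool) (K : (V → Bool) → Prop) : pvaP A ξ (fun ω => ¬ K ω) = 1 - pvaP A ξ K := by
  classical
  unfold pvaP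
  have h1 := pva_E_sub A ξ (fun _ => 1) (fun ω => if K ω then 1 else 0)
  rw [pva_E_const] at h1
  rw [← h1]
  refine pva_E_congr fun ω _ => ?_
  by_cases hk : K ω <;> simp [hk]

theorem pva_P_or_le (A : Finset V) (ξ : V → Bool) (K L : (V → Bool) → Prop) :
    pvaP A ξ (fun ω => K ω ∨ L ω) ≤ pvaP A ξ K + pvaP A ξ L := by
  classical
  unfold pvaP
  rw [← pva_E_add]
  refine pva_E_mono fun ω _ => ?_
  by_cases hk : K ω <;> by_cases hl : L ω <;> simp [hk, hl]

theorem pva_P_exists_le {ι : Type*} (A : Finset V) (ξ : V → Bool) (I : Finset ι) (K : ι → (V → Bool) → Prop) :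
    pvaP A ξ (fun ω => ∃ i ∈ I, K i ω) ≤ ∑ i ∈ I, pvaP A ξ (K i) := by
  classical
  unfold pvaP
  rw [← pva_E_sum]
  refine pva_E_mono fun ω _ => ?_
  by_cases h : ∃ i ∈ I, K i ω
  · obtain ⟨i, hi, hk⟩ := h
    rw [if_pos ⟨i, hi, hk⟩]
    calc (1 : ℝ) = if K i ω then 1 else 0 := (if_pos hk).symm
      _ ≤ _ := single_le_sum (f := fun i => if K i ω then (1 : ℝ) else 0) (fun j _ => by split_ifs <;> norm_num) hi
  · rw [if_neg h]
    exact sum_nonneg fun j _ => by split_ifs <;> norm_num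

theorem pva_P_bg {A : Finset V} {ξ ξ' : V → Bool} (h : PvaCfg A ξ ξ') (K : (V → Bool) → Prop) : pvaP A ξ' K = pvaP A ξ K := by
  unfold pvaP
  exact pva_E_bg h _

open Classical in
theorem pva_P_and_eq (A : Finset V) (ξ : V → Bool) (K L : (V → Bool) → Prop) :
    pvaP A ξ (fun ω => K ω ∧ L ω) = pvaE A ξ (fun ω => (if K ω then 1 else 0) * (if L ω then 1 else 0)) := by
  unfold pvaP
  refine pva_E_congr fun ω _ => ?_
  by_cases hk : K ω <;> by_cases hl : L ω <;> simp [hk, hl]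

/-! ## 2. resampling a part of the fresh set -/

theorem pva_mk_mk {A A' B B2 : Finset V} (hA : A' ⊆ A) (hB2 : B2 ⊆ A') (ξ : V → Bool) :
    pvaMk A' B2 (pvaMk A B ξ) = pvaMk A ((B \ A') ∪ B2) ξ := by
  funext v
  by_cases hv' : v ∈ A'
  · rw [pva_mk_in hv', pva_mk_in (hA hv')]
    refine decide_eq_decide.2 ?_
    simp [hv']
  · rw [pva_mk_out hv']
    by_cases hv : v ∈ A
    · rw [pva_mk_in hv, pva_mk_in hv]
      refine decide_eq_decide.2 ?_
      have : v ∉ B2 := fun h => hv' (hB2 h)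
      simp [hv', this]
    · rw [pva_mk_out hv, pva_mk_out hv]

/-- the counting lemma -/
theorem pva_count {A A' : Finset V} (hA : A' ⊆ A) (h : Finset V → ℝ) :
    ∑ B ∈ A.powerset, ∑ B2 ∈ A'.powerset, h ((B \ A') ∪ B2) = 2 ^ A'.card * ∑ B ∈ A.powerset, h B := by
  rw [← sum_product']
  have key : ∑ p ∈ A.powerset ×ˢ A'.powerset, h ((p.1 \ A') ∪ p.2) = ∑ p ∈ A.powerset ×ˢ A'.powerset, h p.1 := by
    refine sum_nbij' (fun p => ((p.1 \ A') ∪ p.2, p.1 ∩ A')) (fun p => ((p.1 \ A') ∪ p.2, p.1 ∩ A')) ?_ ?_ ?_ ?_ ?_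
    · intro p hp
      rw [mem_product, mem_powerset, mem_powerset] at hp ⊢
      exact ⟨union_subset (sdiff_subset.trans hp.1) (hp.2.trans hA), inter_subset_right⟩
    · intro p hp
      rw [mem_product, mem_powerset, mem_powerset] at hp ⊢
      exact ⟨union_subset (sdiff_subset.trans hp.1) (hp.2.trans hA), inter_subset_right⟩
    · intro p hp
      rw [mem_product, mem_powerset, mem_powerset] at hp
      refine Prod.ext ?_ ?_
      · ext v
        have := @hp.2 v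
        simp only [mem_union, mem_sdiff, mem_inter]
        tauto
      · ext v
        have := @hp.2 v
        simp only [mem_union, mem_sdiff, mem_inter]
        tauto
    · intro p hp
      rw [mem_product, mem_powerset, mem_powerset] at hp
      refine Prod.ext ?_ ?_
      · ext v
        have := @hp.2 v
        simp only [mem_union, mem_sdiff, mem_inter]
        tauto
      · ext v
        have := @hp.2 v
        simp only [mem_union, mem_sdiff, mem_inter]
        tauto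
    · intro p _
      rfl
  rw [key, sum_product (s := A.powerset) (t := A'.powerset) (f := fun p => h p.1), mul_sum]
  refine sum_congr rfl fun B _ => ?_
  show ∑ _y ∈ A'.powerset, h B = _
  rw [sum_const, card_powerset, nsmul_eq_mul]
  push_cast
  rfl

/-- **MARKOV**: a factor which does not read `A'` goes out of the mean over the bits of `A'` -/
theorem pva_markov {A A' : Finset V} (hA : A' ⊆ A) (ξ : V → Bool) {g : (V → Bool) → ℝ} (hg : PvaDep A (A \ A') ξ g)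
    (f : (V → Bool) → ℝ) : pvaE A ξ (fun ω => g ω * f ω) = pvaE A ξ (fun ω => g ω * pvaE A' ω f) := by
  unfold pvaE
  congr 1
  have h1 : ∀ B ∈ A.powerset, g (pvaMk A B ξ) * ((∑ B2 ∈ A'.powerset, f (pvaMk A' B2 (pvaMk A B ξ))) / 2 ^ A'.card) =
      (∑ B2 ∈ A'.powerset, (fun C => g (pvaMk A C ξ) * f (pvaMk A C ξ)) ((B \ A') ∪ B2)) / 2 ^ A'.card := by
    intro B _
    rw [← mul_div_assoc, mul_sum]
    congr 1
    refine sum_congr rfl fun B2 hB2 => ?_
    rw [pva_mk_mk hA (mem_powerset.1 hB2)]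
    congr 1
    refine hg _ _ (pva_mk_cfg _ _ _) (pva_mk_cfg _ _ _) fun v hv => ?_
    rw [mem_sdiff] at hv
    rw [pva_mk_in hv.1, pva_mk_in hv.1]
    refine decide_eq_decide.2 ?_
    have : v ∉ B2 := fun h => hv.2 (mem_powerset.1 hB2 h)
    simp [hv.2, this]
  rw [sum_congr rfl h1, ← sum_div, pva_count hA (fun C => g (pvaMk A C ξ) * f (pvaMk A C ξ)), mul_div_cancel_left₀ _ (by positivity)]

/-- **TOWER** -/
theorem pva_tower {A A' : Finset V} (hA : A' ⊆ A) (ξ : V → Bool) (f : (V → Bool) → ℝ) :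
    pvaE A ξ f = pvaE A ξ (fun ω => pvaE A' ω f) := by
  have := pva_markov hA ξ (g := fun _ => 1) (fun _ _ _ _ _ => rfl) f
  simpa using this

/-- a function which reads `R ⊆ A` only: its mean is the mean over the bits of `R`, whatever the rest -/
theorem pva_E_dep {A R : Finset V} (hR : R ⊆ A) {ξ : V → Bool} {f : (V → Bool) → ℝ} (hf : PvaDep A R ξ f) {ω : V → Bool}
    (hω : PvaCfg A ξ ω) : pvaE R ω f = pvaE A ξ f := by
  rw [pva_tower hR ξ f]
  have h1 : ∀ ω', PvaCfg A ξ ω' → pvaE R ω' f = pvaE R ω f := by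
    intro ω' hω'
    unfold pvaE
    congr 1
    refine sum_congr rfl fun C _ => hf _ _ (pva_cfg_trans hR hω' (pva_mk_cfg _ _ _)) (pva_cfg_trans hR hω (pva_mk_cfg _ _ _)) fun v hv => ?_
    rw [pva_mk_in hv, pva_mk_in hv]
  rw [pva_E_congr h1, pva_E_const]

theorem pva_dep_mono {β : Type} {A R R' : Finset V} (h : R ⊆ R') {ξ : V → Bool} {G : (V → Bool) → β} (hG : PvaDep A R ξ G) :
    PvaDep A R' ξ G := fun ω₁ ω₂ h1 h2 h3 => hG ω₁ ω₂ h1 h2 fun v hv => h3 v (h hv)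

theorem pva_mix_in {T : Finset V} {ω ω' : V → Bool} {v : V} (hv : v ∈ T) : pvaMix T ω ω' v = ω v := by
  unfold pvaMix; rw [if_pos hv]

theorem pva_mix_out {T : Finset V} {ω ω' : V → Bool} {v : V} (hv : v ∉ T) : pvaMix T ω ω' v = ω' v := by
  unfold pvaMix; rw [if_neg hv]

theorem pva_mix_cfg {A : Finset V} (T : Finset V) {ξ ω ω' : V → Bool} (hω : PvaCfg A ξ ω) (hω' : PvaCfg A ξ ω') :
    PvaCfg A ξ (pvaMix T ω ω') := by
  intro v hv
  by_cases hT : v ∈ T
  · rw [pva_mix_in hT, hω v hv]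
  · rw [pva_mix_out hT, hω' v hv]

theorem pva_mix_self (T : Finset V) (ω : V → Bool) : pvaMix T ω ω = ω := by
  funext v
  by_cases hT : v ∈ T
  · rw [pva_mix_in hT]
  · rw [pva_mix_out hT]

/-- **MIX IDENTITY**: resampling `A \ T` = pasting a full independent copy off `T` -/
theorem pva_E_mix {A : Finset V} (T : Finset V) {ξ ω : V → Bool} (hω : PvaCfg A ξ ω) (G : (V → Bool) → ℝ) :
    pvaE (A \ T) ω G = pvaE A ξ (fun ω₂ => G (pvaMix T ω ω₂)) := by
  have hdep : PvaDep A (A \ T) ξ (fun ω₂ => G (pvaMix T ω ω₂)) := by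
    intro ω₁ ω₂ h1 h2 h
    show G _ = G _
    congr 1
    funext v
    by_cases hv : v ∈ T
    · rw [pva_mix_in hv, pva_mix_in hv]
    · rw [pva_mix_out hv, pva_mix_out hv]
      by_cases hA : v ∈ A
      · exact h v (mem_sdiff.2 ⟨hA, hv⟩)
      · rw [h1 v hA, h2 v hA]
  rw [← pva_E_dep sdiff_subset hdep hω]
  refine pva_E_congr fun ω₂ h2 => ?_
  congr 1
  funext v
  by_cases hv : v ∈ T
  · rw [pva_mix_in hv]
    exact h2 v (fun h => (mem_sdiff.1 h).2 hv)
  · rw [pva_mix_out hv]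

theorem pva_P_mix {A : Finset V} (T : Finset V) {ξ ω : V → Bool} (hω : PvaCfg A ξ ω) (G : (V → Bool) → Prop) :
    pvaP (A \ T) ω G = pvaP A ξ (fun ω₂ => G (pvaMix T ω ω₂)) := by
  unfold pvaP
  exact pva_E_mix T hω _

/-- **"a circuit of the copy gives a fresh arc"**: an event `C` of the full copy which forces `G` for the pasted colouring -/
theorem pva_P_fresh {A : Finset V} (T : Finset V) {ξ ω : V → Bool} (hω : PvaCfg A ξ ω) {C G : (V → Bool) → Prop}
    (h : ∀ ω₂, PvaCfg A ξ ω₂ → C ω₂ → G (pvaMix T ω ω₂)) : pvaP A ξ C ≤ pvaP (A \ T) ω G := by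
  rw [pva_P_mix T hω]
  exact pva_P_mono h

/-- the reverse inequality -/
theorem pva_P_fresh_le {A : Finset V} (T : Finset V) {ξ ω : V → Bool} (hω : PvaCfg A ξ ω) {C G : (V → Bool) → Prop}
    (h : ∀ ω₂, PvaCfg A ξ ω₂ → G (pvaMix T ω ω₂) → C ω₂) : pvaP (A \ T) ω G ≤ pvaP A ξ C := by
  rw [pva_P_mix T hω]
  exact pva_P_mono h

/-! ## 3. the fresh copy, the strong Markov property -/

open Classical in
/-- the finite set of configurations -/
noncomputable def pvaCfgs (A : Finset V) (ξ : V → Bool) : Finset (V → Bool) := A.powerset.image (fun B => pvaMk A B ξ)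

theorem pva_mem_cfgs {A : Finset V} {ξ ω : V → Bool} : ω ∈ pvaCfgs A ξ ↔ PvaCfg A ξ ω := by
  classical
  unfold pvaCfgs
  rw [mem_image]
  constructor
  · rintro ⟨B, _, rfl⟩
    exact pva_mk_cfg A B ξ
  · intro h
    exact ⟨pvaBl A ω, pva_bl_mem A ω, pva_mk_bl h⟩

theorem pva_E_eq (A : Finset V) (ξ : V → Bool) (f : (V → Bool) → ℝ) : pvaE A ξ f = (∑ ω ∈ pvaCfgs A ξ, f ω) / 2 ^ A.card := by
  classical
  unfold pvaE pvaCfgs
  rw [sum_image]
  intro B hB B' hB' h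
  have h1 := pva_bl_mk (mem_powerset.1 hB) ξ
  have h2 := pva_bl_mk (mem_powerset.1 hB') ξ
  simp only at h
  rw [← h1, ← h2, h]

/-- **FRESH COPY**: `(ω, ω') ↦ (ω on S ω and ω' off, ω' on S ω and ω off)` preserves the law of a pair of independent colourings -/
theorem pva_fresh {S : (V → Bool) → Finset V} (hS : PvaStop S) (A : Finset V) (ξ : V → Bool) (H : (V → Bool) → (V → Bool) → ℝ) :
    pvaE A ξ (fun ω => pvaE A ξ (fun ω' => H (pvaMix (S ω) ω ω') (pvaMix (S ω) ω' ω))) =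
      pvaE A ξ (fun ω => pvaE A ξ (fun ω' => H ω ω')) := by
  simp only [pva_E_eq, ← sum_div]
  congr 2
  rw [← sum_product', ← sum_product']
  have hSm : ∀ ω ω', S (pvaMix (S ω) ω ω') = S ω := fun ω ω' => hS ω _ fun v hv => pva_mix_in hv
  have hinv : ∀ p : (V → Bool) × (V → Bool),
      (pvaMix (S (pvaMix (S p.1) p.1 p.2)) (pvaMix (S p.1) p.1 p.2) (pvaMix (S p.1) p.2 p.1),
        pvaMix (S (pvaMix (S p.1) p.1 p.2)) (pvaMix (S p.1) p.2 p.1) (pvaMix (S p.1) p.1 p.2)) = p := by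
    intro p
    rw [hSm]
    refine Prod.ext ?_ ?_
    · funext v
      by_cases hv : v ∈ S p.1
      · simp only [pva_mix_in hv]
      · simp only [pva_mix_out hv]
    · funext v
      by_cases hv : v ∈ S p.1
      · simp only [pva_mix_in hv]
      · simp only [pva_mix_out hv]
  have hmem : ∀ p ∈ pvaCfgs A ξ ×ˢ pvaCfgs A ξ, (pvaMix (S p.1) p.1 p.2, pvaMix (S p.1) p.2 p.1) ∈ pvaCfgs A ξ ×ˢ pvaCfgs A ξ := by
    intro p hp
    rw [mem_product, pva_mem_cfgs, pva_mem_cfgs] at hp ⊢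
    exact ⟨pva_mix_cfg _ hp.1 hp.2, pva_mix_cfg _ hp.2 hp.1⟩
  exact sum_nbij' (fun p => (pvaMix (S p.1) p.1 p.2, pvaMix (S p.1) p.2 p.1)) (fun p => (pvaMix (S p.1) p.1 p.2, pvaMix (S p.1) p.2 p.1))
    hmem hmem (fun p _ => hinv p) (fun p _ => hinv p) (fun p _ => rfl)

/-- **STRONG MARKOV**: given the exploration, the unexplored vertices carry fresh fair bits -/
theorem pva_smarkov {S : (V → Bool) → Finset V} (hS : PvaStop S) {F : (V → Bool) → ℝ} (hF : PvaMeas S F) (A : Finset V) (ξ : V → Bool)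
    (G : (V → Bool) → ℝ) : pvaE A ξ (fun ω => F ω * G ω) = pvaE A ξ (fun ω => F ω * pvaE (A \ S ω) ω G) := by
  have h1 := pva_fresh hS A ξ (fun ω _ => F ω * G ω)
  simp only [pva_E_const] at h1
  rw [← h1]
  refine pva_E_congr fun ω hω => ?_
  rw [pva_E_mix (S ω) hω, ← pva_E_mul_left]
  refine pva_E_congr fun ω' _ => ?_
  rw [hF ω (pvaMix (S ω) ω ω') (fun v hv => pva_mix_in hv)]

theorem pva_smarkov_one {S : (V → Bool) → Finset V} (hS : PvaStop S) (A : Finset V) (ξ : V → Bool) (G : (V → Bool) → ℝ) :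
    pvaE A ξ G = pvaE A ξ (fun ω => pvaE (A \ S ω) ω G) := by
  have := pva_smarkov hS (F := fun _ => 1) (fun _ _ _ => rfl) A ξ G
  simpa using this

open Classical in
theorem pva_meas_ind {S : (V → Bool) → Finset V} {K : (V → Bool) → Prop} (hK : PvaMeas S K) :
    PvaMeas S (fun ω => if K ω then (1 : ℝ) else 0) := by
  intro ω ω' h
  have := hK ω ω' h
  simp only [this]

open Classical in
/-- strong Markov, events -/
theorem pva_smarkov_P {S : (V → Bool) → Finset V} (hS : PvaStop S) {K : (V → Bool) → Prop} (hK : PvaMeas S K) (A : Finset V) (ξ : V → Bool)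
    (L : (V → Bool) → Prop) : pvaP A ξ (fun ω => K ω ∧ L ω) = pvaE A ξ (fun ω => (if K ω then 1 else 0) * pvaP (A \ S ω) ω L) := by
  rw [pva_P_and_eq]
  exact pva_smarkov hS (pva_meas_ind hK) A ξ _

/-- conditional upper bound -/
theorem pva_smarkov_le {S : (V → Bool) → Finset V} (hS : PvaStop S) {K : (V → Bool) → Prop} (hK : PvaMeas S K) (A : Finset V) (ξ : V → Bool)
    {L : (V → Bool) → Prop} {p : ℝ} (h : ∀ ω, PvaCfg A ξ ω → K ω → pvaP (A \ S ω) ω L ≤ p) :
    pvaP A ξ (fun ω => K ω ∧ L ω) ≤ p * pvaP A ξ K := by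
  classical
  rw [pva_smarkov_P hS hK, pvaP, ← pva_E_mul_left]
  refine pva_E_mono fun ω hω => ?_
  by_cases hk : K ω
  · rw [if_pos hk, one_mul, mul_one]
    exact h ω hω hk
  · rw [if_neg hk, zero_mul, mul_zero]

/-- conditional lower bound -/
theorem pva_smarkov_ge {S : (V → Bool) → Finset V} (hS : PvaStop S) {K : (V → Bool) → Prop} (hK : PvaMeas S K) (A : Finset V) (ξ : V → Bool)
    {L : (V → Bool) → Prop} {q : ℝ} (h : ∀ ω, PvaCfg A ξ ω → K ω → q ≤ pvaP (A \ S ω) ω L) :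
    q * pvaP A ξ K ≤ pvaP A ξ (fun ω => K ω ∧ L ω) := by
  classical
  rw [pva_smarkov_P hS hK, pvaP, ← pva_E_mul_left]
  refine pva_E_mono fun ω hω => ?_
  by_cases hk : K ω
  · rw [if_pos hk, one_mul, mul_one]
    exact h ω hω hk
  · rw [if_neg hk, zero_mul, mul_zero]

open Classical in
/-- card form of a probability -/
theorem pva_P_card (A : Finset V) (ξ : V → Bool) (K : (V → Bool) → Prop) :
    pvaP A ξ K = ((A.powerset.filter (fun B => K (pvaMk A B ξ))).card : ℝ) / 2 ^ A.card := by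
  unfold pvaP pvaE
  congr 1
  rw [card_filter]
  push_cast
  rfl

/-! ## 4. algebra of stopping sets and of explored-measurable functions -/

section algebra

variable {β γ : Type} {S S' : (V → Bool) → Finset V}

theorem pva_meas_const (S : (V → Bool) → Finset V) (b : β) : PvaMeas S (fun _ => b) := fun _ _ _ => rfl

theorem pva_meas_comp {F : (V → Bool) → β} (hF : PvaMeas S F) (φ : β → γ) : PvaMeas S (fun ω => φ (F ω)) :=
  fun ω ω' h => congrArg φ (hF ω ω' h)

theorem pva_meas_pair {F : (V → Bool) → β} {G : (V → Bool) → γ} (hF : PvaMeas S F) (hG : PvaMeas S G) :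
    PvaMeas S (fun ω => (F ω, G ω)) := fun ω ω' h => Prod.ext (hF ω ω' h) (hG ω ω' h)

theorem pva_meas_map2 {δ : Type} {F : (V → Bool) → β} {G : (V → Bool) → γ} (hF : PvaMeas S F) (hG : PvaMeas S G) (φ : β → γ → δ) :
    PvaMeas S (fun ω => φ (F ω) (G ω)) := fun ω ω' h => by
  show φ (F ω') (G ω') = φ (F ω) (G ω)
  rw [hF ω ω' h, hG ω ω' h]

theorem pva_meas_and {K L : (V → Bool) → Prop} (hK : PvaMeas S K) (hL : PvaMeas S L) : PvaMeas S (fun ω => K ω ∧ L ω) :=
  pva_meas_map2 hK hL And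

theorem pva_meas_or {K L : (V → Bool) → Prop} (hK : PvaMeas S K) (hL : PvaMeas S L) : PvaMeas S (fun ω => K ω ∨ L ω) :=
  pva_meas_map2 hK hL Or

theorem pva_meas_not {K : (V → Bool) → Prop} (hK : PvaMeas S K) : PvaMeas S (fun ω => ¬ K ω) := pva_meas_comp hK Not

theorem pva_meas_mul {F G : (V → Bool) → ℝ} (hF : PvaMeas S F) (hG : PvaMeas S G) : PvaMeas S (fun ω => F ω * G ω) :=
  pva_meas_map2 hF hG (· * ·)

/-- a larger exploration knows more -/
theorem pva_meas_mono (h : ∀ ω, S ω ⊆ S' ω) {F : (V → Bool) → β} (hF : PvaMeas S F) : PvaMeas S' F :=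
  fun ω ω' h' => hF ω ω' fun v hv => h' v (h ω hv)

/-- a function which reads a fixed set `T` is measurable for every exploration which always contains `T` -/
theorem pva_meas_of_loc {T : Finset V} (hT : ∀ ω, T ⊆ S ω) {F : (V → Bool) → β} (hF : ∀ ω ω' : V → Bool, (∀ v ∈ T, ω' v = ω v) → F ω' = F ω) :
    PvaMeas S F := fun ω ω' h => hF ω ω' fun v hv => h v (hT ω hv)

/-- the explored colouring (completed by a fixed `η`) is measurable -/
theorem pva_meas_seen (hS : PvaStop S) (η : V → Bool) : PvaMeas S (fun ω => pvaMix (S ω) ω η) := by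
  intro ω ω' h
  show pvaMix (S ω') ω' η = pvaMix (S ω) ω η
  rw [hS ω ω' h]
  funext v
  by_cases hv : v ∈ S ω
  · rw [pva_mix_in hv, pva_mix_in hv, h v hv]
  · rw [pva_mix_out hv, pva_mix_out hv]

/-- conversely: a function of the explored set and of the explored colouring -/
theorem pva_meas_of_seen (hS : PvaStop S) (η : V → Bool) (φ : Finset V → (V → Bool) → β) :
    PvaMeas S (fun ω => φ (S ω) (pvaMix (S ω) ω η)) := pva_meas_map2 hS (pva_meas_seen hS η) φ

theorem pva_stop_const (T : Finset V) : PvaStop (fun _ : V → Bool => T) := pva_meas_const _ T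

theorem pva_stop_union (hS : PvaStop S) (hS' : PvaStop S') : PvaStop (fun ω => S ω ∪ S' ω) := by
  intro ω ω' h
  show S ω' ∪ S' ω' = S ω ∪ S' ω
  rw [hS ω ω' fun v hv => h v (mem_union_left _ hv), hS' ω ω' fun v hv => h v (mem_union_right _ hv)]

/-- ADAPTIVE COMPOSITION: explore `S`, then run an exploration chosen according to an `S`-measurable datum -/
theorem pva_stop_bind (hS : PvaStop S) {a : (V → Bool) → β} (ha : PvaMeas S a) {T : β → (V → Bool) → Finset V} (hT : ∀ b, PvaStop (T b)) :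
    PvaStop (fun ω => S ω ∪ T (a ω) ω) := by
  intro ω ω' h
  show S ω' ∪ T (a ω') ω' = S ω ∪ T (a ω) ω
  rw [hS ω ω' fun v hv => h v (mem_union_left _ hv), ha ω ω' fun v hv => h v (mem_union_left _ hv),
    hT (a ω) ω ω' fun v hv => h v (mem_union_right _ hv)]

/-- measurability after an adaptive composition -/
theorem pva_meas_bind {a : (V → Bool) → β} (ha : PvaMeas S a) {T : β → (V → Bool) → Finset V} {F : β → (V → Bool) → γ}
    (hF : ∀ b, PvaMeas (T b) (F b)) : PvaMeas (fun ω => S ω ∪ T (a ω) ω) (fun ω => F (a ω) ω) := by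
  intro ω ω' h
  show F (a ω') ω' = F (a ω) ω
  rw [ha ω ω' fun v hv => h v (mem_union_left _ hv), hF (a ω) ω ω' fun v hv => h v (mem_union_right _ hv)]

theorem pva_stop_biUnion {ι : Type} [DecidableEq ι] (I : Finset ι) {T : ι → (V → Bool) → Finset V} (hT : ∀ i ∈ I, PvaStop (T i)) :
    PvaStop (fun ω => I.biUnion fun i => T i ω) := by
  intro ω ω' h
  show (I.biUnion fun i => T i ω') = I.biUnion fun i => T i ω
  refine biUnion_congr rfl fun i hi => hT i hi ω ω' fun v hv => h v (mem_biUnion.2 ⟨i, hi, hv⟩)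

/-- ITERATION: `E X ω` = what is explored next when `X` has been explored; it reads `X` only -/
def pvaIter (E : Finset V → (V → Bool) → Finset V) (X₀ : Finset V) : ℕ → (V → Bool) → Finset V
  | 0, _ => X₀
  | n + 1, ω => pvaIter E X₀ n ω ∪ E (pvaIter E X₀ n ω) ω

theorem pva_iter_mono (E : Finset V → (V → Bool) → Finset V) (X₀ : Finset V) {m n : ℕ} (h : m ≤ n) (ω : V → Bool) :
    pvaIter E X₀ m ω ⊆ pvaIter E X₀ n ω := by
  induction h with
  | refl => exact Subset.refl _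
  | step _ ih => exact ih.trans subset_union_left

/-- an exploration which decides its next vertices from the colours already seen is a stopping set at every time -/
theorem pva_stop_iter {E : Finset V → (V → Bool) → Finset V} (hE : ∀ X (ω ω' : V → Bool), (∀ v ∈ X, ω' v = ω v) → E X ω' = E X ω) (X₀ : Finset V)
    (n : ℕ) : PvaStop (pvaIter E X₀ n) := by
  induction n with
  | zero => exact pva_stop_const X₀
  | succ n ih =>
    intro ω ω' h
    have h1 : pvaIter E X₀ n ω' = pvaIter E X₀ n ω := ih ω ω' fun v hv => h v (mem_union_left _ hv)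
    show pvaIter E X₀ n ω' ∪ E (pvaIter E X₀ n ω') ω' = pvaIter E X₀ n ω ∪ E (pvaIter E X₀ n ω) ω
    rw [h1, hE _ ω ω' fun v hv => h v (mem_union_left _ hv)]

end algebra

/-! ## 5. independence on disjoint fresh regions -/

theorem pva_dep_mul {A R₁ R₂ : Finset V} {ξ : V → Bool} {G₁ G₂ : (V → Bool) → ℝ} (h₁ : PvaDep A R₁ ξ G₁) (h₂ : PvaDep A R₂ ξ G₂) :
    PvaDep A (R₁ ∪ R₂) ξ (fun ω => G₁ ω * G₂ ω) := by
  intro ω₁ ω₂ a1 a2 h
  show G₁ ω₁ * G₂ ω₁ = G₁ ω₂ * G₂ ω₂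
  rw [h₁ ω₁ ω₂ a1 a2 fun v hv => h v (mem_union_left _ hv), h₂ ω₁ ω₂ a1 a2 fun v hv => h v (mem_union_right _ hv)]

open Classical in
theorem pva_dep_ind {A R : Finset V} {ξ : V → Bool} {K : (V → Bool) → Prop} (h : PvaDep A R ξ K) :
    PvaDep A R ξ (fun ω => if K ω then (1 : ℝ) else 0) := by
  intro ω₁ ω₂ a1 a2 h'
  have := h ω₁ ω₂ a1 a2 h'
  simp only [this]

/-- two functions which read disjoint parts of the fresh set are independent -/
theorem pva_E_mul {A R₁ R₂ : Finset V} (hR₂ : R₂ ⊆ A) (hd : Disjoint R₁ R₂) {ξ : V → Bool} {G₁ G₂ : (V → Bool) → ℝ}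
    (h₁ : PvaDep A R₁ ξ G₁) (h₂ : PvaDep A R₂ ξ G₂) : pvaE A ξ (fun ω => G₁ ω * G₂ ω) = pvaE A ξ G₁ * pvaE A ξ G₂ := by
  have hg : PvaDep A (A \ R₂) ξ G₁ := by
    intro ω₁ ω₂ a1 a2 h
    refine h₁ ω₁ ω₂ a1 a2 fun v hv => ?_
    by_cases hA : v ∈ A
    · exact h v (mem_sdiff.2 ⟨hA, fun h2 => disjoint_left.1 hd hv h2⟩)
    · rw [a1 v hA, a2 v hA]
  rw [pva_markov hR₂ ξ hg G₂, pva_E_congr (g := fun ω => G₁ ω * pvaE A ξ G₂) fun ω hω => by rw [pva_E_dep hR₂ h₂ hω], pva_E_mul_right]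

/-- **INDEPENDENCE** of a finite family which reads pairwise disjoint parts of the fresh set -/
theorem pva_E_prod {ι : Type} [DecidableEq ι] {A : Finset V} {ξ : V → Bool} (I : Finset ι) (R : ι → Finset V) (G : ι → (V → Bool) → ℝ)
    (hR : ∀ i ∈ I, R i ⊆ A) (hd : ∀ i ∈ I, ∀ j ∈ I, i ≠ j → Disjoint (R i) (R j)) (hG : ∀ i ∈ I, PvaDep A (R i) ξ (G i)) :
    pvaE A ξ (fun ω => ∏ i ∈ I, G i ω) = ∏ i ∈ I, pvaE A ξ (G i) := by
  have key : ∀ J : Finset ι, J ⊆ I → PvaDep A (J.biUnion R) ξ (fun ω => ∏ i ∈ J, G i ω) ∧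
      pvaE A ξ (fun ω => ∏ i ∈ J, G i ω) = ∏ i ∈ J, pvaE A ξ (G i) := by
    intro J
    induction J using Finset.induction_on with
    | empty =>
      intro _
      refine ⟨fun _ _ _ _ _ => rfl, ?_⟩
      simp only [prod_empty]
      exact pva_E_const A ξ 1
    | insert a J ha ih =>
      intro hJ
      obtain ⟨d1, e1⟩ := ih fun i hi => hJ (mem_insert_of_mem hi)
      have haI : a ∈ I := hJ (mem_insert_self a J)
      have hdis : Disjoint (J.biUnion R) (R a) := by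
        rw [disjoint_biUnion_left]
        intro i hi
        exact hd i (hJ (mem_insert_of_mem hi)) a haI (fun h => ha (h ▸ hi))
      constructor
      · simp only [prod_insert ha, biUnion_insert]
        exact pva_dep_mul (hG a haI) d1
      · simp only [prod_insert ha]
        rw [← e1, mul_comm (pvaE A ξ (G a)), ← pva_E_mul (hR a haI) hdis d1 (hG a haI)]
        exact pva_E_congr fun ω _ => mul_comm _ _
  exact (key I (Subset.refl _)).2

open Classical in
/-- independence, events -/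
theorem pva_P_forall {ι : Type} [DecidableEq ι] {A : Finset V} {ξ : V → Bool} (I : Finset ι) (R : ι → Finset V) (K : ι → (V → Bool) → Prop)
    (hR : ∀ i ∈ I, R i ⊆ A) (hd : ∀ i ∈ I, ∀ j ∈ I, i ≠ j → Disjoint (R i) (R j)) (hK : ∀ i ∈ I, PvaDep A (R i) ξ (K i)) :
    pvaP A ξ (fun ω => ∀ i ∈ I, K i ω) = ∏ i ∈ I, pvaP A ξ (K i) := by
  unfold pvaP
  rw [← pva_E_prod I R _ hR hd fun i hi => pva_dep_ind (hK i hi)]
  refine pva_E_congr fun ω _ => ?_
  by_cases h : ∀ i ∈ I, K i ω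
  · rw [if_pos h]
    exact (prod_eq_one fun i hi => if_pos (h i hi)).symm
  · rw [if_neg h]
    push Not at h
    obtain ⟨i, hi, hk⟩ := h
    exact (prod_eq_zero hi (if_neg hk)).symm

/-- **CONDITIONAL INDEPENDENCE** on disjoint fresh regions chosen by the exploration -/
theorem pva_smarkov_prod {ι : Type} [DecidableEq ι] {S : (V → Bool) → Finset V} (hS : PvaStop S) {F : (V → Bool) → ℝ} (hF : PvaMeas S F)
    (A : Finset V) (ξ : V → Bool) (I : Finset ι) (R : ι → (V → Bool) → Finset V) (G : ι → (V → Bool) → ℝ)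
    (hR : ∀ ω, PvaCfg A ξ ω → ∀ i ∈ I, R i ω ⊆ A \ S ω)
    (hd : ∀ ω, PvaCfg A ξ ω → ∀ i ∈ I, ∀ j ∈ I, i ≠ j → Disjoint (R i ω) (R j ω))
    (hG : ∀ ω, PvaCfg A ξ ω → ∀ i ∈ I, PvaDep (A \ S ω) (R i ω) ω (G i)) :
    pvaE A ξ (fun ω => F ω * ∏ i ∈ I, G i ω) = pvaE A ξ (fun ω => F ω * ∏ i ∈ I, pvaE (A \ S ω) ω (G i)) := by
  rw [pva_smarkov hS hF]
  refine pva_E_congr fun ω hω => ?_
  rw [pva_E_prod I (fun i => R i ω) G (hR ω hω) (hd ω hω) (hG ω hω)]

/-- conditional lower bound for several fresh events in disjoint regions: `P(K, all L_i) ≥ q^|I| P(K)` -/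
theorem pva_smarkov_ge_prod {ι : Type} [DecidableEq ι] {S : (V → Bool) → Finset V} (hS : PvaStop S) {K : (V → Bool) → Prop} (hK : PvaMeas S K)
    (A : Finset V) (ξ : V → Bool) (I : Finset ι) (R : ι → (V → Bool) → Finset V) (L : ι → (V → Bool) → Prop) {q : ℝ} (hq : 0 ≤ q)
    (hR : ∀ ω, PvaCfg A ξ ω → K ω → ∀ i ∈ I, R i ω ⊆ A \ S ω)
    (hd : ∀ ω, PvaCfg A ξ ω → K ω → ∀ i ∈ I, ∀ j ∈ I, i ≠ j → Disjoint (R i ω) (R j ω))
    (hL : ∀ ω, PvaCfg A ξ ω → K ω → ∀ i ∈ I, PvaDep (A \ S ω) (R i ω) ω (L i))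
    (hp : ∀ ω, PvaCfg A ξ ω → K ω → ∀ i ∈ I, q ≤ pvaP (A \ S ω) ω (L i)) :
    q ^ I.card * pvaP A ξ K ≤ pvaP A ξ (fun ω => K ω ∧ ∀ i ∈ I, L i ω) := by
  refine pva_smarkov_ge hS hK A ξ fun ω hω hk => ?_
  rw [pva_P_forall I (fun i => R i ω) L (hR ω hω hk) (hd ω hω hk) (hL ω hω hk), ← prod_const]
  exact prod_le_prod (fun _ _ => hq) (hp ω hω hk)

/-- conditional upper bound for several fresh events in disjoint regions -/
theorem pva_smarkov_le_prod {ι : Type} [DecidableEq ι] {S : (V → Bool) → Finset V} (hS : PvaStop S) {K : (V → Bool) → Prop} (hK : PvaMeas S K)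
    (A : Finset V) (ξ : V → Bool) (I : Finset ι) (R : ι → (V → Bool) → Finset V) (L : ι → (V → Bool) → Prop) {p : ℝ}
    (hR : ∀ ω, PvaCfg A ξ ω → K ω → ∀ i ∈ I, R i ω ⊆ A \ S ω)
    (hd : ∀ ω, PvaCfg A ξ ω → K ω → ∀ i ∈ I, ∀ j ∈ I, i ≠ j → Disjoint (R i ω) (R j ω))
    (hL : ∀ ω, PvaCfg A ξ ω → K ω → ∀ i ∈ I, PvaDep (A \ S ω) (R i ω) ω (L i))
    (hp : ∀ ω, PvaCfg A ξ ω → K ω → ∀ i ∈ I, pvaP (A \ S ω) ω (L i) ≤ p) :
    pvaP A ξ (fun ω => K ω ∧ ∀ i ∈ I, L i ω) ≤ p ^ I.card * pvaP A ξ K := by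
  refine pva_smarkov_le hS hK A ξ fun ω hω hk => ?_
  rw [pva_P_forall I (fun i => R i ω) L (hR ω hω hk) (hd ω hω hk) (hL ω hω hk), ← prod_const]
  exact prod_le_prod (fun _ _ => pva_P_nonneg _ _ _) (hp ω hω hk)

/-! ## 6. measure preserving maps: involutions, flips, colour switching, relabelling -/

/-- an involution of the configurations preserves the mean -/
theorem pva_E_invol {A : Finset V} {ξ : V → Bool} (φ : (V → Bool) → (V → Bool)) (h1 : ∀ ω, PvaCfg A ξ ω → PvaCfg A ξ (φ ω))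
    (h2 : ∀ ω, PvaCfg A ξ ω → φ (φ ω) = ω) (f : (V → Bool) → ℝ) : pvaE A ξ (fun ω => f (φ ω)) = pvaE A ξ f := by
  rw [pva_E_eq, pva_E_eq]
  congr 1
  exact sum_nbij' φ φ (fun ω hω => pva_mem_cfgs.2 (h1 ω (pva_mem_cfgs.1 hω))) (fun ω hω => pva_mem_cfgs.2 (h1 ω (pva_mem_cfgs.1 hω)))
    (fun ω hω => h2 ω (pva_mem_cfgs.1 hω)) (fun ω hω => h2 ω (pva_mem_cfgs.1 hω)) (fun _ _ => rfl)

theorem pva_P_invol {A : Finset V} {ξ : V → Bool} (φ : (V → Bool) → (V → Bool)) (h1 : ∀ ω, PvaCfg A ξ ω → PvaCfg A ξ (φ ω))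
    (h2 : ∀ ω, PvaCfg A ξ ω → φ (φ ω) = ω) (K : (V → Bool) → Prop) : pvaP A ξ (fun ω => K (φ ω)) = pvaP A ξ K := by
  classical
  exact pva_E_invol φ h1 h2 (fun ω => if K ω then 1 else 0)

theorem pva_fl_in {R : Finset V} {ω : V → Bool} {v : V} (hv : v ∈ R) : pvaFl R ω v = !ω v := by
  unfold pvaFl; rw [if_pos hv]

theorem pva_fl_out {R : Finset V} {ω : V → Bool} {v : V} (hv : v ∉ R) : pvaFl R ω v = ω v := by
  unfold pvaFl; rw [if_neg hv]

theorem pva_fl_fl (R : Finset V) (ω : V → Bool) : pvaFl R (pvaFl R ω) = ω := by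
  funext v
  by_cases hv : v ∈ R
  · rw [pva_fl_in hv, pva_fl_in hv, Bool.not_not]
  · rw [pva_fl_out hv, pva_fl_out hv]

theorem pva_fl_cfg {A R : Finset V} (hR : R ⊆ A) {ξ ω : V → Bool} (hω : PvaCfg A ξ ω) : PvaCfg A ξ (pvaFl R ω) :=
  fun v hv => (pva_fl_out fun h => hv (hR h)).trans (hω v hv)

/-- **COLOUR SWITCHING**: flipping the colours of a region `R ω` which is chosen by an exploration `S` and which is disjoint from what the exploration has read -/
theorem pva_E_fl_meas {S R : (V → Bool) → Finset V} (hR : PvaMeas S R) (A : Finset V) (ξ : V → Bool) (hA : ∀ ω, PvaCfg A ξ ω → R ω ⊆ A)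
    (hd : ∀ ω, PvaCfg A ξ ω → Disjoint (R ω) (S ω)) (f : (V → Bool) → ℝ) : pvaE A ξ (fun ω => f (pvaFl (R ω) ω)) = pvaE A ξ f := by
  refine pva_E_invol (fun ω => pvaFl (R ω) ω) (fun ω hω => pva_fl_cfg (hA ω hω) hω) (fun ω hω => ?_) f
  have h1 : R (pvaFl (R ω) ω) = R ω := hR ω _ fun v hv => pva_fl_out fun h => disjoint_left.1 (hd ω hω) h hv
  show pvaFl (R (pvaFl (R ω) ω)) (pvaFl (R ω) ω) = ω
  rw [h1, pva_fl_fl]

theorem pva_P_fl_meas {S R : (V → Bool) → Finset V} (hR : PvaMeas S R) (A : Finset V) (ξ : V → Bool) (hA : ∀ ω, PvaCfg A ξ ω → R ω ⊆ A)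
    (hd : ∀ ω, PvaCfg A ξ ω → Disjoint (R ω) (S ω)) (K : (V → Bool) → Prop) : pvaP A ξ (fun ω => K (pvaFl (R ω) ω)) = pvaP A ξ K := by
  classical
  exact pva_E_fl_meas hR A ξ hA hd (fun ω => if K ω then 1 else 0)

/-- flipping a fixed fresh region -/
theorem pva_E_fl {A R : Finset V} (hR : R ⊆ A) (ξ : V → Bool) (f : (V → Bool) → ℝ) : pvaE A ξ (fun ω => f (pvaFl R ω)) = pvaE A ξ f :=
  pva_E_invol (pvaFl R) (fun _ hω => pva_fl_cfg hR hω) (fun ω _ => pva_fl_fl R ω) f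

theorem pva_P_fl {A R : Finset V} (hR : R ⊆ A) (ξ : V → Bool) (K : (V → Bool) → Prop) : pvaP A ξ (fun ω => K (pvaFl R ω)) = pvaP A ξ K := by
  classical
  exact pva_E_fl hR ξ (fun ω => if K ω then 1 else 0)

/-- a bijection between the configurations of two problems with the same number of fresh vertices -/
theorem pva_E_bij {W : Type} [DecidableEq W] {A : Finset V} {ξ : V → Bool} {A' : Finset W} {ξ' : W → Bool} (hc : A.card = A'.card)
    (φ : (V → Bool) → (W → Bool)) (ψ : (W → Bool) → (V → Bool)) (h1 : ∀ ω, PvaCfg A ξ ω → PvaCfg A' ξ' (φ ω))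
    (h2 : ∀ ω, PvaCfg A' ξ' ω → PvaCfg A ξ (ψ ω)) (h3 : ∀ ω, PvaCfg A ξ ω → ψ (φ ω) = ω) (h4 : ∀ ω, PvaCfg A' ξ' ω → φ (ψ ω) = ω)
    (f : (W → Bool) → ℝ) : pvaE A ξ (fun ω => f (φ ω)) = pvaE A' ξ' f := by
  rw [pva_E_eq, pva_E_eq, hc]
  congr 1
  exact sum_nbij' φ ψ (fun ω hω => pva_mem_cfgs.2 (h1 ω (pva_mem_cfgs.1 hω))) (fun ω hω => pva_mem_cfgs.2 (h2 ω (pva_mem_cfgs.1 hω)))
    (fun ω hω => h3 ω (pva_mem_cfgs.1 hω)) (fun ω hω => h4 ω (pva_mem_cfgs.1 hω)) (fun _ _ => rfl)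

/-- **GLOBAL COLOUR FLIP** (the background is flipped too) -/
theorem pva_E_not (A : Finset V) (ξ : V → Bool) (f : (V → Bool) → ℝ) :
    pvaE A ξ (fun ω => f (fun v => !ω v)) = pvaE A (fun v => !ξ v) f :=
  pva_E_bij rfl (fun ω v => !ω v) (fun ω v => !ω v) (fun ω hω v hv => congrArg _ (hω v hv))
    (fun ω hω v hv => by show (!ω v) = ξ v; rw [hω v hv, Bool.not_not])
    (fun ω _ => funext fun v => Bool.not_not _) (fun ω _ => funext fun v => Bool.not_not _) f

theorem pva_P_flip (A : Finset V) (ξ : V → Bool) (K : (V → Bool) → Prop) :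
    pvaP A ξ (fun ω => K (fun v => !ω v)) = pvaP A (fun v => !ξ v) K := by
  classical
  exact pva_E_not A ξ (fun ω => if K ω then 1 else 0)

/-- **RELABELLING** along a bijection `σ : V ≃ W` (symmetries of the map) -/
theorem pva_E_equiv {W : Type} [DecidableEq W] (σ : V ≃ W) (A : Finset V) (ξ : V → Bool) (f : (W → Bool) → ℝ) :
    pvaE A ξ (fun ω => f (fun w => ω (σ.symm w))) = pvaE (A.map σ.toEmbedding) (fun w => ξ (σ.symm w)) f := by
  refine pva_E_bij (card_map _).symm (fun ω w => ω (σ.symm w)) (fun ω v => ω (σ v)) (fun ω hω w hw => hω _ fun h => hw ?_)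
    (fun ω hω v hv => ?_) (fun ω _ => funext fun v => ?_) (fun ω _ => funext fun w => ?_) f
  · rw [mem_map]
    exact ⟨σ.symm w, h, σ.apply_symm_apply w⟩
  · have : ω (σ v) = ξ (σ.symm (σ v)) := hω (σ v) (fun h => hv ?_)
    · show ω (σ v) = ξ v
      rw [this, σ.symm_apply_apply]
    · rw [mem_map] at h
      obtain ⟨u, hu, e⟩ := h
      rwa [← σ.injective e]
  · show ω (σ.symm (σ v)) = ω v
    rw [σ.symm_apply_apply]
  · show ω (σ (σ.symm w)) = ω w
    rw [σ.apply_symm_apply]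

theorem pva_P_equiv {W : Type} [DecidableEq W] (σ : V ≃ W) (A : Finset V) (ξ : V → Bool) (K : (W → Bool) → Prop) :
    pvaP A ξ (fun ω => K (fun w => ω (σ.symm w))) = pvaP (A.map σ.toEmbedding) (fun w => ξ (σ.symm w)) K := by
  classical
  exact pva_E_equiv σ A ξ (fun ω => if K ω then 1 else 0)

/-! ## 7. successive explorations -/

theorem pva_meas_forall_le {S : ℕ → (V → Bool) → Finset V} (hm : ∀ j ω, S j ω ⊆ S (j + 1) ω) {K : ℕ → (V → Bool) → Prop}
    (hK : ∀ j, PvaMeas (S j) (K j)) (n : ℕ) : PvaMeas (S n) (fun ω => ∀ j ≤ n, K j ω) := by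
  have hmm : ∀ j n, j ≤ n → ∀ ω, S j ω ⊆ S n ω := by
    intro j n h
    induction h with
    | refl => exact fun _ => Subset.refl _
    | step _ ih => exact fun ω => (ih ω).trans (hm _ ω)
  intro ω ω' h
  refine propext (forall_congr' fun j => forall_congr' fun hj => ?_)
  rw [hK j ω ω' fun v hv => h v (hmm j n hj ω hv)]

/-- **CHAIN, upper bound**: increasing explorations `S 0 ⊆ S 1 ⊆ …`, `K j` read by `S j`; given `S j` and `K 0, …, K j` the next event has conditional probability `≤ p j` -/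
theorem pva_chain_le {S : ℕ → (V → Bool) → Finset V} (hS : ∀ j, PvaStop (S j)) (hm : ∀ j ω, S j ω ⊆ S (j + 1) ω) {K : ℕ → (V → Bool) → Prop}
    (hK : ∀ j, PvaMeas (S j) (K j)) (A : Finset V) (ξ : V → Bool) (p : ℕ → ℝ) (hp : ∀ j, 0 ≤ p j) (n : ℕ)
    (h : ∀ j < n, ∀ ω, PvaCfg A ξ ω → (∀ i ≤ j, K i ω) → pvaP (A \ S j ω) ω (K (j + 1)) ≤ p j) :
    pvaP A ξ (fun ω => ∀ j ≤ n, K j ω) ≤ (∏ j ∈ range n, p j) * pvaP A ξ (K 0) := by
  induction n with
  | zero =>
    rw [range_zero, prod_empty, one_mul]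
    exact pva_P_mono fun ω _ hk => hk 0 le_rfl
  | succ n ih =>
    have h1 : pvaP A ξ (fun ω => ∀ j ≤ n + 1, K j ω) = pvaP A ξ (fun ω => (∀ j ≤ n, K j ω) ∧ K (n + 1) ω) := by
      refine pva_P_congr fun ω _ => ⟨fun hk => ⟨fun j hj => hk j (by omega), hk _ le_rfl⟩, fun hk j hj => ?_⟩
      rcases Nat.lt_or_ge j (n + 1) with h' | h'
      · exact hk.1 j (by omega)
      · have : j = n + 1 := by omega
        rw [this]
        exact hk.2
    rw [h1, prod_range_succ, mul_comm (∏ j ∈ range n, p j), mul_assoc]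
    refine (pva_smarkov_le (hS n) (pva_meas_forall_le hm hK n) A ξ (h n (by omega))).trans ?_
    exact mul_le_mul_of_nonneg_left (ih fun j hj => h j (by omega)) (hp n)

/-- **CHAIN, lower bound** -/
theorem pva_chain_ge {S : ℕ → (V → Bool) → Finset V} (hS : ∀ j, PvaStop (S j)) (hm : ∀ j ω, S j ω ⊆ S (j + 1) ω) {K : ℕ → (V → Bool) → Prop}
    (hK : ∀ j, PvaMeas (S j) (K j)) (A : Finset V) (ξ : V → Bool) (q : ℕ → ℝ) (hq : ∀ j, 0 ≤ q j) (n : ℕ)
    (h : ∀ j < n, ∀ ω, PvaCfg A ξ ω → (∀ i ≤ j, K i ω) → q j ≤ pvaP (A \ S j ω) ω (K (j + 1))) :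
    (∏ j ∈ range n, q j) * pvaP A ξ (K 0) ≤ pvaP A ξ (fun ω => ∀ j ≤ n, K j ω) := by
  induction n with
  | zero =>
    rw [range_zero, prod_empty, one_mul]
    refine pva_P_mono fun ω _ hk j hj => ?_
    have : j = 0 := by omega
    rw [this]
    exact hk
  | succ n ih =>
    have h1 : pvaP A ξ (fun ω => ∀ j ≤ n + 1, K j ω) = pvaP A ξ (fun ω => (∀ j ≤ n, K j ω) ∧ K (n + 1) ω) := by
      refine pva_P_congr fun ω _ => ⟨fun hk => ⟨fun j hj => hk j (by omega), hk _ le_rfl⟩, fun hk j hj => ?_⟩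
      rcases Nat.lt_or_ge j (n + 1) with h' | h'
      · exact hk.1 j (by omega)
      · have : j = n + 1 := by omega
        rw [this]
        exact hk.2
    rw [h1, prod_range_succ, mul_comm (∏ j ∈ range n, q j), mul_assoc]
    refine le_trans ?_ (pva_smarkov_ge (hS n) (pva_meas_forall_le hm hK n) A ξ (h n (by omega)))
    exact mul_le_mul_of_nonneg_left (ih fun j hj => h j (by omega)) (hq n)

/-- **CHAIN**, constant bound: `P(K 0, …, K n) ≤ p ^ n` -/
theorem pva_chain {S : ℕ → (V → Bool) → Finset V} (hS : ∀ j, PvaStop (S j)) (hm : ∀ j ω, S j ω ⊆ S (j + 1) ω) {K : ℕ → (V → Bool) → Prop}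
    (hK : ∀ j, PvaMeas (S j) (K j)) (A : Finset V) (ξ : V → Bool) {p : ℝ} (hp : 0 ≤ p) (n : ℕ)
    (h : ∀ j < n, ∀ ω, PvaCfg A ξ ω → (∀ i ≤ j, K i ω) → pvaP (A \ S j ω) ω (K (j + 1)) ≤ p) :
    pvaP A ξ (fun ω => ∀ j ≤ n, K j ω) ≤ p ^ n := by
  have h1 := pva_chain_le hS hm hK A ξ (fun _ => p) (fun _ => hp) n h
  rw [prod_const, card_range] at h1
  exact h1.trans (mul_le_of_le_one_right (pow_nonneg hp n) (pva_P_le_one _ _ _))

/-! ## 8. Harris / FKG -/

/-- `f` is increasing (in the black = `true` vertices) on the configurations of `(A, ξ)` -/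
def PvaInc (A : Finset V) (ξ : V → Bool) (f : (V → Bool) → ℝ) : Prop :=
  ∀ ω ω' : V → Bool, PvaCfg A ξ ω → PvaCfg A ξ ω' → (∀ v, ω v = true → ω' v = true) → f ω ≤ f ω'

/-- increasing event -/
def PvaIncP (A : Finset V) (ξ : V → Bool) (K : (V → Bool) → Prop) : Prop :=
  ∀ ω ω' : V → Bool, PvaCfg A ξ ω → PvaCfg A ξ ω' → (∀ v, ω v = true → ω' v = true) → K ω → K ω'

/-- decreasing event -/
def PvaDecP (A : Finset V) (ξ : V → Bool) (K : (V → Bool) → Prop) : Prop :=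
  ∀ ω ω' : V → Bool, PvaCfg A ξ ω → PvaCfg A ξ ω' → (∀ v, ω v = true → ω' v = true) → K ω' → K ω

theorem pva_eqns_cite2 : True := by
  have := @pvaCfgs.eq_1
  have := @pvaIter.eq_1
  have := @pvaIter.eq_2
  have := @PvaInc.eq_1
  have := @PvaIncP.eq_1
  have := @PvaDecP.eq_1
  trivial

theorem pva_inc_sub {A A' : Finset V} (hA : A' ⊆ A) {ξ ω : V → Bool} (hω : PvaCfg A ξ ω) {f : (V → Bool) → ℝ} (hf : PvaInc A ξ f) :
    PvaInc A' ω f := fun ω₁ ω₂ h1 h2 h => hf ω₁ ω₂ (pva_cfg_trans hA hω h1) (pva_cfg_trans hA hω h2) h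

theorem pva_incP_sub {A A' : Finset V} (hA : A' ⊆ A) {ξ ω : V → Bool} (hω : PvaCfg A ξ ω) {K : (V → Bool) → Prop} (hK : PvaIncP A ξ K) :
    PvaIncP A' ω K := fun ω₁ ω₂ h1 h2 h => hK ω₁ ω₂ (pva_cfg_trans hA hω h1) (pva_cfg_trans hA hω h2) h

theorem pva_decP_sub {A A' : Finset V} (hA : A' ⊆ A) {ξ ω : V → Bool} (hω : PvaCfg A ξ ω) {K : (V → Bool) → Prop} (hK : PvaDecP A ξ K) :
    PvaDecP A' ω K := fun ω₁ ω₂ h1 h2 h => hK ω₁ ω₂ (pva_cfg_trans hA hω h1) (pva_cfg_trans hA hω h2) h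

open Classical in
theorem pva_inc_ind {A : Finset V} {ξ : V → Bool} {K : (V → Bool) → Prop} (hK : PvaIncP A ξ K) :
    PvaInc A ξ (fun ω => if K ω then (1 : ℝ) else 0) := by
  intro ω ω' h1 h2 h
  show (if K ω then (1 : ℝ) else 0) ≤ if K ω' then (1 : ℝ) else 0
  by_cases hk : K ω
  · rw [if_pos hk, if_pos (hK ω ω' h1 h2 h hk)]
  · rw [if_neg hk]
    split_ifs <;> norm_num

theorem pva_decP_not {A : Finset V} {ξ : V → Bool} {K : (V → Bool) → Prop} (hK : PvaIncP A ξ K) : PvaDecP A ξ (fun ω => ¬ K ω) :=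
  fun ω ω' h1 h2 h hk hk' => hk (hK ω ω' h1 h2 h hk')

theorem pva_incP_not {A : Finset V} {ξ : V → Bool} {K : (V → Bool) → Prop} (hK : PvaDecP A ξ K) : PvaIncP A ξ (fun ω => ¬ K ω) :=
  fun ω ω' h1 h2 h hk hk' => hk (hK ω ω' h1 h2 h hk')

theorem pva_incP_and {A : Finset V} {ξ : V → Bool} {K L : (V → Bool) → Prop} (hK : PvaIncP A ξ K) (hL : PvaIncP A ξ L) :
    PvaIncP A ξ (fun ω => K ω ∧ L ω) := fun ω ω' h1 h2 h hk => ⟨hK ω ω' h1 h2 h hk.1, hL ω ω' h1 h2 h hk.2⟩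

theorem pva_incP_or {A : Finset V} {ξ : V → Bool} {K L : (V → Bool) → Prop} (hK : PvaIncP A ξ K) (hL : PvaIncP A ξ L) :
    PvaIncP A ξ (fun ω => K ω ∨ L ω) := fun ω ω' h1 h2 h hk => hk.imp (hK ω ω' h1 h2 h) (hL ω ω' h1 h2 h)

theorem pva_decP_and {A : Finset V} {ξ : V → Bool} {K L : (V → Bool) → Prop} (hK : PvaDecP A ξ K) (hL : PvaDecP A ξ L) :
    PvaDecP A ξ (fun ω => K ω ∧ L ω) := fun ω ω' h1 h2 h hk => ⟨hK ω ω' h1 h2 h hk.1, hL ω ω' h1 h2 h hk.2⟩

theorem pva_decP_or {A : Finset V} {ξ : V → Bool} {K L : (V → Bool) → Prop} (hK : PvaDecP A ξ K) (hL : PvaDecP A ξ L) :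
    PvaDecP A ξ (fun ω => K ω ∨ L ω) := fun ω ω' h1 h2 h hk => hk.imp (hK ω ω' h1 h2 h) (hL ω ω' h1 h2 h)

/-- the global colour flip exchanges increasing and decreasing events -/
theorem pva_decP_flip {A : Finset V} {ξ : V → Bool} {K : (V → Bool) → Prop} (hK : PvaIncP A (fun v => !ξ v) K) :
    PvaDecP A ξ (fun ω => K (fun v => !ω v)) := by
  intro ω ω' h1 h2 h hk
  refine hK (fun v => !ω' v) (fun v => !ω v) (fun v hv => congrArg _ (h2 v hv)) (fun v hv => congrArg _ (h1 v hv)) (fun v hv => ?_) hk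
  cases e : ω v
  · rfl
  · rw [h v e] at hv
    exact hv

theorem pva_mk_le {A B B' : Finset V} (h : B ⊆ B') (ξ : V → Bool) (v : V) (hv : pvaMk A B ξ v = true) : pvaMk A B' ξ v = true := by
  by_cases hA : v ∈ A
  · rw [pva_mk_in hA] at hv ⊢
    exact decide_eq_true (h (of_decide_eq_true hv))
  · rw [pva_mk_out hA] at hv ⊢
    exact hv

/-- Harris for nonnegative increasing functions, from the four functions theorem -/
theorem pva_fkg_nonneg {A : Finset V} {ξ : V → Bool} {f g : (V → Bool) → ℝ} (hf : PvaInc A ξ f) (hg : PvaInc A ξ g)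
    (hf0 : ∀ ω, PvaCfg A ξ ω → 0 ≤ f ω) (hg0 : ∀ ω, PvaCfg A ξ ω → 0 ≤ g ω) :
    pvaE A ξ f * pvaE A ξ g ≤ pvaE A ξ (fun ω => f ω * g ω) := by
  have key := four_functions_theorem (α := Finset V) (fun B => f (pvaMk A B ξ)) (fun B => g (pvaMk A B ξ)) (fun _ => (1 : ℝ))
    (fun B => f (pvaMk A B ξ) * g (pvaMk A B ξ)) (fun B => hf0 _ (pva_mk_cfg A B ξ)) (fun B => hg0 _ (pva_mk_cfg A B ξ))
    (fun _ => zero_le_one) (fun B => mul_nonneg (hf0 _ (pva_mk_cfg A B ξ)) (hg0 _ (pva_mk_cfg A B ξ)))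
    (fun a b => by
      rw [one_mul]
      exact mul_le_mul (hf _ _ (pva_mk_cfg _ _ _) (pva_mk_cfg _ _ _) (pva_mk_le (le_sup_left (a := a) (b := b)) ξ))
        (hg _ _ (pva_mk_cfg _ _ _) (pva_mk_cfg _ _ _) (pva_mk_le (le_sup_right (a := a) (b := b)) ξ)) (hg0 _ (pva_mk_cfg _ _ _)) (hf0 _ (pva_mk_cfg _ _ _)))
    A.powerset A.powerset
  rw [powerset_infs_powerset_self, powerset_sups_powerset_self, sum_const, card_powerset, nsmul_eq_mul, mul_one] at key
  push_cast at key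
  unfold pvaE
  rw [div_mul_div_comm, div_le_div_iff₀ (by positivity) (by positivity)]
  calc _ ≤ (2 ^ A.card * ∑ B ∈ A.powerset, f (pvaMk A B ξ) * g (pvaMk A B ξ)) * 2 ^ A.card :=
        mul_le_mul_of_nonneg_right key (by positivity)
    _ = _ := by ring

/-- a function is bounded below on the configurations -/
theorem pva_bdd (A : Finset V) (ξ : V → Bool) (f : (V → Bool) → ℝ) : ∃ c : ℝ, ∀ ω, PvaCfg A ξ ω → 0 ≤ f ω + c := by
  refine ⟨∑ ω ∈ pvaCfgs A ξ, |f ω|, fun ω hω => ?_⟩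
  have h1 : |f ω| ≤ ∑ ω ∈ pvaCfgs A ξ, |f ω| := single_le_sum (f := fun ω => |f ω|) (fun _ _ => abs_nonneg _) (pva_mem_cfgs.2 hω)
  have h2 := neg_abs_le (f ω)
  linarith

/-- **HARRIS / FKG**: increasing functions are positively correlated -/
theorem pva_fkg {A : Finset V} {ξ : V → Bool} {f g : (V → Bool) → ℝ} (hf : PvaInc A ξ f) (hg : PvaInc A ξ g) :
    pvaE A ξ f * pvaE A ξ g ≤ pvaE A ξ (fun ω => f ω * g ω) := by
  obtain ⟨c, hc⟩ := pva_bdd A ξ f
  obtain ⟨d, hd⟩ := pva_bdd A ξ g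
  have h1 := pva_fkg_nonneg (f := fun ω => f ω + c) (g := fun ω => g ω + d) (fun ω ω' a b h => by have := hf ω ω' a b h; linarith)
    (fun ω ω' a b h => by have := hg ω ω' a b h; linarith) hc hd
  have h2 : pvaE A ξ (fun ω => (f ω + c) * (g ω + d)) = pvaE A ξ (fun ω => f ω * g ω) + d * pvaE A ξ f + c * pvaE A ξ g + c * d := by
    rw [← pva_E_mul_left, ← pva_E_mul_left, ← pva_E_add, ← pva_E_add, ← pva_E_const A ξ (c * d), ← pva_E_add]
    exact pva_E_congr fun ω _ => by ring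
  rw [h2, pva_E_add, pva_E_add, pva_E_const, pva_E_const] at h1
  nlinarith

/-- Harris, two increasing events -/
theorem pva_fkg_P {A : Finset V} {ξ : V → Bool} {K L : (V → Bool) → Prop} (hK : PvaIncP A ξ K) (hL : PvaIncP A ξ L) :
    pvaP A ξ K * pvaP A ξ L ≤ pvaP A ξ (fun ω => K ω ∧ L ω) := by
  rw [pva_P_and_eq]
  exact pva_fkg (pva_inc_ind hK) (pva_inc_ind hL)

/-- Harris, two decreasing events -/
theorem pva_fkg_P_dec {A : Finset V} {ξ : V → Bool} {K L : (V → Bool) → Prop} (hK : PvaDecP A ξ K) (hL : PvaDecP A ξ L) :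
    pvaP A ξ K * pvaP A ξ L ≤ pvaP A ξ (fun ω => K ω ∧ L ω) := by
  have h1 := pva_fkg_P (pva_incP_not hK) (pva_incP_not hL)
  have h2 : pvaP A ξ (fun ω => ¬ K ω ∧ ¬ L ω) = 1 - pvaP A ξ (fun ω => K ω ∨ L ω) := by
    rw [← pva_P_not]
    exact pva_P_congr fun ω _ => by tauto
  have h3 : pvaP A ξ (fun ω => K ω ∨ L ω) = pvaP A ξ K + pvaP A ξ L - pvaP A ξ (fun ω => K ω ∧ L ω) := by
    classical
    unfold pvaP
    rw [← pva_E_add, ← pva_E_sub]
    refine pva_E_congr fun ω _ => ?_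
    by_cases hk : K ω <;> by_cases hl : L ω <;> simp [hk, hl]
  rw [h2, h3, pva_P_not, pva_P_not] at h1
  nlinarith

/-- an increasing and a decreasing event are negatively correlated -/
theorem pva_fkg_P_neg {A : Finset V} {ξ : V → Bool} {K L : (V → Bool) → Prop} (hK : PvaIncP A ξ K) (hL : PvaDecP A ξ L) :
    pvaP A ξ (fun ω => K ω ∧ L ω) ≤ pvaP A ξ K * pvaP A ξ L := by
  have h1 := pva_fkg_P hK (pva_incP_not hL)
  have h2 : pvaP A ξ (fun ω => K ω ∧ ¬ L ω) = pvaP A ξ K - pvaP A ξ (fun ω => K ω ∧ L ω) := by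
    classical
    unfold pvaP
    rw [← pva_E_sub]
    refine pva_E_congr fun ω _ => ?_
    by_cases hk : K ω <;> by_cases hl : L ω <;> simp [hk, hl]
  rw [h2, pva_P_not] at h1
  nlinarith

theorem pva_incP_forall {ι : Type} {A : Finset V} {ξ : V → Bool} (I : Finset ι) {K : ι → (V → Bool) → Prop} (hK : ∀ i ∈ I, PvaIncP A ξ (K i)) :
    PvaIncP A ξ (fun ω => ∀ i ∈ I, K i ω) := fun ω ω' h1 h2 h hk i hi => hK i hi ω ω' h1 h2 h (hk i hi)

theorem pva_decP_forall {ι : Type} {A : Finset V} {ξ : V → Bool} (I : Finset ι) {K : ι → (V → Bool) → Prop} (hK : ∀ i ∈ I, PvaDecP A ξ (K i)) :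
    PvaDecP A ξ (fun ω => ∀ i ∈ I, K i ω) := fun ω ω' h1 h2 h hk i hi => hK i hi ω ω' h1 h2 h (hk i hi)

/-- Harris, a finite family of increasing events -/
theorem pva_fkg_forall {ι : Type} [DecidableEq ι] {A : Finset V} {ξ : V → Bool} (I : Finset ι) {K : ι → (V → Bool) → Prop}
    (hK : ∀ i ∈ I, PvaIncP A ξ (K i)) : ∏ i ∈ I, pvaP A ξ (K i) ≤ pvaP A ξ (fun ω => ∀ i ∈ I, K i ω) := by
  induction I using Finset.induction_on with
  | empty =>
    rw [prod_empty, pva_P_true fun ω _ i hi => absurd hi (notMem_empty i)]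
  | insert a J ha ih =>
    rw [prod_insert ha]
    have h1 := ih fun i hi => hK i (mem_insert_of_mem hi)
    have h2 := pva_fkg_P (hK a (mem_insert_self a J)) (pva_incP_forall J fun i hi => hK i (mem_insert_of_mem hi))
    refine (mul_le_mul_of_nonneg_left h1 (pva_P_nonneg _ _ _)).trans (h2.trans (pva_P_mono fun ω _ hk i hi => ?_))
    rcases mem_insert.1 hi with rfl | hi
    · exact hk.1
    · exact hk.2 i hi

/-- Harris, a finite family of decreasing events -/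
theorem pva_fkg_forall_dec {ι : Type} [DecidableEq ι] {A : Finset V} {ξ : V → Bool} (I : Finset ι) {K : ι → (V → Bool) → Prop}
    (hK : ∀ i ∈ I, PvaDecP A ξ (K i)) : ∏ i ∈ I, pvaP A ξ (K i) ≤ pvaP A ξ (fun ω => ∀ i ∈ I, K i ω) := by
  induction I using Finset.induction_on with
  | empty =>
    rw [prod_empty, pva_P_true fun ω _ i hi => absurd hi (notMem_empty i)]
  | insert a J ha ih =>
    rw [prod_insert ha]
    have h1 := ih fun i hi => hK i (mem_insert_of_mem hi)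
    have h2 := pva_fkg_P_dec (hK a (mem_insert_self a J)) (pva_decP_forall J fun i hi => hK i (mem_insert_of_mem hi))
    refine (mul_le_mul_of_nonneg_left h1 (pva_P_nonneg _ _ _)).trans (h2.trans (pva_P_mono fun ω _ hk i hi => ?_))
    rcases mem_insert.1 hi with rfl | hi
    · exact hk.1
    · exact hk.2 i hi

/-- **SQUARE ROOT TRICK** (product form): `∏ (1 - P(K i)) ≤ 1 - P(some K i)` for increasing events -/
theorem pva_sqrt_trick {ι : Type} [DecidableEq ι] {A : Finset V} {ξ : V → Bool} (I : Finset ι) {K : ι → (V → Bool) → Prop}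
    (hK : ∀ i ∈ I, PvaIncP A ξ (K i)) : ∏ i ∈ I, (1 - pvaP A ξ (K i)) ≤ 1 - pvaP A ξ (fun ω => ∃ i ∈ I, K i ω) := by
  have h1 := pva_fkg_forall_dec I (K := fun i ω => ¬ K i ω) fun i hi => pva_decP_not (hK i hi)
  simp only [pva_P_not] at h1
  rw [← pva_P_not]
  refine h1.trans (le_of_eq (pva_P_congr fun ω _ => ?_))
  push Not
  rfl

/-- square root trick, two events of the same probability: `P(K) ≥ 1 - √(1 - P(K ∨ L))`, in squared form -/
theorem pva_sqrt_trick_two {A : Finset V} {ξ : V → Bool} {K L : (V → Bool) → Prop} (hK : PvaIncP A ξ K) (hL : PvaIncP A ξ L)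
    (he : pvaP A ξ K = pvaP A ξ L) : (1 - pvaP A ξ K) ^ 2 ≤ 1 - pvaP A ξ (fun ω => K ω ∨ L ω) := by
  have h1 := pva_fkg_P_dec (pva_decP_not hK) (pva_decP_not hL)
  rw [pva_P_not, pva_P_not, ← he] at h1
  rw [← pva_P_not A ξ (fun ω => K ω ∨ L ω), sq]
  exact h1.trans (le_of_eq (pva_P_congr fun ω _ => by tauto))

end Claimed.Agent.R289
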