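import Claimed.Agent.R289.Pl.Defs
import Claimed.Agent.R289.Arm.Stop
import Claimed.Agent.R289.Arm.NonCross

/-!
# Row 289 (S0537, Cardy for Poisson-Voronoi), box ARM, block A1a, file Arm/Strand : STRANDS, NON-PLANAR HALF      (owner helper158; architect of ARM helper241; design of 178 / 146; prefix `pvas_`, defs `pvas…`)

`T : PvMap V D` ANY oriented triangulated surface (no `IsSph`, no `h1` anywhere), colourings `s : V → Bool`, `true` = BLACK, `false` = WHITE (as `pvaBl` of `Arm/Stop`).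

* `pvasBW T s d`        the dart `d` goes from a BLACK source to a WHITE target.   A dart `d` with `pvasBW` = a POSITION of a strand: the strand has just crossed the edge of `d` from the face of `opp d` into the face of `d` (black on its left, white on its right).
* `pvasStep T s d`      the next position: `opp (nxt d)` if the apex is black, `opp (nxt (nxt d))` if it is white;      `pvasBack` = the inverse
* `pvasIt T s d n`      the position after `n` steps
* `pvasLayB / pvasLayW T s d n`   black / white layer of the positions `0..n` (sets);   `pvasLay` = their union as a `Finset`;   `pvasFc T s d n` = the faces crossed by the steps number `0..n-1`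
* `pvasHit T s d Z`     first `n` with `pvasIt T s d n ∈ Z`;      `pvasTime`, `pvasExpl` = time and explored vertices of the exploration "from `d` until `Z`" (nothing but the two ends of `d` if `d` is not black-white)
* `pvasIn / pvasOut T A s d`   `d` is a position at which a strand ENTERS / LEAVES the face set `A`;   `pvasExit T A s d` = where the strand which enters at `d` leaves
* `pvasBdOcc T A s`     the bichromatic boundary edges of `A`, each represented by its dart INSIDE `A`;      `pvasMate T A s` = the PAIRING of these edges by the strands of `A`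

sec. 1 step calculus      sec. 2 iterates, injectivity, layers = monochromatic walks      sec. 3 reversal = exchange of the colours
sec. 4 STOPPING SET (`pvas_it_congr`, `pvas_expl_stop`, `pvas_it_meas`)      sec. 5 PAIRING in a finite face set (`pvas_exit_spec`, `pvas_exit_bij`, `pvas_disjoint`, `pvas_mate_*`, `pvas_two`)
sec. 6 BRIDGE to `Arm/NonCross` of helper42 (`pvanOk = pvasBW`, `pvanStep = pvasStep` by `rfl`; `PvanStr` <-> `pvasIt`, `pvasHit`, `pvasExit`, `pvasMate`)
-/

set_option autoImplicit false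
set_option linter.unusedSectionVars false
set_option linter.unusedVariables false

namespace Claimed.Agent.R289

open Relation

variable {V D : Type} (T : PvMap V D)

/-! ## 0. definitions -/

/-- black source, white target: a position of a strand -/
def pvasBW (s : V → Bool) (d : D) : Prop := s (T.src d) = true ∧ s (T.tgt d) = false

/-- one step of the strand through the face of `d` -/
def pvasStep (s : V → Bool) (d : D) : D := if s (T.apex d) = true then T.opp (T.nxt d) else T.opp (T.nxt (T.nxt d))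

/-- one step backwards -/
def pvasBack (s : V → Bool) (d : D) : D := if s (T.apex (T.opp d)) = true then T.nxt (T.nxt (T.opp d)) else T.nxt (T.opp d)

/-- the position after `n` steps -/
def pvasIt (s : V → Bool) (d : D) (n : ℕ) : D := (pvasStep T s)^[n] d

/-- black layer of the positions `0..n` -/
def pvasLayB (s : V → Bool) (d : D) (n : ℕ) : Set V := {v | ∃ i, i ≤ n ∧ T.src (pvasIt T s d i) = v}

/-- white layer of the positions `0..n` -/
def pvasLayW (s : V → Bool) (d : D) (n : ℕ) : Set V := {v | ∃ i, i ≤ n ∧ T.tgt (pvasIt T s d i) = v}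

/-- the faces crossed by the steps number `0..n-1` -/
def pvasFc (s : V → Bool) (d : D) (n : ℕ) : Set D := {f | ∃ i, i < n ∧ T.SF (pvasIt T s d i) f}

/-- both layers of the positions `0..n`, as a `Finset` -/
def pvasLay [DecidableEq V] (s : V → Bool) (d : D) (n : ℕ) : Finset V :=
  (Finset.range (n + 1)).image (fun i => T.src (pvasIt T s d i)) ∪ (Finset.range (n + 1)).image (fun i => T.tgt (pvasIt T s d i))

/-- the first time at which the strand from `d` is in `Z` (`0` if there is none) -/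
noncomputable def pvasHit (s : V → Bool) (d : D) (Z : Set D) : ℕ := sInf {n | pvasIt T s d n ∈ Z}

open Classical in
/-- the time of the exploration from `d` until `Z` -/
noncomputable def pvasTime (d : D) (Z : Set D) (s : V → Bool) : ℕ := if pvasBW T s d then pvasHit T s d Z else 0

/-- the vertices read by the exploration from `d` until `Z` -/
noncomputable def pvasExpl [DecidableEq V] (d : D) (Z : Set D) (s : V → Bool) : Finset V := pvasLay T s d (pvasTime T d Z s)

/-- a strand enters the face set `A` at the position `d` -/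
def pvasIn (A : Set D) (s : V → Bool) (d : D) : Prop := d ∈ A ∧ T.opp d ∉ A ∧ pvasBW T s d

/-- a strand leaves the face set `A` at the position `d` -/
def pvasOut (A : Set D) (s : V → Bool) (d : D) : Prop := d ∉ A ∧ T.opp d ∈ A ∧ pvasBW T s d

/-- the position at which the strand from `d` leaves `A` -/
noncomputable def pvasExit (A : Set D) (s : V → Bool) (d : D) : D := pvasIt T s d (pvasHit T s d Aᶜ)

/-- exchange of the colours -/
def pvasNot (s : V → Bool) : V → Bool := fun v => !s v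

/-- the bichromatic boundary edges of `A`, represented by their darts inside `A` -/
def pvasBdOcc (A : Set D) (s : V → Bool) : Set D := {d | d ∈ A ∧ T.opp d ∉ A ∧ T.Occ s d}

open Classical in
/-- the pairing of the bichromatic boundary edges of `A` by the strands -/
noncomputable def pvasMate (A : Set D) (s : V → Bool) (d : D) : D :=
  if pvasBW T s d then T.opp (pvasExit T A s d) else T.opp (pvasExit T A (pvasNot s) d)

theorem pvas_eqns_cite : True := by
  have := @pvasBW.eq_1; have := @pvasStep.eq_1; have := @pvasBack.eq_1; have := @pvasIt.eq_1; have := @pvasLayB.eq_1; have := @pvasLayW.eq_1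
  have := @pvasFc.eq_1; have := @pvasLay.eq_1; have := @pvasHit.eq_1; have := @pvasTime.eq_1; have := @pvasExpl.eq_1; have := @pvasIn.eq_1
  have := @pvasOut.eq_1; have := @pvasExit.eq_1; have := @pvasNot.eq_1; have := @pvasBdOcc.eq_1; have := @pvasMate.eq_1
  trivial

variable {T}
variable {s : V → Bool} {d d' : D}

/-! ## 1. step calculus -/

theorem pvas_step_black (h : s (T.apex d) = true) : pvasStep T s d = T.opp (T.nxt d) := by
  unfold pvasStep; rw [if_pos h]

theorem pvas_step_white (h : s (T.apex d) = false) : pvasStep T s d = T.opp (T.nxt (T.nxt d)) := by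
  unfold pvasStep; rw [if_neg (by rw [h]; exact Bool.false_ne_true)]

theorem pvas_step_cases (s : V → Bool) (d : D) :
    (s (T.apex d) = true ∧ pvasStep T s d = T.opp (T.nxt d)) ∨ (s (T.apex d) = false ∧ pvasStep T s d = T.opp (T.nxt (T.nxt d))) := by
  cases h : s (T.apex d)
  · exact Or.inr ⟨rfl, pvas_step_white h⟩
  · exact Or.inl ⟨rfl, pvas_step_black h⟩

theorem pvas_back_cases (s : V → Bool) (d : D) :
    (s (T.apex (T.opp d)) = true ∧ pvasBack T s d = T.nxt (T.nxt (T.opp d))) ∨ (s (T.apex (T.opp d)) = false ∧ pvasBack T s d = T.nxt (T.opp d)) := by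
  unfold pvasBack
  cases h : s (T.apex (T.opp d))
  · exact Or.inr ⟨rfl, by rw [if_neg Bool.false_ne_true]⟩
  · exact Or.inl ⟨rfl, by rw [if_pos rfl]⟩

/-- the ends of the next position -/
theorem pvas_step_ends (s : V → Bool) (d : D) :
    (s (T.apex d) = true ∧ T.src (pvasStep T s d) = T.apex d ∧ T.tgt (pvasStep T s d) = T.tgt d) ∨
      (s (T.apex d) = false ∧ T.src (pvasStep T s d) = T.src d ∧ T.tgt (pvasStep T s d) = T.apex d) := by
  rcases pvas_step_cases s d with ⟨h, e⟩ | ⟨h, e⟩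
  · exact Or.inl ⟨h, by rw [e, T.src_opp', T.tgt_nxt], by rw [e, T.tgt_opp, T.src_nxt]⟩
  · exact Or.inr ⟨h, by rw [e, T.src_opp', T.tgt_nxt2], by rw [e, T.tgt_opp, T.src_nxt2]⟩

theorem pvas_step_bw (h : pvasBW T s d) : pvasBW T s (pvasStep T s d) := by
  rcases pvas_step_ends s d with ⟨a, e1, e2⟩ | ⟨a, e1, e2⟩
  · exact ⟨by rw [e1]; exact a, by rw [e2]; exact h.2⟩
  · exact ⟨by rw [e1]; exact h.1, by rw [e2]; exact a⟩

theorem pvas_back_bw (h : pvasBW T s d) : pvasBW T s (pvasBack T s d) := by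
  rcases pvas_back_cases s d with ⟨a, e⟩ | ⟨a, e⟩
  · refine ⟨by rw [e, T.src_nxt2]; exact a, ?_⟩
    rw [e, T.tgt_nxt2, T.src_opp']; exact h.2
  · refine ⟨?_, by rw [e, T.tgt_nxt]; exact a⟩
    rw [e, T.src_nxt, T.tgt_opp]; exact h.1

theorem pvas_back_step (h : pvasBW T s d) : pvasBack T s (pvasStep T s d) = d := by
  rcases pvas_step_cases s d with ⟨a, e⟩ | ⟨a, e⟩
  · unfold pvasBack
    rw [e, T.opp_opp, T.apex_nxt, if_pos h.1, T.nxt3]
  · unfold pvasBack
    rw [e, T.opp_opp, T.apex_nxt2, if_neg (by rw [h.2]; exact Bool.false_ne_true), T.nxt3]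

theorem pvas_step_back (h : pvasBW T s d) : pvasStep T s (pvasBack T s d) = d := by
  rcases pvas_back_cases s d with ⟨a, e⟩ | ⟨a, e⟩
  · have h1 : s (T.apex (T.nxt (T.nxt (T.opp d)))) = true := by rw [T.apex_nxt2, T.tgt_opp]; exact h.1
    rw [e, pvas_step_black h1, T.nxt3, T.opp_opp]
  · have h1 : s (T.apex (T.nxt (T.opp d))) = false := by rw [T.apex_nxt, T.src_opp']; exact h.2
    rw [e, pvas_step_white h1, T.nxt3, T.opp_opp]

theorem pvas_step_inj (h : pvasBW T s d) (h' : pvasBW T s d') (e : pvasStep T s d = pvasStep T s d') : d = d' := by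
  rw [← pvas_back_step h, e, pvas_back_step h']

/-- the edge crossed by the step belongs to the face of `d` -/
theorem pvas_step_sf (s : V → Bool) (d : D) : T.SF d (T.opp (pvasStep T s d)) := by
  rcases pvas_step_cases s d with ⟨_, e⟩ | ⟨_, e⟩
  · rw [e, T.opp_opp]; exact T.sf_nxt d
  · rw [e, T.opp_opp]; exact T.sf_nxt2 d

theorem pvas_back_sf (s : V → Bool) (d : D) : T.SF (T.opp d) (pvasBack T s d) := by
  rcases pvas_back_cases s d with ⟨_, e⟩ | ⟨_, e⟩
  · rw [e]; exact T.sf_nxt2 _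
  · rw [e]; exact T.sf_nxt _

/-- a face has at most one black-white dart -/
theorem pvas_bw_face (h : pvasBW T s d) (h' : pvasBW T s d') (hf : T.SF d d') : d' = d := by
  rcases hf with rfl | rfl | rfl
  · rfl
  · exfalso
    have := h'.1
    rw [T.src_nxt, h.2] at this
    exact Bool.false_ne_true this
  · exfalso
    have := h'.2
    rw [T.tgt_nxt2, h.1] at this
    exact Bool.false_ne_true this.symm

theorem pvas_bw_occ (h : pvasBW T s d) : T.Occ s d := by
  unfold PvMap.Occ; rw [h.1, h.2]; exact Bool.false_ne_true.symm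

theorem pvas_occ_iff : T.Occ s d ↔ pvasBW T s d ∨ pvasBW T s (T.opp d) := by
  unfold PvMap.Occ pvasBW
  rw [T.src_opp', T.tgt_opp]
  cases s (T.src d) <;> cases s (T.tgt d) <;> simp

theorem pvas_bw_not_opp (h : pvasBW T s d) : ¬ pvasBW T s (T.opp d) := by
  intro h'
  have := h'.1
  rw [T.src_opp', h.2] at this
  exact Bool.false_ne_true this

/-! ## 2. iterates, injectivity, layers -/

theorem pvas_it_zero (s : V → Bool) (d : D) : pvasIt T s d 0 = d := rfl

theorem pvas_it_succ (s : V → Bool) (d : D) (n : ℕ) : pvasIt T s d (n + 1) = pvasStep T s (pvasIt T s d n) := by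
  unfold pvasIt; rw [Function.iterate_succ_apply']

theorem pvas_it_succ' (s : V → Bool) (d : D) (n : ℕ) : pvasIt T s d (n + 1) = pvasIt T s (pvasStep T s d) n := by
  unfold pvasIt; rw [Function.iterate_succ_apply]

theorem pvas_it_add (s : V → Bool) (d : D) (m n : ℕ) : pvasIt T s d (m + n) = pvasIt T s (pvasIt T s d m) n := by
  unfold pvasIt; rw [Nat.add_comm, Function.iterate_add_apply]

theorem pvas_it_bw (h : pvasBW T s d) (n : ℕ) : pvasBW T s (pvasIt T s d n) := by
  induction n with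
  | zero => exact h
  | succ n ih => rw [pvas_it_succ]; exact pvas_step_bw ih

/-- cancellation -/
theorem pvas_it_cancel (h : pvasBW T s d) (h' : pvasBW T s d') (n : ℕ) (e : pvasIt T s d n = pvasIt T s d' n) : d = d' := by
  induction n with
  | zero => exact e
  | succ n ih =>
    rw [pvas_it_succ, pvas_it_succ] at e
    exact ih (pvas_step_inj (pvas_it_bw h n) (pvas_it_bw h' n) e)

/-- a strand which comes back to one of its positions comes back to its first position -/
theorem pvas_it_return (h : pvasBW T s d) {m n : ℕ} (hmn : m ≤ n) (e : pvasIt T s d m = pvasIt T s d n) : pvasIt T s d (n - m) = d := by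
  obtain ⟨k, rfl⟩ := Nat.exists_eq_add_of_le hmn
  rw [Nat.add_sub_cancel_left]
  rw [Nat.add_comm m k, pvas_it_add] at e
  exact (pvas_it_cancel h (pvas_it_bw h k) m e).symm

theorem pvas_it_back (h : pvasBW T s d) (n : ℕ) : pvasBack T s (pvasIt T s d (n + 1)) = pvasIt T s d n := by
  rw [pvas_it_succ, pvas_back_step (pvas_it_bw h n)]

theorem pvas_layB_black (h : pvasBW T s d) {n : ℕ} {v : V} (hv : v ∈ pvasLayB T s d n) : s v = true := by
  obtain ⟨i, _, rfl⟩ := hv
  exact (pvas_it_bw h i).1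

theorem pvas_layW_white (h : pvasBW T s d) {n : ℕ} {v : V} (hv : v ∈ pvasLayW T s d n) : s v = false := by
  obtain ⟨i, _, rfl⟩ := hv
  exact (pvas_it_bw h i).2

theorem pvas_layB_mono (s : V → Bool) (d : D) {m n : ℕ} (hmn : m ≤ n) : pvasLayB T s d m ⊆ pvasLayB T s d n := by
  rintro v ⟨i, hi, rfl⟩
  exact ⟨i, hi.trans hmn, rfl⟩

theorem pvas_layW_mono (s : V → Bool) (d : D) {m n : ℕ} (hmn : m ≤ n) : pvasLayW T s d m ⊆ pvasLayW T s d n := by
  rintro v ⟨i, hi, rfl⟩
  exact ⟨i, hi.trans hmn, rfl⟩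

theorem pvas_fc_mono (s : V → Bool) (d : D) {m n : ℕ} (hmn : m ≤ n) : pvasFc T s d m ⊆ pvasFc T s d n := by
  rintro f ⟨i, hi, hf⟩
  exact ⟨i, lt_of_lt_of_le hi hmn, hf⟩

theorem pvas_fc_face (s : V → Bool) (d : D) (n : ℕ) : T.FaceSet (pvasFc T s d n) := by
  intro f
  constructor
  · rintro ⟨i, hi, hf⟩
    exact ⟨i, hi, T.sf_trans hf (T.sf_symm (T.sf_nxt f))⟩
  · rintro ⟨i, hi, hf⟩
    exact ⟨i, hi, T.sf_trans hf (T.sf_nxt f)⟩

theorem pvas_fc_finite (s : V → Bool) (d : D) (n : ℕ) : (pvasFc T s d n).Finite := by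
  have : pvasFc T s d n ⊆ ⋃ i ∈ Set.Iio n, ({pvasIt T s d i, T.nxt (pvasIt T s d i), T.nxt (T.nxt (pvasIt T s d i))} : Set D) := by
    rintro f ⟨i, hi, hf⟩
    refine Set.mem_biUnion (Set.mem_Iio.2 hi) ?_
    rcases hf with rfl | rfl | rfl <;> simp
  exact ((Set.finite_Iio n).biUnion fun i _ => Set.toFinite _).subset this

/-- the vertices of the faces crossed by the first `n` steps are the two layers of the positions `0..n` (`1 ≤ n`) -/
theorem pvas_fc_verts (s : V → Bool) (d : D) {n : ℕ} (hn : 1 ≤ n) : T.VOf (pvasFc T s d n) = pvasLayB T s d n ∪ pvasLayW T s d n := by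
  ext v
  constructor
  · rintro ⟨f, ⟨i, hi, hf⟩, rfl⟩
    rcases hf with rfl | rfl | rfl
    · exact Or.inl ⟨i, hi.le, rfl⟩
    · exact Or.inr ⟨i, hi.le, rfl⟩
    · rw [T.src_nxt2]
      rcases pvas_step_ends s (pvasIt T s d i) with ⟨_, e, _⟩ | ⟨_, _, e⟩
      · exact Or.inl ⟨i + 1, hi, by rw [pvas_it_succ, e]⟩
      · exact Or.inr ⟨i + 1, hi, by rw [pvas_it_succ, e]⟩
  · rintro (⟨i, hi, rfl⟩ | ⟨i, hi, rfl⟩)
    · rcases Nat.lt_or_ge i n with h | h
      · exact ⟨_, ⟨i, h, T.sf_refl _⟩, rfl⟩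
      · obtain rfl : i = n := le_antisymm hi h
        obtain ⟨j, rfl⟩ : ∃ j, i = j + 1 := ⟨i - 1, by omega⟩
        rcases pvas_step_ends s (pvasIt T s d j) with ⟨_, e, _⟩ | ⟨_, e, _⟩
        · exact ⟨_, ⟨j, Nat.lt_succ_self j, T.sf_nxt2 _⟩, by rw [pvas_it_succ, e, T.src_nxt2]⟩
        · exact ⟨_, ⟨j, Nat.lt_succ_self j, T.sf_refl _⟩, by rw [pvas_it_succ, e]⟩
    · rcases Nat.lt_or_ge i n with h | h
      · exact ⟨_, ⟨i, h, T.sf_nxt _⟩, rfl⟩
      · obtain rfl : i = n := le_antisymm hi h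
        obtain ⟨j, rfl⟩ : ∃ j, i = j + 1 := ⟨i - 1, by omega⟩
        rcases pvas_step_ends s (pvasIt T s d j) with ⟨_, _, e⟩ | ⟨_, _, e⟩
        · exact ⟨_, ⟨j, Nat.lt_succ_self j, T.sf_nxt _⟩, by rw [pvas_it_succ, e, T.src_nxt]⟩
        · exact ⟨_, ⟨j, Nat.lt_succ_self j, T.sf_nxt2 _⟩, by rw [pvas_it_succ, e, T.src_nxt2]⟩

/-- consecutive vertices of the black layer are equal or joined by an edge of the face which is crossed -/
theorem pvas_layB_step (s : V → Bool) (d : D) (i : ℕ) :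
    T.src (pvasIt T s d (i + 1)) = T.src (pvasIt T s d i) ∨
      T.EdgeIn {f | T.SF (pvasIt T s d i) f} (T.src (pvasIt T s d i)) (T.src (pvasIt T s d (i + 1))) := by
  rw [pvas_it_succ]
  rcases pvas_step_ends s (pvasIt T s d i) with ⟨_, e, _⟩ | ⟨_, e, _⟩
  · refine Or.inr ⟨T.opp (T.nxt (T.nxt (pvasIt T s d i))), Or.inr ?_, ?_, ?_⟩
    · rw [T.opp_opp]; exact T.sf_nxt2 _
    · rw [T.src_opp', T.tgt_nxt2]
    · rw [T.tgt_opp, T.src_nxt2, e]
  · exact Or.inl e

theorem pvas_layW_step (s : V → Bool) (d : D) (i : ℕ) :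
    T.tgt (pvasIt T s d (i + 1)) = T.tgt (pvasIt T s d i) ∨
      T.EdgeIn {f | T.SF (pvasIt T s d i) f} (T.tgt (pvasIt T s d i)) (T.tgt (pvasIt T s d (i + 1))) := by
  rw [pvas_it_succ]
  rcases pvas_step_ends s (pvasIt T s d i) with ⟨_, _, e⟩ | ⟨_, _, e⟩
  · exact Or.inl e
  · refine Or.inr ⟨T.nxt (pvasIt T s d i), Or.inl (T.sf_nxt _), T.src_nxt _, ?_⟩
    rw [T.tgt_nxt, e]

/-- **the black layer is a primal walk** inside the faces which are crossed -/
theorem pvas_layB_join (s : V → Bool) (d : D) {i n : ℕ} (hi : i ≤ n) :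
    T.Join (pvasFc T s d n) (pvasLayB T s d n) (T.src d) (T.src (pvasIt T s d i)) := by
  refine ⟨⟨0, Nat.zero_le n, rfl⟩, ?_⟩
  induction i with
  | zero => exact ReflTransGen.refl
  | succ i ih =>
    have ih' := ih (Nat.le_of_succ_le hi)
    rcases pvas_layB_step s d i with e | ⟨f, hf, e1, e2⟩
    · rw [e]; exact ih'
    · refine ReflTransGen.tail ih' ⟨⟨f, ?_, e1, e2⟩, ⟨i + 1, hi, rfl⟩⟩
      exact hf.imp (fun h => ⟨i, hi, h⟩) fun h => ⟨i, hi, h⟩

/-- **the white layer is a primal walk** inside the faces which are crossed -/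
theorem pvas_layW_join (s : V → Bool) (d : D) {i n : ℕ} (hi : i ≤ n) :
    T.Join (pvasFc T s d n) (pvasLayW T s d n) (T.tgt d) (T.tgt (pvasIt T s d i)) := by
  refine ⟨⟨0, Nat.zero_le n, rfl⟩, ?_⟩
  induction i with
  | zero => exact ReflTransGen.refl
  | succ i ih =>
    have ih' := ih (Nat.le_of_succ_le hi)
    rcases pvas_layW_step s d i with e | ⟨f, hf, e1, e2⟩
    · rw [e]; exact ih'
    · refine ReflTransGen.tail ih' ⟨⟨f, ?_, e1, e2⟩, ⟨i + 1, hi, rfl⟩⟩
      exact hf.imp (fun h => ⟨i, hi, h⟩) fun h => ⟨i, hi, h⟩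

theorem pvas_mem_lay [DecidableEq V] {n : ℕ} {v : V} : v ∈ pvasLay T s d n ↔ v ∈ pvasLayB T s d n ∨ v ∈ pvasLayW T s d n := by
  unfold pvasLay pvasLayB pvasLayW
  simp only [Finset.mem_union, Finset.mem_image, Finset.mem_range, Nat.lt_succ_iff, Set.mem_ofPred_eq]

/-! ## 3. reversal = exchange of the colours -/

theorem pvas_not_not (s : V → Bool) : pvasNot (pvasNot s) = s := by
  funext v; simp [pvasNot]

theorem pvas_bw_not : pvasBW T (pvasNot s) (T.opp d) ↔ pvasBW T s d := by
  unfold pvasBW pvasNot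
  rw [T.src_opp', T.tgt_opp]
  cases s (T.src d) <;> cases s (T.tgt d) <;> simp

theorem pvas_bw_not' : pvasBW T (pvasNot s) d ↔ pvasBW T s (T.opp d) := by
  rw [← pvas_bw_not (s := s) (d := T.opp d), T.opp_opp]

theorem pvas_occ_not : T.Occ (pvasNot s) d ↔ T.Occ s d := by
  unfold PvMap.Occ pvasNot
  cases s (T.src d) <;> cases s (T.tgt d) <;> simp

/-- the step backwards is the step of the exchanged colouring, read on the opposite darts -/
theorem pvas_back_eq (s : V → Bool) (d : D) : pvasBack T s d = T.opp (pvasStep T (pvasNot s) (T.opp d)) := by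
  rcases pvas_back_cases (T := T) s d with ⟨a, e⟩ | ⟨a, e⟩
  · have h1 : pvasNot s (T.apex (T.opp d)) = false := by simp [pvasNot, a]
    rw [e, pvas_step_white h1, T.opp_opp]
  · have h1 : pvasNot s (T.apex (T.opp d)) = true := by simp [pvasNot, a]
    rw [e, pvas_step_black h1, T.opp_opp]

/-- reversal of one step -/
theorem pvas_step_rev (h : pvasBW T s d) : pvasStep T (pvasNot s) (T.opp (pvasStep T s d)) = T.opp d := by
  have := pvas_back_step h
  rw [pvas_back_eq] at this
  exact T.opp_injective (by rw [this, T.opp_opp])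

/-- **reversal**: the strand of the exchanged colouring from the opposite of the last position runs through the opposites of the positions, backwards -/
theorem pvas_it_rev (h : pvasBW T s d) {i n : ℕ} (hi : i ≤ n) :
    pvasIt T (pvasNot s) (T.opp (pvasIt T s d n)) i = T.opp (pvasIt T s d (n - i)) := by
  induction i with
  | zero => rfl
  | succ i ih =>
    rw [pvas_it_succ, ih (Nat.le_of_succ_le hi)]
    obtain ⟨k, hk⟩ : ∃ k, n - i = k + 1 := ⟨n - i - 1, by omega⟩
    have hk' : n - (i + 1) = k := by omega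
    rw [hk, hk', pvas_it_succ, pvas_step_rev (pvas_it_bw h k)]

/-! ## 4. the stopping set -/

/-- **STOPPING SET**: a colouring which agrees with `s` on the layers of the positions `0..n` has the same positions `0..n` -/
theorem pvas_it_congr {s s' : V → Bool} {d : D} {n : ℕ} (h : ∀ v, v ∈ pvasLayB T s d n ∨ v ∈ pvasLayW T s d n → s' v = s v) :
    ∀ i, i ≤ n → pvasIt T s' d i = pvasIt T s d i := by
  intro i
  induction i with
  | zero => intro _; rfl
  | succ i ih =>
    intro hi
    rw [pvas_it_succ, pvas_it_succ, ih (Nat.le_of_succ_le hi)]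
    have : s' (T.apex (pvasIt T s d i)) = s (T.apex (pvasIt T s d i)) := by
      apply h
      rcases pvas_step_ends s (pvasIt T s d i) with ⟨_, e, _⟩ | ⟨_, _, e⟩
      · exact Or.inl ⟨i + 1, hi, by rw [pvas_it_succ, e]⟩
      · exact Or.inr ⟨i + 1, hi, by rw [pvas_it_succ, e]⟩
    unfold pvasStep
    rw [this]

theorem pvas_lay_congr [DecidableEq V] {s s' : V → Bool} {d : D} {n : ℕ} (h : ∀ v ∈ pvasLay T s d n, s' v = s v) :
    pvasLay T s' d n = pvasLay T s d n := by
  have key := pvas_it_congr (T := T) (s := s) (s' := s') (d := d) (n := n) (fun v hv => h v (pvas_mem_lay.2 hv))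
  unfold pvasLay
  congr 1
  · exact Finset.image_congr fun i hi => by
      have hi' : i ≤ n := Nat.lt_succ_iff.1 (Finset.mem_range.1 (Finset.mem_coe.1 hi))
      show T.src (pvasIt T s' d i) = T.src (pvasIt T s d i)
      rw [key i hi']
  · exact Finset.image_congr fun i hi => by
      have hi' : i ≤ n := Nat.lt_succ_iff.1 (Finset.mem_range.1 (Finset.mem_coe.1 hi))
      show T.tgt (pvasIt T s' d i) = T.tgt (pvasIt T s d i)
      rw [key i hi']

theorem pvas_lay_mono [DecidableEq V] (s : V → Bool) (d : D) {m n : ℕ} (hmn : m ≤ n) : pvasLay T s d m ⊆ pvasLay T s d n := by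
  intro v hv
  rw [pvas_mem_lay] at hv ⊢
  exact hv.imp (fun h => pvas_layB_mono s d hmn h) fun h => pvas_layW_mono s d hmn h

theorem pvas_src_mem_lay [DecidableEq V] (s : V → Bool) (d : D) {i n : ℕ} (hi : i ≤ n) : T.src (pvasIt T s d i) ∈ pvasLay T s d n :=
  pvas_mem_lay.2 (Or.inl ⟨i, hi, rfl⟩)

theorem pvas_tgt_mem_lay [DecidableEq V] (s : V → Bool) (d : D) {i n : ℕ} (hi : i ≤ n) : T.tgt (pvasIt T s d i) ∈ pvasLay T s d n :=
  pvas_mem_lay.2 (Or.inr ⟨i, hi, rfl⟩)

theorem pvas_hit_mem {Z : Set D} (h : ∃ n, pvasIt T s d n ∈ Z) : pvasIt T s d (pvasHit T s d Z) ∈ Z :=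
  Nat.sInf_mem (s := {n | pvasIt T s d n ∈ Z}) h

theorem pvas_hit_min {Z : Set D} {i : ℕ} (h : i < pvasHit T s d Z) : pvasIt T s d i ∉ Z :=
  Nat.notMem_of_lt_sInf (s := {n | pvasIt T s d n ∈ Z}) h

theorem pvas_hit_le {Z : Set D} {n : ℕ} (h : pvasIt T s d n ∈ Z) : pvasHit T s d Z ≤ n :=
  Nat.sInf_le (s := {n | pvasIt T s d n ∈ Z}) h

theorem pvas_hit_eq {Z : Set D} {n : ℕ} (h : pvasIt T s d n ∈ Z) (hmin : ∀ i, i < n → pvasIt T s d i ∉ Z) : pvasHit T s d Z = n := by
  refine le_antisymm (pvas_hit_le h) ?_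
  by_contra hlt
  exact hmin _ (not_le.1 hlt) (pvas_hit_mem ⟨n, h⟩)

/-- a larger target is hit earlier -/
theorem pvas_hit_anti {Z Z' : Set D} (hZ : Z ⊆ Z') (h : ∃ n, pvasIt T s d n ∈ Z) : pvasHit T s d Z' ≤ pvasHit T s d Z :=
  pvas_hit_le (hZ (pvas_hit_mem h))

theorem pvas_hit_congr {s s' : V → Bool} {d : D} {Z : Set D} (hZ : ∃ n, pvasIt T s d n ∈ Z)
    (h : ∀ v, v ∈ pvasLayB T s d (pvasHit T s d Z) ∨ v ∈ pvasLayW T s d (pvasHit T s d Z) → s' v = s v) :
    pvasHit T s' d Z = pvasHit T s d Z := by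
  have key := pvas_it_congr h
  refine pvas_hit_eq ?_ fun i hi => ?_
  · rw [key _ le_rfl]; exact pvas_hit_mem hZ
  · rw [key i hi.le]; exact pvas_hit_min hi

theorem pvas_bw_congr {s s' : V → Bool} {d : D} (h1 : s' (T.src d) = s (T.src d)) (h2 : s' (T.tgt d) = s (T.tgt d)) :
    pvasBW T s' d ↔ pvasBW T s d := by
  unfold pvasBW; rw [h1, h2]

theorem pvas_time_bw {Z : Set D} (h : pvasBW T s d) : pvasTime T d Z s = pvasHit T s d Z := by
  unfold pvasTime; rw [if_pos h]

theorem pvas_time_not {Z : Set D} (h : ¬ pvasBW T s d) : pvasTime T d Z s = 0 := by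
  unfold pvasTime; rw [if_neg h]

/-- the time of the exploration is read off the explored vertices -/
theorem pvas_time_meas [DecidableEq V] (d : D) (Z : Set D) (h : ∀ s, pvasBW T s d → ∃ n, pvasIt T s d n ∈ Z) :
    PvaMeas (pvasExpl T d Z) (pvasTime T d Z) := by
  intro s s' hs
  have h1 : s' (T.src d) = s (T.src d) := hs _ (pvas_src_mem_lay s d (i := 0) (Nat.zero_le _))
  have h2 : s' (T.tgt d) = s (T.tgt d) := hs _ (pvas_tgt_mem_lay s d (i := 0) (Nat.zero_le _))
  have hbw := pvas_bw_congr (T := T) h1 h2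
  by_cases hb : pvasBW T s d
  · rw [pvas_time_bw hb, pvas_time_bw (hbw.2 hb)]
    refine pvas_hit_congr (h s hb) fun v hv => hs v ?_
    unfold pvasExpl
    rw [pvas_time_bw hb]
    exact pvas_mem_lay.2 hv
  · rw [pvas_time_not hb, pvas_time_not (fun h' => hb (hbw.1 h'))]

/-- **the exploration of a strand until it hits `Z` is a STOPPING SET** (in the sense of `Arm/Stop`) -/
theorem pvas_expl_stop [DecidableEq V] (d : D) (Z : Set D) (h : ∀ s, pvasBW T s d → ∃ n, pvasIt T s d n ∈ Z) :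
    PvaStop (pvasExpl T d Z) := by
  intro s s' hs
  have ht := pvas_time_meas d Z h s s' hs
  unfold pvasExpl
  rw [ht]
  exact pvas_lay_congr hs

/-- the explored positions are read off the explored vertices -/
theorem pvas_it_meas [DecidableEq V] (d : D) (Z : Set D) (h : ∀ s, pvasBW T s d → ∃ n, pvasIt T s d n ∈ Z) :
    PvaMeas (pvasExpl T d Z) (fun s i => pvasIt T s d (min i (pvasTime T d Z s))) := by
  intro s s' hs
  have ht := pvas_time_meas d Z h s s' hs
  funext i
  show pvasIt T s' d (min i (pvasTime T d Z s')) = pvasIt T s d (min i (pvasTime T d Z s))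
  rw [ht]
  exact pvas_it_congr (fun v hv => hs v (pvas_mem_lay.2 hv)) _ (min_le_right _ _)

/-- the last position is read off the explored vertices -/
theorem pvas_end_meas [DecidableEq V] (d : D) (Z : Set D) (h : ∀ s, pvasBW T s d → ∃ n, pvasIt T s d n ∈ Z) :
    PvaMeas (pvasExpl T d Z) (fun s => pvasIt T s d (pvasTime T d Z s)) := by
  intro s s' hs
  have := congrFun (pvas_it_meas d Z h s s' hs) (pvasTime T d Z s)
  have ht := pvas_time_meas d Z h s s' hs
  simp only [ht, min_self] at this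
  show pvasIt T s' d (pvasTime T d Z s') = _
  rw [ht]
  exact this

/-- whether `d` is a position is read off the explored vertices -/
theorem pvas_bw_meas [DecidableEq V] (d : D) (Z : Set D) : PvaMeas (pvasExpl T d Z) (fun s => pvasBW T s d) := by
  intro s s' hs
  exact propext (pvas_bw_congr (hs _ (pvas_src_mem_lay s d (i := 0) (Nat.zero_le _))) (hs _ (pvas_tgt_mem_lay s d (i := 0) (Nat.zero_le _))))

/-! ## 5. the pairing in a finite face set -/

variable {A : Set D}

theorem pvas_step_opp_mem (hA : T.FaceSet A) (s : V → Bool) {d : D} : T.opp (pvasStep T s d) ∈ A ↔ d ∈ A :=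
  hA.sf T (pvas_step_sf s d)

/-- an entrance is not the successor of a position inside `A` -/
theorem pvas_in_first (hA : T.FaceSet A) (h : pvasIn T A s d) {k : ℕ} (e : pvasIt T s d' k = d) (hk : ∀ i, i < k → pvasIt T s d' i ∈ A) : k = 0 := by
  by_contra hne
  obtain ⟨j, rfl⟩ : ∃ j, k = j + 1 := ⟨k - 1, by omega⟩
  rw [pvas_it_succ] at e
  apply h.2.1
  rw [← e, pvas_step_opp_mem hA]
  exact hk j (Nat.lt_succ_self j)

/-- **a strand which enters a finite face set leaves it** -/
theorem pvas_exit_exists (hA : T.FaceSet A) (hfin : A.Finite) (h : pvasIn T A s d) : ∃ n, pvasIt T s d n ∈ Aᶜ := by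
  by_contra hn
  have hall : ∀ n, pvasIt T s d n ∈ A := fun n => by
    by_contra hc
    exact hn ⟨n, hc⟩
  have key : ∀ m n, m < n → pvasIt T s d m ≠ pvasIt T s d n := by
    intro m n hmn e
    have h1 := pvas_it_return h.2.2 hmn.le e
    have := pvas_in_first hA h h1 (fun i _ => hall i)
    omega
  have hinj : Function.Injective (fun n => pvasIt T s d n) := by
    intro m n e
    rcases Nat.lt_trichotomy m n with hlt | heq | hlt
    · exact absurd e (key m n hlt)
    · exact heq
    · exact absurd e.symm (key n m hlt)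
  exact (Set.infinite_of_injective_forall_mem hinj hall) hfin

/-- **the exit**: the strand stays in `A` before the time `pvasHit`, and leaves `A` at that time -/
theorem pvas_exit_spec (hA : T.FaceSet A) (hfin : A.Finite) (h : pvasIn T A s d) :
    1 ≤ pvasHit T s d Aᶜ ∧ (∀ i, i < pvasHit T s d Aᶜ → pvasIt T s d i ∈ A) ∧ pvasOut T A s (pvasExit T A s d) := by
  have hex := pvas_exit_exists hA hfin h
  have hmem : pvasIt T s d (pvasHit T s d Aᶜ) ∉ A := pvas_hit_mem hex
  have hmin : ∀ i, i < pvasHit T s d Aᶜ → pvasIt T s d i ∈ A := fun i hi => by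
    by_contra hc
    exact pvas_hit_min hi hc
  have h1 : 1 ≤ pvasHit T s d Aᶜ := by
    by_contra hc
    have h0 : pvasHit T s d Aᶜ = 0 := by omega
    rw [h0] at hmem
    exact hmem h.1
  refine ⟨h1, hmin, hmem, ?_, pvas_it_bw h.2.2 _⟩
  obtain ⟨j, hj⟩ : ∃ j, pvasHit T s d Aᶜ = j + 1 := ⟨pvasHit T s d Aᶜ - 1, by omega⟩
  unfold pvasExit
  rw [hj, pvas_it_succ, pvas_step_opp_mem hA]
  exact hmin j (by omega)

/-- characterisation of the exit -/
theorem pvas_exit_eq {n : ℕ} (h1 : ∀ i, i < n → pvasIt T s d i ∈ A) (h2 : pvasIt T s d n ∉ A) :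
    pvasHit T s d Aᶜ = n ∧ pvasExit T A s d = pvasIt T s d n := by
  have : pvasHit T s d Aᶜ = n := pvas_hit_eq h2 fun i hi hc => hc (h1 i hi)
  exact ⟨this, by unfold pvasExit; rw [this]⟩

/-- the faces crossed before the exit belong to `A` -/
theorem pvas_fc_sub (hA : T.FaceSet A) {n : ℕ} (h : ∀ i, i < n → pvasIt T s d i ∈ A) : pvasFc T s d n ⊆ A := by
  rintro f ⟨i, hi, hf⟩
  exact (hA.sf T hf).2 (h i hi)

/-- the layers up to the exit consist of vertices of faces of `A` -/
theorem pvas_lay_sub (hA : T.FaceSet A) (hfin : A.Finite) (h : pvasIn T A s d) :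
    pvasLayB T s d (pvasHit T s d Aᶜ) ∪ pvasLayW T s d (pvasHit T s d Aᶜ) ⊆ T.VOf A := by
  obtain ⟨h1, h2, _⟩ := pvas_exit_spec hA hfin h
  rw [← pvas_fc_verts s d h1]
  rintro v ⟨f, hf, rfl⟩
  exact ⟨f, pvas_fc_sub hA h2 hf, rfl⟩

/-- **distinct strands of `A` are face-disjoint**, and a strand of `A` crosses a face at most once -/
theorem pvas_disjoint (hA : T.FaceSet A) (h : pvasIn T A s d) (h' : pvasIn T A s d') {i j : ℕ} (hi : ∀ k, k < i → pvasIt T s d k ∈ A)
    (hj : ∀ k, k < j → pvasIt T s d' k ∈ A) (hf : T.SF (pvasIt T s d i) (pvasIt T s d' j)) : d = d' ∧ i = j := by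
  have e := pvas_bw_face (pvas_it_bw h.2.2 i) (pvas_it_bw h'.2.2 j) hf
  rcases Nat.le_total i j with hij | hij
  · obtain ⟨k, rfl⟩ := Nat.exists_eq_add_of_le hij
    rw [Nat.add_comm i k, pvas_it_add] at e
    have e1 := pvas_it_cancel (pvas_it_bw h'.2.2 k) h.2.2 i e
    have hk := pvas_in_first hA h e1 (fun l hl => hj l (by omega))
    subst hk
    exact ⟨e1.symm, by omega⟩
  · obtain ⟨k, rfl⟩ := Nat.exists_eq_add_of_le hij
    rw [Nat.add_comm j k, pvas_it_add] at e
    have e1 := pvas_it_cancel h'.2.2 (pvas_it_bw h.2.2 k) j e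
    have hk := pvas_in_first hA h' e1.symm (fun l hl => hi l (by omega))
    subst hk
    exact ⟨e1.symm, by omega⟩

/-- **reversal of a strand of `A`** -/
theorem pvas_exit_rev (hA : T.FaceSet A) (hfin : A.Finite) (h : pvasIn T A s d) :
    pvasIn T A (pvasNot s) (T.opp (pvasExit T A s d)) ∧ pvasHit T (pvasNot s) (T.opp (pvasExit T A s d)) Aᶜ = pvasHit T s d Aᶜ ∧
      pvasExit T A (pvasNot s) (T.opp (pvasExit T A s d)) = T.opp d := by
  obtain ⟨h1, h2, h3⟩ := pvas_exit_spec hA hfin h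
  have hin : pvasIn T A (pvasNot s) (T.opp (pvasExit T A s d)) := ⟨h3.2.1, by rw [T.opp_opp]; exact h3.1, pvas_bw_not.2 h3.2.2⟩
  have hrev : ∀ i, i ≤ pvasHit T s d Aᶜ → pvasIt T (pvasNot s) (T.opp (pvasExit T A s d)) i = T.opp (pvasIt T s d (pvasHit T s d Aᶜ - i)) :=
    fun i hi => pvas_it_rev h.2.2 hi
  have := pvas_exit_eq (T := T) (A := A) (s := pvasNot s) (d := T.opp (pvasExit T A s d)) (n := pvasHit T s d Aᶜ) (fun i hi => ?_) ?_
  · refine ⟨hin, this.1, ?_⟩
    rw [this.2, hrev _ le_rfl, Nat.sub_self]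
    rfl
  · rw [hrev i hi.le]
    obtain ⟨k, hk⟩ : ∃ k, pvasHit T s d Aᶜ - i = k + 1 := ⟨pvasHit T s d Aᶜ - i - 1, by omega⟩
    rw [hk, pvas_it_succ, pvas_step_opp_mem hA]
    exact h2 k (by omega)
  · rw [hrev _ le_rfl, Nat.sub_self]
    exact h.2.1

theorem pvas_out_not : pvasIn T A (pvasNot s) (T.opp d) ↔ pvasOut T A s d := by
  unfold pvasIn pvasOut
  rw [T.opp_opp, pvas_bw_not]
  tauto

/-- **the strands of `A` match the entrances with the exits** -/
theorem pvas_exit_bij (hA : T.FaceSet A) (hfin : A.Finite) (s : V → Bool) :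
    Set.BijOn (pvasExit T A s) {d | pvasIn T A s d} {d | pvasOut T A s d} := by
  refine ⟨fun d hd => (pvas_exit_spec hA hfin hd).2.2, ?_, ?_⟩
  · intro d hd d' hd' e
    have r1 := (pvas_exit_rev hA hfin hd).2.2
    have r2 := (pvas_exit_rev hA hfin hd').2.2
    rw [e, r2] at r1
    exact (T.opp_injective r1).symm
  · intro d' hd'
    have hin := pvas_out_not.2 hd'
    obtain ⟨r1, _, r3⟩ := pvas_exit_rev hA hfin hin
    rw [pvas_not_not, T.opp_opp] at r3
    rw [pvas_not_not] at r1
    exact ⟨_, r1, r3⟩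

theorem pvas_in_finite (hfin : A.Finite) (s : V → Bool) : {d | pvasIn T A s d}.Finite := hfin.subset fun _ h => h.1

theorem pvas_in_card (hA : T.FaceSet A) (hfin : A.Finite) (s : V → Bool) : {d | pvasIn T A s d}.ncard = {d | pvasOut T A s d}.ncard := by
  have hb := pvas_exit_bij hA hfin s
  rw [← hb.image_eq, hb.injOn.ncard_image]

theorem pvas_bdOcc_cases (h : d ∈ pvasBdOcc T A s) : (pvasBW T s d ∧ pvasIn T A s d) ∨ (¬ pvasBW T s d ∧ pvasIn T A (pvasNot s) d) := by
  obtain ⟨h1, h2, h3⟩ := h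
  by_cases hb : pvasBW T s d
  · exact Or.inl ⟨hb, h1, h2, hb⟩
  · refine Or.inr ⟨hb, h1, h2, pvas_bw_not'.2 ?_⟩
    exact (pvas_occ_iff.1 h3).resolve_left hb

theorem pvas_bdOcc_not : pvasBdOcc T A (pvasNot s) = pvasBdOcc T A s := by
  ext d
  unfold pvasBdOcc
  simp only [Set.mem_ofPred_eq, pvas_occ_not]

theorem pvas_in_bdOcc (h : pvasIn T A s d) : d ∈ pvasBdOcc T A s := ⟨h.1, h.2.1, pvas_bw_occ h.2.2⟩

theorem pvas_mate_bw (h : pvasBW T s d) : pvasMate T A s d = T.opp (pvasExit T A s d) := by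
  unfold pvasMate; rw [if_pos h]

theorem pvas_mate_wb (h : ¬ pvasBW T s d) : pvasMate T A s d = T.opp (pvasExit T A (pvasNot s) d) := by
  unfold pvasMate; rw [if_neg h]

/-- the mate is a bichromatic boundary edge with the colours in the other order -/
theorem pvas_mate_mem (hA : T.FaceSet A) (hfin : A.Finite) (h : d ∈ pvasBdOcc T A s) :
    pvasMate T A s d ∈ pvasBdOcc T A s ∧ (pvasBW T s (pvasMate T A s d) ↔ ¬ pvasBW T s d) := by
  rcases pvas_bdOcc_cases h with ⟨hb, hin⟩ | ⟨hb, hin⟩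
  · obtain ⟨r1, _, _⟩ := pvas_exit_rev hA hfin hin
    rw [pvas_mate_bw hb]
    refine ⟨by rw [← pvas_bdOcc_not]; exact pvas_in_bdOcc r1, ?_⟩
    have := (pvas_exit_spec hA hfin hin).2.2.2.2
    exact ⟨fun h' => absurd h' (pvas_bw_not_opp this), fun h' => absurd hb h'⟩
  · obtain ⟨r1, _, _⟩ := pvas_exit_rev hA hfin hin
    rw [pvas_not_not] at r1
    rw [pvas_mate_wb hb]
    exact ⟨pvas_in_bdOcc r1, fun _ => hb, fun _ => r1.2.2⟩

/-- **the pairing is an involution** -/
theorem pvas_mate_mate (hA : T.FaceSet A) (hfin : A.Finite) (h : d ∈ pvasBdOcc T A s) : pvasMate T A s (pvasMate T A s d) = d := by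
  have hm := (pvas_mate_mem hA hfin h).2
  rcases pvas_bdOcc_cases h with ⟨hb, hin⟩ | ⟨hb, hin⟩
  · have hn : ¬ pvasBW T s (pvasMate T A s d) := fun h' => hm.1 h' hb
    rw [pvas_mate_wb hn, pvas_mate_bw hb, (pvas_exit_rev hA hfin hin).2.2, T.opp_opp]
  · have hn : pvasBW T s (pvasMate T A s d) := hm.2 hb
    have r := (pvas_exit_rev hA hfin hin).2.2
    rw [pvas_not_not] at r
    rw [pvas_mate_bw hn, pvas_mate_wb hb, r, T.opp_opp]

/-- **the pairing has no fixed point**: a strand leaves through ANOTHER edge -/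
theorem pvas_mate_ne (hA : T.FaceSet A) (hfin : A.Finite) (h : d ∈ pvasBdOcc T A s) : pvasMate T A s d ≠ d := by
  intro e
  have hm := (pvas_mate_mem hA hfin h).2
  rw [e] at hm
  tauto

/-- the strand between an edge and its mate -/
theorem pvas_mate_strand (hA : T.FaceSet A) (hfin : A.Finite) (h : pvasIn T A s d) :
    ∃ n, 1 ≤ n ∧ (∀ i, i < n → pvasIt T s d i ∈ A) ∧ pvasIt T s d n = T.opp (pvasMate T A s d) := by
  obtain ⟨h1, h2, _⟩ := pvas_exit_spec hA hfin h
  exact ⟨_, h1, h2, by rw [pvas_mate_bw h.2.2, T.opp_opp]; rfl⟩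

/-- **the number of bichromatic boundary edges of a finite face set is even** -/
theorem pvas_bdOcc_even (hA : T.FaceSet A) (hfin : A.Finite) (s : V → Bool) : (pvasBdOcc T A s).ncard = 2 * {d | pvasIn T A s d}.ncard := by
  have hI := pvas_in_finite (T := T) hfin s
  have e : pvasBdOcc T A s = {d | pvasIn T A s d} ∪ pvasMate T A s '' {d | pvasIn T A s d} := by
    ext d
    constructor
    · intro hd
      rcases pvas_bdOcc_cases hd with ⟨_, hin⟩ | ⟨hb, _⟩
      · exact Or.inl hin
      · obtain ⟨m1, m2⟩ := pvas_mate_mem hA hfin hd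
        exact Or.inr ⟨pvasMate T A s d, ⟨m1.1, m1.2.1, m2.2 hb⟩, pvas_mate_mate hA hfin hd⟩
    · rintro (hd | ⟨d0, hd0, rfl⟩)
      · exact pvas_in_bdOcc hd
      · exact (pvas_mate_mem hA hfin (pvas_in_bdOcc hd0)).1
  have hdis : Disjoint {d | pvasIn T A s d} (pvasMate T A s '' {d | pvasIn T A s d}) := by
    rw [Set.disjoint_left]
    rintro d hd ⟨d0, hd0, rfl⟩
    exact ((pvas_mate_mem hA hfin (pvas_in_bdOcc hd0)).2.1 hd.2.2) hd0.2.2
  have hinj : Set.InjOn (pvasMate T A s) {d | pvasIn T A s d} := by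
    intro a ha b hb e
    rw [← pvas_mate_mate hA hfin (pvas_in_bdOcc ha), e, pvas_mate_mate hA hfin (pvas_in_bdOcc hb)]
  rw [e, Set.ncard_union_eq hdis hI (hI.image _), hinj.ncard_image]
  omega

/-- **exactly two colour changes**: the strand which enters by one of them leaves by the other -/
theorem pvas_two (hA : T.FaceSet A) (hfin : A.Finite) {e₁ e₂ : D} (h : pvasBdOcc T A s = {e₁, e₂}) : pvasMate T A s e₁ = e₂ := by
  have h1 : e₁ ∈ pvasBdOcc T A s := by rw [h]; exact Set.mem_insert _ _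
  have hm := (pvas_mate_mem hA hfin h1).1
  rw [h] at hm
  rcases hm with hm | hm
  · exact absurd hm (pvas_mate_ne hA hfin h1)
  · exact hm

/-- the same in terms of the positions -/
theorem pvas_two_strand (hA : T.FaceSet A) (hfin : A.Finite) {e₁ e₂ : D} (h : pvasBdOcc T A s = {e₁, e₂}) (hb : pvasBW T s e₁) :
    ∃ n, 1 ≤ n ∧ (∀ i, i < n → pvasIt T s e₁ i ∈ A) ∧ pvasIt T s e₁ n = T.opp e₂ := by
  have h1 : e₁ ∈ pvasBdOcc T A s := by rw [h]; exact Set.mem_insert _ _
  have := pvas_mate_strand hA hfin (s := s) (d := e₁) ⟨h1.1, h1.2.1, hb⟩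
  rwa [pvas_two hA hfin h] at this

/-- locality: the strands of `A` only read the colours of the vertices of `A` -/
theorem pvas_exit_congr (hA : T.FaceSet A) (hfin : A.Finite) {s s' : V → Bool} (hs : ∀ v ∈ T.VOf A, s' v = s v) (h : pvasIn T A s d) :
    pvasIn T A s' d ∧ pvasHit T s' d Aᶜ = pvasHit T s d Aᶜ ∧ pvasExit T A s' d = pvasExit T A s d ∧
      ∀ i, i ≤ pvasHit T s d Aᶜ → pvasIt T s' d i = pvasIt T s d i := by
  have hsub := pvas_lay_sub hA hfin h
  have hag : ∀ v, v ∈ pvasLayB T s d (pvasHit T s d Aᶜ) ∨ v ∈ pvasLayW T s d (pvasHit T s d Aᶜ) → s' v = s v := fun v hv => hs v (hsub hv)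
  have hh := pvas_hit_congr (pvas_exit_exists hA hfin h) hag
  have hit := pvas_it_congr hag
  refine ⟨⟨h.1, h.2.1, ?_⟩, hh, ?_, hit⟩
  · exact (pvas_bw_congr (hag _ (Or.inl ⟨0, Nat.zero_le _, rfl⟩)) (hag _ (Or.inr ⟨0, Nat.zero_le _, rfl⟩))).2 h.2.2
  · unfold pvasExit
    rw [hh, hit _ le_rfl]

/-- the exploration from a boundary dart of a finite face set, until a target which contains the complement, is a stopping set -/
theorem pvas_expl_stop_in [DecidableEq V] (hA : T.FaceSet A) (hfin : A.Finite) (hd : d ∈ A) (hd' : T.opp d ∉ A) {Z : Set D} (hZ : Aᶜ ⊆ Z) :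
    PvaStop (pvasExpl T d Z) :=
  pvas_expl_stop d Z fun s hs => (pvas_exit_exists hA hfin ⟨hd, hd', hs⟩).imp fun _ h => hZ h

/-! ## 6. bridge to `Arm/NonCross` (helper42): the two vocabularies are the same -/

theorem pvas_bw_iff_ok : pvasBW T s d ↔ pvanOk T s d := Iff.rfl

theorem pvas_step_eq_pvan (s : V → Bool) (d : D) : pvasStep T s d = pvanStep T s d := rfl

theorem pvas_back_eq_pvan (s : V → Bool) (d : D) : pvasBack T s d = pvanBack T s d := rfl

/-- the strand of `A` which enters at `d`, as a record of `Arm/NonCross` -/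
noncomputable def pvasStr (hA : T.FaceSet A) (hfin : A.Finite) (h : pvasIn T A s d) : PvanStr T s A where
  n := pvasHit T s d Aᶜ
  e := pvasIt T s d
  pos := (pvas_exit_spec hA hfin h).1
  ok0 := h.2.2
  step := fun k _ => pvas_it_succ s d k
  mem := (pvas_exit_spec hA hfin h).2.1
  ent := h.2.1
  ext := (pvas_exit_spec hA hfin h).2.2.1

theorem pvas_str_eqns_cite : True := by
  have := @pvasStr.eq_1
  trivial

theorem pvas_str_in (γ : PvanStr T s A) : pvasIn T A s (γ.e 0) := ⟨γ.mem 0 γ.pos, γ.ent, γ.ok0⟩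

theorem pvas_str_it (γ : PvanStr T s A) : ∀ k, k ≤ γ.n → γ.e k = pvasIt T s (γ.e 0) k := by
  intro k
  induction k with
  | zero => intro _; rfl
  | succ k ih =>
    intro hk
    rw [γ.step k hk, pvas_it_succ, ← ih (Nat.le_of_succ_le hk)]
    rfl

theorem pvas_str_hit (γ : PvanStr T s A) : pvasHit T s (γ.e 0) Aᶜ = γ.n ∧ pvasExit T A s (γ.e 0) = γ.e γ.n := by
  have := pvas_exit_eq (T := T) (A := A) (s := s) (d := γ.e 0) (n := γ.n) (fun i hi => by rw [← pvas_str_it γ i hi.le]; exact γ.mem i hi)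
    (by rw [← pvas_str_it γ _ le_rfl]; exact γ.ext)
  exact ⟨this.1, by rw [this.2, ← pvas_str_it γ _ le_rfl]⟩

theorem pvas_str_mate (γ : PvanStr T s A) : pvasMate T A s (γ.e 0) = T.opp (γ.e γ.n) := by
  rw [pvas_mate_bw γ.ok0, (pvas_str_hit γ).2]

theorem pvas_str_layB (γ : PvanStr T s A) : γ.LayB = pvasLayB T s (γ.e 0) γ.n := by
  ext v
  constructor
  · rintro ⟨k, hk, rfl⟩
    exact ⟨k, hk, by rw [pvas_str_it γ k hk]⟩
  · rintro ⟨k, hk, rfl⟩
    exact ⟨k, hk, by rw [pvas_str_it γ k hk]⟩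

theorem pvas_str_layW (γ : PvanStr T s A) : γ.LayW = pvasLayW T s (γ.e 0) γ.n := by
  ext v
  constructor
  · rintro ⟨k, hk, rfl⟩
    exact ⟨k, hk, by rw [pvas_str_it γ k hk]⟩
  · rintro ⟨k, hk, rfl⟩
    exact ⟨k, hk, by rw [pvas_str_it γ k hk]⟩

theorem pvas_str_vis (γ : PvanStr T s A) (f : D) : γ.Vis f ↔ f ∈ pvasFc T s (γ.e 0) γ.n := by
  constructor
  · rintro ⟨k, hk, h⟩
    exact ⟨k, hk, by rw [← pvas_str_it γ k hk.le]; exact h⟩
  · rintro ⟨k, hk, h⟩
    exact ⟨k, hk, by rw [pvas_str_it γ k hk.le]; exact h⟩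

/-- **stopping set for the records**: a colouring which agrees with `s` on the two layers of `γ` has the same strand -/
theorem pvas_str_congr (γ : PvanStr T s A) {s' : V → Bool} (h : ∀ v, v ∈ γ.LayB ∨ v ∈ γ.LayW → s' v = s v) :
    ∃ γ' : PvanStr T s' A, γ'.n = γ.n ∧ ∀ k, k ≤ γ.n → γ'.e k = γ.e k := by
  rw [pvas_str_layB, pvas_str_layW] at h
  have key := pvas_it_congr h
  refine ⟨⟨γ.n, pvasIt T s' (γ.e 0), γ.pos, ?_, fun k _ => pvas_it_succ s' _ k, fun k hk => ?_, γ.ent, ?_⟩, rfl, fun k hk => ?_⟩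
  · exact (pvas_bw_congr (h _ (Or.inl ⟨0, Nat.zero_le _, rfl⟩)) (h _ (Or.inr ⟨0, Nat.zero_le _, rfl⟩))).2 γ.ok0
  · rw [key k hk.le, ← pvas_str_it γ k hk.le]; exact γ.mem k hk
  · rw [key _ le_rfl, ← pvas_str_it γ _ le_rfl]; exact γ.ext
  · show pvasIt T s' (γ.e 0) k = γ.e k
    rw [key k hk, ← pvas_str_it γ k hk]

end Claimed.Agent.R289
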