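-- KEEP
import Claimed.Agent.R289.Tr.S5Kit

/-!
# Row 289 (S0537), unit PINS (TR16, gate density): MODEL-FREE PEIERLS WITH A FRACTION OF BAD BLOCKS AND AN AUXILIARY EVENT.      Prefix `pvag_`, `Pvag`, `pvag`.      helper281.      0 sorry.
Notes: `origin/helper273:notes/R289/PIN_273.md` sec. 6 AG (iv)-(vi), `origin/helper281:notes/R289/A6_281.md` (G6).      Vocabulary of `Tr/S5Kit` (helper3): `Pv5Chain`, `pv5Dist`.

A  enumeration of the chains of a graph of bounded degree                                   `pvagPaths`, `pvag_paths_card`, `pvag_paths_mem`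
B  separated subsets of `ℤ × ℤ` (residue classes)                                           `PvagSep`, `pvag_sep_exists`
C  ABSTRACT PEIERLS LEMMA (any graph of bounded degree, outer measure)                      `pvag_peierls`
D  the square lattice: `pvag_peierls_sq`, **`pvag_peierls_frac`** (EXIT, on `Pv5Chain`), `pvag_peierls_frac'` (`A = univ`), `pvag_chain_good`, `pvag_two_reasons` (pigeonhole of AG (vi))
E  **`pvag_select`** = G7 = (H) HIERARCHICAL SELECTION (`pvag_light_visit`, `pvag_level` = one level)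
   kit for lazy king walks: coarse graining `pvagCg` (`pvag_cg_near`, `pvag_cg_far`, `pvag_cg_gap`, `pvag_cg_cg`), discrete intermediate values `pvag_ivt`, first exits in either time direction `pvag_exit`
-/

set_option autoImplicit false

namespace Claimed.Agent.R289

open MeasureTheory

/-! ## A. chains of a graph of bounded degree -/

section enum

variable {V : Type} [DecidableEq V]

/-- the lists `v :: ..` with `n + 1` entries which follow the neighbour map `N` -/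
def pvagPaths (N : V → Finset V) : ℕ → V → Finset (List V)
  | 0, v => {[v]}
  | n + 1, v => (N v).biUnion fun u => (pvagPaths N n u).image fun l => v :: l

theorem pvagPaths_eqns_cite (N : V → Finset V) (n : ℕ) (v : V) :
    pvagPaths N 0 v = {[v]} ∧ pvagPaths N (n + 1) v = (N v).biUnion fun u => (pvagPaths N n u).image fun l => v :: l := ⟨rfl, rfl⟩

theorem pvag_paths_card (N : V → Finset V) (Δ : ℕ) (hN : ∀ v, (N v).card ≤ Δ) (n : ℕ) (v : V) : (pvagPaths N n v).card ≤ Δ ^ n := by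
  induction n generalizing v with
  | zero => simp [pvagPaths]
  | succ n ih =>
    have h1 : (pvagPaths N (n + 1) v).card ≤ (N v).card * Δ ^ n :=
      Finset.card_biUnion_le_card_mul _ _ _ fun u _ => Finset.card_image_le.trans (ih u)
    calc _ ≤ (N v).card * Δ ^ n := h1
      _ ≤ Δ * Δ ^ n := Nat.mul_le_mul_right _ (hN v)
      _ = Δ ^ (n + 1) := by rw [pow_succ, mul_comm]

theorem pvag_paths_mem (N : V → Finset V) (l : List V) (v : V) (hl : List.IsChain (fun a b => b ∈ N a) (v :: l)) :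
    (v :: l) ∈ pvagPaths N l.length v := by
  induction l generalizing v with
  | nil => simp [pvagPaths]
  | cons u l ih =>
    rw [List.isChain_cons_cons] at hl
    simp only [List.length_cons, pvagPaths, Finset.mem_biUnion, Finset.mem_image]
    exact ⟨u, hl.1, u :: l, ih u hl.2, rfl⟩

theorem pvag_paths_len (N : V → Finset V) (n : ℕ) (v : V) (l : List V) (hl : l ∈ pvagPaths N n v) : l.length = n + 1 := by
  induction n generalizing v l with
  | zero =>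
    simp only [pvagPaths, Finset.mem_singleton] at hl
    subst hl; rfl
  | succ n ih =>
    simp only [pvagPaths, Finset.mem_biUnion, Finset.mem_image] at hl
    obtain ⟨u, -, l', hl', rfl⟩ := hl
    simp [ih u l' hl']

end enum

/-! ## B. separated subsets of `ℤ × ℤ` -/

/-- two distinct points of `I` differ by at least `D` in one coordinate -/
def PvagSep (D : ℕ) (I : Finset (ℤ × ℤ)) : Prop :=
  ∀ a ∈ I, ∀ b ∈ I, a ≠ b → (D : ℤ) ≤ |a.1 - b.1| ∨ (D : ℤ) ≤ |a.2 - b.2|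

theorem pvag_sep_mod {D : ℕ} {x y : ℤ} (h : x % D = y % D) (hne : x ≠ y) : (D : ℤ) ≤ |x - y| := by
  have h1 : (D : ℤ) ∣ x - y := Int.ModEq.dvd (Int.ModEq.symm h) |> fun h => by simpa using h
  have h2 : x - y ≠ 0 := sub_ne_zero.2 hne
  have h3 := Int.le_of_dvd (abs_pos.2 h2) ((dvd_abs _ _).2 h1)
  exact h3

theorem pvag_sep_exists (D : ℕ) (hD : 0 < D) (S : Finset (ℤ × ℤ)) : ∃ I ⊆ S, PvagSep D I ∧ S.card ≤ D ^ 2 * I.card := by
  classical
  set t : Finset (ℤ × ℤ) := Finset.Ico (0 : ℤ) D ×ˢ Finset.Ico (0 : ℤ) D with ht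
  set f : ℤ × ℤ → ℤ × ℤ := fun a => (a.1 % D, a.2 % D) with hf
  have hD' : (0 : ℤ) < D := by exact_mod_cast hD
  have hmap : ∀ a ∈ S, f a ∈ t := by
    intro a _
    simp only [ht, hf, Finset.mem_product, Finset.mem_Ico]
    exact ⟨⟨Int.emod_nonneg _ hD'.ne', Int.emod_lt_of_pos _ hD'⟩, ⟨Int.emod_nonneg _ hD'.ne', Int.emod_lt_of_pos _ hD'⟩⟩
  have htc : t.card = D ^ 2 := by simp [ht, sq]
  have hne : t.Nonempty := ⟨(0, 0), by simp [ht, hD]⟩
  obtain ⟨y, hy, hmax⟩ := Finset.exists_max_image t (fun y => (S.filter fun a => f a = y).card) hne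
  refine ⟨S.filter fun a => f a = y, Finset.filter_subset _ _, ?_, ?_⟩
  · intro a ha b hb hab
    have ea := (Finset.mem_filter.1 ha).2
    have eb := (Finset.mem_filter.1 hb).2
    have e : f a = f b := ea.trans eb.symm
    have e1 : a.1 % D = b.1 % D := congrArg Prod.fst e
    have e2 : a.2 % D = b.2 % D := congrArg Prod.snd e
    by_cases h1 : a.1 = b.1
    · right
      exact pvag_sep_mod e2 fun h2 => hab (Prod.ext h1 h2)
    · left
      exact pvag_sep_mod e1 h1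
  · rw [Finset.card_eq_sum_card_fiberwise (f := f) (t := t) hmap, ← htc]
    calc ∑ b ∈ t, (S.filter fun a => f a = b).card ≤ ∑ _b ∈ t, (S.filter fun a => f a = y).card := Finset.sum_le_sum hmax
      _ = t.card * (S.filter fun a => f a = y).card := by rw [Finset.sum_const, smul_eq_mul]

theorem PvagSep.mono {D : ℕ} {I J : Finset (ℤ × ℤ)} (h : PvagSep D J) (hIJ : I ⊆ J) : PvagSep D I :=
  fun a ha b hb hab => h a (hIJ ha) b (hIJ hb) hab

/-! ## C. the abstract Peierls lemma -/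

section peierls

variable {Ω : Type} [MeasurableSpace Ω] {V : Type} [DecidableEq V]

/-- the event: a chain of `k + 1` distinct sites starting in `W` contains `m` bad sites -/
def pvagChainEv (N : V → Finset V) (Bad : V → Set Ω) (W : Finset V) (k m : ℕ) : Set Ω :=
  {ω | ∃ (v : V) (l : List V), v ∈ W ∧ l.length = k ∧ (v :: l).Nodup ∧ List.IsChain (fun a b => b ∈ N a) (v :: l) ∧
    ∃ S : Finset V, (∀ b ∈ S, b ∈ v :: l ∧ ω ∈ Bad b) ∧ m ≤ S.card}

omit [MeasurableSpace Ω] [DecidableEq V] in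
theorem pvagChainEv_eqns_cite (N : V → Finset V) (Bad : V → Set Ω) (W : Finset V) (k m : ℕ) (ω : Ω) :
    ω ∈ pvagChainEv N Bad W k m ↔ ∃ (v : V) (l : List V), v ∈ W ∧ l.length = k ∧ (v :: l).Nodup ∧ List.IsChain (fun a b => b ∈ N a) (v :: l) ∧
      ∃ S : Finset V, (∀ b ∈ S, b ∈ v :: l ∧ ω ∈ Bad b) ∧ m ≤ S.card := Iff.rfl

/-- G6.  `A` = an auxiliary event (`univ` in the annealed use; "the strand of the dart `e` crosses the annulus" in the quenched use), `a` its cost.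
`Sep` = any notion of separation with a selection lemma of constant `C0`; `hind` = the only probabilistic input. -/
theorem pvag_peierls (μ : Measure Ω) (N : V → Finset V) (Δ : ℕ) (hN : ∀ v, (N v).card ≤ Δ)
    (Sep : Finset V → Prop) (C0 : ℕ) (hsel : ∀ S : Finset V, ∃ I ⊆ S, Sep I ∧ S.card ≤ C0 * I.card)
    (Bad : V → Set Ω) (A : Set Ω) (a p : ENNReal) (hp : p ≤ 1)
    (hind : ∀ I : Finset V, Sep I → μ (A ∩ ⋂ b ∈ I, Bad b) ≤ a * p ^ I.card)
    (W : Finset V) (k m : ℕ) :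
    μ (A ∩ pvagChainEv N Bad W k m) ≤ (W.card * Δ ^ k * 2 ^ (k + 1) : ℕ) * (a * p ^ (m / C0)) := by
  classical
  -- the index set of the union bound
  set Idx : Finset (List V × Finset V) := (W.biUnion fun v => pvagPaths N k v).biUnion fun l => (l.toFinset.powerset.filter fun S => m ≤ S.card).image fun S => (l, S) with hIdx
  have hcard : Idx.card ≤ W.card * Δ ^ k * 2 ^ (k + 1) := by
    have h1 : (W.biUnion fun v => pvagPaths N k v).card ≤ W.card * Δ ^ k :=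
      Finset.card_biUnion_le_card_mul _ _ _ fun v _ => pvag_paths_card N Δ hN k v
    have h2 : Idx.card ≤ (W.biUnion fun v => pvagPaths N k v).card * 2 ^ (k + 1) := by
      refine Finset.card_biUnion_le_card_mul _ _ _ fun l hl => ?_
      obtain ⟨v, -, hv⟩ := Finset.mem_biUnion.1 hl
      have h3 := pvag_paths_len N k v l hv
      calc _ ≤ (l.toFinset.powerset.filter fun S => m ≤ S.card).card := Finset.card_image_le
        _ ≤ l.toFinset.powerset.card := Finset.card_filter_le _ _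
        _ = 2 ^ l.toFinset.card := Finset.card_powerset _
        _ ≤ 2 ^ (k + 1) := Nat.pow_le_pow_right (by norm_num) (h3 ▸ List.toFinset_card_le l)
    exact h2.trans (Nat.mul_le_mul_right _ h1)
  have hsub : A ∩ pvagChainEv N Bad W k m ⊆ ⋃ i ∈ Idx, (A ∩ ⋂ b ∈ i.2, Bad b) := by
    rintro ω ⟨hA, v, l, hv, hl, -, hch, S, hS, hm⟩
    simp only [Set.mem_iUnion, exists_prop]
    refine ⟨(v :: l, S), ?_, hA, ?_⟩
    · simp only [hIdx, Finset.mem_biUnion, Finset.mem_image, Finset.mem_filter, Finset.mem_powerset]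
      refine ⟨v :: l, ⟨v, hv, hl ▸ pvag_paths_mem N l v hch⟩, S, ⟨fun b hb => ?_, hm⟩, rfl⟩
      exact List.mem_toFinset.2 (hS b hb).1
    · simp only [Set.mem_iInter]
      exact fun b hb => (hS b hb).2
  have hone : ∀ i ∈ Idx, μ (A ∩ ⋂ b ∈ i.2, Bad b) ≤ a * p ^ (m / C0) := by
    intro i hi
    simp only [hIdx, Finset.mem_biUnion, Finset.mem_image, Finset.mem_filter, Finset.mem_powerset] at hi
    obtain ⟨l, -, S, ⟨-, hm⟩, rfl⟩ := hi
    obtain ⟨I, hIS, hI, hc⟩ := hsel S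
    have h1 : μ (A ∩ ⋂ b ∈ S, Bad b) ≤ μ (A ∩ ⋂ b ∈ I, Bad b) := by
      refine measure_mono (Set.inter_subset_inter_right _ ?_)
      exact Set.biInter_subset_biInter_left fun b hb => hIS hb
    have h2 : m / C0 ≤ I.card := by
      rcases Nat.eq_zero_or_pos C0 with h0 | h0
      · simp [h0]
      · exact (Nat.div_le_iff_le_mul_add_pred h0).2 (by nlinarith [hm.trans hc])
    exact h1.trans ((hind I hI).trans (mul_le_mul_right (pow_le_pow_right_of_le_one' hp h2) _))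
  calc μ (A ∩ pvagChainEv N Bad W k m) ≤ μ (⋃ i ∈ Idx, (A ∩ ⋂ b ∈ i.2, Bad b)) := measure_mono hsub
    _ ≤ ∑ i ∈ Idx, μ (A ∩ ⋂ b ∈ i.2, Bad b) := measure_biUnion_finset_le _ _
    _ ≤ ∑ _i ∈ Idx, a * p ^ (m / C0) := Finset.sum_le_sum hone
    _ = (Idx.card : ENNReal) * (a * p ^ (m / C0)) := by rw [Finset.sum_const, nsmul_eq_mul]
    _ ≤ _ := mul_le_mul_left (by exact_mod_cast hcard) _

end peierls

/-! ## D. king walks in `ℤ × ℤ`, coarse graining -/

/-- sup distance at most `r` -/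
def PvagNear (r : ℤ) (a b : ℤ × ℤ) : Prop := |a.1 - b.1| ≤ r ∧ |a.2 - b.2| ≤ r

/-- sup distance at least `r` -/
def PvagFar (r : ℤ) (a b : ℤ × ℤ) : Prop := r ≤ |a.1 - b.1| ∨ r ≤ |a.2 - b.2|

/-- a lazy king walk on the time interval `[s, t]` -/
def PvagWalk (w : ℕ → ℤ × ℤ) (s t : ℕ) : Prop := ∀ τ, s ≤ τ → τ < t → PvagNear 1 (w τ) (w (τ + 1))

/-- index of the box of side `A` containing the unit box `a` -/
def pvagCg (A : ℕ) (a : ℤ × ℤ) : ℤ × ℤ := (a.1 / A, a.2 / A)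

/-- the eight neighbours -/
noncomputable def pvagNb (v : ℤ × ℤ) : Finset (ℤ × ℤ) := (Finset.Icc (v.1 - 1) (v.1 + 1) ×ˢ Finset.Icc (v.2 - 1) (v.2 + 1)).erase v

theorem pvagNear_eqns_cite (r : ℤ) (a b : ℤ × ℤ) : PvagNear r a b ↔ |a.1 - b.1| ≤ r ∧ |a.2 - b.2| ≤ r := Iff.rfl

theorem pvagFar_eqns_cite (r : ℤ) (a b : ℤ × ℤ) : PvagFar r a b ↔ r ≤ |a.1 - b.1| ∨ r ≤ |a.2 - b.2| := Iff.rfl

theorem pvagWalk_eqns_cite (w : ℕ → ℤ × ℤ) (s t : ℕ) : PvagWalk w s t ↔ ∀ τ, s ≤ τ → τ < t → PvagNear 1 (w τ) (w (τ + 1)) := Iff.rfl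

theorem pvagCg_eqns_cite (A : ℕ) (a : ℤ × ℤ) : pvagCg A a = (a.1 / A, a.2 / A) := rfl

theorem pvagNb_eqns_cite (v : ℤ × ℤ) : pvagNb v = (Finset.Icc (v.1 - 1) (v.1 + 1) ×ˢ Finset.Icc (v.2 - 1) (v.2 + 1)).erase v := rfl

theorem PvagNear.symm {r : ℤ} {a b : ℤ × ℤ} (h : PvagNear r a b) : PvagNear r b a :=
  ⟨by rw [abs_sub_comm]; exact h.1, by rw [abs_sub_comm]; exact h.2⟩

theorem PvagFar.symm {r : ℤ} {a b : ℤ × ℤ} (h : PvagFar r a b) : PvagFar r b a := by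
  unfold PvagFar at *
  rwa [abs_sub_comm b.1, abs_sub_comm b.2]

theorem PvagFar.mono {r r' : ℤ} {a b : ℤ × ℤ} (h : PvagFar r a b) (hr : r' ≤ r) : PvagFar r' a b :=
  h.imp (fun h => hr.trans h) fun h => hr.trans h

theorem pvag_not_near {r : ℤ} {a b : ℤ × ℤ} : ¬ PvagNear r a b ↔ PvagFar (r + 1) a b := by
  unfold PvagNear PvagFar
  rw [not_and_or, not_le, not_le]
  exact Iff.rfl

theorem PvagNear.trans {r r' : ℤ} {a b c : ℤ × ℤ} (h : PvagNear r a b) (h' : PvagNear r' b c) : PvagNear (r + r') a c := by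
  unfold PvagNear at *
  simp only [abs_le] at *
  constructor <;> constructor <;> omega

theorem PvagWalk.mono {w : ℕ → ℤ × ℤ} {s t s' t' : ℕ} (h : PvagWalk w s t) (hs : s ≤ s') (ht : t' ≤ t) : PvagWalk w s' t' :=
  fun τ h1 h2 => h τ (hs.trans h1) (h2.trans_le ht)

theorem pvag_nb_mem {v u : ℤ × ℤ} : u ∈ pvagNb v ↔ u ≠ v ∧ PvagNear 1 v u := by
  unfold pvagNb PvagNear
  simp only [Finset.mem_erase, Finset.mem_product, Finset.mem_Icc, abs_le]
  constructor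
  · rintro ⟨h0, ⟨h1, h2⟩, h3, h4⟩
    exact ⟨h0, ⟨by omega, by omega⟩, by omega, by omega⟩
  · rintro ⟨h0, ⟨h1, h2⟩, h3, h4⟩
    exact ⟨h0, ⟨by omega, by omega⟩, by omega, by omega⟩

theorem pvag_nb_card (v : ℤ × ℤ) : (pvagNb v).card ≤ 8 := by
  have hv : v ∈ Finset.Icc (v.1 - 1) (v.1 + 1) ×ˢ Finset.Icc (v.2 - 1) (v.2 + 1) := by
    simp only [Finset.mem_product, Finset.mem_Icc]
    exact ⟨⟨by omega, by omega⟩, by omega, by omega⟩
  rw [pvagNb, Finset.card_erase_of_mem hv, Finset.card_product, Int.card_Icc, Int.card_Icc]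
  have e1 : v.1 + 1 + 1 - (v.1 - 1) = 3 := by ring
  have e2 : v.2 + 1 + 1 - (v.2 - 1) = 3 := by ring
  rw [e1, e2]
  decide

/-- G6 on the square lattice with king moves: `D`-separated families cost `p` per site -/
theorem pvag_peierls_sq {Ω : Type} [MeasurableSpace Ω] (μ : Measure Ω) (D : ℕ) (hD : 0 < D)
    (Bad : ℤ × ℤ → Set Ω) (A : Set Ω) (a p : ENNReal) (hp : p ≤ 1)
    (hind : ∀ I : Finset (ℤ × ℤ), PvagSep D I → μ (A ∩ ⋂ b ∈ I, Bad b) ≤ a * p ^ I.card)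
    (W : Finset (ℤ × ℤ)) (k m : ℕ) :
    μ (A ∩ pvagChainEv pvagNb Bad W k m) ≤ (W.card * 8 ^ k * 2 ^ (k + 1) : ℕ) * (a * p ^ (m / D ^ 2)) :=
  pvag_peierls μ pvagNb 8 pvag_nb_card (PvagSep D) (D ^ 2) (pvag_sep_exists D hD) Bad A a p hp hind W k m

/-- off the event with `m = k + 1` every chain has a site which is not bad -/
theorem pvag_chain_good {Ω : Type} {V : Type} {N : V → Finset V} {Bad : V → Set Ω} {W : Finset V} {k : ℕ} {ω : Ω}
    (hω : ω ∉ pvagChainEv N Bad W k (k + 1)) {v : V} {l : List V} (hv : v ∈ W) (hl : l.length = k) (hnd : (v :: l).Nodup)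
    (hch : List.IsChain (fun a b => b ∈ N a) (v :: l)) : ∃ c ∈ v :: l, ω ∉ Bad c := by
  classical
  by_contra hcon
  push Not at hcon
  refine hω ⟨v, l, hv, hl, hnd, hch, (v :: l).toFinset, fun b hb => ?_, ?_⟩
  · have hb' := List.mem_toFinset.1 hb
    exact ⟨hb', hcon b hb'⟩
  · rw [List.toFinset_card_of_nodup hnd]
    simp [hl]

/-! ### the same on the vocabulary of `Tr/S5Kit` (`Pv5Chain`, `pv5Dist`) -/

theorem pvag_sep_iff {D : ℕ} {I : Finset (ℤ × ℤ)} : PvagSep D I ↔ ∀ x ∈ I, ∀ y ∈ I, x ≠ y → (D : ℤ) ≤ pv5Dist x y := by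
  unfold PvagSep pv5Dist
  simp only [le_max_iff]

/-- the list of the blocks of a chain -/
theorem pvag_chain_list {k : ℕ} {c : ℕ → ℤ × ℤ} (hc : Pv5Chain k c) :
    ((List.range k).map fun i => c (i + 1)).length = k ∧ (c 0 :: (List.range k).map fun i => c (i + 1)).Nodup ∧
      List.IsChain (fun a b => b ∈ pvagNb a) (c 0 :: (List.range k).map fun i => c (i + 1)) ∧
      ∀ i ≤ k, c i ∈ c 0 :: (List.range k).map fun i => c (i + 1) := by
  have e : (c 0 :: (List.range k).map fun i => c (i + 1)) = (List.range (k + 1)).map c := by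
    rw [List.range_succ_eq_map, List.map_cons, List.map_map]
    rfl
  refine ⟨by simp, ?_, ?_, ?_⟩
  · rw [e]
    refine (List.nodup_map_iff_inj_on List.nodup_range).2 fun i hi j hj h => ?_
    exact hc.2 (Nat.lt_succ_iff.1 (List.mem_range.1 hi)) (Nat.lt_succ_iff.1 (List.mem_range.1 hj)) h
  · rw [e, List.isChain_map, List.isChain_range_succ]
    intro i hi
    have h := hc.1 i hi
    exact pvag_nb_mem.2 ⟨h.1.symm, h.2.1, h.2.2⟩
  · intro i hi
    rw [e]
    exact List.mem_map.2 ⟨i, List.mem_range.2 (Nat.lt_succ_iff.2 hi), rfl⟩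

/-- **PEIERLS WITH A FRACTION OF BAD BLOCKS AND AN AUXILIARY EVENT** (AG (iv), (v) of `PIN_273.md`; (i), (ii) of `A6_281.md`).
`hind`: on `A`, blocks pairwise at sup-distance `≥ D` are simultaneously bad with probability `≤ a q^#`.   Then, on `A`, the probability that some simple `*`-chain of `k + 1` blocks
starting in `Start` has at least `m` bad blocks is `≤ #Start · 8^k · 2^(k+1) · a · q^⌊m/D²⌋`.   Outer measure: no measurability. -/
theorem pvag_peierls_frac {Ω : Type} [MeasurableSpace Ω] (μ : Measure Ω) (Bad : ℤ × ℤ → Set Ω) (D : ℕ) (hD : 0 < D) (A : Set Ω) (a q : ENNReal) (hq1 : q ≤ 1)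
    (hind : ∀ T : Finset (ℤ × ℤ), (∀ x ∈ T, ∀ y ∈ T, x ≠ y → (D : ℤ) ≤ pv5Dist x y) → μ (A ∩ ⋂ x ∈ T, Bad x) ≤ a * q ^ T.card)
    (Start : Finset (ℤ × ℤ)) (k m : ℕ) :
    μ (A ∩ {ω | ∃ c, Pv5Chain k c ∧ c 0 ∈ Start ∧ ∃ S : Finset ℕ, (∀ i ∈ S, i ≤ k ∧ ω ∈ Bad (c i)) ∧ m ≤ S.card})
      ≤ (Start.card * 8 ^ k * 2 ^ (k + 1) : ℕ) * (a * q ^ (m / D ^ 2)) := by
  classical
  refine le_trans (measure_mono (Set.inter_subset_inter_right _ ?_))
    (pvag_peierls_sq μ D hD Bad A a q hq1 (fun I hI => hind I (pvag_sep_iff.1 hI)) Start k m)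
  rintro ω ⟨c, hc, h0, S, hS, hm⟩
  obtain ⟨h1, h2, h3, h4⟩ := pvag_chain_list hc
  refine ⟨c 0, _, h0, h1, h2, h3, S.image c, fun b hb => ?_, ?_⟩
  · obtain ⟨i, hi, rfl⟩ := Finset.mem_image.1 hb
    exact ⟨h4 i (hS i hi).1, (hS i hi).2⟩
  · rw [Finset.card_image_of_injOn fun i hi j hj h => hc.2 (hS i hi).1 (hS j hj).1 h]
    exact hm

/-- real form with `A = univ`, `a = 1` -/
theorem pvag_peierls_frac' {Ω : Type} [MeasurableSpace Ω] (μ : Measure Ω) (Bad : ℤ × ℤ → Set Ω) (D : ℕ) (hD : 0 < D) (q : ENNReal) (hq1 : q ≤ 1)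
    (hind : ∀ T : Finset (ℤ × ℤ), (∀ x ∈ T, ∀ y ∈ T, x ≠ y → (D : ℤ) ≤ pv5Dist x y) → μ (⋂ x ∈ T, Bad x) ≤ q ^ T.card)
    (Start : Finset (ℤ × ℤ)) (k m : ℕ) :
    μ {ω | ∃ c, Pv5Chain k c ∧ c 0 ∈ Start ∧ ∃ S : Finset ℕ, (∀ i ∈ S, i ≤ k ∧ ω ∈ Bad (c i)) ∧ m ≤ S.card}
      ≤ (Start.card * 8 ^ k * 2 ^ (k + 1) : ℕ) * q ^ (m / D ^ 2) := by
  have h := pvag_peierls_frac μ Bad D hD Set.univ 1 q hq1 (fun T hT => by simpa using hind T hT) Start k m
  simpa using h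

/-- the pigeonhole of AG (vi): if every block of the chain is bad for one of two reasons, one of the reasons holds for half of the blocks -/
theorem pvag_two_reasons {k : ℕ} (P Q : ℕ → Prop) (h : ∀ i ≤ k, P i ∨ Q i) :
    (∃ S : Finset ℕ, (∀ i ∈ S, i ≤ k ∧ P i) ∧ k + 1 ≤ 2 * S.card) ∨ ∃ S : Finset ℕ, (∀ i ∈ S, i ≤ k ∧ Q i) ∧ k + 1 ≤ 2 * S.card := by
  classical
  set SP := (Finset.range (k + 1)).filter P with hSP
  set SQ := (Finset.range (k + 1)).filter Q with hSQ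
  have hcov : Finset.range (k + 1) ⊆ SP ∪ SQ := by
    intro i hi
    have hi' : i ≤ k := Nat.lt_succ_iff.1 (Finset.mem_range.1 hi)
    rcases h i hi' with h | h
    · exact Finset.mem_union_left _ (Finset.mem_filter.2 ⟨hi, h⟩)
    · exact Finset.mem_union_right _ (Finset.mem_filter.2 ⟨hi, h⟩)
  have hc : k + 1 ≤ SP.card + SQ.card := by
    calc k + 1 = (Finset.range (k + 1)).card := (Finset.card_range _).symm
      _ ≤ (SP ∪ SQ).card := Finset.card_le_card hcov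
      _ ≤ _ := Finset.card_union_le _ _
  rcases le_total SQ.card SP.card with h1 | h1
  · left
    exact ⟨SP, fun i hi => ⟨Nat.lt_succ_iff.1 (Finset.mem_range.1 (Finset.mem_filter.1 hi).1), (Finset.mem_filter.1 hi).2⟩, by omega⟩
  · right
    exact ⟨SQ, fun i hi => ⟨Nat.lt_succ_iff.1 (Finset.mem_range.1 (Finset.mem_filter.1 hi).1), (Finset.mem_filter.1 hi).2⟩, by omega⟩

/-! ### one coordinate -/

theorem pvag_div_spec {A : ℕ} (hA : 0 < A) (x : ℤ) : (A : ℤ) * (x / A) ≤ x ∧ x < A * (x / A) + A := by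
  have hA' : (0 : ℤ) < A := by exact_mod_cast hA
  exact ⟨Int.mul_ediv_self_le hA'.ne', Int.lt_mul_ediv_self_add hA'⟩

theorem pvag_div_ge {A : ℕ} (hA : 0 < A) {x y k : ℤ} (h : k * A ≤ x - y) : k ≤ x / A - y / A := by
  have hA' : (0 : ℤ) < A := by exact_mod_cast hA
  obtain ⟨-, h2⟩ := pvag_div_spec hA x
  obtain ⟨h3, -⟩ := pvag_div_spec hA y
  by_contra hc
  have h5 : x / A + 1 ≤ y / A + k := by omega
  have h6 := mul_le_mul_of_nonneg_left h5 hA'.le
  linarith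

theorem pvag_div_le {A : ℕ} (hA : 0 < A) {x y k : ℤ} (h : x - y ≤ k * A) : x / A - y / A ≤ k := by
  have hA' : (0 : ℤ) < A := by exact_mod_cast hA
  obtain ⟨h1, -⟩ := pvag_div_spec hA x
  obtain ⟨-, h4⟩ := pvag_div_spec hA y
  by_contra hc
  have h5 : y / A + k + 1 ≤ x / A := by omega
  have h6 := mul_le_mul_of_nonneg_left h5 hA'.le
  linarith

theorem pvag_div_gap {A : ℕ} (hA : 0 < A) {x y k : ℤ} (h : k + 1 ≤ x / A - y / A) : k * A + 1 ≤ x - y := by
  have hA' : (0 : ℤ) < A := by exact_mod_cast hA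
  obtain ⟨h1, -⟩ := pvag_div_spec hA x
  obtain ⟨-, h4⟩ := pvag_div_spec hA y
  have h5 : y / A + k + 1 ≤ x / A := by omega
  have h6 := mul_le_mul_of_nonneg_left h5 hA'.le
  have h7 : k * A < x - y := by linarith
  omega

theorem pvag_div_abs_le {A : ℕ} (hA : 0 < A) {x y k : ℤ} (h : |x - y| ≤ k * A) : |x / A - y / A| ≤ k := by
  rw [abs_le] at *
  have h1 := pvag_div_le hA (x := x) (y := y) (k := k) h.2
  have h2 := pvag_div_le hA (x := y) (y := x) (k := k) (by linarith [h.1])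
  constructor <;> omega

theorem pvag_div_abs_ge {A : ℕ} (hA : 0 < A) {x y k : ℤ} (h : k * A ≤ |x - y|) : k ≤ |x / A - y / A| := by
  rcases le_abs.1 h with h | h
  · exact le_abs.2 (Or.inl (pvag_div_ge hA h))
  · exact le_abs.2 (Or.inr (by have := pvag_div_ge hA (x := y) (y := x) (k := k) (by linarith); omega))

theorem pvag_div_abs_gap {A : ℕ} (hA : 0 < A) {x y k : ℤ} (h : k + 1 ≤ |x / A - y / A|) : k * A + 1 ≤ |x - y| := by
  rcases le_abs.1 h with h | h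
  · exact le_abs.2 (Or.inl (pvag_div_gap hA h))
  · exact le_abs.2 (Or.inr (by have := pvag_div_gap hA (x := y) (y := x) (k := k) (by omega); omega))

theorem pvag_cg_near {A : ℕ} (hA : 0 < A) {a b : ℤ × ℤ} (h : PvagNear 1 a b) : PvagNear 1 (pvagCg A a) (pvagCg A b) := by
  have hA' : (1 : ℤ) ≤ A := by exact_mod_cast hA
  exact ⟨pvag_div_abs_le hA (h.1.trans (by linarith)), pvag_div_abs_le hA (h.2.trans (by linarith))⟩

theorem pvag_cg_far {A : ℕ} (hA : 0 < A) {a b : ℤ × ℤ} {k : ℤ} (h : PvagFar (k * A) a b) : PvagFar k (pvagCg A a) (pvagCg A b) :=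
  h.imp (pvag_div_abs_ge hA) (pvag_div_abs_ge hA)

theorem pvag_cg_gap {A : ℕ} (hA : 0 < A) {a b : ℤ × ℤ} {k : ℤ} (h : PvagFar (k + 1) (pvagCg A a) (pvagCg A b)) : PvagFar (k * A + 1) a b :=
  h.imp (pvag_div_abs_gap hA) (pvag_div_abs_gap hA)

theorem pvag_cg_cg (A M : ℕ) (a : ℤ × ℤ) : pvagCg M (pvagCg A a) = pvagCg (M * A) a := by
  unfold pvagCg
  have e : ∀ x : ℤ, x / (A : ℤ) / (M : ℤ) = x / ((M * A : ℕ) : ℤ) := by
    intro x
    rw [Int.ediv_ediv_of_nonneg (by positivity)]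
    push_cast
    rw [mul_comm]
  simp only [e]

theorem PvagWalk.cg {w : ℕ → ℤ × ℤ} {s t : ℕ} (h : PvagWalk w s t) {A : ℕ} (hA : 0 < A) : PvagWalk (fun τ => pvagCg A (w τ)) s t :=
  fun τ h1 h2 => pvag_cg_near hA (h τ h1 h2)

/-! ### discrete intermediate values, exits -/

theorem pvag_ivt_up (x : ℕ → ℤ) {lo hi : ℕ} (hlh : lo ≤ hi) (hx : ∀ τ, lo ≤ τ → τ < hi → |x (τ + 1) - x τ| ≤ 1) {y : ℤ}
    (h1 : x lo ≤ y) (h2 : y ≤ x hi) : ∃ τ, lo ≤ τ ∧ τ ≤ hi ∧ x τ = y := by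
  induction hi, hlh using Nat.le_induction with
  | base => exact ⟨lo, le_rfl, le_rfl, le_antisymm h1 h2⟩
  | succ n hn ih =>
    by_cases h : y ≤ x n
    · obtain ⟨τ, a, b, c⟩ := ih (fun τ h1 h2 => hx τ h1 (by omega)) h
      exact ⟨τ, a, by omega, c⟩
    · have h3 := hx n hn (by omega)
      rw [abs_le] at h3
      exact ⟨n + 1, by omega, le_rfl, by omega⟩

theorem pvag_ivt (x : ℕ → ℤ) {lo hi : ℕ} (hx : ∀ τ, lo ≤ τ → τ < hi → |x (τ + 1) - x τ| ≤ 1) {σ1 σ2 : ℕ}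
    (a1 : lo ≤ σ1) (b1 : σ1 ≤ hi) (a2 : lo ≤ σ2) (b2 : σ2 ≤ hi) {y : ℤ} (h1 : x σ1 < y) (h2 : y < x σ2) :
    ∃ τ, min σ1 σ2 < τ ∧ τ < max σ1 σ2 ∧ x τ = y := by
  rcases le_total σ1 σ2 with h | h
  · obtain ⟨τ, c1, c2, c3⟩ := pvag_ivt_up x h (fun τ d1 d2 => hx τ (by omega) (by omega)) h1.le h2.le
    have e1 : τ ≠ σ1 := by rintro rfl; omega
    have e2 : τ ≠ σ2 := by rintro rfl; omega
    exact ⟨τ, by rw [min_eq_left h]; omega, by rw [max_eq_right h]; omega, c3⟩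
  · obtain ⟨τ, c1, c2, c3⟩ := pvag_ivt_up (fun τ => - x τ) (y := -y) h (fun τ d1 d2 => by
      have := hx τ (by omega) (by omega)
      rw [abs_le] at *
      constructor <;> omega) (by omega) (by omega)
    have e1 : τ ≠ σ1 := by rintro rfl; omega
    have e2 : τ ≠ σ2 := by rintro rfl; omega
    exact ⟨τ, by rw [min_eq_right h]; omega, by rw [max_eq_left h]; omega, by omega⟩

/-- from a time `τ0` with `P` go towards an end point without `P`, stop just before the first failure -/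
theorem pvag_exit (P : ℕ → Prop) {s t τ0 : ℕ} (hs : s ≤ τ0) (ht : τ0 ≤ t) (h0 : P τ0) (hend : ¬ P s ∨ ¬ P t) :
    ∃ s' t', s ≤ s' ∧ s' ≤ τ0 ∧ τ0 ≤ t' ∧ t' ≤ t ∧ (∀ τ, s' ≤ τ → τ ≤ t' → P τ) ∧
      ((s' = τ0 ∧ t' < t ∧ ¬ P (t' + 1)) ∨ (t' = τ0 ∧ s < s' ∧ ¬ P (s' - 1))) := by
  classical
  rcases hend with hend | hend
  · -- backwards
    have hex : ∃ j, j ≤ τ0 - s ∧ ¬ P (τ0 - j) := ⟨τ0 - s, le_rfl, by rwa [Nat.sub_sub_self hs]⟩
    obtain ⟨hj1, hj2⟩ := Nat.find_spec hex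
    have hmin : ∀ i < Nat.find hex, P (τ0 - i) := by
      intro i hi
      by_contra hc
      exact Nat.find_min hex hi ⟨by omega, hc⟩
    set j := Nat.find hex with hj
    have hj0 : j ≠ 0 := by
      intro h
      rw [h] at hj2
      exact hj2 h0
    refine ⟨τ0 - j + 1, τ0, by omega, by omega, le_rfl, ht, fun τ c1 c2 => ?_, Or.inr ⟨rfl, by omega, ?_⟩⟩
    · have := hmin (τ0 - τ) (by omega)
      rwa [Nat.sub_sub_self c2] at this
    · simpa using hj2
  · have hex : ∃ j, j ≤ t - τ0 ∧ ¬ P (τ0 + j) := ⟨t - τ0, le_rfl, by rwa [Nat.add_sub_cancel' ht]⟩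
    obtain ⟨hj1, hj2⟩ := Nat.find_spec hex
    have hmin : ∀ i < Nat.find hex, P (τ0 + i) := by
      intro i hi
      by_contra hc
      exact Nat.find_min hex hi ⟨by omega, hc⟩
    set j := Nat.find hex with hj
    have hj0 : j ≠ 0 := by
      intro h
      rw [h] at hj2
      exact hj2 h0
    refine ⟨τ0, τ0 + j - 1, hs, le_rfl, by omega, by omega, fun τ c1 c2 => ?_, Or.inl ⟨rfl, by omega, ?_⟩⟩
    · have := hmin (τ - τ0) (by omega)
      rwa [Nat.add_sub_cancel' c1] at this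
    · have e : τ0 + j - 1 + 1 = τ0 + j := by omega
      rwa [e]

/-! ## E. G7 = THE HIERARCHICAL SELECTION (H), model free      (`A6_281.md` v2 sec. 4)

Everything lives on `ℤ × ℤ` = unit boxes.  NESTED GRIDS: the box of side `A` of the unit box `a` is `pvagCg A a`.
`w : ℕ → ℤ × ℤ` = lazy king walk = the unit boxes visited by a passage of the rim.   Level `i`: boxes of side `A i`, cells of side `M i * A i`, flags `F i Q b` (`b` a box near the cell `Q`; in the application: five arms `CONFIG5_b` w.r.t. the cycles of `Q`).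
`PvagLight M F Q`: fewer than `M` flagged boxes in the `3 × 3` neighbourhood of the cell `Q`. -/

/-- fewer than `M` flagged boxes in the `3 × 3` neighbourhood of the cell `Q` -/
def PvagLight (M : ℕ) (F : ℤ × ℤ → ℤ × ℤ → Prop) (Q : ℤ × ℤ) : Prop :=
  ∀ B : Finset (ℤ × ℤ), (∀ b ∈ B, F Q b ∧ PvagNear 1 (pvagCg M b) Q) → B.card < M

theorem pvagLight_eqns_cite (M : ℕ) (F : ℤ × ℤ → ℤ × ℤ → Prop) (Q : ℤ × ℤ) :
    PvagLight M F Q ↔ ∀ B : Finset (ℤ × ℤ), (∀ b ∈ B, F Q b ∧ PvagNear 1 (pvagCg M b) Q) → B.card < M := Iff.rfl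

theorem pvag_near_refl {r : ℤ} (hr : 0 ≤ r) (a : ℤ × ℤ) : PvagNear r a a := by
  unfold PvagNear
  simp [hr]

theorem pvag_near_far {r r' : ℤ} {a b : ℤ × ℤ} (h : PvagNear r a b) (h' : PvagFar r' a b) : r' ≤ r := by
  rcases h' with h' | h'
  · exact h'.trans h.1
  · exact h'.trans h.2

theorem pvag_div_lb {M : ℕ} (hM : 0 < M) {x c : ℤ} (h : c ≤ x / M) : (M : ℤ) * c ≤ x := by
  have hM' : (0 : ℤ) < M := by exact_mod_cast hM
  have := (Int.le_ediv_iff_mul_le hM').1 h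
  linarith

theorem pvag_div_ub {M : ℕ} (hM : 0 < M) {x c : ℤ} (h : x / M ≤ c) : x < (M : ℤ) * c + M := by
  have hM' : (0 : ℤ) < M := by exact_mod_cast hM
  have h1 : x / M < c + 1 := by omega
  have := (Int.ediv_lt_iff_lt_mul hM').1 h1
  linarith

theorem pvag_fst_near (a b : ℤ × ℤ) (h : PvagNear 1 a b) : |b.1 - a.1| ≤ 1 := by rw [abs_sub_comm]; exact h.1

theorem pvag_snd_near (a b : ℤ × ℤ) (h : PvagNear 1 a b) : |b.2 - a.2| ≤ 1 := by rw [abs_sub_comm]; exact h.2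

/-- one coordinate `π` of the walk takes the `M` values `α, …, α + M - 1` between the times `σ1`, `σ2`: `M` distinct boxes, one is not flagged -/
theorem pvag_light_core {M : ℕ} {F : ℤ × ℤ → ℤ × ℤ → Prop} {Q : ℤ × ℤ} (hl : PvagLight M F Q) (π : ℤ × ℤ → ℤ)
    (hπ : ∀ a b, PvagNear 1 a b → |π b - π a| ≤ 1) {u : ℕ → ℤ × ℤ} {s t : ℕ} (hu : PvagWalk u s t) {σ1 σ2 : ℕ}
    (a1 : s ≤ σ1) (b1 : σ1 ≤ t) (a2 : s ≤ σ2) (b2 : σ2 ≤ t) {α : ℤ} (h1 : π (u σ1) < α) (h2 : α + M ≤ π (u σ2))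
    (hnear : ∀ τ, min σ1 σ2 < τ → τ < max σ1 σ2 → PvagNear 1 (pvagCg M (u τ)) Q) :
    ∃ τ, min σ1 σ2 < τ ∧ τ < max σ1 σ2 ∧ ¬ F Q (u τ) := by
  classical
  by_contra hcon
  push Not at hcon
  have key : ∀ y : ℤ, ∃ τ, (α ≤ y ∧ y < α + M) → (min σ1 σ2 < τ ∧ τ < max σ1 σ2 ∧ π (u τ) = y) := by
    intro y
    by_cases hy : α ≤ y ∧ y < α + M
    · obtain ⟨τ, c1, c2, c3⟩ := pvag_ivt (fun τ => π (u τ)) (lo := s) (hi := t) (fun τ d1 d2 => hπ _ _ (hu τ d1 d2)) a1 b1 a2 b2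
        (y := y) (by omega) (by omega)
      exact ⟨τ, fun _ => ⟨c1, c2, c3⟩⟩
    · exact ⟨0, fun h => absurd h hy⟩
  choose f hf using key
  have hinj : Set.InjOn (fun y => u (f y)) (Finset.Ico α (α + M) : Set ℤ) := by
    intro y hy y' hy' e
    have e1 := (hf y (by simpa using hy)).2.2
    have e2 := (hf y' (by simpa using hy')).2.2
    simp only at e
    rw [← e1, ← e2, e]
  have hcard : ((Finset.Ico α (α + M)).image fun y => u (f y)).card = M := by
    rw [Finset.card_image_of_injOn hinj, Int.card_Ico]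
    simp
  have := hl ((Finset.Ico α (α + M)).image fun y => u (f y)) (by
    intro b hb
    obtain ⟨y, hy, rfl⟩ := Finset.mem_image.1 hb
    obtain ⟨c1, c2, -⟩ := hf y (by simpa using hy)
    exact ⟨hcon _ c1 c2, hnear _ c1 c2⟩)
  omega

/-- a walk (on the boxes) from a light cell `Q` to a box outside the `3 × 3` neighbourhood of `Q` visits in between a box which is not flagged -/
theorem pvag_light_visit {M : ℕ} (hM : 0 < M) {F : ℤ × ℤ → ℤ × ℤ → Prop} {Q : ℤ × ℤ} (hl : PvagLight M F Q) {u : ℕ → ℤ × ℤ} {s t : ℕ}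
    (hu : PvagWalk u s t) {τ0 σ : ℕ} (a1 : s ≤ τ0) (b1 : τ0 ≤ t) (a2 : s ≤ σ) (b2 : σ ≤ t) (h0 : pvagCg M (u τ0) = Q)
    (hσ : ¬ PvagNear 1 (pvagCg M (u σ)) Q) (hnear : ∀ τ, min τ0 σ < τ → τ < max τ0 σ → PvagNear 1 (pvagCg M (u τ)) Q) :
    ∃ τ, min τ0 σ < τ ∧ τ < max τ0 σ ∧ ¬ F Q (u τ) := by
  have hnear' : ∀ τ, min σ τ0 < τ → τ < max σ τ0 → PvagNear 1 (pvagCg M (u τ)) Q := by
    intro τ c1 c2
    exact hnear τ (by rwa [min_comm]) (by rwa [max_comm])
  have e1 : (u τ0).1 / M = Q.1 := congrArg Prod.fst h0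
  have e2 : (u τ0).2 / M = Q.2 := congrArg Prod.snd h0
  have hfar := pvag_not_near.1 hσ
  rcases hfar with hf | hf
  · rcases le_abs.1 hf with hf | hf
    · have g1 : (M : ℤ) * (Q.1 + 2) ≤ (u σ).1 := pvag_div_lb hM (by simp only [pvagCg] at hf; omega)
      have g2 : (u τ0).1 < (M : ℤ) * Q.1 + M := pvag_div_ub hM e1.le
      exact pvag_light_core hl Prod.fst pvag_fst_near hu a1 b1 a2 b2 (α := M * (Q.1 + 1)) (by linarith) (by linarith) hnear
    · have g1 : (u σ).1 < (M : ℤ) * (Q.1 - 2) + M := pvag_div_ub hM (by simp only [pvagCg] at hf; omega)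
      have g2 : (M : ℤ) * Q.1 ≤ (u τ0).1 := pvag_div_lb hM e1.ge
      obtain ⟨τ, c1, c2, c3⟩ := pvag_light_core hl Prod.fst pvag_fst_near hu a2 b2 a1 b1 (α := M * (Q.1 - 1)) (by linarith) (by linarith) hnear'
      exact ⟨τ, by rwa [min_comm], by rwa [max_comm], c3⟩
  · rcases le_abs.1 hf with hf | hf
    · have g1 : (M : ℤ) * (Q.2 + 2) ≤ (u σ).2 := pvag_div_lb hM (by simp only [pvagCg] at hf; omega)
      have g2 : (u τ0).2 < (M : ℤ) * Q.2 + M := pvag_div_ub hM e2.le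
      exact pvag_light_core hl Prod.snd pvag_snd_near hu a1 b1 a2 b2 (α := M * (Q.2 + 1)) (by linarith) (by linarith) hnear
    · have g1 : (u σ).2 < (M : ℤ) * (Q.2 - 2) + M := pvag_div_ub hM (by simp only [pvagCg] at hf; omega)
      have g2 : (M : ℤ) * Q.2 ≤ (u τ0).2 := pvag_div_lb hM e2.ge
      obtain ⟨τ, c1, c2, c3⟩ := pvag_light_core hl Prod.snd pvag_snd_near hu a2 b2 a1 b1 (α := M * (Q.2 - 1)) (by linarith) (by linarith) hnear'
      exact ⟨τ, by rwa [min_comm], by rwa [max_comm], c3⟩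

/-- `o` is outside the `3 × 3` neighbourhood of the box of `a`, `e` is a neighbour of `o`: displacement `≥ A` from `a` to `e` -/
theorem pvag_exit_far {A : ℕ} (hA : 0 < A) {a e o : ℤ × ℤ} (h1 : PvagNear 1 e o) (h2 : ¬ PvagNear 1 (pvagCg A o) (pvagCg A a)) : PvagFar A a e := by
  have h3 : PvagFar (1 * (A : ℤ) + 1) o a := pvag_cg_gap hA (pvag_not_near.1 h2)
  obtain ⟨g1, g2⟩ := h1
  rw [abs_le] at g1 g2
  rcases h3 with h3 | h3
  · left
    rcases le_abs.1 h3 with h3 | h3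
    · exact le_abs.2 (Or.inr (by omega))
    · exact le_abs.2 (Or.inl (by omega))
  · right
    rcases le_abs.1 h3 with h3 | h3
    · exact le_abs.2 (Or.inr (by omega))
    · exact le_abs.2 (Or.inl (by omega))

/-- among the cells visited by a walk with large displacement there is a simple `*`-chain -/
theorem pvag_visited_chain {C : ℕ → ℤ × ℤ} {s t : ℕ} (hst : s ≤ t) (hC : PvagWalk C s t) (n0 : ℕ) (hfar : PvagFar n0 (C s) (C t)) :
    ∃ c, Pv5Chain n0 c ∧ c 0 = C s ∧ ∀ i ≤ n0, ∃ τ, s ≤ τ ∧ τ ≤ t ∧ c i = C τ := by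
  obtain ⟨c, h1, h2, h3⟩ := pv5_walk_chain (fun i => C (s + i)) (t - s) (fun i hi => by
    by_cases e : C (s + i) = C (s + (i + 1))
    · exact Or.inl e
    · have := hC (s + i) (by omega) (by omega)
      exact Or.inr ⟨e, this.1, this.2⟩) n0 (by
    have e : s + (t - s) = t := by omega
    simp only [Nat.add_zero, e, pv5Dist, le_max_iff]
    exact hfar)
  refine ⟨c, h1, by simpa using h2, fun i hi => ?_⟩
  obtain ⟨j, hj, e⟩ := h3 i hi
  exact ⟨s + j, by omega, by omega, e⟩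

/-- **ONE LEVEL of (H)** -/
theorem pvag_level {A M n0 : ℕ} (hA : 0 < A) (hM : 0 < M) (F : ℤ × ℤ → ℤ × ℤ → Prop) {w : ℕ → ℤ × ℤ} {s t : ℕ} (hst : s ≤ t) (hw : PvagWalk w s t)
    (hfar : PvagFar (((n0 + 4 : ℕ) : ℤ) * ((M * A : ℕ) : ℤ)) (w s) (w t))
    (hlight : ∀ c, Pv5Chain n0 c → (∀ i ≤ n0, ∃ τ, s ≤ τ ∧ τ ≤ t ∧ c i = pvagCg (M * A) (w τ)) → ∃ i ≤ n0, PvagLight M F (c i)) :
    ∃ s' t' Q b, s ≤ s' ∧ s' ≤ t' ∧ t' ≤ t ∧ PvagLight M F Q ∧ ¬ F Q b ∧ PvagNear 1 (pvagCg M b) Q ∧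
      (∀ τ, s' ≤ τ → τ ≤ t' → PvagNear 1 (pvagCg A (w τ)) b) ∧ PvagFar A (w s') (w t') := by
  have hMA : 0 < M * A := Nat.mul_pos hM hA
  -- the walk of the cells and the walk of the boxes
  have hC : PvagWalk (fun τ => pvagCg (M * A) (w τ)) s t := hw.cg hMA
  have hu : PvagWalk (fun τ => pvagCg A (w τ)) s t := hw.cg hA
  have hCfar : PvagFar ((n0 + 4 : ℕ) : ℤ) (pvagCg (M * A) (w s)) (pvagCg (M * A) (w t)) := pvag_cg_far hMA hfar
  have hufar : PvagFar 4 (pvagCg A (w s)) (pvagCg A (w t)) := by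
    have h1 : PvagFar ((4 : ℤ) * (A : ℤ)) (w s) (w t) := by
      refine hfar.mono ?_
      have hM' : (1 : ℤ) ≤ M := by exact_mod_cast hM
      have hA' : (0 : ℤ) ≤ A := by positivity
      push_cast
      nlinarith [mul_nonneg (Int.natCast_nonneg n0) (mul_nonneg (by linarith : (0 : ℤ) ≤ M) hA'), mul_le_mul_of_nonneg_right hM' hA']
    exact pvag_cg_far hA h1
  -- a light visited cell
  obtain ⟨c, hc1, -, hc3⟩ := pvag_visited_chain hst hC n0 (hCfar.mono (by push_cast; omega))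
  obtain ⟨i, hi, hQ⟩ := hlight c hc1 hc3
  obtain ⟨τ0, hτ1, hτ2, hτ3⟩ := hc3 i hi
  set Q := c i with hQdef
  -- leave the neighbourhood of the cell
  have hend : ¬ PvagNear 1 (pvagCg (M * A) (w s)) Q ∨ ¬ PvagNear 1 (pvagCg (M * A) (w t)) Q := by
    by_contra hcon
    push Not at hcon
    have h1 := pvag_near_far (hcon.1.trans hcon.2.symm) hCfar
    push_cast at h1
    omega
  have hvisit : ∃ τ1, s ≤ τ1 ∧ τ1 ≤ t ∧ ¬ F Q (pvagCg A (w τ1)) ∧ PvagNear 1 (pvagCg M (pvagCg A (w τ1))) Q := by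
    obtain ⟨s1, t1, g1, g2, g3, g4, g5, g6⟩ := pvag_exit (fun τ => PvagNear 1 (pvagCg (M * A) (w τ)) Q) hτ1 hτ2
      (by rw [← hτ3]; exact pvag_near_refl (by norm_num) _) hend
    rcases g6 with ⟨rfl, k1, k2⟩ | ⟨rfl, k1, k2⟩
    · obtain ⟨τ, c1, c2, c3⟩ := pvag_light_visit hM hQ hu (τ0 := s1) (σ := t1 + 1) hτ1 hτ2 (by omega) (by omega)
        (by rw [pvag_cg_cg, ← hτ3]) (by rw [pvag_cg_cg]; exact k2)
        (fun τ d1 d2 => by
          rw [pvag_cg_cg]
          exact g5 τ (by rw [min_eq_left (by omega)] at d1; omega) (by rw [max_eq_right (by omega)] at d2; omega))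
      rw [min_eq_left (by omega)] at c1
      rw [max_eq_right (by omega)] at c2
      exact ⟨τ, by omega, by omega, c3, by rw [pvag_cg_cg]; exact g5 τ (by omega) (by omega)⟩
    · obtain ⟨τ, c1, c2, c3⟩ := pvag_light_visit hM hQ hu (τ0 := t1) (σ := s1 - 1) hτ1 hτ2 (by omega) (by omega)
        (by rw [pvag_cg_cg, ← hτ3]) (by rw [pvag_cg_cg]; exact k2)
        (fun τ d1 d2 => by
          rw [pvag_cg_cg]
          exact g5 τ (by rw [min_eq_right (by omega)] at d1; omega) (by rw [max_eq_left (by omega)] at d2; omega))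
      rw [min_eq_right (by omega)] at c1
      rw [max_eq_left (by omega)] at c2
      exact ⟨τ, by omega, by omega, c3, by rw [pvag_cg_cg]; exact g5 τ (by omega) (by omega)⟩
  obtain ⟨τ1, m1, m2, m3, m4⟩ := hvisit
  set b := pvagCg A (w τ1) with hb
  -- leave the neighbourhood of the box
  have hend' : ¬ PvagNear 1 (pvagCg A (w s)) b ∨ ¬ PvagNear 1 (pvagCg A (w t)) b := by
    by_contra hcon
    push Not at hcon
    have h1 := pvag_near_far (hcon.1.trans hcon.2.symm) hufar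
    omega
  obtain ⟨s2, t2, g1, g2, g3, g4, g5, g6⟩ := pvag_exit (fun τ => PvagNear 1 (pvagCg A (w τ)) b) m1 m2 (pvag_near_refl (by norm_num) _) hend'
  refine ⟨s2, t2, Q, b, g1, g2.trans g3, g4, hQ, m3, m4, g5, ?_⟩
  rcases g6 with ⟨rfl, k1, k2⟩ | ⟨rfl, k1, k2⟩
  · exact pvag_exit_far hA (hw t2 (by omega) k1) k2
  · have h1 := hw (s2 - 1) (by omega) (by omega)
    have e : s2 - 1 + 1 = s2 := by omega
    rw [e] at h1
    exact (pvag_exit_far hA h1.symm k2).symm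

/-- **(H) HIERARCHICAL SELECTION.**   Levels `i < n` (fine to coarse): boxes of side `A i`, cells of side `M i * A i`, `(n0 + 4) M i A i ≤ A (i + 1)`.
If the walk has displacement `≥ A n` on `[s, t]` and, at every level, every simple `*`-chain of `n0 + 1` visited cells contains a light cell, then there is a time `τ ∈ [s, t]` such that at every level
the box of `w τ` is within sup-distance `1` of a box `b` which is not flagged with respect to a light cell `Q` near `b`. -/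
theorem pvag_select (n0 : ℕ) (A M : ℕ → ℕ) (F : ℕ → ℤ × ℤ → ℤ × ℤ → Prop) (w : ℕ → ℤ × ℤ) (n : ℕ) :
    ∀ s t : ℕ, s ≤ t → PvagWalk w s t → (∀ i < n, 0 < A i ∧ 0 < M i ∧ (n0 + 4) * (M i * A i) ≤ A (i + 1)) → PvagFar (A n) (w s) (w t) →
    (∀ i < n, ∀ c, Pv5Chain n0 c → (∀ j ≤ n0, ∃ τ, s ≤ τ ∧ τ ≤ t ∧ c j = pvagCg (M i * A i) (w τ)) → ∃ j ≤ n0, PvagLight (M i) (F i) (c j)) →
    ∃ τ, s ≤ τ ∧ τ ≤ t ∧ ∀ i < n, ∃ Q b, PvagLight (M i) (F i) Q ∧ ¬ F i Q b ∧ PvagNear 1 (pvagCg (M i) b) Q ∧ PvagNear 1 (pvagCg (A i) (w τ)) b := by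
  induction n with
  | zero =>
    intro s t hst _ _ _ _
    exact ⟨s, le_rfl, hst, fun i hi => absurd hi (Nat.not_lt_zero i)⟩
  | succ n ih =>
    intro s t hst hw hsc hfar hlight
    obtain ⟨hA, hM, hle⟩ := hsc n (Nat.lt_succ_self n)
    obtain ⟨s', t', Q, b, g1, g2, g3, g4, g5, g6, g7, g8⟩ := pvag_level hA hM (F n) hst hw
      (hfar.mono (by exact_mod_cast hle)) (hlight n (Nat.lt_succ_self n))
    obtain ⟨τ, k1, k2, k3⟩ := ih s' t' g2 (hw.mono g1 g3) (fun i hi => hsc i (Nat.lt_succ_of_lt hi)) g8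
      (fun i hi c hc hv => hlight i (Nat.lt_succ_of_lt hi) c hc fun j hj => by
        obtain ⟨τ, d1, d2, d3⟩ := hv j hj
        exact ⟨τ, g1.trans d1, d2.trans g3, d3⟩)
    refine ⟨τ, g1.trans k1, k2.trans g3, fun i hi => ?_⟩
    rcases Nat.lt_succ_iff_lt_or_eq.1 hi with hi | rfl
    · exact k3 i hi
    · exact ⟨Q, b, g4, g5, g6, g7 τ k1 k2⟩


end Claimed.Agent.R289
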