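import Claimed.Agent.R289.Arm.Bxp
import Claimed.Agent.R289.Arm.GateP

/-!
# Row 289 (S0537, Cardy for Poisson-Voronoi), box ARM, block A6, file Arm/Adapt : THE ADAPTIVE LAYER OF THE GATE DENSITY = (6.1) + AG (v) of `PIN_273.md`      (owner helper237, ruling (5) of helper75; prefix `pvaa_`, defs `pvaa…` / `Pvaa…`)

MODEL FREE, QUENCHED: a dart map `T`, fair bits `pvaP A ξ` (`Arm/Stop`), blocking `PvaxBlk` (`Arm/Bxp`).
`S` = a STOPPING SET (the explored chord `χ` with its two banks), `K` = an explored event ("`χ` reaches `B(x,2R)`, the canonical arc number `α` exists").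
* TRIAL `t : τ`      an annulus between two nested cycles `a t`, `o t` with the blocking property (`PvaaOk`)
* FAILURE of `t`     `PvaxCr T (a t) (o t) X b ω`, `X = pvaaX A S ω` = the FRESH (unexplored) vertices: a crossing of the rim colour `b` through unexplored vertices.      Its negation is the input of the sandwich / pocket lemma (L5' of 275, `Arm/Pocket` of 281).
* CENTRE `z : κ`     carries a set `J z ω` of exactly `n0` USABLE trials (explored-measurable), with pairwise vertex-disjoint annuli;   `z` is BAD if fewer than `g` of them succeed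
* BLOCK `i`          carries a set `Z i ω` of at most `N` centres (explored-measurable);   `i` is A-BAD (`PvaaABad`) if at least `m` of its centres are bad;   all annuli of the block lie in a deterministic region `Rg i`

sec. 1 `pvaa_cr_dep`, **`pvaa_all_fail`**   trials in disjoint annuli all fail with probability `≤ (1-q)^#J`, whatever has been explored
sec. 2 **`pvaa_centre`**   (6.1): `P(fewer than g successes) ≤ C(n0, n0-(g-1)) (1-q)^(n0-(g-1)) = pvaaP1 q n0 g`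
sec. 3 **`pvaa_block`**    Markov inside a block: `P(A-bad) ≤ #Z p1 / m`
sec. 4 **`pvaa_blocks`**   strong Markov + independence on disjoint regions: `P(K, all blocks of I A-bad) ≤ (N p1 / m)^#I P(K)`
sec. 5 `pvaaMu`, `pvaa_mu_apply`   `pvaP A ξ` as a measure (σ-field `⊤`);   **`pvaa_peierls`** = `pvag_peierls_frac` of 281 for the A-bad blocks: EXIT
-/

set_option autoImplicit false
set_option linter.unusedSectionVars false
set_option linter.unusedVariables false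

namespace Claimed.Agent.R289

open Finset

section adapt

variable {V D : Type} [DecidableEq V] {T : PvMap V D} {τ κ ι : Type} [DecidableEq τ] [DecidableEq κ] [DecidableEq ι]

/-! ## 0. definitions -/

/-- the trial `t` is admissible: nested cycles, finite, blocking with constant `q` -/
structure PvaaOk (T : PvMap V D) (q : ℝ) (a o : τ → T.Cyc) (t : τ) : Prop where
  ins : (a t).Inside (o t)
  fin : (o t).Left.Finite
  blk : PvaxBlk T (a t) (o t) q

/-- the fresh vertices after the exploration `S` -/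
def pvaaX (A : Finset V) (S : (V → Bool) → Finset V) (ω : V → Bool) : Set V := {v | v ∈ A ∧ v ∉ S ω}

open Classical in
/-- the number of successful trials of `J`: no crossing of colour `b` through the allowed set `X` -/
noncomputable def pvaaSucc (T : PvMap V D) (a o : τ → T.Cyc) (b : Bool) (X : Set V) (J : Finset τ) (s : V → Bool) : ℕ :=
  (J.filter fun t => ¬ PvaxCr T (a t) (o t) X b s).card

open Classical in
/-- A-BAD: at least `m` centres of `Z` have fewer than `g` successful trials -/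
def PvaaABad (T : PvMap V D) (a o : τ → T.Cyc) (b : Bool) (g m : ℕ) (X : Set V) (Z : Finset κ) (J : κ → Finset τ) (s : V → Bool) : Prop :=
  m ≤ (Z.filter fun z => pvaaSucc T a o b X (J z) s < g).card

/-- the constant of (6.1) -/
noncomputable def pvaaP1 (q : ℝ) (n0 g : ℕ) : ℝ := (n0.choose (n0 - (g - 1)) : ℝ) * (1 - q) ^ (n0 - (g - 1))

theorem pvaa_eqns_cite : True := by
  have := @pvaaX.eq_1; have := @pvaaSucc.eq_1; have := @PvaaABad.eq_1; have := @pvaaP1.eq_1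
  trivial

theorem pvaa_p1_nonneg {q : ℝ} (hq : q ≤ 1) (n0 g : ℕ) : 0 ≤ pvaaP1 q n0 g := by
  unfold pvaaP1
  have : 0 ≤ 1 - q := by linarith
  positivity

/-! ## 1. trials in disjoint annuli -/

/-- the crossing event reads the allowed vertices of the annulus only -/
theorem pvaa_cr_dep (hT : T.IsSph) {c' c : T.Cyc} (h : c'.Inside c) (A : Finset V) (ξ : V → Bool) (R : Finset V) {X : Set V} (b : Bool)
    (hR : ∀ v ∈ X, v ∈ T.VOf (c'.Ann c) → v ∈ R) : PvaDep A R ξ (fun s => PvaxCr T c' c X b s) := by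
  intro ω₁ ω₂ _ _ h12
  refine propext ?_
  beta_reduce
  rw [pvax_cr_inter hT h, pvax_cr_inter hT h (s := ω₂)]
  exact pvax_cr_congr fun v hv => h12 v (hR v hv.1 hv.2)

/-- **trials in pairwise vertex-disjoint annuli**: all of them fail with probability at most `(1-q)^#J`, whatever the background -/
theorem pvaa_all_fail (hT : T.IsSph) {q : ℝ} {a o : τ → T.Cyc} (J : Finset τ) (hok : ∀ t ∈ J, PvaaOk T q a o t)
    (hdis : ∀ t ∈ J, ∀ t' ∈ J, t ≠ t' → Disjoint (T.VOf ((a t).Ann (o t))) (T.VOf ((a t').Ann (o t'))))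
    (A : Finset V) (ξ : V → Bool) (b : Bool) {X : Set V} (hX : ∀ v ∈ X, v ∈ A) :
    pvaP A ξ (fun s => ∀ t ∈ J, PvaxCr T (a t) (o t) X b s) ≤ (1 - q) ^ J.card := by
  classical
  set R : τ → Finset V := fun t => A.filter fun v => v ∈ X ∧ v ∈ T.VOf ((a t).Ann (o t)) with hR
  rw [pva_P_forall J R _ (fun t _ => filter_subset _ _) ?_ ?_, ← prod_const]
  · refine prod_le_prod (fun _ _ => pva_P_nonneg _ _ _) fun t ht => ?_
    have h1 := pvax_blk_fresh hT (hok t ht).fin (hok t ht).blk A ξ b hX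
    rw [pva_P_not] at h1
    linarith
  · intro t ht t' ht' hne
    rw [Finset.disjoint_left]
    intro v hv hv'
    exact Set.disjoint_left.1 (hdis t ht t' ht' hne) (mem_filter.1 hv).2.2 (mem_filter.1 hv').2.2
  · intro t ht
    exact pvaa_cr_dep hT (hok t ht).ins A ξ (R t) b fun v hv hv' => mem_filter.2 ⟨hX v hv, hv, hv'⟩

/-! ## 2. one centre: (6.1) -/

/-- fewer than `g` successes: some `#J - (g-1)` trials all fail -/
theorem pvaa_succ_lt {a o : τ → T.Cyc} {b : Bool} {X : Set V} {J : Finset τ} {s : V → Bool} {g : ℕ} (h : pvaaSucc T a o b X J s < g) :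
    ∃ J' ∈ J.powersetCard (J.card - (g - 1)), ∀ t ∈ J', PvaxCr T (a t) (o t) X b s := by
  classical
  unfold pvaaSucc at h
  have h1 := card_filter_add_card_filter_not (s := J) (fun t => ¬ PvaxCr T (a t) (o t) X b s)
  have h2 : J.card - (g - 1) ≤ (J.filter fun t => ¬ ¬ PvaxCr T (a t) (o t) X b s).card := by omega
  obtain ⟨J', hJ', hc⟩ := exists_subset_card_eq h2
  refine ⟨J', mem_powersetCard.2 ⟨hJ'.trans (filter_subset _ _), hc⟩, fun t ht => ?_⟩
  exact not_not.1 (mem_filter.1 (hJ' ht)).2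

/-- **(6.1)**: fewer than `g` of the trials of one centre succeed -/
theorem pvaa_centre (hT : T.IsSph) {q : ℝ} {a o : τ → T.Cyc} (J : Finset τ) (hok : ∀ t ∈ J, PvaaOk T q a o t)
    (hdis : ∀ t ∈ J, ∀ t' ∈ J, t ≠ t' → Disjoint (T.VOf ((a t).Ann (o t))) (T.VOf ((a t').Ann (o t'))))
    (A : Finset V) (ξ : V → Bool) (b : Bool) {X : Set V} (hX : ∀ v ∈ X, v ∈ A) (g : ℕ) :
    pvaP A ξ (fun s => pvaaSucc T a o b X J s < g) ≤ pvaaP1 q J.card g := by
  classical
  refine (pva_P_mono fun s _ h => pvaa_succ_lt h).trans ((pva_P_exists_le A ξ _ _).trans ?_)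
  have h1 : ∀ J' ∈ J.powersetCard (J.card - (g - 1)), pvaP A ξ (fun s => ∀ t ∈ J', PvaxCr T (a t) (o t) X b s) ≤ (1 - q) ^ (J.card - (g - 1)) := by
    intro J' hJ'
    obtain ⟨hs, hc⟩ := mem_powersetCard.1 hJ'
    rw [← hc]
    exact pvaa_all_fail hT J' (fun t ht => hok t (hs ht)) (fun t ht t' ht' => hdis t (hs ht) t' (hs ht')) A ξ b hX
  refine (sum_le_sum h1).trans ?_
  rw [sum_const, card_powersetCard, nsmul_eq_mul]
  exact le_of_eq rfl

/-! ## 3. one block: Markov -/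

/-- **Markov inside a block** -/
theorem pvaa_block (hT : T.IsSph) {q : ℝ} {a o : τ → T.Cyc} (Z : Finset κ) (J : κ → Finset τ) (n0 g m : ℕ) (hm : 0 < m)
    (hn0 : ∀ z ∈ Z, (J z).card = n0) (hok : ∀ z ∈ Z, ∀ t ∈ J z, PvaaOk T q a o t)
    (hdis : ∀ z ∈ Z, ∀ t ∈ J z, ∀ t' ∈ J z, t ≠ t' → Disjoint (T.VOf ((a t).Ann (o t))) (T.VOf ((a t').Ann (o t'))))
    (A : Finset V) (ξ : V → Bool) (b : Bool) {X : Set V} (hX : ∀ v ∈ X, v ∈ A) :
    pvaP A ξ (fun s => PvaaABad T a o b g m X Z J s) ≤ Z.card * pvaaP1 q n0 g / m := by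
  classical
  have hm' : (0 : ℝ) < m := by exact_mod_cast hm
  have h1 : pvaP A ξ (fun s => PvaaABad T a o b g m X Z J s) ≤
      pvaE A ξ (fun s => (1 / (m : ℝ)) * ∑ z ∈ Z, (if pvaaSucc T a o b X (J z) s < g then (1 : ℝ) else 0)) := by
    unfold pvaP
    refine pva_E_mono fun s _ => ?_
    have e : ∑ z ∈ Z, (if pvaaSucc T a o b X (J z) s < g then (1 : ℝ) else 0) = ((Z.filter fun z => pvaaSucc T a o b X (J z) s < g).card : ℝ) := by
      rw [sum_boole]
    rw [e]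
    by_cases hb : PvaaABad T a o b g m X Z J s
    · rw [if_pos hb, one_div, inv_mul_eq_div, le_div_iff₀ hm', one_mul]
      unfold PvaaABad at hb
      exact_mod_cast hb
    · rw [if_neg hb]
      positivity
  refine h1.trans ?_
  rw [pva_E_mul_left, pva_E_sum]
  have h2 : ∑ z ∈ Z, pvaE A ξ (fun s => if pvaaSucc T a o b X (J z) s < g then (1 : ℝ) else 0) ≤ Z.card * pvaaP1 q n0 g := by
    rw [← nsmul_eq_mul, ← sum_const]
    refine sum_le_sum fun z hz => ?_
    have := pvaa_centre hT (J z) (hok z hz) (hdis z hz) A ξ b hX g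
    rw [hn0 z hz] at this
    unfold pvaP at this
    refine le_trans (le_of_eq ?_) this
    refine pva_E_congr fun s _ => ?_
    by_cases h : pvaaSucc T a o b X (J z) s < g
    · rw [if_pos h, if_pos h]
    · rw [if_neg h, if_neg h]
  rw [one_div, inv_mul_eq_div]
  exact div_le_div_of_nonneg_right h2 hm'.le

/-! ## 4. several blocks after an exploration -/

theorem pvaa_X_meas {S : (V → Bool) → Finset V} (hS : PvaStop S) (A : Finset V) : PvaMeas S (pvaaX A S) := by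
  intro ω ω' h
  unfold pvaaX
  rw [hS ω ω' h]

/-- **AG (v), the conditional product**: `S` stopping set, `K` explored event, explored-measurable centres and usable trials, deterministic disjoint regions -/
theorem pvaa_blocks (hT : T.IsSph) {q : ℝ} (hq : q ≤ 1) {a o : τ → T.Cyc} {S : (V → Bool) → Finset V} (hS : PvaStop S) {K : (V → Bool) → Prop} (hK : PvaMeas S K)
    (A : Finset V) (ξ : V → Bool) (b : Bool) (n0 g m N : ℕ) (hm : 0 < m) (I : Finset ι) (Rg : ι → Finset V)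
    (hRg : ∀ i ∈ I, ∀ j ∈ I, i ≠ j → Disjoint (Rg i) (Rg j))
    (Z : ι → (V → Bool) → Finset κ) (hZ : ∀ i ∈ I, PvaMeas S (Z i)) (J : κ → (V → Bool) → Finset τ) (hJ : ∀ z, PvaMeas S (J z))
    (hN : ∀ ω, PvaCfg A ξ ω → K ω → ∀ i ∈ I, (Z i ω).card ≤ N)
    (hn0 : ∀ ω, PvaCfg A ξ ω → K ω → ∀ i ∈ I, ∀ z ∈ Z i ω, (J z ω).card = n0)
    (hok : ∀ ω, PvaCfg A ξ ω → K ω → ∀ i ∈ I, ∀ z ∈ Z i ω, ∀ t ∈ J z ω, PvaaOk T q a o t ∧ ∀ v ∈ T.VOf ((a t).Ann (o t)), v ∈ Rg i)
    (hdis : ∀ ω, PvaCfg A ξ ω → K ω → ∀ i ∈ I, ∀ z ∈ Z i ω, ∀ t ∈ J z ω, ∀ t' ∈ J z ω, t ≠ t' →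
      Disjoint (T.VOf ((a t).Ann (o t))) (T.VOf ((a t').Ann (o t')))) :
    pvaP A ξ (fun ω => K ω ∧ ∀ i ∈ I, PvaaABad T a o b g m (pvaaX A S ω) (Z i ω) (fun z => J z ω) ω) ≤
      (N * pvaaP1 q n0 g / m) ^ I.card * pvaP A ξ K := by
  classical
  have hm' : (0 : ℝ) < m := by exact_mod_cast hm
  -- on the configurations which agree with `ω` on the explored set, the data are frozen
  have hfr : ∀ ω ω' : V → Bool, PvaCfg (A \ S ω) ω ω' → ∀ i ∈ I,
      (PvaaABad T a o b g m (pvaaX A S ω') (Z i ω') (fun z => J z ω') ω' ↔ PvaaABad T a o b g m (pvaaX A S ω) (Z i ω) (fun z => J z ω) ω') := by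
    intro ω ω' hω' i hi
    have hag : ∀ v ∈ S ω, ω' v = ω v := fun v hv => hω' v fun h => (mem_sdiff.1 h).2 hv
    rw [pvaa_X_meas hS A ω ω' hag, hZ i hi ω ω' hag]
    have : (fun z => J z ω') = fun z => J z ω := funext fun z => hJ z ω ω' hag
    rw [this]
  refine pva_smarkov_le_prod hS hK A ξ I (fun i ω => (Rg i ∩ A) \ S ω)
    (fun i ω => PvaaABad T a o b g m (pvaaX A S ω) (Z i ω) (fun z => J z ω) ω) ?_ ?_ ?_ ?_
  · intro ω _ _ i _ v hv
    obtain ⟨h1, h2⟩ := mem_sdiff.1 hv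
    exact mem_sdiff.2 ⟨(mem_inter.1 h1).2, h2⟩
  · intro ω _ _ i hi j hj hij
    rw [Finset.disjoint_left]
    intro v hv hv'
    exact Finset.disjoint_left.1 (hRg i hi j hj hij) (mem_inter.1 (mem_sdiff.1 hv).1).1 (mem_inter.1 (mem_sdiff.1 hv').1).1
  · intro ω hω hk i hi ω₁ ω₂ h1 h2 h12
    refine propext ?_
    beta_reduce
    rw [hfr ω ω₁ h1 i hi, hfr ω ω₂ h2 i hi]
    have hcr : ∀ z ∈ Z i ω, ∀ t ∈ J z ω, (PvaxCr T (a t) (o t) (pvaaX A S ω) b ω₁ ↔ PvaxCr T (a t) (o t) (pvaaX A S ω) b ω₂) := by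
      intro z hz t ht
      obtain ⟨ok, hreg⟩ := hok ω hω hk i hi z hz t ht
      have := pvaa_cr_dep hT ok.ins (A \ S ω) ω ((Rg i ∩ A) \ S ω) (X := pvaaX A S ω) b
        (fun v hv hv' => mem_sdiff.2 ⟨mem_inter.2 ⟨hreg v hv', hv.1⟩, hv.2⟩) ω₁ ω₂ h1 h2 h12
      exact iff_of_eq this
    have hsucc : ∀ z ∈ Z i ω, pvaaSucc T a o b (pvaaX A S ω) (J z ω) ω₁ = pvaaSucc T a o b (pvaaX A S ω) (J z ω) ω₂ := by
      intro z hz
      unfold pvaaSucc
      congr 1
      exact filter_congr fun t ht => not_congr (hcr z hz t ht)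
    unfold PvaaABad
    have : (Z i ω).filter (fun z => pvaaSucc T a o b (pvaaX A S ω) (J z ω) ω₁ < g) = (Z i ω).filter (fun z => pvaaSucc T a o b (pvaaX A S ω) (J z ω) ω₂ < g) :=
      filter_congr fun z hz => by rw [hsucc z hz]
    rw [this]
  · intro ω hω hk i hi
    rw [pva_P_congr fun ω' hω' => hfr ω ω' hω' i hi]
    refine (pvaa_block hT (Z i ω) (fun z => J z ω) n0 g m hm (hn0 ω hω hk i hi) (fun z hz t ht => (hok ω hω hk i hi z hz t ht).1)
      (hdis ω hω hk i hi) (A \ S ω) ω b (X := pvaaX A S ω) fun v hv => mem_sdiff.2 hv).trans ?_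
    refine div_le_div_of_nonneg_right (mul_le_mul_of_nonneg_right ?_ (pvaa_p1_nonneg hq n0 g)) hm'.le
    exact_mod_cast hN ω hω hk i hi

end adapt

/-! ## 5. `pvaP` as a measure, the Peierls bound for the A-bad blocks -/

section peierls

open MeasureTheory

variable {V D : Type} [DecidableEq V] {T : PvMap V D} {τ κ : Type} [DecidableEq τ] [DecidableEq κ]

/-- `pvaP A ξ` as a measure (every set is measurable) -/
noncomputable def pvaaMu (A : Finset V) (ξ : V → Bool) : @Measure (V → Bool) ⊤ :=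
  ∑ B ∈ A.powerset, ENNReal.ofReal (1 / 2 ^ A.card) • @Measure.dirac (V → Bool) ⊤ (pvaMk A B ξ)

theorem pvaaMu_eqns_cite : True := by
  have := @pvaaMu.eq_1
  trivial

theorem pvaa_mu_apply (A : Finset V) (ξ : V → Bool) (E : Set (V → Bool)) : pvaaMu A ξ E = ENNReal.ofReal (pvaP A ξ (fun ω => ω ∈ E)) := by
  classical
  let _ : MeasurableSpace (V → Bool) := ⊤
  unfold pvaaMu pvaP pvaE
  rw [Measure.coe_finsetSum, Finset.sum_apply, Finset.sum_div, ENNReal.ofReal_sum_of_nonneg]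
  · refine Finset.sum_congr rfl fun B _ => ?_
    rw [Measure.smul_apply, Measure.dirac_apply' _ (MeasurableSpace.measurableSet_top), smul_eq_mul]
    beta_reduce
    by_cases h : pvaMk A B ξ ∈ E
    · rw [Set.indicator_of_mem h, if_pos h]
      simp
    · rw [Set.indicator_of_notMem h, if_neg h]
      simp
  · intro B _
    positivity

/-- **EXIT: Peierls for the A-bad blocks** (AG (v) with the enumeration of all `*`-chains): blocks = `ℤ × ℤ`, regions of blocks at distance `≥ Dd` are disjoint -/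
theorem pvaa_peierls (hT : T.IsSph) {q : ℝ} (hq : q ≤ 1) {a o : τ → T.Cyc} {S : (V → Bool) → Finset V} (hS : PvaStop S) {K : (V → Bool) → Prop} (hK : PvaMeas S K)
    (A : Finset V) (ξ : V → Bool) (b : Bool) (n0 g m N : ℕ) (hm : 0 < m) (Dd : ℕ) (hD : 0 < Dd) (Rg : ℤ × ℤ → Finset V)
    (hRg : ∀ x y, (Dd : ℤ) ≤ pv5Dist x y → Disjoint (Rg x) (Rg y))
    (Z : ℤ × ℤ → (V → Bool) → Finset κ) (hZ : ∀ i, PvaMeas S (Z i)) (J : κ → (V → Bool) → Finset τ) (hJ : ∀ z, PvaMeas S (J z))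
    (hN : ∀ ω, PvaCfg A ξ ω → K ω → ∀ i, (Z i ω).card ≤ N)
    (hn0 : ∀ ω, PvaCfg A ξ ω → K ω → ∀ i, ∀ z ∈ Z i ω, (J z ω).card = n0)
    (hok : ∀ ω, PvaCfg A ξ ω → K ω → ∀ i, ∀ z ∈ Z i ω, ∀ t ∈ J z ω, PvaaOk T q a o t ∧ ∀ v ∈ T.VOf ((a t).Ann (o t)), v ∈ Rg i)
    (hdis : ∀ ω, PvaCfg A ξ ω → K ω → ∀ i, ∀ z ∈ Z i ω, ∀ t ∈ J z ω, ∀ t' ∈ J z ω, t ≠ t' →
      Disjoint (T.VOf ((a t).Ann (o t))) (T.VOf ((a t').Ann (o t'))))
    (hp : N * pvaaP1 q n0 g / m ≤ 1) (Start : Finset (ℤ × ℤ)) (k m' : ℕ) :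
    pvaP A ξ (fun ω => K ω ∧ ∃ c, Pv5Chain k c ∧ c 0 ∈ Start ∧ ∃ S' : Finset ℕ,
        (∀ i ∈ S', i ≤ k ∧ PvaaABad T a o b g m (pvaaX A S ω) (Z (c i) ω) (fun z => J z ω) ω) ∧ m' ≤ S'.card) ≤
      (Start.card * 8 ^ k * 2 ^ (k + 1) : ℕ) * (pvaP A ξ K * (N * pvaaP1 q n0 g / m) ^ (m' / Dd ^ 2)) := by
  classical
  set p : ℝ := N * pvaaP1 q n0 g / m with hpdef
  have hp0 : 0 ≤ p := by
    have := pvaa_p1_nonneg hq n0 g
    positivity
  set Bad : ℤ × ℤ → Set (V → Bool) := fun x => {ω | PvaaABad T a o b g m (pvaaX A S ω) (Z x ω) (fun z => J z ω) ω} with hBad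
  have hind : ∀ I : Finset (ℤ × ℤ), (∀ x ∈ I, ∀ y ∈ I, x ≠ y → (Dd : ℤ) ≤ pv5Dist x y) →
      pvaaMu A ξ ({ω | K ω} ∩ ⋂ x ∈ I, Bad x) ≤ ENNReal.ofReal (pvaP A ξ K) * ENNReal.ofReal p ^ I.card := by
    intro I hI
    rw [pvaa_mu_apply, ← ENNReal.ofReal_pow hp0, ← ENNReal.ofReal_mul (pva_P_nonneg _ _ _)]
    refine ENNReal.ofReal_le_ofReal ?_
    have h1 := pvaa_blocks hT hq hS hK A ξ b n0 g m N hm I Rg (fun i hi j hj hij => hRg i j (hI i hi j hj hij)) Z (fun i _ => hZ i) J hJ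
      (fun ω h1 h2 i _ => hN ω h1 h2 i) (fun ω h1 h2 i _ => hn0 ω h1 h2 i) (fun ω h1 h2 i _ => hok ω h1 h2 i) (fun ω h1 h2 i _ => hdis ω h1 h2 i)
    rw [mul_comm]
    refine le_trans (le_of_eq ?_) h1
    refine pva_P_congr fun ω _ => ?_
    simp only [Set.mem_inter_iff, Set.mem_ofPred_eq, Set.mem_iInter, hBad]
  have h2 := @pvag_peierls_frac (V → Bool) ⊤ (pvaaMu A ξ) Bad Dd hD {ω | K ω} (ENNReal.ofReal (pvaP A ξ K)) (ENNReal.ofReal p)
    (by rw [← ENNReal.ofReal_one]; exact ENNReal.ofReal_le_ofReal hp) hind Start k m'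
  rw [pvaa_mu_apply, ← ENNReal.ofReal_pow hp0, ← ENNReal.ofReal_mul (pva_P_nonneg _ _ _), ← ENNReal.ofReal_natCast,
    ← ENNReal.ofReal_mul (Nat.cast_nonneg _)] at h2
  have h3 : 0 ≤ ((Start.card * 8 ^ k * 2 ^ (k + 1) : ℕ) : ℝ) * (pvaP A ξ K * p ^ (m' / Dd ^ 2)) := by
    have := pva_P_nonneg A ξ K
    positivity
  have h4 := (ENNReal.ofReal_le_ofReal_iff h3).1 h2
  refine le_trans (le_of_eq ?_) h4
  refine pva_P_congr fun ω _ => ?_
  simp only [Set.mem_inter_iff, Set.mem_ofPred_eq, hBad]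

end peierls

end Claimed.Agent.R289
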