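import Claimed.Agent.R289.Arm.Stop
import Claimed.Agent.R289.S1.Meas
import Claimed.Agent.R289.PppQ
import Claimed.Agent.R289.Defs.Bulk
import Claimed.Agent.R289.Defs.Up

/-!
# Row 289 (S0537, Cardy for Poisson-Voronoi), box ARM, block A0b, file Arm/Law : THE BRIDGE `colLaw V` <-> `pvaE` / `pvaP`, THE QUENCH SEAM      (owner helper128; prefix `pval_`)

Everything of `Arm/Stop`, `Arm/Bk`, `Arm/Cut`, ... is stated for `pvaE A ξ` (fair bits on a FINITE set `A`, arbitrary background `ξ`).      This file carries it to the laws of the row: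
`colLaw V` (`S1/Defs`, `V` may be infinite), `pvCol = colLaw PvIx`, `pvGeo ε` (`PppQ`), `(pvLaw ε).prod (colLaw X)` and the colouring `𝔅.col η ξ` of a bulk family (`Defs/Bulk`).

sec. 1 `pval_E_eq_fl`      the mean over the bits of `A` = the mean over the flips of the subsets of `A`
sec. 2 **`pval_resample`**      `∫ pvaE A ω f d colLaw(ω) = ∫ f d colLaw`, `f` integrable, `A` finite, `V` arbitrary;      `pval_resample_P` events
sec. 3 `PvalLoc A F` (`F` reads `A` only) => measurable, bounded, integrable;      **`pval_integral`**, **`pval_real`**, `pval_measure` (finite reduction: `colLaw {K} = pvaP A ξ K`);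
       **`pval_real_le`**, `pval_le_real` (a bound for EVERY background gives the bound under `colLaw`, `K` measurable, may read infinitely many colours), `pval_real_le_on`, `pval_le_real_on` (on an event of the background)
sec. 4 `pval_sum`, `pval_sum_comp`      two independent families = one family on the disjoint union; pull-back along an injection
sec. 5 **`pval_quench`**      given a good geometry `g` the colouring of the vertices of `𝔅.T (pvgSites g)` has the law `colLaw (𝔅.V (pvgSites g))`;
       `pval_col_cast`, `pval_col_merge` (no dependent types: `P (cfSites η) (𝔅.col η ξ) ↔ P Y (𝔅.colY Y σ ξ)`), `pval_quench_le` (NO measurability), `pval_quench_eq`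
sec. 6 `pval_law`, **`pval_anneal`**, `pval_anneal_le`, **`pval_bulk_le`**      (annealed probability of a bulk property `≤ p + P(bad geometry)`)
-/

set_option autoImplicit false
set_option linter.unusedSectionVars false
set_option linter.unusedVariables false

namespace Claimed.Agent.R289

open MeasureTheory Finset
open Claims.C0465
open scoped ENNReal

variable {V : Type} [DecidableEq V]

/-! ## 1. the mean over the bits of `A` as a mean over flips -/

theorem pval_fl_eq (R : Finset V) : pvaFl R = pvfFlip (R : Set V) := by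
  funext ω v
  by_cases hv : v ∈ R
  · rw [pva_fl_in hv, pvf_flip_mem (by exact_mod_cast hv)]
  · rw [pva_fl_out hv, pvf_flip_notMem (by exact_mod_cast hv)]

/-- the mean over the bits of `A` = the mean over the flips of the subsets of `A` -/
theorem pval_E_eq_fl (A : Finset V) (ω : V → Bool) (f : (V → Bool) → ℝ) :
    pvaE A ω f = (∑ R ∈ A.powerset, f (pvaFl R ω)) / 2 ^ A.card := by
  rw [pva_E_eq]
  congr 1
  symm
  refine sum_nbij (fun R => pvaFl R ω) ?_ ?_ ?_ (fun _ _ => rfl)
  · intro R hR
    exact pva_mem_cfgs.2 (pva_fl_cfg (mem_powerset.1 hR) (pva_cfg_refl A ω))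
  · intro R hR R' hR' h
    ext v
    have h1 := congrFun h v
    simp only at h1
    by_cases hv : v ∈ R <;> by_cases hv' : v ∈ R'
    · simp [hv, hv']
    · rw [pva_fl_in hv, pva_fl_out hv'] at h1
      cases e : ω v <;> simp [e] at h1
    · rw [pva_fl_out hv, pva_fl_in hv'] at h1
      cases e : ω v <;> simp [e] at h1
    · simp [hv, hv']
  · intro ω' hω'
    have hc := pva_mem_cfgs.1 (mem_coe.1 hω')
    refine ⟨A.filter (fun v => ω' v ≠ ω v), mem_coe.2 (mem_powerset.2 (filter_subset _ _)), ?_⟩
    funext v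
    by_cases hv : v ∈ A.filter (fun v => ω' v ≠ ω v)
    · show pvaFl _ ω v = ω' v
      rw [pva_fl_in hv]
      have := (mem_filter.1 hv).2
      cases e : ω v <;> cases e' : ω' v <;> simp_all
    · show pvaFl _ ω v = ω' v
      rw [pva_fl_out hv]
      by_cases hA : v ∈ A
      · by_contra hne
        exact hv (mem_filter.2 ⟨hA, fun h => hne h.symm⟩)
      · exact (hc v hA).symm

/-! ## 2. resampling under `colLaw` -/

theorem pval_measurable_fl (R : Finset V) : Measurable (pvaFl R) := by
  rw [pval_fl_eq]; exact pvf_measurable_flip _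

theorem pval_map_fl (R : Finset V) : (colLaw V).map (pvaFl R) = colLaw V := by
  rw [pval_fl_eq]; exact pvf_colLaw_flip _

theorem pval_mp_fl (R : Finset V) : MeasurePreserving (pvaFl R) (colLaw V) (colLaw V) := ⟨pval_measurable_fl R, pval_map_fl R⟩

theorem pval_integrable_fl (R : Finset V) {f : (V → Bool) → ℝ} (hf : Integrable f (colLaw V)) : Integrable (fun ω => f (pvaFl R ω)) (colLaw V) :=
  (pval_mp_fl R).integrable_comp_of_integrable hf

theorem pval_integral_fl (R : Finset V) (f : (V → Bool) → ℝ) : ∫ ω, f (pvaFl R ω) ∂(colLaw V) = ∫ ω, f ω ∂(colLaw V) := by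
  have h := (pvfFlipE (R : Set V)).measurableEmbedding.integral_map (μ := colLaw V) f
  have e : (colLaw V).map (pvfFlipE (R : Set V)) = colLaw V := pvf_colLaw_flip _
  rw [e] at h
  rw [h, pval_fl_eq]
  rfl

theorem pval_integrable_E (A : Finset V) {f : (V → Bool) → ℝ} (hf : Integrable f (colLaw V)) : Integrable (fun ω => pvaE A ω f) (colLaw V) := by
  simp only [pval_E_eq_fl]
  exact (integrable_finsetSum _ fun R _ => pval_integrable_fl R hf).div_const _

/-- **RESAMPLING**: under the law of the colours (`V` may be infinite) the bits of a finite set `A` are fair and independent of the rest -/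
theorem pval_resample (A : Finset V) {f : (V → Bool) → ℝ} (hf : Integrable f (colLaw V)) :
    ∫ ω, pvaE A ω f ∂(colLaw V) = ∫ ω, f ω ∂(colLaw V) := by
  simp only [pval_E_eq_fl]
  rw [integral_div, integral_finsetSum _ fun R _ => pval_integrable_fl R hf, sum_congr rfl fun R _ => pval_integral_fl R f, sum_const, card_powerset,
    nsmul_eq_mul]
  push_cast
  field_simp

/-! ## 3. finite reduction, quenched bounds -/

/-- `F` reads the colours of the finite set `A` only -/
def PvalLoc {β : Type} (A : Finset V) (F : (V → Bool) → β) : Prop := ∀ ω ω' : V → Bool, (∀ v ∈ A, ω v = ω' v) → F ω = F ω'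

theorem pval_loc_mono {β : Type} {A A' : Finset V} (h : A ⊆ A') {F : (V → Bool) → β} (hF : PvalLoc A F) : PvalLoc A' F :=
  fun ω ω' h' => hF ω ω' fun v hv => h' v (h hv)

theorem pval_loc_dep {β : Type} {A : Finset V} {F : (V → Bool) → β} (hF : PvalLoc A F) (A' : Finset V) (ξ : V → Bool) : PvaDep A' A ξ F :=
  fun ω₁ ω₂ _ _ h => hF ω₁ ω₂ h

/-- a function which reads finitely many colours is measurable (any target) -/
theorem pval_loc_measurable {β : Type} [MeasurableSpace β] {A : Finset V} {F : (V → Bool) → β} (hF : PvalLoc A F) : Measurable F := by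
  have h1 : Measurable (fun (ω : V → Bool) (v : A) => ω v) := measurable_pi_lambda _ fun v => measurable_pi_apply _
  have h2 : F = (fun x : A → Bool => F (fun v => if h : v ∈ A then x ⟨v, h⟩ else false)) ∘ (fun (ω : V → Bool) (v : A) => ω v) := by
    funext ω
    refine hF _ _ fun v hv => ?_
    simp only [dif_pos hv]
  rw [h2]
  exact (measurable_of_finite _).comp h1

theorem pval_loc_measurableSet {A : Finset V} {K : (V → Bool) → Prop} (hK : PvalLoc A K) : MeasurableSet {ω | K ω} :=
  measurableSet_setOf.2 (pval_loc_measurable hK)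

theorem pval_loc_bdd {A : Finset V} {f : (V → Bool) → ℝ} (hf : PvalLoc A f) : ∃ C : ℝ, ∀ ω, ‖f ω‖ ≤ C := by
  refine ⟨∑ B ∈ A.powerset, ‖f (pvaMk A B (fun _ => false))‖, fun ω => ?_⟩
  have h1 : f ω = f (pvaMk A (pvaBl A ω) (fun _ => false)) := by
    refine hf _ _ fun v hv => ?_
    rw [pva_mk_in hv]
    unfold pvaBl
    cases hω : ω v <;> simp [hv, hω]
  rw [h1]
  exact single_le_sum (f := fun B => ‖f (pvaMk A B (fun _ => false))‖) (fun _ _ => norm_nonneg _) (pva_bl_mem A ω)

theorem pval_loc_integrable {A : Finset V} {f : (V → Bool) → ℝ} (hf : PvalLoc A f) : Integrable f (colLaw V) := by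
  obtain ⟨C, hC⟩ := pval_loc_bdd hf
  exact Integrable.of_bound (pval_loc_measurable hf).aestronglyMeasurable C (Filter.Eventually.of_forall hC)

theorem pval_E_loc {A : Finset V} {f : (V → Bool) → ℝ} (hf : PvalLoc A f) (ξ ξ' : V → Bool) : pvaE A ξ f = pvaE A ξ' f := by
  unfold pvaE
  congr 1
  refine sum_congr rfl fun B _ => hf _ _ fun v hv => ?_
  rw [pva_mk_in hv, pva_mk_in hv]

/-- **FINITE REDUCTION**: the integral of a function which reads `A` only -/
theorem pval_integral {A : Finset V} {f : (V → Bool) → ℝ} (hf : PvalLoc A f) (ξ : V → Bool) : ∫ ω, f ω ∂(colLaw V) = pvaE A ξ f := by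
  rw [← pval_resample A (pval_loc_integrable hf), integral_congr_ae (Filter.Eventually.of_forall fun ω => pval_E_loc hf ω ξ), integral_const]
  simp

open Classical in
theorem pval_ind_integral {K : (V → Bool) → Prop} (hK : MeasurableSet {ω | K ω}) :
    ∫ ω, (if K ω then (1 : ℝ) else 0) ∂(colLaw V) = (colLaw V).real {ω | K ω} := by
  have h := integral_indicator_one (μ := colLaw V) hK
  rw [← h]
  refine integral_congr_ae (Filter.Eventually.of_forall fun ω => ?_)
  by_cases hk : K ω
  · simp only [if_pos hk]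
    exact (Set.indicator_of_mem (s := {ω | K ω}) hk 1).symm
  · simp only [if_neg hk]
    exact (Set.indicator_of_notMem (s := {ω | K ω}) hk 1).symm

open Classical in
theorem pval_ind_integrable {K : (V → Bool) → Prop} (hK : MeasurableSet {ω | K ω}) : Integrable (fun ω => if K ω then (1 : ℝ) else 0) (colLaw V) := by
  refine Integrable.of_bound (Measurable.ite hK measurable_const measurable_const).aestronglyMeasurable 1 (Filter.Eventually.of_forall fun ω => ?_)
  split_ifs <;> simp

/-- resampling, events -/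
theorem pval_resample_P (A : Finset V) {K : (V → Bool) → Prop} (hK : MeasurableSet {ω | K ω}) :
    ∫ ω, pvaP A ω K ∂(colLaw V) = (colLaw V).real {ω | K ω} := by
  classical
  rw [← pval_ind_integral hK]
  exact pval_resample A (pval_ind_integrable hK)

theorem pval_integrable_P (A : Finset V) {K : (V → Bool) → Prop} (hK : MeasurableSet {ω | K ω}) : Integrable (fun ω => pvaP A ω K) (colLaw V) := by
  classical
  exact pval_integrable_E A (pval_ind_integrable hK)

/-- finite reduction, events -/
theorem pval_real {A : Finset V} {K : (V → Bool) → Prop} (hK : PvalLoc A K) (ξ : V → Bool) : (colLaw V).real {ω | K ω} = pvaP A ξ K := by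
  classical
  rw [← pval_ind_integral (pval_loc_measurableSet hK)]
  refine pval_integral (fun ω ω' h => ?_) ξ
  simp only [hK ω ω' h]

theorem pval_measure {A : Finset V} {K : (V → Bool) → Prop} (hK : PvalLoc A K) (ξ : V → Bool) :
    colLaw V {ω | K ω} = ENNReal.ofReal (pvaP A ξ K) := by
  rw [← pval_real hK ξ, measureReal_def, ENNReal.ofReal_toReal (measure_ne_top _ _)]

/-- **QUENCHED UPPER BOUND => bound under the law**: `K` measurable (it may read infinitely many colours) -/
theorem pval_real_le (A : Finset V) {K : (V → Bool) → Prop} (hK : MeasurableSet {ω | K ω}) {p : ℝ} (h : ∀ ξ, pvaP A ξ K ≤ p) :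
    (colLaw V).real {ω | K ω} ≤ p := by
  rw [← pval_resample_P A hK]
  calc ∫ ω, pvaP A ω K ∂(colLaw V) ≤ ∫ _ω, p ∂(colLaw V) := integral_mono (pval_integrable_P A hK) (integrable_const _) h
    _ = p := by simp

theorem pval_le_real (A : Finset V) {K : (V → Bool) → Prop} (hK : MeasurableSet {ω | K ω}) {q : ℝ} (h : ∀ ξ, q ≤ pvaP A ξ K) :
    q ≤ (colLaw V).real {ω | K ω} := by
  rw [← pval_resample_P A hK]
  calc q = ∫ _ω, q ∂(colLaw V) := by simp
    _ ≤ ∫ ω, pvaP A ω K ∂(colLaw V) := integral_mono (integrable_const _) (pval_integrable_P A hK) h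

/-- bound on an event `G` of the background (it does not read `A`): `P(K ∧ G) ≤ p P(G)` -/
theorem pval_real_le_on (A : Finset V) {K G : (V → Bool) → Prop} (hK : MeasurableSet {ω | K ω}) (hG : MeasurableSet {ω | G ω})
    (hGA : ∀ ω ω' : V → Bool, (∀ v, v ∉ A → ω v = ω' v) → (G ω ↔ G ω')) {p : ℝ} (h : ∀ ξ, G ξ → pvaP A ξ K ≤ p) :
    (colLaw V).real {ω | K ω ∧ G ω} ≤ p * (colLaw V).real {ω | G ω} := by
  classical
  have hKG : MeasurableSet {ω | K ω ∧ G ω} := hK.inter hG
  rw [← pval_resample_P A hKG, ← pval_ind_integral hG, ← integral_const_mul]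
  refine integral_mono (pval_integrable_P A hKG) ((pval_ind_integrable hG).const_mul p) fun ξ => ?_
  show pvaP A ξ (fun ω => K ω ∧ G ω) ≤ p * (if G ξ then 1 else 0)
  by_cases hg : G ξ
  · rw [if_pos hg, mul_one]
    exact (pva_P_mono fun ω _ hk => hk.1).trans (h ξ hg)
  · rw [if_neg hg, mul_zero]
    refine le_of_eq (pva_P_false fun ω hω hk => hg ?_)
    exact (hGA ω ξ hω).1 hk.2

theorem pval_le_real_on (A : Finset V) {K G : (V → Bool) → Prop} (hK : MeasurableSet {ω | K ω}) (hG : MeasurableSet {ω | G ω})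
    (hGA : ∀ ω ω' : V → Bool, (∀ v, v ∉ A → ω v = ω' v) → (G ω ↔ G ω')) {q : ℝ} (h : ∀ ξ, G ξ → q ≤ pvaP A ξ K) :
    q * (colLaw V).real {ω | G ω} ≤ (colLaw V).real {ω | K ω ∧ G ω} := by
  classical
  have hKG : MeasurableSet {ω | K ω ∧ G ω} := hK.inter hG
  rw [← pval_resample_P A hKG, ← pval_ind_integral hG, ← integral_const_mul]
  refine integral_mono ((pval_ind_integrable hG).const_mul q) (pval_integrable_P A hKG) fun ξ => ?_
  show q * (if G ξ then 1 else 0) ≤ pvaP A ξ (fun ω => K ω ∧ G ω)
  by_cases hg : G ξ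
  · rw [if_pos hg, mul_one]
    refine (h ξ hg).trans (pva_P_mono fun ω hω hk => ⟨hk, (hGA ω ξ hω).2 hg⟩)
  · rw [if_neg hg, mul_zero]
    exact pva_P_nonneg _ _ _

/-- finite `V` -/
theorem pval_fintype [Fintype V] (f : (V → Bool) → ℝ) (ξ : V → Bool) : ∫ ω, f ω ∂(colLaw V) = pvaE univ ξ f :=
  pval_integral (fun ω ω' h => congrArg f (funext fun v => h v (mem_univ v))) ξ

theorem pval_fintype_real [Fintype V] (K : (V → Bool) → Prop) (ξ : V → Bool) : (colLaw V).real {ω | K ω} = pvaP univ ξ K :=
  pval_real (fun ω ω' h => congrArg K (funext fun v => h v (mem_univ v))) ξ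

/-! ## 4. sums of colour families -/

theorem pval_measurable_elim (I X : Type) : Measurable (fun p : (I → Bool) × (X → Bool) => (Sum.elim p.1 p.2 : I ⊕ X → Bool)) := by
  refine measurable_pi_lambda _ fun i => ?_
  cases i with
  | inl i => exact (measurable_pi_apply i).comp measurable_fst
  | inr x => exact (measurable_pi_apply x).comp measurable_snd

/-- two independent families of fair colours = one family of fair colours on the disjoint union -/
theorem pval_sum (I X : Type) : ((colLaw I).prod (colLaw X)).map (fun p => (Sum.elim p.1 p.2 : I ⊕ X → Bool)) = colLaw (I ⊕ X) := by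
  classical
  rw [pvf_colLaw_eq (I ⊕ X)]
  refine Measure.eq_infinitePi _ fun S t ht => ?_
  rw [Measure.map_apply (pval_measurable_elim I X) (MeasurableSet.pi S.countable_toSet fun i _ => ht i)]
  have e : (fun p : (I → Bool) × (X → Bool) => (Sum.elim p.1 p.2 : I ⊕ X → Bool)) ⁻¹' (S : Set (I ⊕ X)).pi t =
      ((S.toLeft : Set I).pi fun i => t (Sum.inl i)) ×ˢ ((S.toRight : Set X).pi fun x => t (Sum.inr x)) := by
    ext p
    simp only [Set.mem_preimage, Set.mem_pi, Finset.mem_coe, Set.mem_prod, Finset.mem_toLeft, Finset.mem_toRight]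
    constructor
    · intro h
      exact ⟨fun i hi => h _ hi, fun x hx => h _ hx⟩
    · rintro ⟨h1, h2⟩ i hi
      cases i with
      | inl i => exact h1 i hi
      | inr x => exact h2 x hi
  rw [e, Measure.prod_prod, pvf_colLaw_eq I, pvf_colLaw_eq X, Measure.infinitePi_pi _ (fun i _ => MeasurableSet.of_discrete),
    Measure.infinitePi_pi _ (fun i _ => MeasurableSet.of_discrete), Finset.prod_sum_eq_prod_toLeft_mul_prod_toRight]

/-- pull-back of two independent families along an injection into the disjoint union -/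
theorem pval_sum_comp {W I X : Type} (e : W → I ⊕ X) (he : Function.Injective e) :
    ((colLaw I).prod (colLaw X)).map (fun p w => Sum.elim p.1 p.2 (e w)) = colLaw W := by
  have hm : Measurable (fun s : I ⊕ X → Bool => s ∘ e) := measurable_pi_lambda _ fun v => measurable_pi_apply (e v)
  rw [← pvf_colLaw_comp e he, ← pval_sum I X, Measure.map_map hm (pval_measurable_elim I X)]
  rfl

/-! ## 5. THE QUENCH SEAM for bulk families: given the geometry, the colouring `𝔅.col` of the vertices of `𝔅.T Y` has the law `colLaw (𝔅.V Y)` -/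

theorem pval_pvCol : pvCol = colLaw PvIx := rfl

/-- at a good geometry the colour of a site (vocabulary of `Defs/Bulk`) is the bit of its index -/
theorem pval_cfCol {g : PvGeoT} (hg : PvgOk g) (c : PvColT) {z : ℂ} (hz : z ∈ pvgSites g) : cfCol (pvConf (pvMerge (g, c))) z = pvgColAt g c z := by
  classical
  unfold cfCol
  rw [hg.conf_eq c]
  cases e : pvgColAt g c z
  · refine decide_eq_false fun h => ?_
    have := (cfOf_mem.1 h).2
    rw [e] at this
    exact Bool.noConfusion this
  · exact decide_eq_true (cfOf_mem.2 ⟨hz, e.symm⟩)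

namespace PvBulk

variable {X : Type} (𝔅 : PvBulk X)

/-- the colouring of the vertices of `𝔅.T Y` given by a colouring `σ` of the plane and the coins `ξ` -/
def colY (Y : Set ℂ) (σ : ℂ → Bool) (ξ : X → Bool) (v : 𝔅.V Y) : Bool := Sum.elim σ ξ (𝔅.lab Y v)

end PvBulk

theorem pval_eqns_cite : True := by
  have := @PvalLoc.eq_1
  have := @PvBulk.colY.eq_1
  trivial

variable {X : Type} (𝔅 : PvBulk X)

/-- **NO DEPENDENT TYPES**: a property of (site set, colouring) at the site set of `η` -/
theorem pval_col_cast (P : ∀ Y : Set ℂ, (𝔅.V Y → Bool) → Prop) {η : Conf PvPt} {Y : Set ℂ} (h : cfSites η = Y) (ξ : X → Bool) :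
    P (cfSites η) (𝔅.col η ξ) ↔ P Y (𝔅.colY Y (cfCol η) ξ) := by
  subst h
  rfl

theorem pval_colY_congr {Y : Set ℂ} (hs : ∀ v p, 𝔅.lab Y v = Sum.inl p → p ∈ Y) {σ σ' : ℂ → Bool} (h : ∀ z ∈ Y, σ z = σ' z) (ξ : X → Bool) :
    𝔅.colY Y σ ξ = 𝔅.colY Y σ' ξ := by
  funext v
  unfold PvBulk.colY
  cases e : 𝔅.lab Y v with
  | inl p => exact h p (hs v p e)
  | inr x => rfl

/-- a property of (site set, colouring) at the sample `(g, c)`, `g` good -/
theorem pval_col_merge (P : ∀ Y : Set ℂ, (𝔅.V Y → Bool) → Prop) {g : PvGeoT} (hg : PvgOk g) (hs : ∀ v p, 𝔅.lab (pvgSites g) v = Sum.inl p → p ∈ pvgSites g)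
    (c : PvColT) (ξ : X → Bool) :
    P (cfSites (pvConf (pvMerge (g, c)))) (𝔅.col (pvConf (pvMerge (g, c))) ξ) ↔ P (pvgSites g) (𝔅.colY (pvgSites g) (pvgColAt g c) ξ) := by
  rw [pval_col_cast 𝔅 P (pvqu_cfSites g c) ξ, pval_colY_congr 𝔅 hs fun z hz => pval_cfCol hg c hz]

/-- the index (or extra vertex) of a vertex -/
noncomputable def pvalIdx (g : PvGeoT) (v : 𝔅.V (pvgSites g)) : PvIx ⊕ X := Sum.map (pvgIdx g) id (𝔅.lab (pvgSites g) v)

theorem pval_idx_inj {g : PvGeoT} (hi : Function.Injective (𝔅.lab (pvgSites g))) (hs : ∀ v p, 𝔅.lab (pvgSites g) v = Sum.inl p → p ∈ pvgSites g) :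
    Function.Injective (pvalIdx 𝔅 g) := by
  intro v w h
  refine hi ?_
  unfold pvalIdx at h
  cases e : 𝔅.lab (pvgSites g) v with
  | inl p =>
    cases e' : 𝔅.lab (pvgSites g) w with
    | inl q =>
      rw [e, e'] at h
      simp only [Sum.map_inl, Sum.inl.injEq] at h
      rw [pvqu_idx_injOn g (hs v p e) (hs w q e') h]
    | inr y =>
      rw [e, e'] at h
      simp at h
  | inr x =>
    cases e' : 𝔅.lab (pvgSites g) w with
    | inl q =>
      rw [e, e'] at h
      simp at h
    | inr y =>
      rw [e, e'] at h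
      simpa using h

theorem pval_colY_eq (g : PvGeoT) (c : PvColT) (ξ : X → Bool) (v : 𝔅.V (pvgSites g)) :
    𝔅.colY (pvgSites g) (pvgColAt g c) ξ v = Sum.elim c ξ (pvalIdx 𝔅 g v) := by
  unfold PvBulk.colY pvalIdx
  cases e : 𝔅.lab (pvgSites g) v with
  | inl p => rfl
  | inr x => rfl

theorem pval_measurable_colY (g : PvGeoT) : Measurable (fun p : PvColT × (X → Bool) => 𝔅.colY (pvgSites g) (pvgColAt g p.1) p.2) := by
  have h : (fun p : PvColT × (X → Bool) => 𝔅.colY (pvgSites g) (pvgColAt g p.1) p.2) = fun p w => Sum.elim p.1 p.2 (pvalIdx 𝔅 g w) := by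
    funext p v
    exact pval_colY_eq 𝔅 g p.1 p.2 v
  rw [h]
  exact measurable_pi_lambda _ fun v => (measurable_pi_apply (pvalIdx 𝔅 g v)).comp (pval_measurable_elim PvIx X)

/-- **QUENCH**: given the geometry the vertices of the bulk map carry fair independent colours -/
theorem pval_quench {g : PvGeoT} (hi : Function.Injective (𝔅.lab (pvgSites g))) (hs : ∀ v p, 𝔅.lab (pvgSites g) v = Sum.inl p → p ∈ pvgSites g) :
    (pvCol.prod (colLaw X)).map (fun p => 𝔅.colY (pvgSites g) (pvgColAt g p.1) p.2) = colLaw (𝔅.V (pvgSites g)) := by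
  rw [← pval_sum_comp (pvalIdx 𝔅 g) (pval_idx_inj 𝔅 hi hs)]
  congr 1
  funext p v
  exact pval_colY_eq 𝔅 g p.1 p.2 v

/-- quenched probability of a property of (site set, colouring): upper bound, NO measurability -/
theorem pval_quench_le (P : ∀ Y : Set ℂ, (𝔅.V Y → Bool) → Prop) {g : PvGeoT} (hg : PvgOk g) (hi : Function.Injective (𝔅.lab (pvgSites g)))
    (hs : ∀ v p, 𝔅.lab (pvgSites g) v = Sum.inl p → p ∈ pvgSites g) :
    (pvCol.prod (colLaw X)) {p | P (cfSites (pvConf (pvMerge (g, p.1)))) (𝔅.col (pvConf (pvMerge (g, p.1))) p.2)} ≤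
      colLaw (𝔅.V (pvgSites g)) {s | P (pvgSites g) s} := by
  rw [← pval_quench 𝔅 hi hs]
  refine le_trans (le_of_eq ?_) (Measure.le_map_apply (pval_measurable_colY 𝔅 g).aemeasurable _)
  congr 1
  ext p
  exact pval_col_merge 𝔅 P hg hs p.1 p.2

/-- quenched probability of a property of (site set, colouring): equality for a measurable property -/
theorem pval_quench_eq (P : ∀ Y : Set ℂ, (𝔅.V Y → Bool) → Prop) {g : PvGeoT} (hg : PvgOk g) (hi : Function.Injective (𝔅.lab (pvgSites g)))
    (hs : ∀ v p, 𝔅.lab (pvgSites g) v = Sum.inl p → p ∈ pvgSites g) (hP : MeasurableSet {s | P (pvgSites g) s}) :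
    (pvCol.prod (colLaw X)) {p | P (cfSites (pvConf (pvMerge (g, p.1)))) (𝔅.col (pvConf (pvMerge (g, p.1))) p.2)} =
      colLaw (𝔅.V (pvgSites g)) {s | P (pvgSites g) s} := by
  rw [← pval_quench 𝔅 hi hs, Measure.map_apply (pval_measurable_colY 𝔅 g) hP]
  congr 1
  ext p
  exact pval_col_merge 𝔅 P hg hs p.1 p.2

/-! ## 5b. the quench seam in FUNCTION form (helper79: input of `pvup_iter_E_quenched`, box X2 = `exit_l9_bes`) -/

/-- pointwise: a function of (site set, colouring) at the merged sample -/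
theorem pval_fun_merge {β : Type} (F : ∀ Y : Set ℂ, (𝔅.V Y → Bool) → β) {g : PvGeoT} (hg : PvgOk g) (hs : ∀ v p, 𝔅.lab (pvgSites g) v = Sum.inl p → p ∈ pvgSites g)
    (c : PvColT) (ξ : X → Bool) :
    F (cfSites (pvConf (pvMerge (g, c)))) (𝔅.col (pvConf (pvMerge (g, c))) ξ) = F (pvgSites g) (𝔅.colY (pvgSites g) (pvgColAt g c) ξ) :=
  (pval_col_merge 𝔅 (fun Y s => F Y s = F (pvgSites g) (𝔅.colY (pvgSites g) (pvgColAt g c) ξ)) hg hs c ξ).2 rfl

/-- **QUENCH, function form**: the colour integral at a fixed good geometry is the integral over the fair colourings of the vertices of `𝔅.T Y` -/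
theorem pval_quench_lint (F : ∀ Y : Set ℂ, (𝔅.V Y → Bool) → ℝ≥0∞) {g : PvGeoT} (hg : PvgOk g) (hi : Function.Injective (𝔅.lab (pvgSites g)))
    (hs : ∀ v p, 𝔅.lab (pvgSites g) v = Sum.inl p → p ∈ pvgSites g) (hF : Measurable (F (pvgSites g))) :
    ∫⁻ p, F (cfSites (pvConf (pvMerge (g, p.1)))) (𝔅.col (pvConf (pvMerge (g, p.1))) p.2) ∂(pvCol.prod (colLaw X))
      = ∫⁻ s, F (pvgSites g) s ∂colLaw (𝔅.V (pvgSites g)) := by
  rw [← pval_quench 𝔅 hi hs, lintegral_map hF (pval_measurable_colY 𝔅 g)]
  exact lintegral_congr fun p => pval_fun_merge 𝔅 F hg hs p.1 p.2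

/-- **QUENCH, upper integral** (the hypothesis `h` of `pvup_iter_E_quenched` at the geometry `g`) -/
theorem pval_quench_up (F : ∀ Y : Set ℂ, (𝔅.V Y → Bool) → ℝ≥0∞) {g : PvGeoT} (hg : PvgOk g) (hi : Function.Injective (𝔅.lab (pvgSites g)))
    (hs : ∀ v p, 𝔅.lab (pvgSites g) v = Sum.inl p → p ∈ pvgSites g) (hF : Measurable (F (pvgSites g))) :
    pvUpInt (pvCol.prod (colLaw X)) (fun p => F (cfSites (pvConf (pvMerge (g, p.1)))) (𝔅.col (pvConf (pvMerge (g, p.1))) p.2))
      = ∫⁻ s, F (pvgSites g) s ∂colLaw (𝔅.V (pvgSites g)) := by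
  rw [← pval_quench_lint 𝔅 F hg hi hs hF]
  refine pvup_int_of_meas _ ?_
  have : (fun p : PvColT × (X → Bool) => F (cfSites (pvConf (pvMerge (g, p.1)))) (𝔅.col (pvConf (pvMerge (g, p.1))) p.2))
      = fun p => F (pvgSites g) (𝔅.colY (pvgSites g) (pvgColAt g p.1) p.2) := funext fun p => pval_fun_merge 𝔅 F hg hs p.1 p.2
  rw [this]
  exact hF.comp (pval_measurable_colY 𝔅 g)

/-- on a finite vertex set every function of the colouring is measurable -/
theorem pval_measurable_fin {V β : Type} [Finite V] [MeasurableSpace β] (F : (V → Bool) → β) : Measurable F := measurable_of_finite F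

/-! ## 6. annealing: the colours (of the sites and of the extra vertices) are integrated last -/

/-- the law of (sample, coins) = image of (geometry) ⊗ (colours ⊗ coins) -/
theorem pval_law (ε : ℝ) (X : Type) : (pvLaw ε).prod (colLaw X) =
    ((pvGeo ε).prod (pvCol.prod (colLaw X))).map (fun q => (pvMerge (q.1, q.2.1), q.2.2)) := by
  have h2 := Measure.map_prod_map ((pvGeo ε).prod pvCol) (colLaw X) measurable_pvMerge measurable_id
  rw [Measure.map_id, ← pvqu_law] at h2
  have hm : Measurable (fun q : PvGeoT × (PvColT × (X → Bool)) => (pvMerge (q.1, q.2.1), q.2.2)) :=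
    (measurable_pvMerge.comp (measurable_fst.prodMk (measurable_fst.comp measurable_snd))).prodMk (measurable_snd.comp measurable_snd)
  rw [h2, ← Measure.prodAssoc_prod, Measure.map_map hm MeasurableEquiv.prodAssoc.measurable]
  rfl

theorem pval_measurable_merge (X : Type) : Measurable (fun q : PvGeoT × (PvColT × (X → Bool)) => (pvMerge (q.1, q.2.1), q.2.2)) :=
  (measurable_pvMerge.comp (measurable_fst.prodMk (measurable_fst.comp measurable_snd))).prodMk (measurable_snd.comp measurable_snd)

/-- **ANNEALING** -/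
theorem pval_anneal (ε : ℝ) {X : Type} {E : Set (PVSample × (X → Bool))} (hE : MeasurableSet E) :
    ((pvLaw ε).prod (colLaw X)) E = ∫⁻ g, (pvCol.prod (colLaw X)) {p | (pvMerge (g, p.1), p.2) ∈ E} ∂(pvGeo ε) := by
  rw [pval_law, Measure.map_apply (pval_measurable_merge X) hE, Measure.prod_apply (pval_measurable_merge X hE)]
  rfl

/-- annealed bound from quenched bounds at almost every geometry; `E` is contained in a measurable event `E'` whose quenched probabilities are controlled -/
theorem pval_anneal_le (ε : ℝ) {X : Type} {E : Set (PVSample × (X → Bool))} (hE : MeasurableSet E) {φ : PvGeoT → ℝ≥0∞}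
    (h : ∀ᵐ g ∂(pvGeo ε), (pvCol.prod (colLaw X)) {p | (pvMerge (g, p.1), p.2) ∈ E} ≤ φ g) :
    ((pvLaw ε).prod (colLaw X)) E ≤ ∫⁻ g, φ g ∂(pvGeo ε) := by
  rw [pval_anneal ε hE]
  exact lintegral_mono_ae h

/-- **ANNEALED BOUND FOR A BULK PROPERTY**: `E = {P (sites) (colouring)}` measurable; on the good geometries `G` (measurable, probability `≥ 1 - δ`) the quenched probability under `colLaw (𝔅.V Y)` is `≤ p` -/
theorem pval_bulk_le (ε : ℝ) (P : ∀ Y : Set ℂ, (𝔅.V Y → Bool) → Prop)
    (hE : MeasurableSet {q : PVSample × (X → Bool) | P (cfSites (pvConf q.1)) (𝔅.col (pvConf q.1) q.2)}) {G : Set PvGeoT} (hG : MeasurableSet G)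
    (hi : ∀ g ∈ G, Function.Injective (𝔅.lab (pvgSites g))) (hs : ∀ g ∈ G, ∀ v p, 𝔅.lab (pvgSites g) v = Sum.inl p → p ∈ pvgSites g) {p : ℝ≥0∞}
    (h : ∀ g ∈ G, PvgOk g → colLaw (𝔅.V (pvgSites g)) {s | P (pvgSites g) s} ≤ p) :
    ((pvLaw ε).prod (colLaw X)) {q | P (cfSites (pvConf q.1)) (𝔅.col (pvConf q.1) q.2)} ≤ p + pvGeo ε Gᶜ := by
  classical
  refine (pval_anneal_le ε hE (φ := fun g => p + Gᶜ.indicator 1 g) ?_).trans ?_
  · filter_upwards [pvqu_ok_ae ε] with g hg
    by_cases hgG : g ∈ G
    · exact ((pval_quench_le 𝔅 P hg (hi g hgG) (hs g hgG)).trans (h g hgG hg)).trans le_self_add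
    · refine prob_le_one.trans ?_
      rw [Set.indicator_of_mem (show g ∈ Gᶜ from hgG)]
      exact le_add_self
  · rw [lintegral_add_left measurable_const, lintegral_const, measure_univ, mul_one, lintegral_indicator_one hG.compl]

end Claimed.Agent.R289
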