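import Claimed.Agent.R289.Pl.Ann
import Claimed.Agent.R289.Arm.Stop

/-!
# Row 289 (S0537, Cardy for Poisson-Voronoi), box ARM, block A5b, file Arm/Bxp : QUENCHED BXP(q) IN BLOCKING FORM, FRAMES OF CYCLES, THE SEAM QBX -> ARM      (owner helper196; architect of ARM helper241, deputy head helper146; prefix `pvax_`, defs `Pvax…`)

THE ONLY PERCOLATION INPUT OF THE STRAND CALCULUS (A3, A4, A5, A6).      Vocabulary: `PvMap IsSph Cyc Join` (`Pl/Defs`), `Cyc.Inside Cyc.Ann` (`Pl/Jordan`), `pl_ann_iff` (`Pl/Ann`), `pvaP PvaStop PvaMeas` (`Arm/Stop`),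
`DelGood delPl` (`Del/Plane`), `colLaw pvfBaseLaw pvfGlue` (`S1/Meas`), `rswArm cfB cfW` (`Rsw/Topo`, `Rsw/Ver`).

## Part 1 (model free, a dart map `T`, two cycles `c'`, `c`)
* `PvaxCr T c' c X b s`   a path of colour `b`, all of whose vertices lie in the ALLOWED set `X`, drawn in the closed annulus, from `c'.verts` to `c.verts`
* `PvaxBlk T c' c q`      BLOCKING: with fair colours on (a finite set containing) the vertices of the annulus, `P(no crossing of colour b) ≥ q`, both colours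
* `pvax_cr_mono`          monotone in `X`:      **so no fresh copy is needed**:
* **`pvax_blk_fresh`**    whatever has been explored: if the allowed vertices are FRESH (`X ⊆ A`) then `P_A,ξ(no crossing of colour b inside X) ≥ q`
* **`pvax_blk_stop`**     the same after a stopping set (`q P(K) ≤ P(K, no crossing in the fresh region X ω)`);   `pvax_cr_stop` the complementary upper bound `(1-q) P(K)`
* `pvax_cr_sub`           a crossing of a big annulus contains a crossing of every annulus nested in it;   `pvax_blk_sub`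
* `pvax_ncr_iff`          no crossing of colour `b` = a circuit of colour `!b` (113's annulus duality)
* **`pvax_arm_le`**       `m` nested vertex-disjoint annuli: `P(crossing of all of them inside X) ≤ (1-q)^m`, also after a stopping set

## Part 2 (a dart map with positions `pos : V → ℂ`)
* `PvaxAt T pos z r r' c` `c` is a cycle AT RADIUS `(r, r')` ROUND `z`: finite left side, everything within `r` strictly inside, the closed disc within `r'`
* `pvax_at_inside`        nesting is pure logic: `‖z - z'‖ + r₁' ≤ r₂` ⟹ `c₁.Inside c₂`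
* `PvaxBxp T pos q z r R` `PvaxBlk T c' c q` for ALL NESTED cycles `c'` within radius `r` and `c` beyond radius `R` of `z`;   `pvax_at_blk` consumer form: two cycles at a radius
## Part 3 (Poisson) = file `Arm/BxpPv.lean` (see its header): `PvaxQbx q` (the exit asked from QBX, ratio 5), `pvax_det`, `pvax_quenched`, **`pvax_bxp`**, **`pvax_circ`** (Lemma 2.3 (iv)), `PvaxFrame q Z Rs Y`, **`pvax_frame`**, **`pvax_frame_tower`**
-/

set_option autoImplicit false
set_option linter.unusedSectionVars false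
set_option linter.unusedVariables false

namespace Claimed.Agent.R289

open Relation

/-! ## Part 1. Blocking in an annulus between two cycles -/

section abs

variable {V D : Type} [DecidableEq V] {T : PvMap V D}

/-- a path of colour `b` with all its vertices in `X`, drawn in the closed annulus between `c'` and `c`, from `c'` to `c` -/
def PvaxCr (T : PvMap V D) (c' c : T.Cyc) (X : Set V) (b : Bool) (s : V → Bool) : Prop :=
  ∃ u ∈ c'.verts, ∃ w ∈ c.verts, T.Join (c'.Ann c) {v | v ∈ X ∧ s v = b} u w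

/-- **BLOCKING**: fair colours on a finite set which contains the vertices of the annulus: no crossing of colour `b` with probability at least `q` -/
def PvaxBlk (T : PvMap V D) (c' c : T.Cyc) (q : ℝ) : Prop :=
  ∀ (A : Finset V) (ξ : V → Bool) (b : Bool), (∀ v ∈ T.VOf (c'.Ann c), v ∈ A) → q ≤ pvaP A ξ (fun s => ¬ PvaxCr T c' c Set.univ b s)

theorem pvax_eqns_cite : True := by
  have := @PvaxCr.eq_1; have := @PvaxBlk.eq_1
  trivial

/-- monotone in the allowed set -/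
theorem pvax_cr_mono {c' c : T.Cyc} {X X' : Set V} (h : X ⊆ X') {b : Bool} {s : V → Bool} (hc : PvaxCr T c' c X b s) : PvaxCr T c' c X' b s := by
  obtain ⟨u, hu, w, hw, h1, h2⟩ := hc
  exact ⟨u, hu, w, hw, ⟨h h1.1, h1.2⟩, ReflTransGen.mono (fun _ _ h3 => ⟨h3.1, h h3.2.1, h3.2.2⟩) _ _ h2⟩

/-- the crossing event reads the colours of the allowed vertices only -/
theorem pvax_cr_congr {c' c : T.Cyc} {X : Set V} {b : Bool} {s s' : V → Bool} (h : ∀ v ∈ X, s' v = s v) : PvaxCr T c' c X b s' ↔ PvaxCr T c' c X b s := by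
  have hset : {v | v ∈ X ∧ s' v = b} = {v | v ∈ X ∧ s v = b} := by
    ext v
    constructor
    · rintro ⟨h1, h2⟩
      exact ⟨h1, by rw [← h v h1]; exact h2⟩
    · rintro ⟨h1, h2⟩
      exact ⟨h1, by rw [h v h1]; exact h2⟩
  unfold PvaxCr
  rw [hset]

/-- all the vertices of a crossing are vertices of the annulus -/
theorem pvax_cr_inter (hT : T.IsSph) {c' c : T.Cyc} (h : c'.Inside c) {X : Set V} {b : Bool} {s : V → Bool} :
    PvaxCr T c' c X b s ↔ PvaxCr T c' c (X ∩ T.VOf (c'.Ann c)) b s := by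
  refine ⟨?_, pvax_cr_mono Set.inter_subset_left⟩
  rintro ⟨u, hu, w, hw, h1, h2⟩
  have huA : u ∈ T.VOf (c'.Ann c) := by
    obtain ⟨i, hi⟩ := hu
    have hJ := pl_jordan hT c'
    have hsrc : T.src (T.opp (c'.e (i + c'.n - 1))) = u := by
      rw [T.src_opp', c'.chain]
      have h3 : i + c'.n - 1 + 1 = i + c'.n := by
        have := c'.three
        omega
      rw [h3, c'.per, hi]
    refine ⟨T.opp (c'.e (i + c'.n - 1)), ⟨?_, ?_⟩, hsrc⟩
    · exact h.1 ⟨i, hi⟩ _ hsrc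
    · have h4 := hJ.2.2.1 (i + c'.n - 1)
      rw [hJ.1] at h4
      exact h4
  refine ⟨u, hu, w, hw, ⟨⟨h1.1, huA⟩, h1.2⟩, ?_⟩
  exact ReflTransGen.mono (fun _ _ h3 => ⟨h3.1, ⟨h3.2.1, pl_edgeIn_VOf (pl_ann_face c' c) h3.1⟩, h3.2.2⟩) _ _ h2

theorem pvax_ann_finite (hT : T.IsSph) {c' c : T.Cyc} (hfin : c.Left.Finite) : (T.VOf (c'.Ann c)).Finite := by
  have h1 : (c'.Ann c).Finite := hfin.subset Set.sdiff_subset
  refine (h1.image T.src).subset ?_
  rintro v ⟨d, hd, rfl⟩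
  exact ⟨d, hd, rfl⟩

theorem pvax_blk_le {c' c : T.Cyc} {q q' : ℝ} (h : PvaxBlk T c' c q) (hq : q' ≤ q) : PvaxBlk T c' c q' :=
  fun A ξ b hA => hq.trans (h A ξ b hA)

/-- **NO FRESH COPY IS NEEDED**: if all the allowed vertices are fresh, a crossing inside the allowed set is blocked with probability at least `q`, whatever the background.
Plan: `A' = A ∪ (vertices of the annulus)`; `pvaP A' ξ (no crossing in univ) ≥ q`; `pvax_cr_mono`; the event `no crossing in X` reads `X ⊆ A` only, so `pvaP A' ξ = pvaP A ξ` (`pva_E_dep` twice, through `R = A`). -/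
theorem pvax_blk_fresh (hT : T.IsSph) {c' c : T.Cyc} (hfin : c.Left.Finite) {q : ℝ} (h : PvaxBlk T c' c q) (A : Finset V) (ξ : V → Bool) (b : Bool)
    {X : Set V} (hX : ∀ v ∈ X, v ∈ A) : q ≤ pvaP A ξ (fun s => ¬ PvaxCr T c' c X b s) := by
  classical
  have hf := pvax_ann_finite (c' := c') hT hfin
  have h1 : q ≤ pvaP (A ∪ hf.toFinset) ξ (fun s => ¬ PvaxCr T c' c Set.univ b s) :=
    h _ ξ b fun v hv => Finset.mem_union_right _ (hf.mem_toFinset.2 hv)
  have h2 : pvaP (A ∪ hf.toFinset) ξ (fun s => ¬ PvaxCr T c' c Set.univ b s) ≤ pvaP (A ∪ hf.toFinset) ξ (fun s => ¬ PvaxCr T c' c X b s) :=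
    pva_P_mono fun ω _ hω hc => hω (pvax_cr_mono (Set.subset_univ X) hc)
  have h3 : pvaP A ξ (fun s => ¬ PvaxCr T c' c X b s) = pvaP (A ∪ hf.toFinset) ξ (fun s => ¬ PvaxCr T c' c X b s) := by
    unfold pvaP
    refine pva_E_dep Finset.subset_union_left ?_ (pva_cfg_refl _ ξ)
    intro ω₁ ω₂ _ _ h12
    have : PvaxCr T c' c X b ω₁ ↔ PvaxCr T c' c X b ω₂ := pvax_cr_congr fun v hv => h12 v (hX v hv)
    beta_reduce
    by_cases hc : PvaxCr T c' c X b ω₂
    · rw [if_neg (not_not.2 (this.2 hc)), if_neg (not_not.2 hc)]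
    · rw [if_pos (show ¬ PvaxCr T c' c X b ω₁ from fun h => hc (this.1 h)), if_pos hc]
  rw [h3]
  exact h1.trans h2

/-- **blocking after an exploration**: `S` stopping set, `K` an explored event, `X ω` an explored-measurable set of FRESH vertices -/
theorem pvax_blk_stop (hT : T.IsSph) {c' c : T.Cyc} (hfin : c.Left.Finite) {q : ℝ} (h : PvaxBlk T c' c q) {S : (V → Bool) → Finset V} (hS : PvaStop S)
    {K : (V → Bool) → Prop} (hK : PvaMeas S K) {X : (V → Bool) → Set V} (hX : PvaMeas S X) (A : Finset V) (ξ : V → Bool) (b : Bool)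
    (hXA : ∀ ω, ∀ v ∈ X ω, v ∈ A ∧ v ∉ S ω) : q * pvaP A ξ K ≤ pvaP A ξ (fun ω => K ω ∧ ¬ PvaxCr T c' c (X ω) b ω) := by
  refine pva_smarkov_ge hS hK A ξ fun ω _ _ => ?_
  have h1 : pvaP (A \ S ω) ω (fun ω' => ¬ PvaxCr T c' c (X ω') b ω') = pvaP (A \ S ω) ω (fun ω' => ¬ PvaxCr T c' c (X ω) b ω') := by
    refine pva_P_congr fun ω' hω' => ?_
    rw [hX ω ω' fun v hv => hω' v fun hv' => (Finset.mem_sdiff.1 hv').2 hv]
  rw [h1]
  exact pvax_blk_fresh hT hfin h _ ω b fun v hv => Finset.mem_sdiff.2 (hXA ω v hv)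

/-- the complementary upper bound -/
theorem pvax_cr_stop (hT : T.IsSph) {c' c : T.Cyc} (hfin : c.Left.Finite) {q : ℝ} (h : PvaxBlk T c' c q) {S : (V → Bool) → Finset V} (hS : PvaStop S)
    {K : (V → Bool) → Prop} (hK : PvaMeas S K) {X : (V → Bool) → Set V} (hX : PvaMeas S X) (A : Finset V) (ξ : V → Bool) (b : Bool)
    (hXA : ∀ ω, ∀ v ∈ X ω, v ∈ A ∧ v ∉ S ω) : pvaP A ξ (fun ω => K ω ∧ PvaxCr T c' c (X ω) b ω) ≤ (1 - q) * pvaP A ξ K := by
  refine pva_smarkov_le hS hK A ξ fun ω _ _ => ?_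
  have h1 : pvaP (A \ S ω) ω (fun ω' => PvaxCr T c' c (X ω') b ω') = pvaP (A \ S ω) ω (fun ω' => PvaxCr T c' c (X ω) b ω') := by
    refine pva_P_congr fun ω' hω' => ?_
    rw [hX ω ω' fun v hv => hω' v fun hv' => (Finset.mem_sdiff.1 hv').2 hv]
  rw [h1]
  have h2 := pvax_blk_fresh hT hfin h (A \ S ω) ω b (X := X ω) fun v hv => Finset.mem_sdiff.2 (hXA ω v hv)
  rw [pva_P_not] at h2
  linarith

/-- **a crossing of a big annulus contains a crossing of every annulus nested in it**.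
Plan: last visit of the path to `VOf c₁'.Left` (it is on `c₁'.verts`), then first visit to `c₁.verts`; the vertices in between lie in `Int c₁.Left` and off `VOf c₁'.Left`, so both faces of every edge used lie in `c₁'.Ann c₁`
(for a direct edge from `c₁'` to `c₁`: `pl_edge_side` for `c₁'`). -/
theorem pvax_cr_sub (hT : T.IsSph) {c' c c₁' c₁ : T.Cyc} (h1 : c'.Left ⊆ c₁'.Left) (h2 : c₁'.Inside c₁) (h3 : c₁.Left ⊆ c.Left) {X : Set V} {b : Bool} {s : V → Bool}
    (hc : PvaxCr T c' c X b s) : PvaxCr T c₁' c₁ X b s := by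
  obtain ⟨u, hu, w, hw, huY, hpath⟩ := hc
  by_contra hG
  set Y : Set V := {v | v ∈ X ∧ s v = b} with hY
  -- the state of the walk
  have key : ∀ v, ReflTransGen (fun x y => T.EdgeIn (c'.Ann c) x y ∧ y ∈ Y) u v →
      v ∈ T.Int c₁'.Left ∨ (v ∈ T.Int c₁.Left ∧ ∃ u₁ ∈ c₁'.verts, T.Join (c₁'.Ann c₁) Y u₁ v) := by
    intro v hv
    induction hv with
    | refl =>
      have hu1 : u ∈ T.VOf c'.Left := by rw [pl_VOf_left hT c']; exact Or.inl hu
      have hu2 := (pl_nested_vert hT c₁' c' h1).1 hu1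
      rw [pl_VOf_left hT c₁'] at hu2
      rcases hu2 with hu2 | hu2
      · exact Or.inr ⟨h2.1 hu2, u, hu2, huY, ReflTransGen.refl⟩
      · exact Or.inl hu2
    | @tail v v' _ hstep ih =>
      obtain ⟨⟨d, -, rfl, rfl⟩, hv'Y⟩ := hstep
      -- a vertex of the closed inner disc
      have hin : T.tgt d ∈ T.VOf c₁'.Left →
          T.tgt d ∈ T.Int c₁'.Left ∨ (T.tgt d ∈ T.Int c₁.Left ∧ ∃ u₁ ∈ c₁'.verts, T.Join (c₁'.Ann c₁) Y u₁ (T.tgt d)) := by
        intro h
        rw [pl_VOf_left hT c₁'] at h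
        rcases h with h | h
        · exact Or.inr ⟨h2.1 h, _, h, hv'Y, ReflTransGen.refl⟩
        · exact Or.inl h
      rcases ih with ih | ⟨ih1, u₁, hu₁, hj⟩
      · exact hin (pl_int_edge hT c₁' ih).2.2
      · obtain ⟨e1, e2, e3⟩ := pl_int_edge hT c₁ ih1
        by_cases hboth : d ∈ c₁'.Left ∧ T.opp d ∈ c₁'.Left
        · exact hin ⟨T.opp d, hboth.2, T.src_opp' d⟩
        · have hedge : T.EdgeIn (c₁'.Ann c₁) (T.src d) (T.tgt d) := by
            refine ⟨d, ?_, rfl, rfl⟩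
            by_cases hd : d ∈ c₁'.Left
            · exact Or.inr ⟨e2, fun h => hboth ⟨hd, h⟩⟩
            · exact Or.inl ⟨e1, hd⟩
          have hj' : T.Join (c₁'.Ann c₁) Y u₁ (T.tgt d) := ⟨hj.1, hj.2.tail ⟨hedge, hv'Y⟩⟩
          rw [pl_VOf_left hT c₁] at e3
          rcases e3 with e3 | e3
          · exact absurd ⟨u₁, hu₁, _, e3, hj'⟩ hG
          · exact Or.inr ⟨e3, u₁, hu₁, hj'⟩
  have hdis := (pl_jordan_vert_disj hT c).1
  have hint : T.Int c₁.Left ⊆ T.Int c.Left := (pl_nested_vert hT c c₁ h3).2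
  rcases key w hpath with h | ⟨h, -⟩
  · exact Set.disjoint_left.1 hdis hw (hint ((pl_nested_vert hT c₁ c₁' h2.2).2 h))
  · exact Set.disjoint_left.1 hdis hw (hint h)

theorem pvax_blk_sub (hT : T.IsSph) {c' c c₁' c₁ : T.Cyc} (h1 : c'.Left ⊆ c₁'.Left) (h2 : c₁'.Inside c₁) (h3 : c₁.Left ⊆ c.Left) {q : ℝ}
    (h : PvaxBlk T c₁' c₁ q) : PvaxBlk T c' c q := by
  intro A ξ b hA
  have hsub : ∀ v ∈ T.VOf (c₁'.Ann c₁), v ∈ A := by
    rintro v ⟨d, ⟨hd1, hd2⟩, rfl⟩
    exact hA _ ⟨d, ⟨h3 hd1, fun hd => hd2 (h1 hd)⟩, rfl⟩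
  exact (h A ξ b hsub).trans (pva_P_mono fun ω _ hω hc => hω (pvax_cr_sub hT h1 h2 h3 hc))

/-- **circuit form** (annulus duality of 113): no crossing of colour `b` inside `X` iff a cycle between `c'` and `c` none of whose vertices is an allowed vertex of colour `b` -/
theorem pvax_ncr_iff (hT : T.IsSph) (hS : T.Simple) {c' c : T.Cyc} (h : c'.Inside c) (hfin : c.Left.Finite) (X : Set V) (b : Bool) (s : V → Bool) :
    ¬ PvaxCr T c' c X b s ↔ ∃ c'' : T.Cyc, (∀ v ∈ c''.verts, ¬ (v ∈ X ∧ s v = b)) ∧ c'.Left ⊆ c''.Left ∧ c''.Left ⊆ c.Left := by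
  have := (pl_ann_iff hT hS h hfin {v | v ∈ X ∧ s v = b}).1
  unfold PvaxCr
  rw [this, not_not]
  rfl

/-- a tower of `m` nested annuli with disjoint closed vertex sets: `a i` inner, `o i` outer cycle of the `i`-th annulus -/
structure PvaxTower (T : PvMap V D) (m : ℕ) (a o : ℕ → T.Cyc) (q : ℝ) : Prop where
  fin : ∀ i < m, (o i).Left.Finite
  ins : ∀ i < m, (a i).Inside (o i)
  nxt : ∀ i, i + 1 < m → (o i).Inside (a (i + 1))
  blk : ∀ i < m, PvaxBlk T (a i) (o i) q

/-- **one arm through a tower**: the crossings of the `m` annuli read disjoint sets of fresh vertices.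
Plan: induction on `m`; `pva_E_prod` / `pva_markov` of A0 with `R_i = X ∩ VOf (Ann i)` (`pvax_cr_inter`), disjoint by `nxt`; each factor `≤ 1 - q` by `pvax_blk_fresh`. -/
theorem pvax_arm_le (hT : T.IsSph) {m : ℕ} {a o : ℕ → T.Cyc} {q : ℝ} (h : PvaxTower T m a o q) (A : Finset V) (ξ : V → Bool) (b : Bool)
    {X : Set V} (hX : ∀ v ∈ X, v ∈ A) : pvaP A ξ (fun s => ∀ i < m, PvaxCr T (a i) (o i) X b s) ≤ (1 - q) ^ m := by
  classical
  have hmono : ∀ k i, i + k < m → (a i).Left ⊆ (a (i + k)).Left := by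
    intro k
    induction k with
    | zero => exact fun i _ => subset_rfl
    | succ k ih =>
      intro i hi
      exact (ih i (by omega)).trans (((h.ins (i + k) (by omega)).2).trans (h.nxt (i + k) (by omega)).2)
  have hdisj : ∀ i j, i < j → j < m → ∀ v, v ∈ T.VOf ((a i).Ann (o i)) → v ∉ T.VOf ((a j).Ann (o j)) := by
    rintro i j hij hj v ⟨d, hd, rfl⟩ ⟨d', hd', h1⟩
    have h2 : T.src d ∈ T.VOf (o i).Left := ⟨d, hd.1, rfl⟩
    have hn := h.nxt i (by omega)
    have h3 : T.src d ∈ T.Int (a (i + 1)).Left := by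
      rw [pl_VOf_left hT] at h2
      rcases h2 with h2 | h2
      · exact hn.1 h2
      · exact (pl_nested_vert hT _ _ hn.2).2 h2
    have h4 : (a (i + 1)).Left ⊆ (a j).Left := by
      have := hmono (j - (i + 1)) (i + 1) (by omega)
      rwa [show i + 1 + (j - (i + 1)) = j by omega] at this
    exact hd'.2 (h4 (h3 d' h1))
  set R : ℕ → Finset V := fun i => A.filter (fun v => v ∈ X ∧ v ∈ T.VOf ((a i).Ann (o i))) with hR
  have e1 : pvaP A ξ (fun s => ∀ i < m, PvaxCr T (a i) (o i) X b s) = pvaP A ξ (fun s => ∀ i ∈ Finset.range m, PvaxCr T (a i) (o i) X b s) :=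
    pva_P_congr fun ω _ => by simp only [Finset.mem_range]
  rw [e1, pva_P_forall (Finset.range m) R (fun i s => PvaxCr T (a i) (o i) X b s) (fun i _ => Finset.filter_subset _ _)]
  · calc ∏ i ∈ Finset.range m, pvaP A ξ (fun s => PvaxCr T (a i) (o i) X b s) ≤ ∏ _i ∈ Finset.range m, (1 - q) := by
          refine Finset.prod_le_prod (fun _ _ => pva_P_nonneg _ _ _) fun i hi => ?_
          have hi' := Finset.mem_range.1 hi
          have h1 := pvax_blk_fresh hT (h.fin i hi') (h.blk i hi') A ξ b hX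
          rw [pva_P_not] at h1
          linarith
      _ = (1 - q) ^ m := by rw [Finset.prod_const, Finset.card_range]
  · intro i hi j hj hij
    have hi' := Finset.mem_range.1 hi
    have hj' := Finset.mem_range.1 hj
    rw [Finset.disjoint_left]
    intro v hv hv'
    have h1 := (Finset.mem_filter.1 hv).2.2
    have h2 := (Finset.mem_filter.1 hv').2.2
    rcases lt_or_gt_of_ne hij with h3 | h3
    · exact hdisj i j h3 hj' v h1 h2
    · exact hdisj j i h3 hi' v h2 h1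
  · intro i hi ω₁ ω₂ _ _ h12
    have hi' := Finset.mem_range.1 hi
    refine propext ?_
    show PvaxCr T (a i) (o i) X b ω₁ ↔ PvaxCr T (a i) (o i) X b ω₂
    rw [pvax_cr_inter hT (h.ins i hi'), pvax_cr_inter hT (h.ins i hi') (s := ω₂)]
    exact pvax_cr_congr fun v hv => h12 v (Finset.mem_filter.2 ⟨hX v hv.1, hv.1, hv.2⟩)

/-- the same after an exploration -/
theorem pvax_arm_stop (hT : T.IsSph) {m : ℕ} {a o : ℕ → T.Cyc} {q : ℝ} (h : PvaxTower T m a o q) {S : (V → Bool) → Finset V} (hS : PvaStop S)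
    {K : (V → Bool) → Prop} (hK : PvaMeas S K) {X : (V → Bool) → Set V} (hX : PvaMeas S X) (A : Finset V) (ξ : V → Bool) (b : Bool)
    (hXA : ∀ ω, ∀ v ∈ X ω, v ∈ A ∧ v ∉ S ω) :
    pvaP A ξ (fun ω => K ω ∧ ∀ i < m, PvaxCr T (a i) (o i) (X ω) b ω) ≤ (1 - q) ^ m * pvaP A ξ K := by
  refine pva_smarkov_le hS hK A ξ fun ω hω hk => ?_
  have e1 : pvaP (A \ S ω) ω (fun ω' => ∀ i < m, PvaxCr T (a i) (o i) (X ω') b ω') = pvaP (A \ S ω) ω (fun ω' => ∀ i < m, PvaxCr T (a i) (o i) (X ω) b ω') := by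
    refine pva_P_congr fun ω' hω' => ?_
    have h1 : X ω' = X ω := hX ω ω' fun v hv => hω' v fun h2 => (Finset.mem_sdiff.1 h2).2 hv
    rw [h1]
  rw [e1]
  exact pvax_arm_le hT h (A \ S ω) ω b fun v hv => Finset.mem_sdiff.2 (hXA ω v hv)

/-- a crossing from the innermost to the outermost cycle of a tower crosses every annulus of the tower -/
theorem pvax_tower_cr (hT : T.IsSph) {m : ℕ} {a o : ℕ → T.Cyc} {q : ℝ} (h : PvaxTower T (m + 1) a o q) {X : Set V} {b : Bool} {s : V → Bool}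
    (hc : PvaxCr T (a 0) (o m) X b s) : ∀ i < m + 1, PvaxCr T (a i) (o i) X b s := by
  have hstep : ∀ i, i + 1 < m + 1 → (a i).Left ⊆ (a (i + 1)).Left ∧ (o i).Left ⊆ (o (i + 1)).Left := by
    intro i hi
    exact ⟨(h.ins i (by omega)).2.trans (h.nxt i hi).2, (h.nxt i hi).2.trans (h.ins (i + 1) hi).2⟩
  have ha : ∀ i, i < m + 1 → (a 0).Left ⊆ (a i).Left := by
    intro i
    induction i with
    | zero => exact fun _ => subset_rfl
    | succ i ih => exact fun hi => (ih (by omega)).trans (hstep i hi).1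
  have ho : ∀ k i, i + k = m → (o i).Left ⊆ (o m).Left := by
    intro k
    induction k with
    | zero =>
      intro i hi
      have : i = m := by omega
      rw [this]
    | succ k ih =>
      intro i hi
      exact (hstep i (by omega)).2.trans (ih (i + 1) (by omega))
  intro i hi
  exact pvax_cr_sub hT (ha i hi) (h.ins i hi) (ho (m - i) i (by omega)) hc

end abs

/-! ## Part 2. Positions: cycles at a radius, BXP, frames -/

section geo

variable {V D : Type} [DecidableEq V] {T : PvMap V D}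

/-- `c` is a cycle at radius `(r, r')` round `z` -/
structure PvaxAt (T : PvMap V D) (pos : V → ℂ) (z : ℂ) (r r' : ℝ) (c : T.Cyc) : Prop where
  fin : c.Left.Finite
  inn : ∀ v, ‖pos v - z‖ ≤ r → v ∈ T.Int c.Left
  out : ∀ v ∈ T.VOf c.Left, ‖pos v - z‖ < r'

/-- **BXP(q)** between the radii `r` and `R` round `z`: blocking for all pairs of NESTED cycles, the inner one within `r`, the outer one beyond `R` -/
def PvaxBxp (T : PvMap V D) (pos : V → ℂ) (q : ℝ) (z : ℂ) (r R : ℝ) : Prop :=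
  ∀ c' c : T.Cyc, c'.Inside c → c.Left.Finite → (∀ v ∈ c'.verts, ‖pos v - z‖ ≤ r) → (∀ v ∈ c.verts, R ≤ ‖pos v - z‖) → PvaxBlk T c' c q

/-- a monochromatic primal path from radius `≤ r` to radius `≥ R` -/
def PvaxArm (T : PvMap V D) (pos : V → ℂ) (z : ℂ) (r R : ℝ) (b : Bool) (s : V → Bool) : Prop :=
  ∃ u w, ‖pos u - z‖ ≤ r ∧ R ≤ ‖pos w - z‖ ∧ s u = b ∧ ReflTransGen (fun x y => T.Adj x y ∧ s y = b) u w

theorem pvax_eqns_cite2 : True := by
  have := @PvaxBxp.eq_1; have := @PvaxArm.eq_1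
  trivial

/-- nesting is pure logic -/
theorem pvax_at_inside (hT : T.IsSph) {pos : V → ℂ} {z₁ z₂ : ℂ} {r₁ r₁' r₂ r₂' : ℝ} {c₁ c₂ : T.Cyc} (h₁ : PvaxAt T pos z₁ r₁ r₁' c₁) (h₂ : PvaxAt T pos z₂ r₂ r₂' c₂)
    (h : ‖z₁ - z₂‖ + r₁' ≤ r₂) : c₁.Inside c₂ := by
  have key : ∀ v ∈ T.VOf c₁.Left, v ∈ T.Int c₂.Left := by
    intro v hv
    refine h₂.inn v ?_
    have h3 := h₁.out v hv
    have h4 : pos v - z₂ = (pos v - z₁) + (z₁ - z₂) := by ring
    have h5 := norm_add_le (pos v - z₁) (z₁ - z₂)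
    rw [h4]
    linarith
  refine ⟨fun v hv => key v ?_, fun d hd => key (T.src d) ⟨d, hd, rfl⟩ d rfl⟩
  rw [pl_VOf_left hT c₁]
  exact Or.inl hv

/-- the vertices of the cycle lie in the open shell -/
theorem pvax_at_verts (hT : T.IsSph) {pos : V → ℂ} {z : ℂ} {r r' : ℝ} {c : T.Cyc} (h : PvaxAt T pos z r r' c) {v : V} (hv : v ∈ c.verts) :
    r < ‖pos v - z‖ ∧ ‖pos v - z‖ < r' := by
  have h1 : v ∈ T.VOf c.Left := by
    rw [pl_VOf_left hT c]
    exact Or.inl hv
  refine ⟨?_, h.out v h1⟩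
  by_contra h2
  exact Set.disjoint_left.1 (pl_jordan_vert_disj hT c).1 hv (h.inn v (not_lt.1 h2))

theorem pvax_at_mono {pos : V → ℂ} {z : ℂ} {r r' ρ ρ' : ℝ} {c : T.Cyc} (h : PvaxAt T pos z r r' c) (h1 : ρ ≤ r) (h2 : r' ≤ ρ') : PvaxAt T pos z ρ ρ' c :=
  ⟨h.fin, fun v hv => h.inn v (hv.trans h1), fun v hv => (h.out v hv).trans_le h2⟩

theorem pvax_bxp_mono {pos : V → ℂ} {q : ℝ} {z : ℂ} {r R ρ P : ℝ} (h : PvaxBxp T pos q z r R) (h1 : ρ ≤ r) (h2 : R ≤ P) : PvaxBxp T pos q z ρ P :=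
  fun c' c hin hfin hc' hc => h c' c hin hfin (fun v hv => (hc' v hv).trans h1) fun v hv => h2.trans (hc v hv)

/-- a crossing between two cycles is an arm -/
theorem pvax_cr_arm {pos : V → ℂ} {z : ℂ} {r R : ℝ} {c' c : T.Cyc} (hc' : ∀ v ∈ c'.verts, ‖pos v - z‖ ≤ r) (hc : ∀ v ∈ c.verts, R ≤ ‖pos v - z‖)
    {X : Set V} {b : Bool} {s : V → Bool} (h : PvaxCr T c' c X b s) : PvaxArm T pos z r R b s := by
  obtain ⟨u, hu, w, hw, h1, h2⟩ := h
  refine ⟨u, w, hc' u hu, hc w hw, h1.2, ?_⟩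
  refine ReflTransGen.mono ?_ _ _ h2
  rintro x y ⟨⟨d, -, h3, h4⟩, h5⟩
  exact ⟨⟨d, h3, h4⟩, h5.2⟩

/-- **consumer form**: two cycles of a frame -/
theorem pvax_at_blk (hT : T.IsSph) {pos : V → ℂ} {q : ℝ} {z : ℂ} {r r' R R' : ℝ} {c' c : T.Cyc} (h' : PvaxAt T pos z r r' c') (h : PvaxAt T pos z R R' c)
    (hB : PvaxBxp T pos q z r' R) (hrR : r' ≤ R) : c'.Inside c ∧ PvaxBlk T c' c q := by
  have hin := pvax_at_inside hT h' h (by simpa using hrR)
  exact ⟨hin, hB c' c hin h.fin (fun v hv => (pvax_at_verts hT h' hv).2.le) fun v hv => (pvax_at_verts hT h hv).1.le⟩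

end geo

end Claimed.Agent.R289
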