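import Claimed.Agent.R289.Arm.Bxp
import Claimed.Agent.R289.Arm.Law
import Claimed.Agent.R289.Del.Seam
import Claimed.Agent.R289.Del.Circ
import Claimed.Agent.R289.Qbx.Exit
import Claimed.Agent.R289.Exit.Arm1
import Claimed.Agent.R289.Vor.Mesh

/-!
# Row 289 (S0537, Cardy for Poisson-Voronoi), box ARM, block A5b, file Arm/BxpPv : THE SEAM QBX -> ARM AT THE POISSON LEVEL, CYCLES NEAR CIRCLES (Lemma 2.3 (iv)), THE FRAME EVENT      (owner helper196; prefix `pvax_`)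

Part 3 of `Arm/Bxp.lean` (see its header).      Vocabulary of record: `delMap h`, `dlsPos Y`, `CfOK`, `dls_ae`, `dls_ae_geo` (`Del/Seam`, 271), `pvGeo pvQc pvgSites PvgOk cfOf pvgColAt` (`PppQ`, 261), `PvalLoc pval_measure` (`Arm/Law`, 128),
`PvArm1 pvr_arm1_det` (`Exit/Arm1`, 262), `vormG vorm_law_tendsto` (`Vor/Mesh`).
* `PvaxQbx q`             THE EXIT ASKED FROM QBX (298, `pvqx_exit`; frozen 08:50Z with 155, 298): for every centre `z`, scale `u` and colour `b`, off a geometry event of probability `o(1)`,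
                          the quenched probability that NO arm of colour `b` crosses the square annulus `(u/2, 5u/2)` is `≥ q`
* `pvax_det`              deterministic: a monochromatic Delaunay path from radius `≤ u/2` to radius `≥ 5u` is an arm of the square annulus `(u/2, 5u/2)` in the region of its colour
* `pvax_quenched`         at a good geometry the bound of QBX for both colours is `BXP(q)` between the radii `u/2` and `5u`
* **`pvax_bxp`**          `PvaxQbx q` ⟹ `P(not BXP(q) at (z; r, R)) → 0` as soon as `10 r ≤ R`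
* **`pvax_circ`**         Lemma 2.3 (iv): `P(no cycle at radius (r, r')) → 0`;   deterministic half `pvax_circ_det` = `dlc_at` of 190 (`Del/Circ`)
* **`pvax_frame`**        THE EXIT: `PvaxQbx q` ⟹ `P(not PvaxFrame q Z Rs) → 0` (outer measure of the BAD event: stable under finite unions, no measurability claimed)
* **`pvax_frame_tower`**  CONSUMER FORM: on the frame event with the radii `16^j s`, `j < 2m`: a tower of `m` nested annuli with blocking probability `≥ q` (feed it to `pvax_arm_le`, `pvax_arm_stop`, `pvax_tower_cr`)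
-/

set_option autoImplicit false
set_option linter.unusedSectionVars false
set_option linter.unusedVariables false

namespace Claimed.Agent.R289

open Relation MeasureTheory Filter Topology Claims.C0465
open scoped ENNReal

/-! ## Part 3. Poisson -/

section poisson

/-- BXP(q) for the Delaunay plane of the site set `Y` -/
def PvaxOk (q : ℝ) (z : ℂ) (r R : ℝ) (Y : Set ℂ) : Prop :=
  ∃ h : DelGood Y, PvaxBxp (delMap h) (dlsPos Y) q z r R

/-- there is a cycle at radius `(r, r')` round `z` in the Delaunay plane of `Y` -/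
def PvaxCirc (z : ℂ) (r r' : ℝ) (Y : Set ℂ) : Prop :=
  ∃ h : DelGood Y, ∃ c : (delMap h).Cyc, PvaxAt (delMap h) (dlsPos Y) z r r' c

/-- **THE FRAME EVENT**: for all centres `z ∈ Z` and radii `r ∈ Rs`, a cycle at radius `(r, 5r/4)` and BXP(q) between the radii `5r/4` and `25r/2` -/
def PvaxFrame (q : ℝ) (Z : Finset ℂ) (Rs : Finset ℝ) (Y : Set ℂ) : Prop :=
  DelGood Y ∧ ∀ z ∈ Z, ∀ r ∈ Rs, PvaxCirc z r (5 / 4 * r) Y ∧ PvaxOk q z (5 / 4 * r) (25 / 2 * r) Y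

/-- the closed region of colour `b` -/
def pvaxReg (b : Bool) (η : Conf PvPt) : Set ℂ := if b then cfB η else cfW η

/-- **THE EXIT ASKED FROM QBX**: off a geometry event of probability `o(1)`, the quenched probability that no arm of colour `b` crosses the square annulus `(u/2, 5u/2)` centred at `z` is at least `q` -/
def PvaxQbx (q : ℝ) : Prop :=
  ∀ (z : ℂ) (u : ℝ) (b : Bool), 0 < u →
    Tendsto (fun ε : ℝ => pvGeo ε {g | pvQc {η | ¬ (rswArm z.re z.im (u / 2) (5 * u / 2)).Holds (pvaxReg b η)} g < ENNReal.ofReal q})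
      (𝓝[>] 0) (𝓝 0)

theorem pvax_eqns_cite3 : True := by
  have := @PvaxOk.eq_1; have := @PvaxCirc.eq_1; have := @PvaxFrame.eq_1; have := @pvaxReg.eq_1; have := @PvaxQbx.eq_1
  trivial

theorem pvax_reg_eq (b : Bool) (η : Conf PvPt) : pvaxReg b η = cfReg η b := rfl

/-! ### 3.1 deterministic -/

theorem pvax_ok_mono {q : ℝ} {z : ℂ} {r R ρ P : ℝ} {Y : Set ℂ} (h : PvaxOk q z r R Y) (h1 : ρ ≤ r) (h2 : R ≤ P) : PvaxOk q z ρ P Y :=
  let ⟨hd, hb⟩ := h
  ⟨hd, pvax_bxp_mono hb h1 h2⟩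

theorem pvax_circ_mono {z : ℂ} {r r' ρ ρ' : ℝ} {Y : Set ℂ} (h : PvaxCirc z r r' Y) (h1 : ρ ≤ r) (h2 : r' ≤ ρ') : PvaxCirc z ρ ρ' Y :=
  let ⟨hd, c, hc⟩ := h
  ⟨hd, c, pvax_at_mono hc h1 h2⟩

/-- a monochromatic Delaunay path is a chain of touching cells -/
theorem pvax_arm1 {Y : Set ℂ} (h : DelGood Y) (σ : ℂ → Bool) {z : ℂ} {s r : ℝ} {b : Bool}
    (ha : PvaxArm (delMap h) (dlsPos Y) z s r b (fun v => σ v)) : PvArm1 (cfOf Y σ) b z s r := by
  obtain ⟨u, w, hu, hw, hb, hp⟩ := ha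
  refine ⟨u, w, hu, hw, cfOf_mem.2 ⟨u.2, hb.symm⟩, ?_⟩
  refine ReflTransGen.lift (fun v : Y => (v : ℂ)) ?_ _ _ hp
  rintro x y ⟨hadj, hy⟩
  refine ⟨cfOf_mem.2 ⟨y.2, hy.symm⟩, ?_⟩
  rw [cfCell_eq_vor, cfCell_eq_vor, cfOf_sites]
  exact ((dls_adj_iff h x y).1 hadj).2.2.2

/-- **deterministic**: a path of colour `b` in the Delaunay graph from radius `≤ u/2` to radius `≥ 5u` gives an arm of colour `b` of the square annulus `(u/2, 5u/2)` -/
theorem pvax_det {Y : Set ℂ} (h : DelGood Y) (σ : ℂ → Bool) {z : ℂ} {u : ℝ} (hu : 0 < u) {b : Bool}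
    (ha : PvaxArm (delMap h) (dlsPos Y) z (u / 2) (5 * u) b (fun v => σ v)) :
    (rswArm z.re z.im (u / 2) (5 * u / 2)).Holds (pvaxReg b (cfOf Y σ)) :=
  pvr_arm1_det (by linarith) (pvax_arm1 h σ ha)

/-- the crossing event of an annulus reads the colours of the annulus only -/
theorem pvax_cr_loc {V D : Type} [DecidableEq V] {T : PvMap V D} (hT : T.IsSph) {c' c : T.Cyc} (h : c'.Inside c) (A : Finset V)
    (hA : ∀ v ∈ T.VOf (c'.Ann c), v ∈ A) (b : Bool) : PvalLoc A (fun s => ¬ PvaxCr T c' c Set.univ b s) := by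
  intro s s' hs
  refine propext (not_congr ?_)
  rw [pvax_cr_inter hT h, pvax_cr_inter hT h (s := s')]
  exact pvax_cr_congr fun v hv => hs v (hA v hv.2)

/-- **the quenched step**: at a good labelled geometry `g`, the bound of QBX for both colours gives BXP(q) -/
theorem pvax_quenched {g : PvGeoT} (hg : PvgOk g) (hd : DelGood (pvgSites g)) {q : ℝ} {z : ℂ} {u : ℝ} (hu : 0 < u)
    (hq : ∀ b : Bool, ENNReal.ofReal q ≤ pvQc {η | ¬ (rswArm z.re z.im (u / 2) (5 * u / 2)).Holds (pvaxReg b η)} g) :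
    PvaxBxp (delMap hd) (dlsPos (pvgSites g)) q z (u / 2) (5 * u) := by
  intro c' c hin hfin hc' hc A ξ b hA
  have hT : (delMap hd).IsSph := dls_isSph hd
  have hK := pvax_cr_loc hT hin A hA b
  have h1 := pval_measure hK ξ
  let f : ↥(pvgSites g) → PvIx := fun v => pvgIdx g v
  have hf : Function.Injective f := fun v w hvw => Subtype.ext (pvqu_idx_injOn g v.2 w.2 hvw)
  have hm : Measurable (fun s : PvIx → Bool => s ∘ f) := measurable_pi_lambda _ fun v => measurable_pi_apply (f v)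
  have h2 : colLaw PvIx {c₀ | ¬ PvaxCr (delMap hd) c' c Set.univ b (c₀ ∘ f)} = colLaw _ {s | ¬ PvaxCr (delMap hd) c' c Set.univ b s} := by
    rw [← pvf_colLaw_comp f hf, Measure.map_apply hm (pval_loc_measurableSet hK)]
    rfl
  have h3 : {c₀ : PvColT | pvConf (pvMerge (g, c₀)) ∈ {η | ¬ (rswArm z.re z.im (u / 2) (5 * u / 2)).Holds (pvaxReg b η)}} ⊆
      {c₀ | ¬ PvaxCr (delMap hd) c' c Set.univ b (c₀ ∘ f)} := by
    intro c₀ hc₀ hcr
    apply hc₀
    rw [hg.conf_eq c₀]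
    exact pvax_det hd (pvgColAt g c₀) hu (pvax_cr_arm hc' hc hcr)
  have h4 : ENNReal.ofReal q ≤ ENNReal.ofReal (pvaP A ξ (fun s => ¬ PvaxCr (delMap hd) c' c Set.univ b s)) := by
    calc ENNReal.ofReal q ≤ pvQc {η | ¬ (rswArm z.re z.im (u / 2) (5 * u / 2)).Holds (pvaxReg b η)} g := hq b
      _ ≤ colLaw PvIx {c₀ | ¬ PvaxCr (delMap hd) c' c Set.univ b (c₀ ∘ f)} := measure_mono h3
      _ = _ := by rw [h2, h1]
  exact (ENNReal.ofReal_le_ofReal_iff (pva_P_nonneg _ _ _)).1 h4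

/-! ### 3.2 transfer from the geometry to the sample -/

theorem pvax_sites (ω : PVSample) : cfSites (pvConf ω) = pvgSites (pvGeoOf ω) := pvqu_cfSites (pvGeoOf ω) (pvColOf ω)

/-- outer measures: an event of the geometry -/
theorem pvax_geo_le (ε : ℝ) (S : Set PvGeoT) : pvLaw ε {ω | pvGeoOf ω ∈ S} ≤ pvGeo ε S := by
  rw [← pvqu_law_geo ε]
  exact Measure.le_map_apply measurable_pvGeoOf.aemeasurable S

/-- the converse: the geometry is a factor of a product, so the OUTER measures agree -/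
theorem pvax_geo_ge (ε : ℝ) (S : Set PvGeoT) : pvGeo ε S ≤ pvLaw ε {ω | pvGeoOf ω ∈ S} := by
  have hMm : MeasurableSet (toMeasurable (pvLaw ε) {ω | pvGeoOf ω ∈ S}) := measurableSet_toMeasurable _ _
  have hsub : {ω | pvGeoOf ω ∈ S} ⊆ toMeasurable (pvLaw ε) {ω | pvGeoOf ω ∈ S} := subset_toMeasurable _ _
  have h1 : ∀ g ∈ S, pvQ (toMeasurable (pvLaw ε) {ω | pvGeoOf ω ∈ S}) g = 1 := by
    intro g hg
    have h2 : {c | pvMerge (g, c) ∈ toMeasurable (pvLaw ε) {ω | pvGeoOf ω ∈ S}} = Set.univ :=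
      Set.eq_univ_of_forall fun c => hsub (show pvGeoOf (pvMerge (g, c)) ∈ S from hg)
    unfold pvQ
    rw [h2]
    exact measure_univ
  calc pvGeo ε S ≤ pvGeo ε {g | 1 ≤ pvQ (toMeasurable (pvLaw ε) {ω | pvGeoOf ω ∈ S}) g} := measure_mono fun g hg => (h1 g hg).ge
    _ ≤ ∫⁻ g, pvQ (toMeasurable (pvLaw ε) {ω | pvGeoOf ω ∈ S}) g ∂(pvGeo ε) := by
        have h3 := mul_meas_ge_le_lintegral (μ := pvGeo ε) (pvqu_Q_meas hMm) 1
        rwa [one_mul] at h3
    _ = pvLaw ε (toMeasurable (pvLaw ε) {ω | pvGeoOf ω ∈ S}) := pvqu_Q_lintegral ε hMm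
    _ = pvLaw ε {ω | pvGeoOf ω ∈ S} := measure_toMeasurable _

/-- **outer measures of events of the geometry**: no measurability asked -/
theorem pvax_geo_eq (ε : ℝ) (S : Set PvGeoT) : pvLaw ε {ω | pvGeoOf ω ∈ S} = pvGeo ε S := le_antisymm (pvax_geo_le ε S) (pvax_geo_ge ε S)

/-- an event of the site set, under the law of the sample and under the law of the geometry -/
theorem pvax_sites_eq (ε : ℝ) (P : Set ℂ → Prop) : pvLaw ε {ω | P (cfSites (pvConf ω))} = pvGeo ε {g | P (pvgSites g)} := by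
  rw [← pvax_geo_eq]
  congr 1
  ext ω
  simp only [Set.mem_ofPred_eq, pvax_sites ω]

/-- finite unions of bad events -/
theorem pvax_union {ι : Type} (I : Finset ι) (B : ι → ℝ → Set PVSample) (h : ∀ i ∈ I, Tendsto (fun ε : ℝ => pvLaw ε (B i ε)) (𝓝[>] 0) (𝓝 0)) :
    Tendsto (fun ε : ℝ => pvLaw ε (⋃ i ∈ I, B i ε)) (𝓝[>] 0) (𝓝 0) := by
  have h1 : Tendsto (fun ε : ℝ => ∑ i ∈ I, pvLaw ε (B i ε)) (𝓝[>] 0) (𝓝 0) := by
    simpa using tendsto_finsetSum I h
  exact tendsto_of_tendsto_of_tendsto_of_le_of_le tendsto_const_nhds h1 (fun _ => zero_le) fun ε => measure_biUnion_finset_le I _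

theorem pvax_union2 {B B' : ℝ → Set PVSample} (h : Tendsto (fun ε : ℝ => pvLaw ε (B ε)) (𝓝[>] 0) (𝓝 0)) (h' : Tendsto (fun ε : ℝ => pvLaw ε (B' ε)) (𝓝[>] 0) (𝓝 0)) :
    Tendsto (fun ε : ℝ => pvLaw ε (B ε ∪ B' ε)) (𝓝[>] 0) (𝓝 0) := by
  have h1 : Tendsto (fun ε : ℝ => pvLaw ε (B ε) + pvLaw ε (B' ε)) (𝓝[>] 0) (𝓝 0) := by
    simpa using h.add h'
  exact tendsto_of_tendsto_of_tendsto_of_le_of_le tendsto_const_nhds h1 (fun _ => zero_le) fun ε => measure_union_le _ _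

theorem pvax_mono {B B' : ℝ → Set PVSample} (h : Tendsto (fun ε : ℝ => pvLaw ε (B ε)) (𝓝[>] 0) (𝓝 0)) (hs : ∀ ε, B' ε ⊆ B ε) :
    Tendsto (fun ε : ℝ => pvLaw ε (B' ε)) (𝓝[>] 0) (𝓝 0) :=
  tendsto_of_tendsto_of_tendsto_of_le_of_le tendsto_const_nhds h (fun _ => zero_le) fun ε => measure_mono (hs ε)

/-- the Delaunay plane is good almost surely -/
theorem pvax_good : Tendsto (fun ε : ℝ => pvLaw ε {ω | ¬ DelGood (cfSites (pvConf ω))}) (𝓝[>] 0) (𝓝 0) := by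
  refine tendsto_const_nhds.congr' ?_
  filter_upwards [self_mem_nhdsWithin] with ε hε
  have h1 : ∀ᵐ ω ∂(pvLaw ε), DelGood (cfSites (pvConf ω)) := (dls_ae hε).mono fun ω h => h.del
  exact (ae_iff.1 h1).symm

/-! ### 3.3 QBX ⟹ BXP -/

/-- **QBX ⟹ BXP**, at the scale of QBX -/
theorem pvax_bxp_u {q : ℝ} (hQ : PvaxQbx q) (z : ℂ) {u : ℝ} (hu : 0 < u) :
    Tendsto (fun ε : ℝ => pvLaw ε {ω | ¬ PvaxOk q z (u / 2) (5 * u) (cfSites (pvConf ω))}) (𝓝[>] 0) (𝓝 0) := by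
  set Bad : Bool → Set PvGeoT := fun b => {g | pvQc {η | ¬ (rswArm z.re z.im (u / 2) (5 * u / 2)).Holds (pvaxReg b η)} g < ENNReal.ofReal q} with hBad
  have h1 : ∀ ε : ℝ, 0 < ε → pvLaw ε {ω | ¬ PvaxOk q z (u / 2) (5 * u) (cfSites (pvConf ω))} ≤ pvGeo ε (Bad true) + pvGeo ε (Bad false) := by
    intro ε hε
    have hnull : pvGeo ε {g | ¬ (PvgOk g ∧ DelGood (pvgSites g))} = 0 := ae_iff.1 ((pvqu_ok_ae ε).and (dls_ae_geo hε))
    have hsub : {ω | ¬ PvaxOk q z (u / 2) (5 * u) (cfSites (pvConf ω))} ⊆ {ω | pvGeoOf ω ∈ Bad true ∪ Bad false ∪ {g | ¬ (PvgOk g ∧ DelGood (pvgSites g))}} := by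
      intro ω hω
      by_contra hn
      simp only [Set.mem_ofPred_eq, Set.mem_union, not_or, not_not] at hn
      obtain ⟨⟨ht, hf⟩, hok, hd⟩ := hn
      apply hω
      rw [pvax_sites ω]
      refine ⟨hd, pvax_quenched hok hd hu fun b => ?_⟩
      cases b
      · exact not_lt.1 hf
      · exact not_lt.1 ht
    calc pvLaw ε {ω | ¬ PvaxOk q z (u / 2) (5 * u) (cfSites (pvConf ω))}
        ≤ pvLaw ε {ω | pvGeoOf ω ∈ Bad true ∪ Bad false ∪ {g | ¬ (PvgOk g ∧ DelGood (pvgSites g))}} := measure_mono hsub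
      _ ≤ pvGeo ε (Bad true ∪ Bad false ∪ {g | ¬ (PvgOk g ∧ DelGood (pvgSites g))}) := pvax_geo_le ε _
      _ ≤ pvGeo ε (Bad true ∪ Bad false) + pvGeo ε {g | ¬ (PvgOk g ∧ DelGood (pvgSites g))} := measure_union_le _ _
      _ ≤ pvGeo ε (Bad true) + pvGeo ε (Bad false) := by
          rw [hnull, add_zero]
          exact measure_union_le _ _
  have h2 : Tendsto (fun ε : ℝ => pvGeo ε (Bad true) + pvGeo ε (Bad false)) (𝓝[>] 0) (𝓝 0) := by
    simpa using (hQ z u true hu).add (hQ z u false hu)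
  refine tendsto_of_tendsto_of_tendsto_of_le_of_le' tendsto_const_nhds h2 (Eventually.of_forall fun _ => zero_le) ?_
  filter_upwards [self_mem_nhdsWithin] with ε hε using h1 ε hε

/-- **QBX ⟹ BXP** between the radii `r` and `R ≥ 10 r` -/
theorem pvax_bxp {q : ℝ} (hQ : PvaxQbx q) (z : ℂ) {r R : ℝ} (hr : 0 < r) (hR : 10 * r ≤ R) :
    Tendsto (fun ε : ℝ => pvLaw ε {ω | ¬ PvaxOk q z r R (cfSites (pvConf ω))}) (𝓝[>] 0) (𝓝 0) :=
  pvax_mono (pvax_bxp_u hQ z (u := 2 * r) (by linarith)) fun ε ω hω h => hω (pvax_ok_mono h (by linarith) (by linarith))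

/-! ### 3.4 cycles near circles -/

/-- **Lemma 2.3 (iv), deterministic** (= `dlc_at` of helper190, `Del/Circ`): if every point of the closed ball of radius `r + 3ρ` is within `ρ` of a site, there is a cycle at radius `(r, r')` for all `r' > r + 3ρ`.
Plan (190): `X` = sites whose cell meets the closed ball `B(z, r)`: finite, connected (`del_win_conn`), within `r + ρ`; star cycle of `X`: its vertices are neighbours of `X`, so within `r + 3ρ`;
the filled holes by a maximum principle: an interior vertex has a Delaunay neighbour in every open half plane through it, so the maximum of `‖pos - z‖` over the closed disc is on the cycle. -/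
theorem pvax_circ_det {Y : Set ℂ} (h : DelGood Y) {z : ℂ} {r ρ r' : ℝ} (hr : 0 ≤ r) (hρ : 0 < ρ) (hd : VorDense Y (Metric.closedBall z (r + 3 * ρ)) ρ) (hr' : r + 3 * ρ < r') :
    ∃ c : (delMap h).Cyc, PvaxAt (delMap h) (dlsPos Y) z r r' c :=
  dlc_at h hr hρ hd hr'

/-- the mesh event has probability tending to one -/
theorem pvax_dense {K : Set ℂ} (hK : Bornology.IsBounded K) {ρ : ℝ} (hρ : 0 < ρ) :
    Tendsto (fun ε : ℝ => pvLaw ε {ω | ¬ VorDense (cfSites (pvConf ω)) K ρ}) (𝓝[>] 0) (𝓝 0) :=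
  pvax_mono (vorm_law_tendsto hK hρ) fun ε ω hω hG => hω (vorm_G_dense hρ hG)

/-- **Lemma 2.3 (iv)** -/
theorem pvax_circ (z : ℂ) {r r' : ℝ} (hr : 0 ≤ r) (hrr : r < r') :
    Tendsto (fun ε : ℝ => pvLaw ε {ω | ¬ PvaxCirc z r r' (cfSites (pvConf ω))}) (𝓝[>] 0) (𝓝 0) := by
  have hρ : 0 < (r' - r) / 4 := by linarith
  refine pvax_mono (pvax_union2 pvax_good (pvax_dense (K := Metric.closedBall z (r + 3 * ((r' - r) / 4))) Metric.isBounded_closedBall hρ)) fun ε ω hω => ?_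
  by_contra hn
  simp only [Set.mem_union, Set.mem_ofPred_eq, not_or, not_not] at hn
  obtain ⟨hg, hd⟩ := hn
  exact hω ⟨hg, pvax_circ_det hg hr hρ hd (by linarith)⟩

/-! ### 3.5 the frame -/

/-- **THE EXIT OF THIS FILE** -/
theorem pvax_frame {q : ℝ} (hQ : PvaxQbx q) (Z : Finset ℂ) (Rs : Finset ℝ) (hRs : ∀ r ∈ Rs, 0 < r) :
    Tendsto (fun ε : ℝ => pvLaw ε {ω | ¬ PvaxFrame q Z Rs (cfSites (pvConf ω))}) (𝓝[>] 0) (𝓝 0) := by
  have h1 : ∀ p ∈ Z ×ˢ Rs, Tendsto (fun ε : ℝ => pvLaw ε ({ω | ¬ PvaxCirc p.1 p.2 (5 / 4 * p.2) (cfSites (pvConf ω))} ∪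
      {ω | ¬ PvaxOk q p.1 (5 / 4 * p.2) (25 / 2 * p.2) (cfSites (pvConf ω))})) (𝓝[>] 0) (𝓝 0) := by
    intro p hp
    have hr := hRs p.2 (Finset.mem_product.1 hp).2
    exact pvax_union2 (pvax_circ p.1 hr.le (by linarith)) (pvax_bxp hQ p.1 (by linarith) (by linarith))
  refine pvax_mono (pvax_union2 pvax_good (pvax_union (Z ×ˢ Rs) (fun p _ => {ω | ¬ PvaxCirc p.1 p.2 (5 / 4 * p.2) (cfSites (pvConf ω))} ∪
      {ω | ¬ PvaxOk q p.1 (5 / 4 * p.2) (25 / 2 * p.2) (cfSites (pvConf ω))}) h1)) fun ε ω hω => ?_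
  by_contra hn
  simp only [Set.mem_union, Set.mem_ofPred_eq, Set.mem_iUnion, not_or, not_not, not_exists] at hn
  obtain ⟨hg, hall⟩ := hn
  exact hω ⟨hg, fun z hz r hr => hall (z, r) (Finset.mem_product.2 ⟨hz, hr⟩)⟩

/-- the exit of QBX (298, `Qbx/Exit`) in the form of this file -/
theorem pvax_qbx_main (hL : PvqmLay) (hR : PvqmRev (fun u => pvqcO 0 u) (fun u => pvqcF 0 u)) : ∃ q : ℝ, 0 < q ∧ PvaxQbx q := by
  obtain ⟨q, hq, h⟩ := pvqx_exit_Qc_main hL hR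
  refine ⟨q, hq, fun z u b hu => ?_⟩
  cases b
  · exact (h z u hu).2
  · exact (h z u hu).1

/-- **THE EXIT, from the two contracts of QBX** -/
theorem pvax_frame_main (hL : PvqmLay) (hR : PvqmRev (fun u => pvqcO 0 u) (fun u => pvqcF 0 u)) : ∃ q : ℝ, 0 < q ∧ ∀ (Z : Finset ℂ) (Rs : Finset ℝ), (∀ r ∈ Rs, 0 < r) →
    Tendsto (fun ε : ℝ => pvLaw ε {ω | ¬ PvaxFrame q Z Rs (cfSites (pvConf ω))}) (𝓝[>] 0) (𝓝 0) := by
  obtain ⟨q, hq, h⟩ := pvax_qbx_main hL hR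
  exact ⟨q, hq, fun Z Rs hRs => pvax_frame h Z Rs hRs⟩

theorem pvax_qbx_mono {q q' : ℝ} (h : PvaxQbx q) (hq : q' ≤ q) : PvaxQbx q' := fun z u b hu =>
  tendsto_of_tendsto_of_tendsto_of_le_of_le tendsto_const_nhds (h z u b hu) (fun _ => zero_le)
    fun ε => measure_mono fun g hg => lt_of_lt_of_le hg (ENNReal.ofReal_le_ofReal hq)

/-- the exit under the law of the geometry (OUTER measure of the bad geometries) -/
theorem pvax_frame_geo {q : ℝ} (hQ : PvaxQbx q) (Z : Finset ℂ) (Rs : Finset ℝ) (hRs : ∀ r ∈ Rs, 0 < r) :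
    Tendsto (fun ε : ℝ => pvGeo ε {g | ¬ PvaxFrame q Z Rs (pvgSites g)}) (𝓝[>] 0) (𝓝 0) := by
  have h := pvax_frame hQ Z Rs hRs
  simp only [pvax_sites_eq _ (fun Y => ¬ PvaxFrame q Z Rs Y)] at h
  exact h

/-- the exit along a sequence of meshes -/
theorem pvax_frame_seq {q : ℝ} (hQ : PvaxQbx q) {εs : ℕ → ℝ} (hpos : ∀ n, 0 < εs n) (hε : Tendsto εs atTop (𝓝 0)) (Z : Finset ℂ) (Rs : Finset ℝ) (hRs : ∀ r ∈ Rs, 0 < r) :
    Tendsto (fun n => pvGeo (εs n) {g | ¬ PvaxFrame q Z Rs (pvgSites g)}) atTop (𝓝 0) :=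
  (pvax_frame_geo hQ Z Rs hRs).comp (tendsto_nhdsWithin_iff.2 ⟨hε, Eventually.of_forall hpos⟩)

/-- reading a frame -/
theorem pvax_frame_spec {q : ℝ} {Z : Finset ℂ} {Rs : Finset ℝ} {Y : Set ℂ} (hF : PvaxFrame q Z Rs Y) (h : DelGood Y) {z : ℂ} (hz : z ∈ Z) {r : ℝ} (hr : r ∈ Rs) :
    (∃ c : (delMap h).Cyc, PvaxAt (delMap h) (dlsPos Y) z r (5 / 4 * r) c) ∧ PvaxBxp (delMap h) (dlsPos Y) q z (5 / 4 * r) (25 / 2 * r) := by
  obtain ⟨⟨_, c, hc⟩, _, hb⟩ := hF.2 z hz r hr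
  exact ⟨⟨c, hc⟩, hb⟩

theorem pvax_frame_mono {q : ℝ} {Z Z' : Finset ℂ} {Rs Rs' : Finset ℝ} {Y : Set ℂ} (hF : PvaxFrame q Z Rs Y) (hZ : Z' ⊆ Z) (hR : Rs' ⊆ Rs) : PvaxFrame q Z' Rs' Y :=
  ⟨hF.1, fun z hz r hr => hF.2 z (hZ hz) r (hR hr)⟩

/-- **CONSUMER FORM**: a tower of `m` annuli round `z`: the `i`-th one between a cycle at radius `16^(2i) s` and a cycle at radius `16^(2i+1) s` -/
theorem pvax_frame_tower {q : ℝ} {Z : Finset ℂ} {Rs : Finset ℝ} {Y : Set ℂ} (hF : PvaxFrame q Z Rs Y) (h : DelGood Y) {z : ℂ} (hz : z ∈ Z) {s : ℝ} (hs : 0 < s)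
    {m : ℕ} (hm : 0 < m) (hR : ∀ j < 2 * m, (16 : ℝ) ^ j * s ∈ Rs) :
    ∃ a o : ℕ → (delMap h).Cyc, PvaxTower (delMap h) m a o q ∧
      (∀ i < m, PvaxAt (delMap h) (dlsPos Y) z ((16 : ℝ) ^ (2 * i) * s) (5 / 4 * ((16 : ℝ) ^ (2 * i) * s)) (a i)) ∧
      ∀ i < m, PvaxAt (delMap h) (dlsPos Y) z ((16 : ℝ) ^ (2 * i + 1) * s) (5 / 4 * ((16 : ℝ) ^ (2 * i + 1) * s)) (o i) := by
  have hT : (delMap h).IsSph := dls_isSph h
  have hex : ∀ j, ∃ c : (delMap h).Cyc, j < 2 * m → PvaxAt (delMap h) (dlsPos Y) z ((16 : ℝ) ^ j * s) (5 / 4 * ((16 : ℝ) ^ j * s)) c := by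
    intro j
    by_cases hj : j < 2 * m
    · obtain ⟨c, hc⟩ := (pvax_frame_spec hF h hz (hR j hj)).1
      exact ⟨c, fun _ => hc⟩
    · obtain ⟨c, -⟩ := (pvax_frame_spec hF h hz (hR 0 (by omega))).1
      exact ⟨c, fun h' => absurd h' hj⟩
  choose C hC using hex
  have hpos : ∀ j : ℕ, 0 < (16 : ℝ) ^ j * s := fun j => by positivity
  have hsucc : ∀ j : ℕ, (16 : ℝ) ^ (j + 1) * s = 16 * ((16 : ℝ) ^ j * s) := fun j => by rw [pow_succ]; ring
  have hblk : ∀ i < m, (C (2 * i)).Inside (C (2 * i + 1)) ∧ PvaxBlk (delMap h) (C (2 * i)) (C (2 * i + 1)) q := by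
    intro i hi
    have hp := hpos (2 * i)
    have hs' := hsucc (2 * i)
    refine pvax_at_blk hT (hC (2 * i) (by omega)) (hC (2 * i + 1) (by omega)) ?_ (by rw [hs']; linarith)
    exact pvax_bxp_mono (pvax_frame_spec hF h hz (hR (2 * i) (by omega))).2 le_rfl (by rw [hs']; linarith)
  refine ⟨fun i => C (2 * i), fun i => C (2 * i + 1), ⟨fun i hi => (hC (2 * i + 1) (by omega)).fin, fun i hi => (hblk i hi).1, fun i hi => ?_, fun i hi => (hblk i hi).2⟩,
    fun i hi => hC (2 * i) (by omega), fun i hi => hC (2 * i + 1) (by omega)⟩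
  have hp := hpos (2 * i + 1)
  have hs' := hsucc (2 * i + 1)
  have e : 2 * (i + 1) = 2 * i + 1 + 1 := by ring
  show (C (2 * i + 1)).Inside (C (2 * (i + 1)))
  rw [e]
  refine pvax_at_inside hT (hC (2 * i + 1) (by omega)) (hC (2 * i + 1 + 1) (by omega)) ?_
  rw [sub_self, norm_zero, hs']
  linarith

end poisson

end Claimed.Agent.R289
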