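import Claimed.Agent.R289.Arm.Stop

/-!
# Row 289 (S0537), box ARM, block A3, file Arm/Bk : FAIR COLOURINGS: BK INEQUALITY, INDEPENDENT BLOCKING EVENTS (ONE ARM), GEOMETRIC TAILS => MOMENTS      (owner helper221; architect of ARM helper241; prefix `pvbk`)      0 sorry

NO planarity, NO geometry.  Vocabulary of `Arm/Stop` (helper128): `A : Finset V` fresh vertices, `ξ` background, `pvaP A ξ K`, `pvaE A ξ f`, `PvaCfg`, `PvaDep`.

* sec. 1  `pvbkN s A` = number of `t ⊆ s` with `A t` (no decidability instance visible): `pvbkN_mono _congr _le _true _or_add_and _add_not _insert _compl _eq_card`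
* sec. 2  **`pvbk_bk`** : BK inequality (van den Berg - Kesten) for increasing events of fair bits, counting form `2^|s| N(A □ B) ≤ N(A) N(B)`;  induction on the coordinates (Bollobas - Riordan): `C₀ = A₀ □ B₀`, `C₁ ⊆ (A₀ □ B₁) ∪ (A₁ □ B₀)`, `C₀ ⊆ (A₀ □ B₁) ∩ (A₁ □ B₀)`, `C₁ ⊆ A₁ □ B₁`
* sec. 3  WITNESS FORM, both colours, any background:  `PvbkCol c ω a` (all of `a` has colour `c`);
          **`pvbk_bk_two`** : `P(∃ a b disjoint, W1 a, W2 b, both of colour c) ≤ P(∃ a, W1 a, colour c) P(∃ b, W2 b, colour c)`;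
          `PvbkDisj W c k ω` (`k` pairwise disjoint witnesses, the `i`-th in `W i`);  **`pvbk_bk_prod`**, **`pvbk_bk_pow`** : `P(k disjoint witnesses) ≤ P(one witness)^k`
          USE: `W a` := "`a` is the vertex set of a path crossing the annulus / rectangle / slit region".  No leftmost path, no exploration, no Reimer.
* sec. 4  `pvbk_and_indep` (product formula), **`pvbk_none`**, **`pvbk_one_arm`** : an event incompatible with each of `m` blocking events `C j` (reading pairwise disjoint `R j ⊆ A`, probability `≥ q`) has probability `≤ (1-q)^m`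
* sec. 5  `pvbkM b p r = ∑' k, (b k + b)^p r^k`;  **`pvbk_moment`** : `P(b k ≤ K) ≤ C0 r^k` for all `k` gives `E K^p ≤ C0 pvbkM b p r`;
          **`pvbk_tail`**, **`pvbk_tail_moment`** : if `b k ≤ K ω` forces `k` disjoint witnesses of colour `c` and a blocking event of probability `≥ q` excludes every witness: `P(b k ≤ K) ≤ (1-q)^k`, `E K^p ≤ pvbkM b p (1-q)`
-/

set_option autoImplicit false
set_option linter.unusedSectionVars false

namespace Claimed.Agent.R289

open Finset

section count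

variable {α : Type} [DecidableEq α]

open scoped Classical in
/-- number of subsets `t` of `s` with the property `A` -/
noncomputable def pvbkN (s : Finset α) (A : Finset α → Prop) : ℕ := (s.powerset.filter A).card

theorem pvbkN_mono {s : Finset α} {A B : Finset α → Prop} (h : ∀ t, t ⊆ s → A t → B t) : pvbkN s A ≤ pvbkN s B := by
  classical
  unfold pvbkN
  refine card_le_card fun t ht => ?_
  rw [mem_filter, mem_powerset] at ht ⊢
  exact ⟨ht.1, h t ht.1 ht.2⟩

theorem pvbkN_congr {s : Finset α} {A B : Finset α → Prop} (h : ∀ t, t ⊆ s → (A t ↔ B t)) : pvbkN s A = pvbkN s B :=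
  le_antisymm (pvbkN_mono fun t ht => (h t ht).1) (pvbkN_mono fun t ht => (h t ht).2)

theorem pvbkN_le (s : Finset α) (A : Finset α → Prop) : pvbkN s A ≤ 2 ^ s.card := by
  classical
  unfold pvbkN
  exact (card_filter_le _ _).trans (card_powerset s).le

theorem pvbkN_true (s : Finset α) : pvbkN s (fun _ => True) = 2 ^ s.card := by
  classical
  unfold pvbkN
  rw [← card_powerset]
  congr 1
  ext t
  simp only [mem_filter, and_true]

/-- `pvbkN` is the cardinality of ANY finset with the right members (no decidability instance in sight) -/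
theorem pvbkN_eq_card {s : Finset α} {A : Finset α → Prop} {F : Finset (Finset α)} (h : ∀ t, t ∈ F ↔ t ⊆ s ∧ A t) :
    pvbkN s A = F.card := by
  classical
  unfold pvbkN
  congr 1
  ext t
  rw [mem_filter, mem_powerset, h]

theorem pvbkN_or_add_and (s : Finset α) (A B : Finset α → Prop) :
    pvbkN s (fun t => A t ∨ B t) + pvbkN s (fun t => A t ∧ B t) = pvbkN s A + pvbkN s B := by
  classical
  rw [pvbkN_eq_card (F := s.powerset.filter A ∪ s.powerset.filter B), pvbkN_eq_card (F := s.powerset.filter A ∩ s.powerset.filter B),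
    card_union_add_card_inter]
  · rfl
  · intro t
    simp only [mem_filter, mem_inter, mem_powerset]
    tauto
  · intro t
    simp only [mem_filter, mem_union, mem_powerset]
    tauto

theorem pvbkN_false {s : Finset α} {A : Finset α → Prop} (h : ∀ t, t ⊆ s → ¬ A t) : pvbkN s A = 0 := by
  classical
  unfold pvbkN
  rw [card_eq_zero]
  ext t
  simp only [mem_filter, mem_powerset, notMem_empty, iff_false, not_and]
  exact h t

theorem pvbkN_add_not (s : Finset α) (A : Finset α → Prop) : pvbkN s A + pvbkN s (fun t => ¬ A t) = 2 ^ s.card := by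
  have h1 := pvbkN_or_add_and s A (fun t => ¬ A t)
  have h2 : pvbkN s (fun t => A t ∨ ¬ A t) = 2 ^ s.card := by
    rw [← pvbkN_true s]
    exact pvbkN_congr fun t _ => ⟨fun _ => trivial, fun _ => em _⟩
  have h3 : pvbkN s (fun t => A t ∧ ¬ A t) = 0 := pvbkN_false fun t _ h => h.2 h.1
  omega

theorem pvbkN_empty_pos {A : Finset α → Prop} (h : A ∅) : pvbkN ∅ A = 1 := by
  classical
  unfold pvbkN
  rw [powerset_empty, filter_singleton, if_pos h, card_singleton]

theorem pvbkN_empty_neg {A : Finset α → Prop} (h : ¬ A ∅) : pvbkN ∅ A = 0 := by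
  classical
  unfold pvbkN
  rw [powerset_empty, filter_singleton, if_neg h, card_empty]

/-- slicing along one coordinate -/
theorem pvbkN_insert {x : α} {s : Finset α} (hx : x ∉ s) (A : Finset α → Prop) :
    pvbkN (insert x s) A = pvbkN s A + pvbkN s (fun t => A (insert x t)) := by
  classical
  unfold pvbkN
  rw [powerset_insert, filter_union, card_union_of_disjoint, filter_image, card_image_of_injOn]
  · intro t ht u hu h
    rw [coe_filter, Set.mem_ofPred_eq, mem_powerset] at ht hu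
    have h1 : x ∉ t := fun h => hx (ht.1 h)
    have h2 : x ∉ u := fun h => hx (hu.1 h)
    calc t = (insert x t).erase x := (erase_insert h1).symm
      _ = (insert x u).erase x := by rw [h]
      _ = u := erase_insert h2
  · rw [disjoint_left]
    intro t ht ht'
    rw [mem_filter, mem_powerset] at ht
    rw [mem_filter, mem_image] at ht'
    obtain ⟨⟨u, _, rfl⟩, _⟩ := ht'
    exact hx (ht.1 (mem_insert_self x u))

/-- complementation inside `s` -/
theorem pvbkN_compl (s : Finset α) (A : Finset α → Prop) : pvbkN s (fun t => A (s \ t)) = pvbkN s A := by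
  classical
  unfold pvbkN
  refine card_nbij' (fun t => s \ t) (fun t => s \ t) ?_ ?_ ?_ ?_
  · intro t ht
    simp only [coe_filter, mem_powerset, Set.mem_ofPred_eq] at ht ⊢
    exact ⟨sdiff_subset, ht.2⟩
  · intro t ht
    simp only [coe_filter, mem_powerset, Set.mem_ofPred_eq] at ht ⊢
    exact ⟨sdiff_subset, by rw [Finset.sdiff_sdiff_eq_self ht.1]; exact ht.2⟩
  · intro t ht
    simp only [coe_filter, mem_powerset, Set.mem_ofPred_eq] at ht
    exact Finset.sdiff_sdiff_eq_self ht.1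
  · intro t ht
    simp only [coe_filter, mem_powerset, Set.mem_ofPred_eq] at ht
    exact Finset.sdiff_sdiff_eq_self ht.1

end count

/-! ## 2. BK -/

section bk

variable {α : Type} [DecidableEq α]

/-- disjoint occurrence of two increasing properties -/
def pvbkBox (A B : Finset α → Prop) (t : Finset α) : Prop := ∃ a b, A a ∧ B b ∧ Disjoint a b ∧ a ⊆ t ∧ b ⊆ t

/-- increasing property -/
def PvbkInc (A : Finset α → Prop) : Prop := ∀ t u, t ⊆ u → A t → A u

theorem pvbkBox_mono {A A' B B' : Finset α → Prop} (hA : ∀ t, A t → A' t) (hB : ∀ t, B t → B' t) (t : Finset α)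
    (h : pvbkBox A B t) : pvbkBox A' B' t := by
  obtain ⟨a, b, ha, hb, hd, h1, h2⟩ := h
  exact ⟨a, b, hA a ha, hB b hb, hd, h1, h2⟩

theorem pvbkBox_inc (A B : Finset α → Prop) : PvbkInc (pvbkBox A B) := by
  rintro t u htu ⟨a, b, ha, hb, hd, h1, h2⟩
  exact ⟨a, b, ha, hb, hd, h1.trans htu, h2.trans htu⟩

theorem PvbkInc.ins {A : Finset α → Prop} (hA : PvbkInc A) (x : α) : PvbkInc fun t => A (insert x t) :=
  fun t u htu h => hA _ _ (insert_subset_insert x htu) h

theorem pvbkBox_insert {A B : Finset α → Prop} (hB : PvbkInc B) {x : α} {t : Finset α} (hx : x ∉ t)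
    (h : pvbkBox A B (insert x t)) :
    pvbkBox A (fun u => B (insert x u)) t ∨ pvbkBox (fun u => A (insert x u)) B t := by
  obtain ⟨a, b, ha, hb, hd, h1, h2⟩ := h
  by_cases hxa : x ∈ a
  · right
    have hxb : x ∉ b := fun h => (disjoint_left.1 hd) hxa h
    refine ⟨a.erase x, b, ?_, hb, hd.mono_left (erase_subset x a), ?_, ?_⟩
    · show A (insert x (a.erase x))
      rwa [insert_erase hxa]
    · rwa [← subset_insert_iff]
    · exact (subset_insert_iff_of_notMem hxb).1 h2
  · left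
    refine ⟨a, b.erase x, ha, ?_, hd.mono_right (erase_subset x b), ?_, ?_⟩
    · show B (insert x (b.erase x))
      refine hB b _ ?_ hb
      intro y hy
      by_cases hyx : y = x
      · subst hyx; exact mem_insert_self _ _
      · exact mem_insert_of_mem (mem_erase.2 ⟨hyx, hy⟩)
    · exact (subset_insert_iff_of_notMem hxa).1 h1
    · rwa [← subset_insert_iff]

/-- **BK inequality** (van den Berg - Kesten) for fair bits, counting form -/
theorem pvbk_bk (s : Finset α) : ∀ A B : Finset α → Prop, PvbkInc A → PvbkInc B →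
    2 ^ s.card * pvbkN s (pvbkBox A B) ≤ pvbkN s A * pvbkN s B := by
  induction s using Finset.induction with
  | empty =>
    intro A B _ _
    by_cases h : pvbkBox A B ∅
    · obtain ⟨a, b, ha, hb, _, h1, h2⟩ := id h
      rw [subset_empty] at h1 h2
      subst h1; subst h2
      rw [pvbkN_empty_pos h, pvbkN_empty_pos ha, pvbkN_empty_pos hb]
      simp
    · rw [pvbkN_empty_neg h]; simp
  | insert x s hx ih =>
    intro A B hA hB
    have hA1 := hA.ins x
    have hB1 := hB.ins x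
    have hA01 : ∀ t, A t → A (insert x t) := fun t => hA _ _ (subset_insert x t)
    have hB01 : ∀ t, B t → B (insert x t) := fun t => hB _ _ (subset_insert x t)
    rw [pvbkN_insert hx, pvbkN_insert hx, pvbkN_insert hx, card_insert_of_notMem hx]
    set A1 : Finset α → Prop := fun t => A (insert x t) with hA1d
    set B1 : Finset α → Prop := fun t => B (insert x t) with hB1d
    set c0 := pvbkN s (pvbkBox A B)
    set c1 := pvbkN s (fun t => pvbkBox A B (insert x t))
    have i00 := ih A B hA hB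
    have i11 := ih A1 B1 hA1 hB1
    have i01 := ih A B1 hA hB1
    have i10 := ih A1 B hA1 hB
    have hc1 : c1 ≤ pvbkN s (pvbkBox A1 B1) := by
      refine pvbkN_mono fun t ht h => ?_
      have hxt : x ∉ t := fun h => hx (ht h)
      rcases pvbkBox_insert hB hxt h with h | h
      · exact pvbkBox_mono hA01 (fun _ h => h) t h
      · exact pvbkBox_mono (fun _ h => h) hB01 t h
    have hsum : c0 + c1 ≤ pvbkN s (pvbkBox A B1) + pvbkN s (pvbkBox A1 B) := by
      have h0 : c0 ≤ pvbkN s (fun t => pvbkBox A B1 t ∧ pvbkBox A1 B t) :=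
        pvbkN_mono fun t _ h => ⟨pvbkBox_mono (fun _ h => h) hB01 t h, pvbkBox_mono hA01 (fun _ h => h) t h⟩
      have h1 : c1 ≤ pvbkN s (fun t => pvbkBox A B1 t ∨ pvbkBox A1 B t) := by
        refine pvbkN_mono fun t ht h => ?_
        have hxt : x ∉ t := fun h => hx (ht h)
        exact pvbkBox_insert hB hxt h
      have h2 := pvbkN_or_add_and s (pvbkBox A B1) (pvbkBox A1 B)
      omega
    have e1 : 2 ^ s.card * c1 ≤ pvbkN s A1 * pvbkN s B1 := (Nat.mul_le_mul_left _ hc1).trans i11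
    have e2 : 2 ^ s.card * (c0 + c1) ≤ pvbkN s A * pvbkN s B1 + pvbkN s A1 * pvbkN s B := by
      refine (Nat.mul_le_mul_left _ hsum).trans ?_
      rw [mul_add]
      exact add_le_add i01 i10
    calc 2 ^ (s.card + 1) * (c0 + c1) = 2 ^ s.card * c0 + 2 ^ s.card * c1 + 2 ^ s.card * (c0 + c1) := by ring
      _ ≤ pvbkN s A * pvbkN s B + pvbkN s A1 * pvbkN s B1 + (pvbkN s A * pvbkN s B1 + pvbkN s A1 * pvbkN s B) :=
          add_le_add (add_le_add i00 e1) e2
      _ = (pvbkN s A + pvbkN s A1) * (pvbkN s B + pvbkN s B1) := by ring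

end bk

/-! ## 3. link with the vocabulary of `Arm/Stop` (helper128) -/

section link

variable {V : Type} [DecidableEq V]

/-- the colouring of the problem `(A, ξ)` whose set of vertices of colour `c` inside `A` is `t` -/
def pvbkMk (c : Bool) (A t : Finset V) (ξ : V → Bool) : V → Bool := pvaMk A (if c = true then t else A \ t) ξ

/-- all the vertices of `a` have the colour `c` -/
def PvbkCol (c : Bool) (ω : V → Bool) (a : Finset V) : Prop := ∀ v ∈ a, ω v = c

theorem pvbk_P_eq_black (A : Finset V) (ξ : V → Bool) (K : (V → Bool) → Prop) :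
    pvaP A ξ K = (pvbkN A (fun B => K (pvaMk A B ξ)) : ℝ) / 2 ^ A.card := by
  classical
  unfold pvaP pvaE
  congr 1
  rw [Finset.sum_boole, pvbkN_eq_card (F := A.powerset.filter fun B => K (pvaMk A B ξ)) fun t => by rw [mem_filter, mem_powerset]]

/-- probability = counting the sets of vertices of colour `c` -/
theorem pvbk_P_eq (c : Bool) (A : Finset V) (ξ : V → Bool) (K : (V → Bool) → Prop) :
    pvaP A ξ K = (pvbkN A (fun t => K (pvbkMk c A t ξ)) : ℝ) / 2 ^ A.card := by
  rw [pvbk_P_eq_black]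
  cases c
  · congr 2
    exact (pvbkN_compl A (fun B => K (pvaMk A B ξ))).symm
  · rfl

theorem pvbk_mk_eq {c : Bool} {A t : Finset V} (ht : t ⊆ A) (ξ : V → Bool) (v : V) :
    pvbkMk c A t ξ v = c ↔ v ∈ t ∨ (v ∉ A ∧ ξ v = c) := by
  unfold pvbkMk
  by_cases hv : v ∈ A
  · rw [pva_mk_in hv]
    cases c
    · simp [hv]
    · simp [hv]
  · rw [pva_mk_out hv]
    have : v ∉ t := fun h => hv (ht h)
    simp [hv, this]

/-- the increasing property of the set `t` of fresh vertices of colour `c`: some witness has the colour `c` -/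
def pvbkUp (c : Bool) (A : Finset V) (ξ : V → Bool) (W : Finset V → Prop) (t : Finset V) : Prop :=
  ∃ a, W a ∧ ∀ v ∈ a, v ∈ t ∨ (v ∉ A ∧ ξ v = c)

theorem pvbkUp_inc (c : Bool) (A : Finset V) (ξ : V → Bool) (W : Finset V → Prop) : PvbkInc (pvbkUp c A ξ W) := by
  rintro t u htu ⟨a, ha, h⟩
  exact ⟨a, ha, fun v hv => (h v hv).imp (fun h => htu h) id⟩

theorem pvbkUp_iff {c : Bool} {A t : Finset V} (ht : t ⊆ A) (ξ : V → Bool) (W : Finset V → Prop) :
    (∃ a, W a ∧ PvbkCol c (pvbkMk c A t ξ) a) ↔ pvbkUp c A ξ W t := by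
  unfold pvbkUp PvbkCol
  simp only [pvbk_mk_eq ht]

/-- **BK** for two families of witnesses of the same colour, any fresh set, any background -/
theorem pvbk_bk_two (c : Bool) (A : Finset V) (ξ : V → Bool) (W1 W2 : Finset V → Prop) :
    pvaP A ξ (fun ω => ∃ a b, W1 a ∧ W2 b ∧ Disjoint a b ∧ PvbkCol c ω a ∧ PvbkCol c ω b) ≤
      pvaP A ξ (fun ω => ∃ a, W1 a ∧ PvbkCol c ω a) * pvaP A ξ (fun ω => ∃ b, W2 b ∧ PvbkCol c ω b) := by
  rw [pvbk_P_eq c, pvbk_P_eq c, pvbk_P_eq c]
  have h1 : pvbkN A (fun t => ∃ a, W1 a ∧ PvbkCol c (pvbkMk c A t ξ) a) = pvbkN A (pvbkUp c A ξ W1) :=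
    pvbkN_congr fun t ht => pvbkUp_iff ht ξ W1
  have h2 : pvbkN A (fun t => ∃ a, W2 a ∧ PvbkCol c (pvbkMk c A t ξ) a) = pvbkN A (pvbkUp c A ξ W2) :=
    pvbkN_congr fun t ht => pvbkUp_iff ht ξ W2
  have h3 : pvbkN A (fun t => ∃ a b, W1 a ∧ W2 b ∧ Disjoint a b ∧ PvbkCol c (pvbkMk c A t ξ) a ∧ PvbkCol c (pvbkMk c A t ξ) b) ≤
      pvbkN A (pvbkBox (pvbkUp c A ξ W1) (pvbkUp c A ξ W2)) := by
    refine pvbkN_mono fun t ht => ?_
    rintro ⟨a, b, ha, hb, hd, ca, cb⟩
    refine ⟨a ∩ t, b ∩ t, ⟨a, ha, fun v hv => ?_⟩, ⟨b, hb, fun v hv => ?_⟩,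
      hd.mono inter_subset_left inter_subset_left, inter_subset_right, inter_subset_right⟩
    · exact ((pvbk_mk_eq ht ξ v).1 (ca v hv)).imp (fun h => mem_inter.2 ⟨hv, h⟩) id
    · exact ((pvbk_mk_eq ht ξ v).1 (cb v hv)).imp (fun h => mem_inter.2 ⟨hv, h⟩) id
  have h4 := pvbk_bk A _ _ (pvbkUp_inc c A ξ W1) (pvbkUp_inc c A ξ W2)
  rw [h1, h2]
  have h5 : (2 : ℝ) ^ A.card * (pvbkN A (fun t => ∃ a b, W1 a ∧ W2 b ∧ Disjoint a b ∧ PvbkCol c (pvbkMk c A t ξ) a ∧
      PvbkCol c (pvbkMk c A t ξ) b) : ℝ) ≤ (pvbkN A (pvbkUp c A ξ W1) : ℝ) * (pvbkN A (pvbkUp c A ξ W2) : ℝ) := by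
    exact_mod_cast (Nat.mul_le_mul_left _ h3).trans h4
  have hp : (0 : ℝ) < 2 ^ A.card := by positivity
  rw [div_mul_div_comm, div_le_div_iff₀ hp (mul_pos hp hp)]
  nlinarith [h5, hp]

/-- `k` pairwise disjoint witnesses of colour `c`, the `i`-th one in the family `W i` -/
def PvbkDisj (W : ℕ → Finset V → Prop) (c : Bool) (k : ℕ) (ω : V → Bool) : Prop :=
  ∃ f : ℕ → Finset V, (∀ i < k, W i (f i) ∧ PvbkCol c ω (f i)) ∧ ∀ i < k, ∀ j < k, i ≠ j → Disjoint (f i) (f j)

/-- **BK, `k` families** -/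
theorem pvbk_bk_prod (c : Bool) (A : Finset V) (ξ : V → Bool) (W : ℕ → Finset V → Prop) (k : ℕ) :
    pvaP A ξ (PvbkDisj W c k) ≤ ∏ i ∈ range k, pvaP A ξ (fun ω => ∃ a, W i a ∧ PvbkCol c ω a) := by
  induction k with
  | zero => rw [range_zero, prod_empty]; exact pva_P_le_one _ _ _
  | succ k ih =>
    rw [prod_range_succ]
    set W' : Finset V → Prop := fun a => ∃ f : ℕ → Finset V, (∀ i < k, W i (f i)) ∧ (∀ i < k, ∀ j < k, i ≠ j → Disjoint (f i) (f j)) ∧
      a = (range k).biUnion f with hW'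
    have h1 : pvaP A ξ (PvbkDisj W c (k + 1)) ≤
        pvaP A ξ (fun ω => ∃ a b, W' a ∧ W k b ∧ Disjoint a b ∧ PvbkCol c ω a ∧ PvbkCol c ω b) := by
      refine pva_P_mono fun ω _ => ?_
      rintro ⟨f, hf, hd⟩
      refine ⟨(range k).biUnion f, f k, ⟨f, fun i hi => (hf i (by omega)).1, fun i hi j hj => hd i (by omega) j (by omega), rfl⟩,
        (hf k (by omega)).1, ?_, ?_, (hf k (by omega)).2⟩
      · rw [disjoint_biUnion_left]
        intro i hi
        rw [mem_range] at hi
        exact hd i (by omega) k (by omega) (by omega)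
      · intro v hv
        rw [mem_biUnion] at hv
        obtain ⟨i, hi, hv⟩ := hv
        rw [mem_range] at hi
        exact (hf i (by omega)).2 v hv
    have h2 : pvaP A ξ (fun ω => ∃ a, W' a ∧ PvbkCol c ω a) ≤ pvaP A ξ (PvbkDisj W c k) := by
      refine pva_P_mono fun ω _ => ?_
      rintro ⟨a, ⟨f, hf, hd, rfl⟩, hc⟩
      exact ⟨f, fun i hi => ⟨hf i hi, fun v hv => hc v (mem_biUnion.2 ⟨i, mem_range.2 hi, hv⟩)⟩, hd⟩
    calc pvaP A ξ (PvbkDisj W c (k + 1)) ≤ _ := h1
      _ ≤ _ := pvbk_bk_two c A ξ W' (W k)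
      _ ≤ _ := mul_le_mul_of_nonneg_right (h2.trans ih) (pva_P_nonneg _ _ _)

/-- **BK, `k` disjoint witnesses of one family** -/
theorem pvbk_bk_pow (c : Bool) (A : Finset V) (ξ : V → Bool) (W : Finset V → Prop) (k : ℕ) :
    pvaP A ξ (PvbkDisj (fun _ => W) c k) ≤ pvaP A ξ (fun ω => ∃ a, W a ∧ PvbkCol c ω a) ^ k := by
  have := pvbk_bk_prod c A ξ (fun _ => W) k
  rwa [prod_const, card_range] at this

end link

/-! ## 4. independent blocking events: one arm -/

section arm

variable {V : Type} [DecidableEq V]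

open Classical in
/-- product formula, one step: an event which does not read `R` and an event which reads `R` only -/
theorem pvbk_and_indep {A R : Finset V} (hR : R ⊆ A) (ξ : V → Bool) {K L : (V → Bool) → Prop} (hK : PvaDep A (A \ R) ξ K)
    (hL : PvaDep A R ξ L) : pvaP A ξ (fun ω => K ω ∧ L ω) = pvaP A ξ K * pvaP A ξ L := by
  rw [pva_P_and_eq]
  have hg : PvaDep A (A \ R) ξ (fun ω => if K ω then (1 : ℝ) else 0) := by
    intro ω₁ ω₂ h1 h2 h
    have := hK ω₁ ω₂ h1 h2 h
    simp only [this]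
  have hf : PvaDep A R ξ (fun ω => if L ω then (1 : ℝ) else 0) := by
    intro ω₁ ω₂ h1 h2 h
    have := hL ω₁ ω₂ h1 h2 h
    simp only [this]
  rw [pva_markov hR ξ hg]
  have h1 : ∀ ω, PvaCfg A ξ ω → (if K ω then (1 : ℝ) else 0) * pvaE R ω (fun ω => if L ω then (1 : ℝ) else 0) =
      (if K ω then (1 : ℝ) else 0) * pvaP A ξ L := by
    intro ω hω
    rw [pva_E_dep hR hf hω]
    rfl
  rw [pva_E_congr h1, pva_E_mul_right]
  rfl

/-- **independent blocking events**: `C j` reads `R j` only, the `R j` are pairwise disjoint, each `C j` has probability `≥ q` -/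
theorem pvbk_none (A : Finset V) (ξ : V → Bool) (m : ℕ) (R : ℕ → Finset V) (C : ℕ → (V → Bool) → Prop) (q : ℝ)
    (hR : ∀ j < m, R j ⊆ A) (hd : ∀ i < m, ∀ j < m, i ≠ j → Disjoint (R i) (R j))
    (hC : ∀ j < m, PvaDep A (R j) ξ (C j)) (hq : ∀ j < m, q ≤ pvaP A ξ (C j)) :
    pvaP A ξ (fun ω => ∀ j < m, ¬ C j ω) ≤ (1 - q) ^ m := by
  induction m with
  | zero => rw [pow_zero]; exact pva_P_le_one _ _ _
  | succ m ih =>
    have ih' := ih (fun j hj => hR j (by omega)) (fun i hi j hj => hd i (by omega) j (by omega)) (fun j hj => hC j (by omega))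
      (fun j hj => hq j (by omega))
    have hK : PvaDep A (A \ R m) ξ (fun ω => ∀ j < m, ¬ C j ω) := by
      intro ω₁ ω₂ h1 h2 h
      have : ∀ j < m, C j ω₁ = C j ω₂ := by
        intro j hj
        refine hC j (by omega) ω₁ ω₂ h1 h2 fun v hv => h v ?_
        rw [mem_sdiff]
        exact ⟨hR j (by omega) hv, fun hv' => (disjoint_left.1 (hd j (by omega) m (by omega) (by omega))) hv hv'⟩
      show (∀ j < m, ¬ C j ω₁) = (∀ j < m, ¬ C j ω₂)
      refine propext ⟨fun H j hj => ?_, fun H j hj => ?_⟩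
      · rw [← this j hj]; exact H j hj
      · rw [this j hj]; exact H j hj
    have hL : PvaDep A (R m) ξ (fun ω => ¬ C m ω) := by
      intro ω₁ ω₂ h1 h2 h
      have := hC m (by omega) ω₁ ω₂ h1 h2 h
      show (¬ C m ω₁) = (¬ C m ω₂)
      rw [this]
    have e1 : pvaP A ξ (fun ω => ∀ j < m + 1, ¬ C j ω) = pvaP A ξ (fun ω => (∀ j < m, ¬ C j ω) ∧ ¬ C m ω) := by
      refine pva_P_congr fun ω _ => ⟨fun H => ⟨fun j hj => H j (by omega), H m (by omega)⟩, fun H j hj => ?_⟩
      rcases Nat.lt_succ_iff_lt_or_eq.1 hj with h | rfl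
      · exact H.1 j h
      · exact H.2
    rw [e1, pvbk_and_indep (hR m (by omega)) ξ hK hL, pva_P_not, pow_succ]
    have h1 := hq m (by omega)
    have h2 := pva_P_le_one A ξ (C m)
    exact mul_le_mul ih' (by linarith) (by linarith) (pow_nonneg (by linarith) m)

/-- **ONE ARM** (abstract form): an event which is incompatible with each of `m` independent blocking events of probability `≥ q` -/
theorem pvbk_one_arm (A : Finset V) (ξ : V → Bool) (m : ℕ) (R : ℕ → Finset V) (C : ℕ → (V → Bool) → Prop) (q : ℝ)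
    (hR : ∀ j < m, R j ⊆ A) (hd : ∀ i < m, ∀ j < m, i ≠ j → Disjoint (R i) (R j))
    (hC : ∀ j < m, PvaDep A (R j) ξ (C j)) (hq : ∀ j < m, q ≤ pvaP A ξ (C j))
    {Arm : (V → Bool) → Prop} (hA : ∀ ω, PvaCfg A ξ ω → Arm ω → ∀ j < m, ¬ C j ω) :
    pvaP A ξ Arm ≤ (1 - q) ^ m :=
  (pva_P_mono hA).trans (pvbk_none A ξ m R C q hR hd hC hq)

end arm

/-! ## 5. geometric tails give moments, uniformly in the graph -/

section tail

/-- the constant of the moment bound -/
noncomputable def pvbkM (b p : ℕ) (r : ℝ) : ℝ := ∑' k : ℕ, ((b * k + b : ℕ) : ℝ) ^ p * r ^ k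

theorem pvbk_M_summable (b p : ℕ) {r : ℝ} (h0 : 0 ≤ r) (h1 : r < 1) : Summable fun k : ℕ => ((b * k + b : ℕ) : ℝ) ^ p * r ^ k := by
  have hs : Summable fun k : ℕ => ((k + 1 : ℕ) : ℝ) ^ p * r ^ k := by
    rcases h0.eq_or_lt with rfl | hr
    · refine summable_of_ne_finset_zero (s := {0}) fun k hk => ?_
      rw [Finset.mem_singleton] at hk
      rw [zero_pow hk, mul_zero]
    · have h2 : Summable fun k : ℕ => ((k : ℕ) : ℝ) ^ p * r ^ k :=
        summable_pow_mul_geometric_of_norm_lt_one p (by rw [Real.norm_eq_abs, abs_of_pos hr]; exact h1)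
      have h3 := ((summable_nat_add_iff 1).2 h2).mul_left r⁻¹
      refine h3.congr fun k => ?_
      rw [pow_succ]
      field_simp
  refine (hs.mul_left ((b : ℝ) ^ p)).congr fun k => ?_
  rw [← mul_assoc, ← mul_pow]
  push_cast
  ring

theorem pvbk_M_nonneg (b p : ℕ) {r : ℝ} (h0 : 0 ≤ r) : 0 ≤ pvbkM b p r :=
  tsum_nonneg fun k => mul_nonneg (pow_nonneg (Nat.cast_nonneg _) _) (pow_nonneg h0 _)

variable {V : Type} [DecidableEq V]

/-- **moments from a geometric tail**: the bound depends on `(b, p, r, C0)` only -/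
theorem pvbk_moment (A : Finset V) (ξ : V → Bool) (K : (V → Bool) → ℕ) {b : ℕ} (hb : 1 ≤ b) {r C0 : ℝ} (h0 : 0 ≤ r) (h1 : r < 1)
    (h : ∀ k : ℕ, pvaP A ξ (fun ω => b * k ≤ K ω) ≤ C0 * r ^ k) (p : ℕ) :
    pvaE A ξ (fun ω => (K ω : ℝ) ^ p) ≤ C0 * pvbkM b p r := by
  classical
  set M : ℕ := (pvaCfgs A ξ).sup K with hM
  have hKM : ∀ ω, PvaCfg A ξ ω → K ω ≤ M := fun ω hω => Finset.le_sup (f := K) (pva_mem_cfgs.2 hω)
  have hpt : ∀ ω, PvaCfg A ξ ω → (K ω : ℝ) ^ p ≤
      ∑ k ∈ range (M + 1), ((b * k + b : ℕ) : ℝ) ^ p * (if b * k ≤ K ω then 1 else 0) := by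
    intro ω hω
    have hk0 : K ω / b ∈ range (M + 1) := by
      rw [mem_range]
      exact lt_of_le_of_lt ((Nat.div_le_self _ _).trans (hKM ω hω)) (Nat.lt_succ_self M)
    have hlo : b * (K ω / b) ≤ K ω := Nat.mul_div_le _ _
    have hhi : K ω ≤ b * (K ω / b) + b := by
      have := Nat.lt_mul_div_succ (K ω) (by omega : 0 < b)
      rw [Nat.mul_succ] at this
      exact this.le
    calc (K ω : ℝ) ^ p ≤ ((b * (K ω / b) + b : ℕ) : ℝ) ^ p * (if b * (K ω / b) ≤ K ω then 1 else 0) := by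
          rw [if_pos hlo, mul_one]
          exact pow_le_pow_left₀ (Nat.cast_nonneg _) (by exact_mod_cast hhi) p
      _ ≤ _ := Finset.single_le_sum (f := fun k => ((b * k + b : ℕ) : ℝ) ^ p * (if b * k ≤ K ω then 1 else 0))
          (fun k _ => mul_nonneg (pow_nonneg (Nat.cast_nonneg _) _) (by split_ifs <;> norm_num)) hk0
  calc pvaE A ξ (fun ω => (K ω : ℝ) ^ p)
      ≤ pvaE A ξ (fun ω => ∑ k ∈ range (M + 1), ((b * k + b : ℕ) : ℝ) ^ p * (if b * k ≤ K ω then 1 else 0)) := pva_E_mono hpt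
    _ = ∑ k ∈ range (M + 1), ((b * k + b : ℕ) : ℝ) ^ p * pvaP A ξ (fun ω => b * k ≤ K ω) := by
        rw [pva_E_sum]
        refine sum_congr rfl fun k _ => ?_
        rw [pva_E_mul_left]
        congr 1
        unfold pvaP
        refine pva_E_congr fun ω _ => ?_
        by_cases hh : b * k ≤ K ω
        · rw [if_pos hh, if_pos hh]
        · rw [if_neg hh, if_neg hh]
    _ ≤ ∑ k ∈ range (M + 1), C0 * (((b * k + b : ℕ) : ℝ) ^ p * r ^ k) := by
        refine sum_le_sum fun k _ => ?_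
        calc _ ≤ ((b * k + b : ℕ) : ℝ) ^ p * (C0 * r ^ k) := mul_le_mul_of_nonneg_left (h k) (pow_nonneg (Nat.cast_nonneg _) _)
          _ = _ := by ring
    _ = C0 * ∑ k ∈ range (M + 1), ((b * k + b : ℕ) : ℝ) ^ p * r ^ k := by rw [mul_sum]
    _ ≤ C0 * pvbkM b p r := by
        have hC0 : 0 ≤ C0 := by
          have := (pva_P_nonneg A ξ (fun ω => b * 0 ≤ K ω)).trans (h 0)
          simpa using this
        refine mul_le_mul_of_nonneg_left ?_ hC0
        exact (pvbk_M_summable b p h0 h1).sum_le_tsum _ fun k _ => mul_nonneg (pow_nonneg (Nat.cast_nonneg _) _) (pow_nonneg h0 _)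

/-- **the number of disjoint monochromatic crossings**: if `b k ≤ K` forces `k` pairwise disjoint witnesses of colour `c`, and a blocking event of probability `≥ q` excludes every witness -/
theorem pvbk_tail (c : Bool) (A : Finset V) (ξ : V → Bool) (W : Finset V → Prop) (K : (V → Bool) → ℕ) (b : ℕ) {q : ℝ}
    (hK : ∀ ω, PvaCfg A ξ ω → ∀ k, b * k ≤ K ω → PvbkDisj (fun _ => W) c k ω)
    {C : (V → Bool) → Prop} (hq : q ≤ pvaP A ξ C) (hC : ∀ ω, PvaCfg A ξ ω → C ω → ¬ ∃ a, W a ∧ PvbkCol c ω a) (k : ℕ) :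
    pvaP A ξ (fun ω => b * k ≤ K ω) ≤ (1 - q) ^ k := by
  have h1 : pvaP A ξ (fun ω => ∃ a, W a ∧ PvbkCol c ω a) ≤ 1 - q := by
    have h2 : pvaP A ξ (fun ω => ∃ a, W a ∧ PvbkCol c ω a) ≤ pvaP A ξ (fun ω => ¬ C ω) :=
      pva_P_mono fun ω hω h hc => hC ω hω hc h
    rw [pva_P_not] at h2
    linarith
  calc pvaP A ξ (fun ω => b * k ≤ K ω) ≤ pvaP A ξ (PvbkDisj (fun _ => W) c k) := pva_P_mono fun ω hω h => hK ω hω k h
    _ ≤ _ := pvbk_bk_pow c A ξ W k
    _ ≤ _ := pow_le_pow_left₀ (pva_P_nonneg _ _ _) h1 k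

/-- moments of such a count -/
theorem pvbk_tail_moment (c : Bool) (A : Finset V) (ξ : V → Bool) (W : Finset V → Prop) (K : (V → Bool) → ℕ) {b : ℕ} (hb : 1 ≤ b) {q : ℝ}
    (hq0 : 0 < q) (hK : ∀ ω, PvaCfg A ξ ω → ∀ k, b * k ≤ K ω → PvbkDisj (fun _ => W) c k ω)
    {C : (V → Bool) → Prop} (hq : q ≤ pvaP A ξ C) (hC : ∀ ω, PvaCfg A ξ ω → C ω → ¬ ∃ a, W a ∧ PvbkCol c ω a) (p : ℕ) :
    pvaE A ξ (fun ω => (K ω : ℝ) ^ p) ≤ pvbkM b p (1 - q) := by
  have hq1 : q ≤ 1 := hq.trans (pva_P_le_one _ _ _)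
  have := pvbk_moment A ξ K hb (r := 1 - q) (C0 := 1) (by linarith) (by linarith)
    (fun k => by rw [one_mul]; exact pvbk_tail c A ξ W K b hK hq hC k) p
  rwa [one_mul] at this

end tail

theorem pvbk_eqns_cite : True := by
  have := @pvbkN.eq_1
  have := @pvbkBox.eq_1
  have := @PvbkInc.eq_1
  have := @pvbkMk.eq_1
  have := @PvbkCol.eq_1
  have := @pvbkUp.eq_1
  have := @PvbkDisj.eq_1
  have := @pvbkM.eq_1
  trivial

end Claimed.Agent.R289
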