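-- KEEP
import Claimed.Agent.R289.Pl.Hex
import Claimed.Agent.R289.Arm.Strand

/-!
# Row 289 (S0537), box ARM, block A1b (first half), file Arm/Side : CLOSED WALKS, PARITY, FILL      (helper137; prefix `pvad_`)

Vocabulary of `Pl/Defs` (`PvMap`, `IsSph`, `FaceSet`, `Bd`).  No Jordan curve theorem: only `IsSph.h1` and `pl_fill`.

* sec.1  `PvMap.CW` closed primal walk (repetitions allowed), `PvMap.DW` closed dual walk, periodic sums
* sec.2  **P1 PARITY**: a cocycle sums to `0` along a closed primal walk (`pvad_parity`); the crossing cochain `DW.cr` of a closed dual walk is a cocycle (`pvad_cr_coc`);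
         closed primal walk x closed dual walk = even (`pvad_parity_dw`)
* sec.3  **P2 FILL**: a closed primal walk bounds a FINITE face set `A`: `Bd A d ↔ w.mult d = 1` (`pvad_fill`), `mult` = number of passages through the edge mod 2
* sec.4  colour changes of a closed walk: their number is even (`pvad_occ_even`); exactly two changes => the bichromatic boundary edges of the fill are these two edges (`pvad_two_bd`)
* sec.5  **P2 with strands** (names of `Arm/Strand`): `pvad_two_bdOcc`, `pvad_two_strand` (the strand which enters by one colour change leaves by the other), `pvad_mono_stay` (monochromatic walk: no strand crosses)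
         `pvad_fill_in`: a walk drawn in the closed disc of `c` bounds inside `c.Left`
* sec.6  **P2 in JOIN form** (no indices, chains `PlCh` of `Pl/Hex`): `a ≠ b` black-white darts, `Join R XB (src a) (src b)` in black, `Join R XW (tgt a) (tgt b)` in white  =>  `a`, `b` are positions of ONE strand and the piece between
         them stays in a finite face set `A` whose boundary edges are `a`, `b` and edges of the two joins (`pvad_join_region`, `pvad_join_strand`; `pvad_join_strand_in`: `A ⊆ c.Left`);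
         `pvad_region_strand` (any finite face set with two bichromatic boundary edges), `pvad_in_disc` (`A ⊆ c.Left ∨ Aᶜ ⊆ c.Left`), `pvad_isBd_set`, `pvad_ch_trans`
-/

set_option autoImplicit false

namespace Claimed.Agent.R289

open Relation

variable {V D : Type} {T : PvMap V D}

/-! ## 1. Closed walks -/

/-- closed primal walk of `n` darts, indexed periodically; vertices and edges may be repeated -/
structure PvMap.CW (T : PvMap V D) where
  n : ℕ
  e : ℕ → D
  per : ∀ i, e (i + n) = e i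
  chain : ∀ i, T.tgt (e i) = T.src (e (i + 1))

/-- closed dual walk of `m` steps, indexed periodically; darts stand for their faces; a step turns inside the face (`nxt`) or crosses the edge of the dart (`opp`) -/
structure PvMap.DW (T : PvMap V D) where
  m : ℕ
  g : ℕ → D
  per : ∀ k, g (k + m) = g k
  step : ∀ k, g (k + 1) = T.nxt (g k) ∨ g (k + 1) = T.opp (g k)

/-- a simple cycle is a closed walk -/
def PvMap.Cyc.toCW (c : T.Cyc) : T.CW where
  n := c.n
  e := c.e
  per := c.per
  chain := c.chain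

open Classical in
/-- number of passages of the walk through the edge of `d`, mod 2 -/
noncomputable def PvMap.CW.mult (w : T.CW) (d : D) : ZMod 2 := ∑ i ∈ Finset.range w.n, if w.e i = d ∨ w.e i = T.opp d then 1 else 0

open Classical in
/-- number of crossings of the edge of `d` by the dual walk, mod 2 -/
noncomputable def PvMap.DW.cr (w : T.DW) (d : D) : ZMod 2 :=
  ∑ k ∈ Finset.range w.m, if w.g (k + 1) = T.opp (w.g k) ∧ (w.g k = d ∨ w.g k = T.opp d) then 1 else 0

/-- a periodic sum is invariant under the shift -/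
theorem pvad_sum_shift {M : Type} [AddCommGroup M] (n : ℕ) (a : ℕ → M) (h : a n = a 0) : ∑ i ∈ Finset.range n, a (i + 1) = ∑ i ∈ Finset.range n, a i := by
  have h1 := Finset.sum_range_succ a n
  have h2 := Finset.sum_range_succ' a n
  rw [h1, h] at h2
  exact (add_right_cancel h2).symm

theorem pvad_z2_double (x : ZMod 2) : x + x = 0 := by revert x; decide

theorem pvad_cw_n (w : T.CW) : w.e w.n = w.e 0 := by have := w.per 0; rwa [Nat.zero_add] at this

theorem pvad_dw_m (w : T.DW) : w.g w.m = w.g 0 := by have := w.per 0; rwa [Nat.zero_add] at this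

open Classical in
/-- the indicator of an edge is the sum of the indicators of its two darts -/
theorem pvad_ind_edge (T : PvMap V D) (x y : D) : (if x = y ∨ x = T.opp y then (1 : ZMod 2) else 0) = (if x = y then 1 else 0) + (if T.opp x = y then 1 else 0) := by
  by_cases h1 : x = y
  · subst h1
    simp [T.opp_ne_self]
  · by_cases h2 : T.opp x = y
    · subst h2
      simp [T.opp_opp, h1]
    · have h3 : x ≠ T.opp y := fun h => h2 (by rw [h, T.opp_opp])
      simp [h1, h2, h3]

open Classical in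
/-- the indicator of a face is the sum of the indicators of its three darts -/
theorem pvad_ind_face (T : PvMap V D) (d x : D) : (if T.SF d x then (1 : ZMod 2) else 0) = (if x = d then 1 else 0) + (if x = T.nxt d then 1 else 0) + (if x = T.nxt (T.nxt d) then 1 else 0) := by
  unfold PvMap.SF
  by_cases h1 : x = d
  · subst h1
    simp [(T.nxt_ne_self x).symm, (T.nxt2_ne_self x).symm]
  · by_cases h2 : x = T.nxt d
    · subst h2
      simp [T.nxt_ne_self d, (T.nxt_ne_self (T.nxt d)).symm]
    · by_cases h3 : x = T.nxt (T.nxt d)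
      · subst h3
        simp [T.nxt2_ne_self d, T.nxt_ne_self (T.nxt d)]
      · simp [h1, h2, h3]

/-! ## 2. P1: parity -/

/-- **P1**: a cocycle sums to zero along a closed primal walk -/
theorem pvad_parity (hT : T.IsSph) (w : T.CW) (f : D → ZMod 2) (hs : T.Sym f) (hc : T.Coc f) : ∑ i ∈ Finset.range w.n, f (w.e i) = 0 := by
  obtain ⟨s, hs⟩ := hT.h1 f hs hc
  have h1 : ∀ i, f (w.e i) = s (T.src (w.e i)) + s (T.src (w.e (i + 1))) := fun i => by rw [hs, w.chain]
  simp only [h1, Finset.sum_add_distrib]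
  rw [pvad_sum_shift w.n (fun i => s (T.src (w.e i))) (by simp only [pvad_cw_n])]
  exact pvad_z2_double _

theorem pvad_cr_sym (w : T.DW) : T.Sym w.cr := by
  intro d
  unfold PvMap.DW.cr
  refine Finset.sum_congr rfl fun k _ => ?_
  rw [T.opp_opp]
  congr 1
  apply propext
  tauto

open Classical in
theorem pvad_cr_coc (w : T.DW) : T.Coc w.cr := by
  intro d
  obtain ⟨F, hF⟩ : ∃ F : D → ZMod 2, F = fun x => if T.SF d x then 1 else 0 := ⟨_, rfl⟩
  have key : ∀ k, (if w.g (k + 1) = T.opp (w.g k) ∧ (w.g k = d ∨ w.g k = T.opp d) then (1 : ZMod 2) else 0)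
      + (if w.g (k + 1) = T.opp (w.g k) ∧ (w.g k = T.nxt d ∨ w.g k = T.opp (T.nxt d)) then (1 : ZMod 2) else 0)
      + (if w.g (k + 1) = T.opp (w.g k) ∧ (w.g k = T.nxt (T.nxt d) ∨ w.g k = T.opp (T.nxt (T.nxt d))) then (1 : ZMod 2) else 0) = F (w.g k) + F (w.g (k + 1)) := by
    intro k
    rcases w.step k with h | h
    · have h' : w.g (k + 1) ≠ T.opp (w.g k) := by rw [h]; exact (T.opp_ne_nxt _).symm
      simp only [h', false_and, if_false, add_zero]
      have h2 : T.SF d (T.nxt (w.g k)) ↔ T.SF d (w.g k) :=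
        ⟨fun h3 => T.sf_trans h3 (T.sf_symm (T.sf_nxt _)), fun h3 => T.sf_trans h3 (T.sf_nxt _)⟩
      rw [hF, h]
      simp only [h2]
      exact (pvad_z2_double _).symm
    · simp only [h, true_and]
      rw [hF]
      simp only [pvad_ind_edge, pvad_ind_face]
      abel
  unfold PvMap.DW.cr
  rw [← Finset.sum_add_distrib, ← Finset.sum_add_distrib]
  simp only [key, Finset.sum_add_distrib]
  rw [pvad_sum_shift w.m (fun k => F (w.g k)) (by simp only [pvad_dw_m])]
  exact pvad_z2_double _

/-- **P1**: closed primal walk x closed dual walk = even -/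
theorem pvad_parity_dw (hT : T.IsSph) (w : T.CW) (g : T.DW) : ∑ i ∈ Finset.range w.n, g.cr (w.e i) = 0 :=
  pvad_parity hT w g.cr (pvad_cr_sym g) (pvad_cr_coc g)

/-! ## 3. P2: fill -/

theorem pvad_mult_sym (w : T.CW) : T.Sym w.mult := by
  intro d
  unfold PvMap.CW.mult
  refine Finset.sum_congr rfl fun k _ => ?_
  rw [T.opp_opp]
  congr 1
  apply propext
  tauto

theorem pvad_z2_cases (x : ZMod 2) : x = 0 ∨ x = 1 := by revert x; decide

open Classical in
/-- number of passages through the DART `d`, mod 2 -/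
noncomputable def PvMap.CW.cnt (w : T.CW) (d : D) : ZMod 2 := ∑ i ∈ Finset.range w.n, if w.e i = d then 1 else 0

theorem pvad_mult_cnt (w : T.CW) (d : D) : w.mult d = w.cnt d + w.cnt (T.opp d) := by
  classical
  unfold PvMap.CW.mult PvMap.CW.cnt
  rw [← Finset.sum_add_distrib]
  refine Finset.sum_congr rfl fun i _ => ?_
  rw [pvad_ind_edge]
  congr 1
  by_cases h : T.opp (w.e i) = d
  · have h' : w.e i = T.opp d := by rw [← h, T.opp_opp]
    rw [if_pos h, if_pos h']
  · have h' : w.e i ≠ T.opp d := fun h2 => h (by rw [h2, T.opp_opp])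
    simp [h, h']

theorem pvad_cnt_supp (w : T.CW) {d : D} (h : w.cnt d ≠ 0) : ∃ i < w.n, w.e i = d := by
  classical
  by_contra hn
  apply h
  unfold PvMap.CW.cnt
  refine Finset.sum_eq_zero fun i hi => ?_
  rw [if_neg fun h2 => hn ⟨i, Finset.mem_range.1 hi, h2⟩]

/-- the darts used an odd number of times, counted through a function `φ` -/
theorem pvad_cnt_deg (w : T.CW) (φ : D → V) (v : V) :
    (({d | w.cnt d = 1 ∧ φ d = v}.ncard : ℕ) : ZMod 2) = ∑ i ∈ Finset.range w.n, (open Classical in if φ (w.e i) = v then 1 else 0) := by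
  classical
  have hset : {d | w.cnt d = 1 ∧ φ d = v} = ↑(((Finset.range w.n).image w.e).filter fun d => w.cnt d = 1 ∧ φ d = v) := by
    ext d
    simp only [Set.mem_ofPred_eq, Finset.coe_filter, Finset.mem_image, Finset.mem_range]
    constructor
    · rintro ⟨h1, h2⟩
      exact ⟨pvad_cnt_supp w (by rw [h1]; exact one_ne_zero), h1, h2⟩
    · rintro ⟨-, h1, h2⟩
      exact ⟨h1, h2⟩
  rw [hset, Set.ncard_coe_finset, Finset.card_filter, Nat.cast_sum]
  have h1 : ∀ d, (((if w.cnt d = 1 ∧ φ d = v then 1 else 0 : ℕ)) : ZMod 2) = ∑ i ∈ Finset.range w.n, if w.e i = d then (if φ (w.e i) = v then 1 else 0) else 0 := by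
    intro d
    by_cases hv : φ d = v
    · have h2 : ∀ i, (if w.e i = d then (if φ (w.e i) = v then (1 : ZMod 2) else 0) else 0) = if w.e i = d then 1 else 0 := by
        intro i
        by_cases h3 : w.e i = d
        · simp [h3, hv]
        · simp [h3]
      simp only [h2]
      show _ = w.cnt d
      rcases pvad_z2_cases (w.cnt d) with h0 | h0 <;> simp [h0, hv]
    · have h2 : ∀ i, (if w.e i = d then (if φ (w.e i) = v then (1 : ZMod 2) else 0) else 0) = 0 := by
        intro i
        by_cases h3 : w.e i = d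
        · simp [h3, hv]
        · simp [h3]
      simp [h2, hv]
  simp only [h1]
  rw [Finset.sum_comm]
  refine Finset.sum_congr rfl fun i hi => ?_
  rw [Finset.sum_ite_eq]
  rw [if_pos (Finset.mem_image_of_mem _ hi)]

theorem pvad_cnt_fin (w : T.CW) : {d | w.cnt d = 1}.Finite := by
  classical
  refine ((Finset.range w.n).image w.e).finite_toSet.subset fun d hd => ?_
  obtain ⟨i, hi, rfl⟩ := pvad_cnt_supp w (d := d) (by rw [show w.cnt d = 1 from hd]; exact one_ne_zero)
  exact Finset.mem_coe.2 (Finset.mem_image_of_mem _ (Finset.mem_range.2 hi))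

theorem pvad_cnt_even (w : T.CW) (v : V) :
    Even ({d | d ∈ {d | w.cnt d = 1} ∧ T.src d = v}.ncard + {d | d ∈ {d | w.cnt d = 1} ∧ T.tgt d = v}.ncard) := by
  classical
  rw [← ZMod.natCast_eq_zero_iff_even, Nat.cast_add]
  have h1 := pvad_cnt_deg w T.src v
  have h2 := pvad_cnt_deg w T.tgt v
  simp only [Set.mem_ofPred_eq]
  rw [h1, h2]
  simp only [w.chain]
  rw [pvad_sum_shift w.n (fun i => if T.src (w.e i) = v then (1 : ZMod 2) else 0) (by simp only [pvad_cw_n])]
  exact pvad_z2_double _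

theorem pvad_cnt_bd (w : T.CW) (d : D) : ¬ (d ∈ {d | w.cnt d = 1} ↔ T.opp d ∈ {d | w.cnt d = 1}) ↔ w.mult d = 1 := by
  rw [pvad_mult_cnt]
  simp only [Set.mem_ofPred_eq]
  rcases pvad_z2_cases (w.cnt d) with h0 | h0 <;> rcases pvad_z2_cases (w.cnt (T.opp d)) with h1 | h1 <;> simp [h0, h1]

/-- **P2**: a closed primal walk bounds a finite set of faces -/
theorem pvad_fill (hT : T.IsSph) (w : T.CW) : ∃ A : Set D, A.Finite ∧ T.FaceSet A ∧ ∀ d, T.Bd A d ↔ w.mult d = 1 := by
  obtain ⟨A, hA, hF, hB⟩ := pl_fill hT {d | w.cnt d = 1} (pvad_cnt_fin w) (pvad_cnt_even w)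
  exact ⟨A, hA, hF, fun d => (hB d).trans (pvad_cnt_bd w d)⟩

/-- **P2 in a disc**: a closed primal walk drawn in the closed disc of `c` bounds a set of faces of the disc -/
theorem pvad_fill_in (hT : T.IsSph) (c : T.Cyc) (w : T.CW) (hin : ∀ i, w.e i ∈ c.Left ∨ T.opp (w.e i) ∈ c.Left) :
    ∃ A : Set D, A ⊆ c.Left ∧ T.FaceSet A ∧ ∀ d, T.Bd A d ↔ w.mult d = 1 := by
  obtain ⟨A, hA, hF, hB⟩ := pl_inside_fill hT c {d | w.cnt d = 1} (pvad_cnt_fin w) (fun d hd => by
    obtain ⟨i, -, rfl⟩ := pvad_cnt_supp w (d := d) (by rw [show w.cnt d = 1 from hd]; exact one_ne_zero)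
    exact hin i) (pvad_cnt_even w)
  exact ⟨A, hA, hF, fun d => (hB d).trans (pvad_cnt_bd w d)⟩

/-- an edge which the walk does not use is not a boundary edge -/
theorem pvad_mult_zero (w : T.CW) {d : D} (h : ∀ i < w.n, w.e i ≠ d ∧ w.e i ≠ T.opp d) : w.mult d = 0 := by
  classical
  unfold PvMap.CW.mult
  refine Finset.sum_eq_zero fun i hi => ?_
  rw [if_neg fun h2 => h2.elim (h i (Finset.mem_range.1 hi)).1 (h i (Finset.mem_range.1 hi)).2]

/-! ## 4. Colour changes of a closed walk -/

theorem pvad_occ_opp (T : PvMap V D) (s : V → Bool) (d : D) : T.Occ s (T.opp d) ↔ T.Occ s d := by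
  unfold PvMap.Occ
  rw [T.src_opp', T.tgt_opp]
  exact ne_comm

open Classical in
/-- the number of colour changes of a closed walk is even -/
theorem pvad_occ_even (w : T.CW) (s : V → Bool) : ∑ i ∈ Finset.range w.n, (if T.Occ s (w.e i) then (1 : ZMod 2) else 0) = 0 := by
  have h1 : ∀ i, (if T.Occ s (w.e i) then (1 : ZMod 2) else 0) = (if s (T.src (w.e i)) then 1 else 0) + (if s (T.src (w.e (i + 1))) then 1 else 0) := by
    intro i
    unfold PvMap.Occ
    rw [w.chain]
    cases s (T.src (w.e i)) <;> cases s (T.src (w.e (i + 1))) <;> simp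
    decide
  simp only [h1, Finset.sum_add_distrib]
  rw [pvad_sum_shift w.n (fun i => if s (T.src (w.e i)) then (1 : ZMod 2) else 0) (by simp only [pvad_cw_n])]
  exact pvad_z2_double _

/-- the colour is constant along a stretch of the walk without colour change -/
theorem pvad_col_const (w : T.CW) (s : V → Bool) (a : ℕ) (m : ℕ) (h : ∀ k, a ≤ k → k < a + m → ¬ T.Occ s (w.e k)) : s (T.src (w.e (a + m))) = s (T.src (w.e a)) := by
  induction m with
  | zero => rfl
  | succ m ih =>
    have h1 := ih fun k hk hk' => h k hk (by omega)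
    have h2 := h (a + m) (by omega) (by omega)
    unfold PvMap.Occ at h2
    rw [not_not, w.chain] at h2
    rw [← h1, h2]
    rfl

/-- two colour changes are made in opposite senses, so the two darts are different -/
theorem pvad_two_ne (w : T.CW) (s : V → Bool) {i j : ℕ} (hj : j < w.n) (hij : i < j)
    (hocc : ∀ k < w.n, T.Occ s (w.e k) ↔ k = i ∨ k = j) : s (T.src (w.e j)) = s (T.tgt (w.e i)) := by
  have h1 := pvad_col_const w s (i + 1) (j - (i + 1)) fun k hk hk' hk2 => by
    have := (hocc k (by omega)).1 hk2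
    omega
  rw [show i + 1 + (j - (i + 1)) = j by omega] at h1
  rw [h1, w.chain]

open Classical in
/-- **two colour changes**: the bichromatic edges used an odd number of times are the two edges where the colour changes -/
theorem pvad_two_bd (w : T.CW) (s : V → Bool) {i j : ℕ} (hi : i < w.n) (hj : j < w.n) (hij : i ≠ j)
    (hocc : ∀ k < w.n, T.Occ s (w.e k) ↔ k = i ∨ k = j) (hne : w.e i ≠ T.opp (w.e j)) (d : D) :
    (T.Occ s d ∧ w.mult d = 1) ↔ T.Edg {w.e i, w.e j} d := by
  have hOi : T.Occ s (w.e i) := (hocc i hi).2 (Or.inl rfl)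
  have hOj : T.Occ s (w.e j) := (hocc j hj).2 (Or.inr rfl)
  have hne2 : w.e i ≠ w.e j := by
    intro h
    rcases lt_or_gt_of_ne hij with h1 | h1
    · have h2 := pvad_two_ne w s hj h1 hocc
      rw [← h] at h2
      exact hOi h2
    · have h2 := pvad_two_ne w s hi h1 (fun k hk => (hocc k hk).trans or_comm)
      rw [h] at h2
      exact hOj h2
  have hne3 : w.e j ≠ T.opp (w.e i) := fun h => hne (by rw [h, T.opp_opp])
  have hmult : T.Occ s d → w.mult d = (if w.e i = d ∨ w.e i = T.opp d then 1 else 0) + (if w.e j = d ∨ w.e j = T.opp d then 1 else 0) := by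
    intro hd
    unfold PvMap.CW.mult
    refine Finset.sum_eq_add_of_mem i j (Finset.mem_range.2 hi) (Finset.mem_range.2 hj) hij fun k hk hk2 => ?_
    rw [if_neg]
    intro h3
    have h4 : T.Occ s (w.e k) := by
      rcases h3 with h3 | h3
      · rw [h3]; exact hd
      · rw [h3]; exact (pvad_occ_opp T s d).2 hd
    rcases (hocc k (Finset.mem_range.1 hk)).1 h4 with h5 | h5
    · exact hk2.1 h5
    · exact hk2.2 h5
  constructor
  · rintro ⟨hd, hm⟩
    rw [hmult hd] at hm
    by_cases h1 : w.e i = d ∨ w.e i = T.opp d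
    · rcases h1 with h1 | h1
      · exact Or.inl (Or.inl h1.symm)
      · exact Or.inr (Or.inl h1.symm)
    · by_cases h2 : w.e j = d ∨ w.e j = T.opp d
      · rcases h2 with h2 | h2
        · exact Or.inl (Or.inr h2.symm)
        · exact Or.inr (Or.inr h2.symm)
      · rw [if_neg h1, if_neg h2] at hm
        exact absurd hm (by decide)
  · intro hE
    have hd : T.Occ s d := by
      rcases hE with (h | h) | (h | h)
      · rw [h]; exact hOi
      · rw [Set.mem_singleton_iff.1 h]; exact hOj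
      · rw [← pvad_occ_opp, h]; exact hOi
      · rw [← pvad_occ_opp, Set.mem_singleton_iff.1 h]; exact hOj
    refine ⟨hd, ?_⟩
    rw [hmult hd]
    rcases hE with (h | h) | (h | h)
    · subst h
      rw [if_pos (Or.inl rfl), if_neg (fun h => h.elim (fun h => hne2 h.symm) hne3), add_zero]
    · have h := Set.mem_singleton_iff.1 h
      subst h
      rw [if_neg (fun h => h.elim hne2 hne), if_pos (Or.inl rfl), zero_add]
    · rw [if_pos (Or.inr h.symm), if_neg, add_zero]
      rintro (h2 | h2)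
      · exact hne (by rw [h2, h])
      · exact hne2 (by rw [h2, h])
    · have h := Set.mem_singleton_iff.1 h
      rw [if_neg, if_pos (Or.inr h.symm), zero_add]
      rintro (h2 | h2)
      · exact hne3 (by rw [h2, h])
      · exact hne2 (by rw [h2, h])

/-! ## 5. P2: the strand of a region whose boundary walk has two colour changes -/

/-- the bichromatic boundary edges of a face set bounded by a closed walk with exactly two colour changes; `a`, `b` = the darts of these two edges which lie in `A` -/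
theorem pvad_two_bdOcc (w : T.CW) (s : V → Bool) {i j : ℕ} (hi : i < w.n) (hj : j < w.n) (hij : i ≠ j)
    (hocc : ∀ k < w.n, T.Occ s (w.e k) ↔ k = i ∨ k = j) (hne : w.e i ≠ T.opp (w.e j))
    {A : Set D} (hB : ∀ d, T.Bd A d ↔ w.mult d = 1) {a b : D} (ha : T.Edg {w.e i} a) (haA : a ∈ A) (hb : T.Edg {w.e j} b) (hbA : b ∈ A) :
    pvasBdOcc T A s = {a, b} := by
  have key := pvad_two_bd w s hi hj hij hocc hne
  have hEa : T.Edg {w.e i, w.e j} a := ha.imp (fun h => Or.inl h) fun h => Or.inl h
  have hEb : T.Edg {w.e i, w.e j} b := hb.imp (fun h => Or.inr h) fun h => Or.inr h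
  have hout : ∀ d, d ∈ A → T.Edg {w.e i, w.e j} d → T.opp d ∉ A ∧ T.Occ s d := by
    intro d hd hE
    obtain ⟨h1, h2⟩ := (key d).2 hE
    exact ⟨fun h3 => (hB d).2 h2 ⟨fun _ => h3, fun _ => hd⟩, h1⟩
  ext d
  constructor
  · rintro ⟨h1, h2, h3⟩
    have h4 : T.Bd A d := fun h => h2 (h.1 h1)
    have h5 := (key d).1 ⟨h3, (hB d).1 h4⟩
    have hoa := (hout a haA hEa).1
    have hob := (hout b hbA hEb).1
    -- `d` and `a` (or `b`) are darts of the same edge, both in `A`
    have same : ∀ x y z : D, T.Edg {z} x → (y = z ∨ T.opp y = z) → x ∈ A → T.opp x ∉ A → y ∈ A → y = x := by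
      intro x y z hx hy hxA hxo hyA
      rcases hx with hx | hx <;> rcases hy with hy | hy
      · rw [hy, Set.mem_singleton_iff.1 hx]
      · exfalso; apply hxo; rw [Set.mem_singleton_iff.1 hx, ← hy, T.opp_opp]; exact hyA
      · exfalso; apply hxo; rw [Set.mem_singleton_iff.1 hx, ← hy]; exact hyA
      · exact T.opp_injective (by rw [hy, Set.mem_singleton_iff.1 hx])
    rcases h5 with (h5 | h5) | (h5 | h5)
    · exact Or.inl (same a d _ ha (Or.inl h5) haA hoa h1)
    · exact Or.inr (same b d _ hb (Or.inl h5) hbA hob h1)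
    · exact Or.inl (same a d _ ha (Or.inr h5) haA hoa h1)
    · exact Or.inr (same b d _ hb (Or.inr h5) hbA hob h1)
  · rintro (rfl | h)
    · exact ⟨haA, (hout _ haA hEa).1, (hout _ haA hEa).2⟩
    · rw [Set.mem_singleton_iff.1 h]
      exact ⟨hbA, (hout _ hbA hEb).1, (hout _ hbA hEb).2⟩

/-- **P2**: `A` a finite face set bounded by a closed primal walk with exactly two colour changes.  The strand which enters `A` through one of them stays in `A` until it leaves through the other one. -/
theorem pvad_two_strand (w : T.CW) (s : V → Bool) {i j : ℕ} (hi : i < w.n) (hj : j < w.n) (hij : i ≠ j)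
    (hocc : ∀ k < w.n, T.Occ s (w.e k) ↔ k = i ∨ k = j) (hne : w.e i ≠ T.opp (w.e j))
    {A : Set D} (hA : T.FaceSet A) (hfin : A.Finite) (hB : ∀ d, T.Bd A d ↔ w.mult d = 1) {a b : D} (ha : T.Edg {w.e i} a) (haA : a ∈ A)
    (hb : T.Edg {w.e j} b) (hbA : b ∈ A) (hbw : pvasBW T s a) :
    ∃ n, 1 ≤ n ∧ (∀ k, k < n → pvasIt T s a k ∈ A) ∧ pvasIt T s a n = T.opp b :=
  pvas_two_strand hA hfin (pvad_two_bdOcc w s hi hj hij hocc hne hB ha haA hb hbA) hbw

/-- a strand cannot cross the boundary of a region at an edge which is not bichromatic and used an odd number of times: in particular never, if the walk is monochromatic -/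
theorem pvad_mono_stay (w : T.CW) (s : V → Bool) (hocc : ∀ k < w.n, ¬ T.Occ s (w.e k)) {A : Set D} (hA : T.FaceSet A) (hB : ∀ d, T.Bd A d ↔ w.mult d = 1)
    {d : D} (hd : pvasBW T s d) (n : ℕ) : pvasIt T s d n ∈ A ↔ d ∈ A := by
  induction n with
  | zero => exact Iff.rfl
  | succ n ih =>
    rw [← ih, pvas_it_succ]
    have hbw := pvas_step_bw (pvas_it_bw hd n)
    by_contra hc
    have h1 : T.Bd A (pvasStep T s (pvasIt T s d n)) := fun h => hc (h.trans (pvas_step_opp_mem hA s))
    have h2 := (hB _).1 h1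
    rw [pvad_mult_zero w] at h2
    · exact absurd h2 (by decide)
    · intro k hk
      constructor
      · intro h3
        exact hocc k hk (by rw [h3]; exact pvas_bw_occ hbw)
      · intro h3
        exact hocc k hk (by rw [h3, pvad_occ_opp]; exact pvas_bw_occ hbw)

/-! ## 6. P2 in JOIN form: two bichromatic edges whose black ends are joined in black and whose white ends are joined in white lie on ONE strand -/

theorem pvad_ch_trans {a b c : V} {z z' : D →₀ ZMod 2} (h : PlCh T a b z) (h' : PlCh T b c z') : PlCh T a c (z + z') := by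
  induction h' with
  | nil => rwa [add_zero]
  | cons d _ ih => rw [← add_assoc]; exact PlCh.cons d ih

/-- the face set of a face potential -/
theorem pvad_isBd_set {z : D →₀ ZMod 2} (h : PlIsBd T z) : ∃ A : Set D, A.Finite ∧ T.FaceSet A ∧ ∀ d, T.Bd A d ↔ z d = 1 := by
  obtain ⟨ψ, h1, h2⟩ := h
  refine ⟨{d | ψ d = 1}, ψ.support.finite_toSet.subset fun d hd => ?_, fun d => ?_, fun d => ?_⟩
  · rw [Finset.mem_coe, Finsupp.mem_support_iff, show ψ d = 1 from hd]
    exact one_ne_zero
  · show ψ (T.nxt d) = 1 ↔ ψ d = 1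
    rw [h1]
  · rw [← h2]
    show ¬ (ψ d = 1 ↔ ψ (T.opp d) = 1) ↔ _
    rcases pvad_z2_cases (ψ d) with h0 | h0 <;> rcases pvad_z2_cases (ψ (T.opp d)) with h1 | h1 <;> simp [h0, h1]

/-- a face set all of whose boundary edges are edges of the closed disc of `c` lies in the disc, or its complement does -/
theorem pvad_in_disc (hT : T.IsSph) (c : T.Cyc) {A : Set D} (hA : T.FaceSet A) (hbd : ∀ d, T.Bd A d → d ∈ c.Left ∨ T.opp d ∈ c.Left) :
    A ⊆ c.Left ∨ Aᶜ ⊆ c.Left := by
  obtain ⟨hR, -, -, -⟩ := pl_jordan hT c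
  have key : ∀ d, d ∈ c.Right → (d ∈ A ↔ T.opp (c.e 0) ∈ A) := by
    intro d hd
    induction hd with
    | refl => exact Iff.rfl
    | @tail x y hx hxy ih =>
      have hxR : x ∈ c.Right := hx
      have hyR : y ∈ c.Right := ReflTransGen.tail hx hxy
      rcases hxy with rfl | ⟨rfl, -⟩
      · exact (hA x).trans ih
      · rw [← ih]
        by_contra hc
        have h1 : T.Bd A x := fun h => hc h.symm
        rw [hR] at hxR hyR
        rcases hbd x h1 with h2 | h2
        · exact hxR h2
        · exact hyR h2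
  by_cases h0 : T.opp (c.e 0) ∈ A
  · right
    intro d hd
    by_contra hc
    exact hd ((key d (by rw [hR]; exact hc)).2 h0)
  · left
    intro d hd
    by_contra hc
    exact h0 ((key d (by rw [hR]; exact hc)).1 hd)

/-- **the strand of a region with two bichromatic boundary edges**, `a ≠ b` black-white darts -/
theorem pvad_region_strand (s : V → Bool) {A : Set D} (hA : T.FaceSet A) (hfin : A.Finite) {a b : D} (ha : pvasBW T s a) (hb : pvasBW T s b)
    (hBa : T.Bd A a) (hBb : T.Bd A b) (hbd : ∀ d, T.Bd A d → T.Occ s d → T.Edg {a, b} d) :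
    (a ∈ A ∧ ∃ n, 1 ≤ n ∧ (∀ k, k < n → pvasIt T s a k ∈ A) ∧ pvasIt T s a n = b) ∨
    (b ∈ A ∧ ∃ n, 1 ≤ n ∧ (∀ k, k < n → pvasIt T s b k ∈ A) ∧ pvasIt T s b n = a) := by
  -- a black-white boundary dart is `a` or `b`
  have hcl : ∀ d, pvasBW T s d → T.Bd A d → d = a ∨ d = b := by
    intro d hd hB
    rcases hbd d hB (pvas_bw_occ hd) with (h | h) | (h | h)
    · exact Or.inl h
    · exact Or.inr h
    · exact absurd (by rw [h]; exact ha) (pvas_bw_not_opp hd)
    · exact absurd (by rw [Set.mem_singleton_iff.1 h]; exact hb) (pvas_bw_not_opp hd)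
  have hexit : ∀ x y : D, (x = a ∧ y = b ∨ x = b ∧ y = a) → x ∈ A → ∃ n, 1 ≤ n ∧ (∀ k, k < n → pvasIt T s x k ∈ A) ∧ pvasIt T s x n = y := by
    intro x y hxy hx
    have hxbw : pvasBW T s x := by rcases hxy with ⟨rfl, -⟩ | ⟨rfl, -⟩ <;> assumption
    have hxB : T.Bd A x := by rcases hxy with ⟨rfl, -⟩ | ⟨rfl, -⟩ <;> assumption
    have hin : pvasIn T A s x := ⟨hx, fun h => hxB ⟨fun _ => h, fun _ => hx⟩, hxbw⟩
    obtain ⟨h1, h2, h3, h4, h5⟩ := pvas_exit_spec hA hfin hin
    refine ⟨_, h1, h2, ?_⟩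
    have h6 : T.Bd A (pvasExit T A s x) := fun h => h3 (h.2 h4)
    have h7 : pvasExit T A s x ≠ x := fun h => h3 (by rw [h]; exact hx)
    show pvasExit T A s x = y
    rcases hxy with ⟨rfl, rfl⟩ | ⟨rfl, rfl⟩
    · exact (hcl _ h5 h6).resolve_left h7
    · exact (hcl _ h5 h6).resolve_right h7
  by_cases haA : a ∈ A
  · exact Or.inl ⟨haA, hexit a b (Or.inl ⟨rfl, rfl⟩) haA⟩
  · -- `a` is an exit
    have hout : pvasOut T A s a := ⟨haA, by by_contra h; exact hBa ⟨fun h' => absurd h' haA, fun h' => absurd h' h⟩, ha⟩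
    obtain ⟨x, hx, hxa⟩ := (pvas_exit_bij hA hfin s).surjOn hout
    have hx' : pvasIn T A s x := hx
    have hxb : x = b := (hcl x hx'.2.2 fun h => hx'.2.1 (h.1 hx'.1)).resolve_left fun h => haA (h ▸ hx'.1)
    exact Or.inr ⟨hxb ▸ hx'.1, hexit b a (Or.inr ⟨rfl, rfl⟩) (hxb ▸ hx'.1)⟩

/-- **P2, JOIN form**: the region bounded by a black join, a white join and the two bichromatic edges `a`, `b` -/
theorem pvad_join_region (hT : T.IsSph) (s : V → Bool) {R : Set D} {XB XW : Set V} (hXB : ∀ v ∈ XB, s v = true) (hXW : ∀ v ∈ XW, s v = false)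
    {a b : D} (ha : pvasBW T s a) (hb : pvasBW T s b) (hab : a ≠ b)
    (hB : T.Join R XB (T.src a) (T.src b)) (hW : T.Join R XW (T.tgt a) (T.tgt b)) :
    ∃ A : Set D, A.Finite ∧ T.FaceSet A ∧ T.Bd A a ∧ T.Bd A b ∧
      ∀ d, T.Bd A d → T.Edg {a, b} d ∨ ((d ∈ R ∨ T.opp d ∈ R) ∧ ((T.src d ∈ XB ∧ T.tgt d ∈ XB) ∨ (T.src d ∈ XW ∧ T.tgt d ∈ XW))) := by
  obtain ⟨zB, hzB, hsB⟩ := pl_hx_join_ch hB
  obtain ⟨zW, hzW, hsW⟩ := pl_hx_join_ch hW
  have w1 : PlCh T (T.src a) (T.tgt b) (0 + plEps T a + zW) := pvad_ch_trans (PlCh.cons a (PlCh.nil _)) hzW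
  have w2 : PlCh T (T.src a) (T.tgt b) (zB + plEps T b) := PlCh.cons b hzB
  obtain ⟨A, hfin, hA, hbd⟩ := pvad_isBd_set (pl_hx_fill hT w1 w2)
  have hz : ∀ d, (0 + plEps T a + zW + (zB + plEps T b)) d = plEps T a d + zW d + zB d + plEps T b d := by
    intro d
    simp only [Finsupp.add_apply, zero_add]
    ring
  -- a bichromatic edge is not on the joins
  have hmono : ∀ d, pvasBW T s d → zW d = 0 ∧ zB d = 0 := by
    intro d hd
    constructor
    · by_contra h
      have := hXW _ (hsW d h).2.1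
      rw [hd.1] at this
      exact absurd this (by decide)
    · by_contra h
      have := hXB _ (hsB d h).2.2
      rw [hd.2] at this
      exact absurd this (by decide)
  have hne : ∀ x y : D, pvasBW T s x → pvasBW T s y → x ≠ y → plEps T x y = 0 := by
    intro x y hx hy hxy
    by_contra h
    rcases pl_hx_eps_apply_ne h with h | h
    · exact hxy h.symm
    · exact pvas_bw_not_opp hx (h ▸ hy)
  refine ⟨A, hfin, hA, ?_, ?_, ?_⟩
  · rw [hbd, hz, pl_hx_eps_self, (hmono a ha).1, (hmono a ha).2, hne b a hb ha hab.symm]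
    simp
  · rw [hbd, hz, pl_hx_eps_self, (hmono b hb).1, (hmono b hb).2, hne a b ha hb hab]
    simp
  · intro d hd
    rw [hbd, hz] at hd
    by_cases h1 : plEps T a d = 0
    · by_cases h2 : plEps T b d = 0
      · right
        by_cases h3 : zW d = 0
        · have h4 : zB d ≠ 0 := by
            intro h4
            rw [h1, h2, h3, h4] at hd
            exact absurd hd (by decide)
          exact ⟨(hsB d h4).1, Or.inl (hsB d h4).2⟩
        · exact ⟨(hsW d h3).1, Or.inr (hsW d h3).2⟩
      · left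
        rcases pl_hx_eps_apply_ne h2 with h | h
        · exact Or.inl (Or.inr h)
        · exact Or.inr (Or.inr (by rw [h, T.opp_opp]; rfl))
    · left
      rcases pl_hx_eps_apply_ne h1 with h | h
      · exact Or.inl (Or.inl h)
      · exact Or.inr (Or.inl (by rw [h, T.opp_opp]))

/-- **P2, JOIN form**: `a ≠ b` black-white darts, black ends joined in black, white ends joined in white: `a` and `b` are positions of ONE strand, and the piece between them stays in a finite region bounded by the two joins -/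
theorem pvad_join_strand (hT : T.IsSph) (s : V → Bool) {R : Set D} {XB XW : Set V} (hXB : ∀ v ∈ XB, s v = true) (hXW : ∀ v ∈ XW, s v = false)
    {a b : D} (ha : pvasBW T s a) (hb : pvasBW T s b) (hab : a ≠ b)
    (hB : T.Join R XB (T.src a) (T.src b)) (hW : T.Join R XW (T.tgt a) (T.tgt b)) :
    ∃ A : Set D, A.Finite ∧ T.FaceSet A ∧
      (∀ d, T.Bd A d → T.Edg {a, b} d ∨ ((d ∈ R ∨ T.opp d ∈ R) ∧ ((T.src d ∈ XB ∧ T.tgt d ∈ XB) ∨ (T.src d ∈ XW ∧ T.tgt d ∈ XW)))) ∧
      ((a ∈ A ∧ ∃ n, 1 ≤ n ∧ (∀ k, k < n → pvasIt T s a k ∈ A) ∧ pvasIt T s a n = b) ∨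
       (b ∈ A ∧ ∃ n, 1 ≤ n ∧ (∀ k, k < n → pvasIt T s b k ∈ A) ∧ pvasIt T s b n = a)) := by
  obtain ⟨A, hfin, hA, hBa, hBb, hbd⟩ := pvad_join_region hT s hXB hXW ha hb hab hB hW
  refine ⟨A, hfin, hA, hbd, pvad_region_strand s hA hfin ha hb hBa hBb fun d hd ho => ?_⟩
  rcases hbd d hd with h | ⟨-, ⟨h1, h2⟩ | ⟨h1, h2⟩⟩
  · exact h
  · exact absurd (by rw [hXB _ h1, hXB _ h2]) ho
  · exact absurd (by rw [hXW _ h1, hXW _ h2]) ho

/-- **P2, JOIN form, in the disc of record**: the same with the region inside `c.Left` -/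
theorem pvad_join_strand_in (hT : T.IsSph) (c : T.Cyc) (hfinL : c.Left.Finite) (s : V → Bool) {XB XW : Set V} (hXB : ∀ v ∈ XB, s v = true) (hXW : ∀ v ∈ XW, s v = false)
    {a b : D} (ha : pvasBW T s a) (hb : pvasBW T s b) (hab : a ≠ b) (haL : a ∈ c.Left ∨ T.opp a ∈ c.Left) (hbL : b ∈ c.Left ∨ T.opp b ∈ c.Left)
    (hB : T.Join c.Left XB (T.src a) (T.src b)) (hW : T.Join c.Left XW (T.tgt a) (T.tgt b)) :
    ∃ A : Set D, A ⊆ c.Left ∧ T.FaceSet A ∧
      (∀ d, T.Bd A d → T.Edg {a, b} d ∨ ((T.src d ∈ XB ∧ T.tgt d ∈ XB) ∨ (T.src d ∈ XW ∧ T.tgt d ∈ XW))) ∧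
      ((a ∈ A ∧ ∃ n, 1 ≤ n ∧ (∀ k, k < n → pvasIt T s a k ∈ A) ∧ pvasIt T s a n = b) ∨
       (b ∈ A ∧ ∃ n, 1 ≤ n ∧ (∀ k, k < n → pvasIt T s b k ∈ A) ∧ pvasIt T s b n = a)) := by
  obtain ⟨A, hfin, hA, hBa, hBb, hbd⟩ := pvad_join_region hT s hXB hXW ha hb hab hB hW
  have hocc : ∀ d, T.Bd A d → T.Occ s d → T.Edg {a, b} d := by
    intro d hd ho
    rcases hbd d hd with h | ⟨-, ⟨h1, h2⟩ | ⟨h1, h2⟩⟩
    · exact h
    · exact absurd (by rw [hXB _ h1, hXB _ h2]) ho
    · exact absurd (by rw [hXW _ h1, hXW _ h2]) ho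
  have hbd' : ∀ d, T.Bd A d → T.Edg {a, b} d ∨ ((T.src d ∈ XB ∧ T.tgt d ∈ XB) ∨ (T.src d ∈ XW ∧ T.tgt d ∈ XW)) := fun d hd => (hbd d hd).imp id fun h => h.2
  have hdisc : ∀ d, T.Bd A d → d ∈ c.Left ∨ T.opp d ∈ c.Left := by
    intro d hd
    rcases hbd d hd with ((h | h) | (h | h)) | ⟨h, -⟩
    · rw [h]; exact haL
    · rw [Set.mem_singleton_iff.1 h]; exact hbL
    · rw [← T.opp_opp d, h, T.opp_opp]; exact haL.symm
    · rw [← T.opp_opp d, Set.mem_singleton_iff.1 h, T.opp_opp]; exact hbL.symm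
    · exact h
  rcases pvad_in_disc hT c hA hdisc with h | h
  · exact ⟨A, h, hA, hbd', pvad_region_strand s hA hfin ha hb hBa hBb hocc⟩
  · exact ⟨Aᶜ, h, hA.compl, fun d hd => hbd' d (T.bd_compl.1 hd),
      pvad_region_strand s hA.compl (hfinL.subset h) ha hb (T.bd_compl.2 hBa) (T.bd_compl.2 hBb) fun d hd => hocc d (T.bd_compl.1 hd)⟩

theorem pvad_eqns_cite : True := by
  have := @PvMap.Cyc.toCW.eq_1; have := @PvMap.CW.mult.eq_1; have := @PvMap.DW.cr.eq_1; have := @PvMap.CW.cnt.eq_1
  trivial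

end Claimed.Agent.R289
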