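import Claimed.Agent.R289.Arm.NonCross
import Claimed.Agent.R289.Arm.Side
import Claimed.Agent.R289.Arm.Bk
import Claimed.Agent.R289.Arm.Bxp
import Claimed.Agent.R289.Pl.Ann

/-!
# Row 289 (S0537), box ARM, block A3 (planar half), file Arm/KCount
# THE NUMBER OF STRANDS CROSSING AN ANNULUS   (owner helper221; architect of ARM helper241; prefix `pvak`)

Status: complete, no hole.  Everything is deterministic planar combinatorics on a spherical triangulation `T : PvMap V D`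
(`T.IsSph`) plus the BK kit of `Arm/Bk`.  The annulus is `c'.Ann c` for two cycles with `c'.Inside c` (`Pl/Ann`);
strands are `PvanStr T s A` of `Arm/NonCross` (black on the left = `src`, white on the right = `tgt`).

Sections.
1. toggles: a dual path as a cochain.  `pvakE`, `pvakFc`, `pvak_toggle` (a dual path avoiding `Z` gives a symmetric
   cochain supported off `Z` whose coboundary is the sum of the two end faces), `pvak_theta` (two dual paths joining
   the two sides of two edges: a potential `u` which jumps exactly at those two edges among the edges of `Z`).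
2. potentials along a cycle: `pvak_cyc_pot`.
3. strands, classes, sides as dual paths: `pvak_str_djoin(')`, `pvak_class_djoin`, `pvak_left_djoin`, `pvak_right_djoin`.
4. the blocking set `pvakZ c' c s` (edges of the outer cycle + monochromatic edges of the annulus), `pvak_pair`.
5. `pvak_mono_edge`, `pvak_lay_const`: the potential is constant on each layer of a strand.
6. crossings: `PvanStr.CrIn` (enters through `c`, ends in the hole `c'.Left`), `PvanStr.CrOut` (the reverse direction);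
   `pvak_in_disj`, `pvak_out_disj`: two distinct crossings OF THE SAME DIRECTION have disjoint black layers and
   disjoint white layers.
7. layers are connected crossings: `pvak_layB_conn`, `pvak_layW_conn`, `pvakW c' c a` (the finite vertex set `a`
   joins `c'.verts` to `c.verts` inside the annulus), `PvanStr.layB/layW`, `pvak_lay_W`.
8. the count: `pvakIn`, `pvakOut`, `pvakK`; `pvak_K_disj`: `2 k ≤ K` implies `k` disjoint black crossings and
   `k` disjoint white crossings (`PvbkDisj`).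
9. probability: `PvakCirc c' c col ω` (a circuit of colour `col` in the annulus separating the two boundaries),
   `pvak_circ_excl`, `pvak_tail` : `P(2 k ≤ K) ≤ (1 - q)^k` if `q ≤ P(white circuit)`,
   `pvak_moment` : `E K^p ≤ pvbkM 2 p (1 - q)`, `pvak_cross_pow` : `P(k disjoint crossings of colour col) ≤ (1 - q)^k`.
10. the U-form (strands stopped at the first face with a vertex in `U`): `pvakWU c U a` (`a` joins `c.verts` to a neighbour of `U`), `PvakCircU` (circuit which does not touch the inner cycle),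
   `pvak_circU_excl`, `pvak_reach_pow`, `pvak_tailU`, `pvak_momentU` (for ANY count `K` such that `m k ≤ K` forces `k` disjoint black `pvakWU`).
11. the RUN form (`Arm/Strand`, `Arm/Trap`): `PvakRun c' c s x n` = `PvatRun T c.Left c'.Left s x n`; `pvak_run_str`, `pvak_in_iff_run`; `pvakRunSet`, `pvakR c' c s` = number of runs of `s` + number of runs of `pvasNot s`
   (= the occupied darts of the outer cycle whose strand reaches the inner disc); `pvak_runSet_finite`, `pvak_R_eq`, `pvak_card_le_R`, `pvak_R_disj`, `pvak_tailR`, `pvak_momentR`.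
12. the BLOCKING form (input = `PvaxBlk`, `PvaxBxp`, `PvaxAt` of `Arm/Bxp`, no circuits): `pvak_W_cr`, `pvak_cross_pow_blk`, `pvak_tail_blk`, `pvak_moment_blk`, `pvak_tail_at`, `pvak_moment_at`.
-/

set_option autoImplicit false
set_option linter.unusedSectionVars false
set_option linter.unusedVariables false

namespace Claimed.Agent.R289

open Relation

variable {V D : Type} {T : PvMap V D}

/-! ## 1. toggles: a dual path as a cochain -/

open Classical in
/-- indicator of the edge of `x` -/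
noncomputable def pvakE (T : PvMap V D) (x d : D) : ZMod 2 := if d = x ∨ d = T.opp x then 1 else 0

open Classical in
/-- indicator of the face of `x` -/
noncomputable def pvakFc (T : PvMap V D) (x d : D) : ZMod 2 := if T.SF x d then 1 else 0

theorem pvak_E_sym (x : D) : T.Sym (pvakE T x) := by
  intro d
  unfold pvakE
  congr 1
  apply propext
  constructor
  · rintro (h | h)
    · exact Or.inr (by rw [← h, T.opp_opp])
    · exact Or.inl (T.opp_injective h)
  · rintro (h | h)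
    · exact Or.inr (by rw [h])
    · exact Or.inl (by rw [h, T.opp_opp])

theorem pvak_E_self (x : D) : pvakE T x x = 1 := by
  unfold pvakE; rw [if_pos (Or.inl rfl)]

theorem pvak_E_of_ne {x d : D} (h1 : d ≠ x) (h2 : d ≠ T.opp x) : pvakE T x d = 0 := by
  unfold pvakE; rw [if_neg (by tauto)]

open Classical in
theorem pvak_E_face (x d : D) :
    pvakE T x d + pvakE T x (T.nxt d) + pvakE T x (T.nxt (T.nxt d)) = pvakFc T x d + pvakFc T (T.opp x) d := by
  unfold pvakE pvakFc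
  rw [pvad_ind_edge, pvad_ind_edge, pvad_ind_edge, pvad_ind_face, pvad_ind_face]
  have e1 : (T.nxt d = x) ↔ d = T.nxt (T.nxt x) :=
    ⟨fun h => by rw [← h, T.nxt3], fun h => by rw [h, T.nxt3]⟩
  have e2 : (T.nxt (T.nxt d) = x) ↔ d = T.nxt x :=
    ⟨fun h => by rw [← h, T.nxt3], fun h => by rw [h, T.nxt3]⟩
  have e3 : (T.opp d = x) ↔ d = T.opp x :=
    ⟨fun h => by rw [← h, T.opp_opp], fun h => by rw [h, T.opp_opp]⟩
  have e4 : (T.opp (T.nxt d) = x) ↔ d = T.nxt (T.nxt (T.opp x)) :=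
    ⟨fun h => by rw [← h, T.opp_opp, T.nxt3], fun h => by rw [h, T.nxt3, T.opp_opp]⟩
  have e5 : (T.opp (T.nxt (T.nxt d)) = x) ↔ d = T.nxt (T.opp x) :=
    ⟨fun h => by rw [← h, T.opp_opp, T.nxt3], fun h => by rw [h, T.nxt3, T.opp_opp]⟩
  simp only [e1, e2, e3, e4, e5]
  abel

theorem pvak_Fc_nxt (b d : D) : pvakFc T (T.nxt b) d = pvakFc T b d := by
  unfold pvakFc
  congr 1
  apply propext
  exact ⟨fun h => T.sf_trans (T.sf_nxt b) h, fun h => T.sf_trans (T.sf_symm (T.sf_nxt b)) h⟩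

/-- **TOGGLE**: a dual path which does not cross `Z`, as a cochain: it vanishes on `Z` and its coboundary is the sum of the two end faces -/
theorem pvak_toggle {Z : Set D} {a b : D} (h : T.DJoin Z a b) :
    ∃ g : D → ZMod 2, T.Sym g ∧ (∀ d, T.Edg Z d → g d = 0) ∧
      ∀ d, g d + g (T.nxt d) + g (T.nxt (T.nxt d)) = pvakFc T a d + pvakFc T b d := by
  induction h with
  | refl => exact ⟨fun _ => 0, fun _ => rfl, fun _ _ => rfl, fun d => by rw [pvad_z2_double (pvakFc T a d)]; simp⟩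
  | @tail b c _ hbc ih =>
    obtain ⟨g, hs, hz, hf⟩ := ih
    rcases hbc with rfl | ⟨rfl, hn⟩
    · exact ⟨g, hs, hz, fun d => by rw [hf d, pvak_Fc_nxt]⟩
    · refine ⟨fun d => g d + pvakE T b d, fun d => ?_, fun d hd => ?_, fun d => ?_⟩
      · show g (T.opp d) + pvakE T b (T.opp d) = g d + pvakE T b d
        rw [hs d, pvak_E_sym b d]
      · show g d + pvakE T b d = 0
        rw [hz d hd, zero_add]
        refine pvak_E_of_ne (fun h => hn (h ▸ hd)) (fun h => hn ?_)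
        rw [← T.edg_opp, ← h]; exact hd
      · show g d + pvakE T b d + (g (T.nxt d) + pvakE T b (T.nxt d)) + (g (T.nxt (T.nxt d)) + pvakE T b (T.nxt (T.nxt d))) = _
        have h1 := hf d
        have h2 := pvak_E_face (T := T) b d
        have h3 := pvad_z2_double (pvakFc T b d)
        calc _ = (g d + g (T.nxt d) + g (T.nxt (T.nxt d))) + (pvakE T b d + pvakE T b (T.nxt d) + pvakE T b (T.nxt (T.nxt d))) := by abel
          _ = pvakFc T a d + pvakFc T (T.opp b) d + (pvakFc T b d + pvakFc T b d) := by rw [h1, h2]; abel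
          _ = _ := by rw [h3, add_zero]

/-- **THETA**: two edges `a₁`, `a₂` whose left faces are joined off `Z` and whose right faces are joined off `Z`: there is a potential which jumps, among the edges of `Z`, exactly at `a₁` and `a₂` -/
theorem pvak_theta (hT : T.IsSph) {Z : Set D} {a₁ a₂ : D} (h1 : T.DJoin Z a₁ a₂) (h2 : T.DJoin Z (T.opp a₁) (T.opp a₂)) :
    ∃ u : V → ZMod 2, ∀ d, T.Edg Z d → u (T.src d) + u (T.tgt d) = pvakE T a₁ d + pvakE T a₂ d := by
  obtain ⟨g, gs, gz, gf⟩ := pvak_toggle h1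
  obtain ⟨g', gs', gz', gf'⟩ := pvak_toggle h2
  obtain ⟨u, hu⟩ := hT.h1 (fun d => pvakE T a₁ d + pvakE T a₂ d + g d + g' d)
    (fun d => by
      show pvakE T a₁ (T.opp d) + pvakE T a₂ (T.opp d) + g (T.opp d) + g' (T.opp d) = _
      rw [pvak_E_sym a₁ d, pvak_E_sym a₂ d, gs d, gs' d])
    (fun d => by
      show pvakE T a₁ d + pvakE T a₂ d + g d + g' d + (pvakE T a₁ (T.nxt d) + pvakE T a₂ (T.nxt d) + g (T.nxt d) + g' (T.nxt d)) +
        (pvakE T a₁ (T.nxt (T.nxt d)) + pvakE T a₂ (T.nxt (T.nxt d)) + g (T.nxt (T.nxt d)) + g' (T.nxt (T.nxt d))) = 0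
      have e1 := pvak_E_face (T := T) a₁ d
      have e2 := pvak_E_face (T := T) a₂ d
      have e3 := gf d
      have e4 := gf' d
      calc _ = (pvakE T a₁ d + pvakE T a₁ (T.nxt d) + pvakE T a₁ (T.nxt (T.nxt d))) + (pvakE T a₂ d + pvakE T a₂ (T.nxt d) + pvakE T a₂ (T.nxt (T.nxt d)))
            + (g d + g (T.nxt d) + g (T.nxt (T.nxt d))) + (g' d + g' (T.nxt d) + g' (T.nxt (T.nxt d))) := by abel
        _ = (pvakFc T a₁ d + pvakFc T a₁ d) + (pvakFc T a₂ d + pvakFc T a₂ d) + (pvakFc T (T.opp a₁) d + pvakFc T (T.opp a₁) d)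
            + (pvakFc T (T.opp a₂) d + pvakFc T (T.opp a₂) d) := by rw [e1, e2, e3, e4]; abel
        _ = 0 := by simp only [pvad_z2_double, add_zero])
  refine ⟨u, fun d hd => ?_⟩
  rw [← hu d, gz d hd, gz' d hd, add_zero, add_zero]

theorem pvak_z2_a {x y : ZMod 2} (h : x + y = 1) : y = x + 1 := by revert x y; decide
theorem pvak_z2_b {x y : ZMod 2} (h : x + y = 0) : y = x := by revert x y; decide
theorem pvak_z2_c (x : ZMod 2) : x + 1 ≠ x := by revert x; decide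

theorem pvak_mod_ne {a b n : ℕ} (h1 : a < b) (h2 : b < a + n) : a % n ≠ b % n := by
  intro h
  have h3 : n ∣ b - a := (Nat.modEq_iff_dvd' h1.le).1 h
  have := Nat.le_of_dvd (by omega) h3
  omega

theorem pvak_cyc_E (c : T.Cyc) {i k : ℕ} (h : i % c.n ≠ k % c.n) : pvakE T (c.e k) (c.e i) = 0 :=
  pvak_E_of_ne (fun he => h (pl_cyc_src_inj c (by rw [he]))) (pl_cyc_ne_opp c i k)

/-- a potential which jumps along the cycle exactly at the edges number `k₁`, `k₂` takes different values at their sources -/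
theorem pvak_cyc_pot (c : T.Cyc) (u : V → ZMod 2) {k₁ k₂ : ℕ} (h12 : k₁ < k₂) (h21 : k₂ < k₁ + c.n)
    (hu : ∀ i, u (T.src (c.e i)) + u (T.tgt (c.e i)) = pvakE T (c.e k₁) (c.e i) + pvakE T (c.e k₂) (c.e i)) :
    u (T.src (c.e k₂)) = u (T.src (c.e k₁)) + 1 := by
  have key : ∀ j, k₁ < j → j ≤ k₂ → u (T.src (c.e j)) = u (T.src (c.e k₁)) + 1 := by
    intro j
    induction j with
    | zero => intro h; omega
    | succ j ih =>
      intro h1 h2
      rw [← c.chain]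
      rcases Nat.lt_or_ge k₁ j with h3 | h3
      · have h4 := hu j
        rw [pvak_cyc_E c (pvak_mod_ne h3 (by omega)).symm, pvak_cyc_E c (pvak_mod_ne (show j < k₂ by omega) (by omega)), add_zero] at h4
        rw [pvak_z2_b h4]
        exact ih h3 (by omega)
      · have hj : j = k₁ := by omega
        subst hj
        have h4 := hu j
        rw [pvak_E_self, pvak_cyc_E c (pvak_mod_ne h12 h21), add_zero] at h4
        exact pvak_z2_a h4
  exact key k₂ h12 le_rfl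

/-! ## 2. dual paths: strands, sides of a cycle -/

/-- a strand is a dual path -/
theorem pvak_str_djoin {s : V → Bool} {A : Set D} (γ : PvanStr T s A) {Z : Set D} (k : ℕ) (hk : k ≤ γ.n)
    (hZ : ∀ j, 0 < j → j ≤ k → ¬ T.Edg Z (γ.e j)) : T.DJoin Z (γ.e 0) (γ.e k) := by
  induction k with
  | zero => exact ReflTransGen.refl
  | succ k ih =>
    have h1 := ih (by omega) (fun j h0 hj => hZ j h0 (by omega))
    have h2 : T.DJoin Z (γ.e k) (T.opp (γ.e (k + 1))) := by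
      rw [γ.step k hk]
      exact T.djoin_sf (pvan_step_sf (γ.e k))
    refine (h1.trans h2).tail (Or.inr ⟨(T.opp_opp _).symm, ?_⟩)
    rw [T.edg_opp]
    exact hZ (k + 1) (by omega) le_rfl

/-- the same, stopped just before the last crossing -/
theorem pvak_str_djoin' {s : V → Bool} {A : Set D} (γ : PvanStr T s A) {Z : Set D}
    (hZ : ∀ j, 0 < j → j < γ.n → ¬ T.Edg Z (γ.e j)) : T.DJoin Z (γ.e 0) (T.opp (γ.e γ.n)) := by
  obtain ⟨m, hm⟩ : ∃ m, γ.n = m + 1 := ⟨γ.n - 1, by have := γ.pos; omega⟩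
  have h1 := pvak_str_djoin γ (Z := Z) m (by omega) (fun j h0 hj => hZ j h0 (by omega))
  have h2 : T.DJoin Z (γ.e m) (T.opp (γ.e (m + 1))) := by
    rw [γ.step m (by omega)]
    exact T.djoin_sf (pvan_step_sf (γ.e m))
  rw [hm]
  exact h1.trans h2

/-- inside a class of `DJoin Y` one can avoid every set of edges which has no edge with both faces in the class -/
theorem pvak_class_djoin {Y Z : Set D} {x₀ : D} (hZ : ∀ d, T.DJoin Y x₀ d → T.DJoin Y x₀ (T.opp d) → ¬ T.Edg Z d) {a : D}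
    (ha : T.DJoin Y x₀ a) : T.DJoin Z x₀ a := by
  induction ha with
  | refl => exact ReflTransGen.refl
  | @tail b e hab hbe ih =>
    rcases hbe with rfl | ⟨rfl, h2⟩
    · exact ih.tail (Or.inl rfl)
    · exact ih.tail (Or.inr ⟨rfl, hZ b hab (hab.tail (Or.inr ⟨rfl, h2⟩))⟩)

theorem pvak_left_djoin (c : T.Cyc) {Z : Set D} (hZ : ∀ d, d ∈ c.Left → T.opp d ∈ c.Left → ¬ T.Edg Z d) {a b : D} (ha : a ∈ c.Left)
    (hb : b ∈ c.Left) : T.DJoin Z a b :=
  (T.djoin_symm (pvak_class_djoin (Y := c.darts) hZ ha)).trans (pvak_class_djoin (Y := c.darts) hZ hb)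

theorem pvak_right_djoin (c : T.Cyc) {Z : Set D} (hZ : ∀ d, d ∈ c.Right → T.opp d ∈ c.Right → ¬ T.Edg Z d) {a b : D} (ha : a ∈ c.Right)
    (hb : b ∈ c.Right) : T.DJoin Z a b :=
  (T.djoin_symm (pvak_class_djoin (Y := c.darts) hZ ha)).trans (pvak_class_djoin (Y := c.darts) hZ hb)

/-! ## 3. two crossings of an annulus -/

/-- the edges which are not crossed: the outer cycle and the monochromatic edges of the closed annulus -/
def pvakZ (c' c : T.Cyc) (s : V → Bool) : Set D :=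
  c.darts ∪ {d | (d ∈ c'.Ann c ∨ T.opp d ∈ c'.Ann c) ∧ s (T.src d) = s (T.tgt d)}

variable {s : V → Bool} {c' c : T.Cyc}

theorem pvak_Z_edg {d : D} : T.Edg (pvakZ c' c s) d ↔
    T.Edg c.darts d ∨ ((d ∈ c'.Ann c ∨ T.opp d ∈ c'.Ann c) ∧ s (T.src d) = s (T.tgt d)) := by
  unfold PvMap.Edg pvakZ
  simp only [Set.mem_union, Set.mem_ofPred_eq, T.opp_opp, T.src_opp', T.tgt_opp]
  constructor
  · rintro ((h | h) | (h | h))
    · exact Or.inl (Or.inl h)
    · exact Or.inr h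
    · exact Or.inl (Or.inr h)
    · exact Or.inr ⟨h.1.symm, h.2.symm⟩
  · rintro ((h | h) | h)
    · exact Or.inl (Or.inl h)
    · exact Or.inr (Or.inl h)
    · exact Or.inl (Or.inr h)

/-- an edge with both faces in the big disc which is bichromatic, or off the closed annulus, is not in `Z` -/
theorem pvak_not_edg (hT : T.IsSph) {d : D} (h1 : d ∈ c.Left) (h2 : T.opp d ∈ c.Left)
    (h3 : s (T.src d) ≠ s (T.tgt d) ∨ (d ∉ c'.Ann c ∧ T.opp d ∉ c'.Ann c)) : ¬ T.Edg (pvakZ c' c s) d := by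
  rw [pvak_Z_edg]
  rintro (h | ⟨h, h'⟩)
  · exact ((pl_jordan hT c).2.2.2 d).2 h ⟨fun _ => h2, fun _ => h1⟩
  · rcases h3 with h3 | h3
    · exact h3 h'
    · exact h.elim h3.1 h3.2

/-- a boundary dart of the big disc is a dart of the cycle -/
theorem pvak_outer_dart (hT : T.IsSph) {a : D} (h1 : a ∈ c.Left) (h2 : T.opp a ∉ c.Left) : ∃ k, c.e k = a := by
  have hb : T.Bd c.Left a := fun h => h2 (h.1 h1)
  rcases ((pl_jordan hT c).2.2.2 a).1 hb with ⟨k, hk⟩ | ⟨k, hk⟩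
  · exact ⟨k, hk⟩
  · exact absurd (hk ▸ (pl_jordan hT c).2.1 k) h2

/-- **TWO CROSSINGS**: `aᵢ` = boundary darts of the big disc, joined off `Z` to the inner disc.  There is a potential which, among the edges of `Z`, jumps exactly at `a₁`, `a₂`, and it separates the sources of `a₁`, `a₂`. -/
theorem pvak_pair (hT : T.IsSph) (h : c'.Inside c) {a₁ a₂ b₁ b₂ : D} (ha₁ : a₁ ∈ c.Left) (ha₁' : T.opp a₁ ∉ c.Left) (ha₂ : a₂ ∈ c.Left)
    (ha₂' : T.opp a₂ ∉ c.Left) (hne : a₁ ≠ a₂) (hb₁ : b₁ ∈ c'.Left) (hb₂ : b₂ ∈ c'.Left) (hj₁ : T.DJoin (pvakZ c' c s) a₁ b₁)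
    (hj₂ : T.DJoin (pvakZ c' c s) a₂ b₂) :
    ∃ u : V → ZMod 2, (∀ d, T.Edg (pvakZ c' c s) d → u (T.src d) + u (T.tgt d) = pvakE T a₁ d + pvakE T a₂ d) ∧
      u (T.src a₂) = u (T.src a₁) + 1 := by
  obtain ⟨hR, hL, hO, hB⟩ := pl_jordan hT c
  have hin : T.DJoin (pvakZ c' c s) b₁ b₂ := by
    refine pvak_left_djoin c' (fun d h1 h2 => ?_) hb₁ hb₂
    exact pvak_not_edg hT (h.2 h1) (h.2 h2) (Or.inr ⟨fun hh => hh.2 h1, fun hh => hh.2 h2⟩)
  have hout : T.DJoin (pvakZ c' c s) (T.opp a₁) (T.opp a₂) := by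
    refine pvak_right_djoin c (fun d h1 h2 => ?_) (by rw [hR]; exact ha₁') (by rw [hR]; exact ha₂')
    rw [hR] at h1 h2
    rw [pvak_Z_edg]
    rintro (hh | ⟨hh, -⟩)
    · exact (hB d).2 hh ⟨fun h3 => absurd h3 h1, fun h3 => absurd h3 h2⟩
    · exact hh.elim (fun h3 => h1 h3.1) (fun h3 => h2 h3.1)
  obtain ⟨u, hu⟩ := pvak_theta hT ((hj₁.trans hin).trans (T.djoin_symm hj₂)) hout
  refine ⟨u, hu, ?_⟩
  obtain ⟨k₁, rfl⟩ := pvak_outer_dart hT ha₁ ha₁'
  obtain ⟨k₂, rfl⟩ := pvak_outer_dart hT ha₂ ha₂'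
  have hn := pl_cyc_pos c
  have hmod : k₁ % c.n ≠ k₂ % c.n := fun hm => hne (pl_cyc_eq_of_mod c hm)
  have hcyc : ∀ i, T.Edg (pvakZ c' c s) (c.e i) := fun i => pvak_Z_edg.2 (Or.inl (Or.inl ⟨i, rfl⟩))
  rw [← pl_cyc_mod c k₁, ← pl_cyc_mod c k₂] at hu ⊢
  have l1 := Nat.mod_lt k₁ hn
  have l2 := Nat.mod_lt k₂ hn
  rcases Nat.lt_or_gt_of_ne hmod with hlt | hlt
  · exact pvak_cyc_pot c u hlt (by omega) (fun i => hu _ (hcyc i))
  · have := pvak_cyc_pot c u hlt (by omega) (fun i => by rw [hu _ (hcyc i), add_comm])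
    rw [this, add_assoc]
    have : (1 : ZMod 2) + 1 = 0 := by decide
    rw [this, add_zero]

/-- a potential as in `pvak_pair` is constant along the monochromatic edges of the closed annulus -/
theorem pvak_mono_edge {a₁ a₂ : D} (ho₁ : s (T.src a₁) ≠ s (T.tgt a₁)) (ho₂ : s (T.src a₂) ≠ s (T.tgt a₂)) {u : V → ZMod 2}
    (hu : ∀ d, T.Edg (pvakZ c' c s) d → u (T.src d) + u (T.tgt d) = pvakE T a₁ d + pvakE T a₂ d) {d : D}
    (hd : d ∈ c'.Ann c ∨ T.opp d ∈ c'.Ann c) (hs : s (T.src d) = s (T.tgt d)) : u (T.tgt d) = u (T.src d) := by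
  have h1 := hu d (pvak_Z_edg.2 (Or.inr ⟨hd, hs⟩))
  have e : ∀ a : D, s (T.src a) ≠ s (T.tgt a) → pvakE T a d = 0 := by
    intro a ha
    refine pvak_E_of_ne (fun h => ha (h ▸ hs)) (fun h => ha ?_)
    rw [h, T.src_opp', T.tgt_opp] at hs
    exact hs.symm
  rw [e a₁ ho₁, e a₂ ho₂, add_zero] at h1
  exact pvak_z2_b h1

/-- ... hence along the two layers of every strand of the annulus -/
theorem pvak_lay_const {u : V → ZMod 2}
    (hu : ∀ d, (d ∈ c'.Ann c ∨ T.opp d ∈ c'.Ann c) → s (T.src d) = s (T.tgt d) → u (T.tgt d) = u (T.src d))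
    (γ : PvanStr T s (c'.Ann c)) (k : ℕ) (hk : k ≤ γ.n) :
    u (T.src (γ.e k)) = u (T.src (γ.e 0)) ∧ u (T.tgt (γ.e k)) = u (T.tgt (γ.e 0)) := by
  have hA := pl_ann_face c' c
  induction k with
  | zero => exact ⟨rfl, rfl⟩
  | succ k ih =>
    obtain ⟨i1, i2⟩ := ih (by omega)
    have hok := pvan_ok γ k (by omega)
    have hmem := γ.mem k hk
    rw [γ.step k hk]
    constructor
    · rcases pvan_step_src (s := s) (γ.e k) with h | ⟨h, ha⟩
      · rw [h]; exact i1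
      · rw [h, ← i1]
        have := hu (T.nxt (T.nxt (γ.e k))) (Or.inl ((hA.nxt2 T _).2 hmem)) (by rw [T.src_nxt2, T.tgt_nxt2, ha, hok.1])
        rw [T.src_nxt2, T.tgt_nxt2] at this
        exact this.symm
    · rcases pvan_step_tgt (s := s) (γ.e k) with h | ⟨h, ha⟩
      · rw [h]; exact i2
      · rw [h, ← i2]
        have := hu (T.nxt (γ.e k)) (Or.inl ((hA _).2 hmem)) (by rw [T.src_nxt, T.tgt_nxt, ha, hok.2])
        rw [T.src_nxt, T.tgt_nxt] at this
        exact this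

/-! ## 4. crossing strands -/

/-- the strand enters the annulus through the outer cycle and leaves it into the inner disc -/
def PvanStr.CrIn (γ : PvanStr T s (c'.Ann c)) : Prop := T.opp (γ.e 0) ∉ c.Left ∧ γ.e γ.n ∈ c'.Left

/-- the strand enters the annulus from the inner disc and leaves it through the outer cycle -/
def PvanStr.CrOut (γ : PvanStr T s (c'.Ann c)) : Prop := T.opp (γ.e 0) ∈ c'.Left ∧ γ.e γ.n ∉ c.Left

theorem pvak_occ (γ : PvanStr T s (c'.Ann c)) (k : ℕ) (hk : k ≤ γ.n) : s (T.src (γ.e k)) ≠ s (T.tgt (γ.e k)) := by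
  rw [(pvan_ok γ k hk).1, (pvan_ok γ k hk).2]; simp

theorem pvak_in_left (γ : PvanStr T s (c'.Ann c)) (k : ℕ) (hk : k < γ.n) : γ.e k ∈ c.Left := (γ.mem k hk).1

theorem pvak_opp_left (γ : PvanStr T s (c'.Ann c)) (k : ℕ) (h0 : 0 < k) (hk : k ≤ γ.n) : T.opp (γ.e k) ∈ c'.Ann c := by
  obtain ⟨m, rfl⟩ : ∃ m, k = m + 1 := ⟨k - 1, by omega⟩
  exact pvan_opp_mem (pl_ann_face c' c) γ m hk

/-- inward crossing: dual path from the entrance to the inner disc -/
theorem pvak_in_djoin (hT : T.IsSph) (h : c'.Inside c) (γ : PvanStr T s (c'.Ann c)) (hγ : γ.CrIn) :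
    T.DJoin (pvakZ c' c s) (γ.e 0) (γ.e γ.n) := by
  refine pvak_str_djoin γ γ.n le_rfl fun j h0 hj => ?_
  refine pvak_not_edg hT ?_ (pvak_opp_left γ j h0 hj).1 (Or.inl (pvak_occ γ j hj))
  rcases Nat.lt_or_ge j γ.n with h1 | h1
  · exact pvak_in_left γ j h1
  · have : j = γ.n := by omega
    rw [this]; exact h.2 hγ.2

/-- outward crossing: dual path from the exit (seen from the annulus) to the inner disc -/
theorem pvak_out_djoin (hT : T.IsSph) (h : c'.Inside c) (γ : PvanStr T s (c'.Ann c)) (hγ : γ.CrOut) :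
    T.DJoin (pvakZ c' c s) (T.opp (γ.e γ.n)) (T.opp (γ.e 0)) := by
  have h1 : T.DJoin (pvakZ c' c s) (γ.e 0) (T.opp (γ.e γ.n)) :=
    pvak_str_djoin' γ fun j h0 hj => pvak_not_edg hT (pvak_in_left γ j hj) (pvak_opp_left γ j h0 hj.le).1 (Or.inl (pvak_occ γ j hj.le))
  refine (T.djoin_symm h1).tail (Or.inr ⟨rfl, ?_⟩)
  exact pvak_not_edg hT (pvak_in_left γ 0 γ.pos) (h.2 hγ.1) (Or.inl (pvak_occ γ 0 (Nat.zero_le _)))

theorem pvak_ne_of_add_one {u : V → ZMod 2} {x y v : V} (h : u y = u x + 1) (h1 : u v = u x) (h2 : u v = u y) : False := by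
  rw [h1] at h2
  exact pvak_z2_c (u x) (h ▸ h2.symm)

/-- **two different inward crossing strands have disjoint black layers and disjoint white layers** -/
theorem pvak_in_disj (hT : T.IsSph) (h : c'.Inside c) (γ₁ γ₂ : PvanStr T s (c'.Ann c)) (h₁ : γ₁.CrIn) (h₂ : γ₂.CrIn) (hne : γ₁.e 0 ≠ γ₂.e 0) :
    Disjoint γ₁.LayB γ₂.LayB ∧ Disjoint γ₁.LayW γ₂.LayW := by
  obtain ⟨u, hu, hsep⟩ := pvak_pair hT h (pvak_in_left γ₁ 0 γ₁.pos) h₁.1 (pvak_in_left γ₂ 0 γ₂.pos) h₂.1 hne h₁.2 h₂.2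
    (pvak_in_djoin hT h γ₁ h₁) (pvak_in_djoin hT h γ₂ h₂)
  have o₁ := pvak_occ γ₁ 0 (Nat.zero_le _)
  have o₂ := pvak_occ γ₂ 0 (Nat.zero_le _)
  have hm := fun d hd hs => pvak_mono_edge (c' := c') (c := c) o₁ o₂ hu (d := d) hd hs
  have hcyc : ∀ γ : PvanStr T s (c'.Ann c), γ.CrIn → T.Edg (pvakZ c' c s) (γ.e 0) := fun γ hγ =>
    pvak_Z_edg.2 (Or.inl (((pl_jordan hT c).2.2.2 _).1 fun hh => hγ.1 (hh.1 (pvak_in_left γ 0 γ.pos))))
  have j₁ := hu _ (hcyc γ₁ h₁)
  have j₂ := hu _ (hcyc γ₂ h₂)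
  have n12 : γ₁.e 0 ≠ T.opp (γ₂.e 0) := fun hh => h₂.1 (hh ▸ pvak_in_left γ₁ 0 γ₁.pos)
  have n21 : γ₂.e 0 ≠ T.opp (γ₁.e 0) := fun hh => h₁.1 (hh ▸ pvak_in_left γ₂ 0 γ₂.pos)
  rw [pvak_E_self, pvak_E_of_ne hne n12, add_zero] at j₁
  rw [pvak_E_self, pvak_E_of_ne hne.symm n21, zero_add] at j₂
  have t₁ := pvak_z2_a j₁
  have t₂ := pvak_z2_a j₂
  constructor
  · rw [Set.disjoint_left]
    rintro v ⟨k, hk, rfl⟩ ⟨k', hk', hv⟩
    exact pvak_ne_of_add_one hsep (pvak_lay_const hm γ₁ k hk).1 (by rw [← hv]; exact (pvak_lay_const hm γ₂ k' hk').1)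
  · rw [Set.disjoint_left]
    rintro v ⟨k, hk, rfl⟩ ⟨k', hk', hv⟩
    have hsep' : u (T.tgt (γ₂.e 0)) = u (T.tgt (γ₁.e 0)) + 1 := by rw [t₁, t₂, hsep]
    exact pvak_ne_of_add_one hsep' (pvak_lay_const hm γ₁ k hk).2 (by rw [← hv]; exact (pvak_lay_const hm γ₂ k' hk').2)

/-- **two different outward crossing strands have disjoint black layers and disjoint white layers** -/
theorem pvak_out_disj (hT : T.IsSph) (h : c'.Inside c) (γ₁ γ₂ : PvanStr T s (c'.Ann c)) (h₁ : γ₁.CrOut) (h₂ : γ₂.CrOut) (hne : γ₁.e 0 ≠ γ₂.e 0) :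
    Disjoint γ₁.LayB γ₂.LayB ∧ Disjoint γ₁.LayW γ₂.LayW := by
  have hA := pl_ann_face c' c
  have hne' : T.opp (γ₁.e γ₁.n) ≠ T.opp (γ₂.e γ₂.n) := fun hh =>
    pvan_disj_aux hA γ₁ γ₂ hne γ₁.n γ₂.n le_rfl le_rfl (T.opp_injective hh)
  have m₁ := (pvak_opp_left γ₁ γ₁.n γ₁.pos le_rfl).1
  have m₂ := (pvak_opp_left γ₂ γ₂.n γ₂.pos le_rfl).1
  obtain ⟨u, hu, hsep⟩ := pvak_pair hT h m₁ (by rw [T.opp_opp]; exact h₁.2) m₂ (by rw [T.opp_opp]; exact h₂.2) hne' h₁.1 h₂.1
    (pvak_out_djoin hT h γ₁ h₁) (pvak_out_djoin hT h γ₂ h₂)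
  have o₁ : s (T.src (T.opp (γ₁.e γ₁.n))) ≠ s (T.tgt (T.opp (γ₁.e γ₁.n))) := by
    rw [T.src_opp', T.tgt_opp]; exact (pvak_occ γ₁ γ₁.n le_rfl).symm
  have o₂ : s (T.src (T.opp (γ₂.e γ₂.n))) ≠ s (T.tgt (T.opp (γ₂.e γ₂.n))) := by
    rw [T.src_opp', T.tgt_opp]; exact (pvak_occ γ₂ γ₂.n le_rfl).symm
  have hm := fun d hd hs => pvak_mono_edge (c' := c') (c := c) o₁ o₂ hu (d := d) hd hs
  have hcyc : ∀ γ : PvanStr T s (c'.Ann c), γ.CrOut → T.Edg (pvakZ c' c s) (T.opp (γ.e γ.n)) := fun γ hγ =>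
    pvak_Z_edg.2 (Or.inl (((pl_jordan hT c).2.2.2 _).1 fun hh => hγ.2 (by
      have := hh.1 (pvak_opp_left γ γ.n γ.pos le_rfl).1
      rwa [T.opp_opp] at this)))
  have j₁ := hu _ (hcyc γ₁ h₁)
  have j₂ := hu _ (hcyc γ₂ h₂)
  have n12 : T.opp (γ₁.e γ₁.n) ≠ T.opp (T.opp (γ₂.e γ₂.n)) := fun hh => h₂.2 (by rw [T.opp_opp] at hh; exact hh ▸ m₁)
  have n21 : T.opp (γ₂.e γ₂.n) ≠ T.opp (T.opp (γ₁.e γ₁.n)) := fun hh => h₁.2 (by rw [T.opp_opp] at hh; exact hh ▸ m₂)
  rw [pvak_E_self, pvak_E_of_ne hne' n12, add_zero, T.src_opp', T.tgt_opp] at j₁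
  rw [pvak_E_self, pvak_E_of_ne hne'.symm n21, zero_add, T.src_opp', T.tgt_opp] at j₂
  rw [T.src_opp', T.src_opp'] at hsep
  have t₁ := pvak_z2_a j₁
  have t₂ := pvak_z2_a j₂
  have c₁ := pvak_lay_const hm γ₁ γ₁.n le_rfl
  have c₂ := pvak_lay_const hm γ₂ γ₂.n le_rfl
  constructor
  · rw [Set.disjoint_left]
    rintro v ⟨k, hk, rfl⟩ ⟨k', hk', hv⟩
    have hsep' : u (T.src (γ₂.e 0)) = u (T.src (γ₁.e 0)) + 1 := by rw [← c₁.1, ← c₂.1, t₁, t₂, hsep]
    exact pvak_ne_of_add_one hsep' (pvak_lay_const hm γ₁ k hk).1 (by rw [← hv]; exact (pvak_lay_const hm γ₂ k' hk').1)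
  · rw [Set.disjoint_left]
    rintro v ⟨k, hk, rfl⟩ ⟨k', hk', hv⟩
    have hsep' : u (T.tgt (γ₂.e 0)) = u (T.tgt (γ₁.e 0)) + 1 := by rw [← c₁.2, ← c₂.2, hsep]
    exact pvak_ne_of_add_one hsep' (pvak_lay_const hm γ₁ k hk).2 (by rw [← hv]; exact (pvak_lay_const hm γ₂ k' hk').2)

/-! ## 5. the layers are monochromatic crossings of the closed annulus -/

theorem pvak_edge_src_apex {A : Set D} (hA : T.FaceSet A) {d : D} (hd : d ∈ A) : T.EdgeIn A (T.src d) (T.apex d) ∧ T.EdgeIn A (T.apex d) (T.src d) :=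
  ⟨⟨T.opp (T.nxt (T.nxt d)), Or.inr (by rw [T.opp_opp]; exact (hA.nxt2 T d).2 hd), by rw [T.src_opp', T.tgt_nxt2], by rw [T.tgt_opp, T.src_nxt2]⟩,
    ⟨T.nxt (T.nxt d), Or.inl ((hA.nxt2 T d).2 hd), T.src_nxt2 d, T.tgt_nxt2 d⟩⟩

theorem pvak_edge_tgt_apex {A : Set D} (hA : T.FaceSet A) {d : D} (hd : d ∈ A) : T.EdgeIn A (T.tgt d) (T.apex d) ∧ T.EdgeIn A (T.apex d) (T.tgt d) :=
  ⟨⟨T.nxt d, Or.inl ((hA d).2 hd), T.src_nxt d, T.tgt_nxt d⟩,
    ⟨T.opp (T.nxt d), Or.inr (by rw [T.opp_opp]; exact (hA d).2 hd), by rw [T.src_opp', T.tgt_nxt], by rw [T.tgt_opp, T.src_nxt]⟩⟩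

/-- the black layer is connected, in both directions -/
theorem pvak_layB_conn {A : Set D} (hA : T.FaceSet A) (γ : PvanStr T s A) (k : ℕ) (hk : k ≤ γ.n) :
    ReflTransGen (fun u v => T.EdgeIn A u v ∧ v ∈ γ.LayB) (T.src (γ.e 0)) (T.src (γ.e k)) ∧
      ReflTransGen (fun u v => T.EdgeIn A u v ∧ v ∈ γ.LayB) (T.src (γ.e k)) (T.src (γ.e 0)) := by
  induction k with
  | zero => exact ⟨ReflTransGen.refl, ReflTransGen.refl⟩
  | succ k ih =>
    obtain ⟨i1, i2⟩ := ih (by omega)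
    have hm1 : T.src (γ.e (k + 1)) ∈ γ.LayB := ⟨k + 1, hk, rfl⟩
    have hm0 : T.src (γ.e k) ∈ γ.LayB := ⟨k, by omega, rfl⟩
    have hst := γ.step k hk
    rcases pvan_step_src (s := s) (γ.e k) with h | ⟨h, -⟩
    · rw [hst, h]; exact ⟨i1, i2⟩
    · have he := pvak_edge_src_apex hA (γ.mem k hk)
      rw [← h, ← hst] at he
      exact ⟨i1.tail ⟨he.1, hm1⟩, ReflTransGen.head ⟨he.2, hm0⟩ i2⟩

/-- the white layer is connected, in both directions -/
theorem pvak_layW_conn {A : Set D} (hA : T.FaceSet A) (γ : PvanStr T s A) (k : ℕ) (hk : k ≤ γ.n) :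
    ReflTransGen (fun u v => T.EdgeIn A u v ∧ v ∈ γ.LayW) (T.tgt (γ.e 0)) (T.tgt (γ.e k)) ∧
      ReflTransGen (fun u v => T.EdgeIn A u v ∧ v ∈ γ.LayW) (T.tgt (γ.e k)) (T.tgt (γ.e 0)) := by
  induction k with
  | zero => exact ⟨ReflTransGen.refl, ReflTransGen.refl⟩
  | succ k ih =>
    obtain ⟨i1, i2⟩ := ih (by omega)
    have hm1 : T.tgt (γ.e (k + 1)) ∈ γ.LayW := ⟨k + 1, hk, rfl⟩
    have hm0 : T.tgt (γ.e k) ∈ γ.LayW := ⟨k, by omega, rfl⟩
    have hst := γ.step k hk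
    rcases pvan_step_tgt (s := s) (γ.e k) with h | ⟨h, -⟩
    · rw [hst, h]; exact ⟨i1, i2⟩
    · have he := pvak_edge_tgt_apex hA (γ.mem k hk)
      rw [← h, ← hst] at he
      exact ⟨i1.tail ⟨he.1, hm1⟩, ReflTransGen.head ⟨he.2, hm0⟩ i2⟩

/-- both ends of a dart which separates `c.Left` from its complement are vertices of `c` -/
theorem pvak_bd_verts (hT : T.IsSph) (c : T.Cyc) {d : D} (h : ¬ (d ∈ c.Left ↔ T.opp d ∈ c.Left)) : T.src d ∈ c.verts ∧ T.tgt d ∈ c.verts := by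
  have h1 : T.Edg c.darts d := ((pl_jordan hT c).2.2.2 d).1 h
  refine ⟨pl_cyc_edg_src c h1, ?_⟩
  rw [← T.src_opp']
  exact pl_cyc_edg_src c (T.edg_opp.2 h1)

/-- a set of vertices which contains a crossing of the closed annulus -/
def pvakW (c' c : T.Cyc) (a : Finset V) : Prop := ∃ x ∈ c'.verts, ∃ y ∈ c.verts, T.Join (c'.Ann c) (↑a : Set V) x y

/-- the ends of a crossing strand -/
theorem pvak_ends (hT : T.IsSph) (h : c'.Inside c) (γ : PvanStr T s (c'.Ann c)) :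
    (γ.CrIn → (T.src (γ.e 0) ∈ c.verts ∧ T.tgt (γ.e 0) ∈ c.verts) ∧ (T.src (γ.e γ.n) ∈ c'.verts ∧ T.tgt (γ.e γ.n) ∈ c'.verts)) ∧
      (γ.CrOut → (T.src (γ.e 0) ∈ c'.verts ∧ T.tgt (γ.e 0) ∈ c'.verts) ∧ (T.src (γ.e γ.n) ∈ c.verts ∧ T.tgt (γ.e γ.n) ∈ c.verts)) := by
  have m0 := γ.mem 0 γ.pos
  have mn := pvak_opp_left γ γ.n γ.pos le_rfl
  constructor
  · intro hγ
    exact ⟨pvak_bd_verts hT c fun hh => hγ.1 (hh.1 m0.1), pvak_bd_verts hT c' fun hh => mn.2 (hh.1 hγ.2)⟩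
  · intro hγ
    exact ⟨pvak_bd_verts hT c' fun hh => m0.2 (hh.2 hγ.1), pvak_bd_verts hT c fun hh => hγ.2 (hh.2 mn.1)⟩

variable [DecidableEq V]

/-- the black layer as a `Finset` -/
def PvanStr.layB {A : Set D} (γ : PvanStr T s A) : Finset V := (Finset.range (γ.n + 1)).image fun k => T.src (γ.e k)

/-- the white layer as a `Finset` -/
def PvanStr.layW {A : Set D} (γ : PvanStr T s A) : Finset V := (Finset.range (γ.n + 1)).image fun k => T.tgt (γ.e k)

theorem pvak_coe_layB {A : Set D} (γ : PvanStr T s A) : (↑γ.layB : Set V) = γ.LayB := by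
  ext v
  simp only [PvanStr.layB, PvanStr.LayB, Finset.coe_image, Finset.coe_range, Set.mem_image, Set.mem_Iio, Set.mem_ofPred_eq, Nat.lt_succ_iff]

theorem pvak_coe_layW {A : Set D} (γ : PvanStr T s A) : (↑γ.layW : Set V) = γ.LayW := by
  ext v
  simp only [PvanStr.layW, PvanStr.LayW, Finset.coe_image, Finset.coe_range, Set.mem_image, Set.mem_Iio, Set.mem_ofPred_eq, Nat.lt_succ_iff]

theorem pvak_layB_col {A : Set D} (γ : PvanStr T s A) : PvbkCol true s γ.layB := by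
  intro v hv
  have : v ∈ γ.LayB := by rw [← pvak_coe_layB]; exact hv
  obtain ⟨k, hk, rfl⟩ := this
  exact (pvan_ok γ k hk).1

theorem pvak_layW_col {A : Set D} (γ : PvanStr T s A) : PvbkCol false s γ.layW := by
  intro v hv
  have : v ∈ γ.LayW := by rw [← pvak_coe_layW]; exact hv
  obtain ⟨k, hk, rfl⟩ := this
  exact (pvan_ok γ k hk).2

/-- **both layers of a crossing strand are crossings of the closed annulus** -/
theorem pvak_lay_W (hT : T.IsSph) (h : c'.Inside c) (γ : PvanStr T s (c'.Ann c)) (hγ : γ.CrIn ∨ γ.CrOut) :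
    pvakW c' c γ.layB ∧ pvakW c' c γ.layW := by
  have hA := pl_ann_face c' c
  have hB := pvak_layB_conn hA γ γ.n le_rfl
  have hW := pvak_layW_conn hA γ γ.n le_rfl
  unfold pvakW
  rw [pvak_coe_layB, pvak_coe_layW]
  rcases hγ with hγ | hγ
  · obtain ⟨⟨o1, o2⟩, i1, i2⟩ := (pvak_ends hT h γ).1 hγ
    exact ⟨⟨_, i1, _, o1, ⟨γ.n, le_rfl, rfl⟩, hB.2⟩, ⟨_, i2, _, o2, ⟨γ.n, le_rfl, rfl⟩, hW.2⟩⟩
  · obtain ⟨⟨i1, i2⟩, o1, o2⟩ := (pvak_ends hT h γ).2 hγ
    exact ⟨⟨_, i1, _, o1, ⟨0, Nat.zero_le _, rfl⟩, hB.1⟩, ⟨_, i2, _, o2, ⟨0, Nat.zero_le _, rfl⟩, hW.1⟩⟩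

/-! ## 6. the number of crossing strands -/

/-- the entrances of the inward crossing strands -/
def pvakIn (c' c : T.Cyc) (s : V → Bool) : Set D := {d | ∃ γ : PvanStr T s (c'.Ann c), γ.e 0 = d ∧ γ.CrIn}

/-- the entrances of the outward crossing strands -/
def pvakOut (c' c : T.Cyc) (s : V → Bool) : Set D := {d | ∃ γ : PvanStr T s (c'.Ann c), γ.e 0 = d ∧ γ.CrOut}

/-- **the number of strands which cross the annulus** -/
noncomputable def pvakK (c' c : T.Cyc) (s : V → Bool) : ℕ := (pvakIn c' c s).ncard + (pvakOut c' c s).ncard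

/-- `k` elements of a set with at least `k` elements -/
theorem pvak_pick {α : Type} {S : Set α} {k : ℕ} (h : k ≤ S.ncard) : ∃ g : Fin k → α, (∀ i, g i ∈ S) ∧ Function.Injective g := by
  rcases Nat.eq_zero_or_pos k with rfl | hk
  · exact ⟨fun i => i.elim0, fun i => i.elim0, fun i => i.elim0⟩
  · obtain ⟨t, hts, htk⟩ := Set.exists_subset_card_eq h
    have hfin : t.Finite := Set.finite_of_ncard_pos (by omega)
    have : Finite t := hfin
    have e : t ≃ Fin k := Finite.equivFinOfCardEq (by rw [← htk]; rfl)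
    exact ⟨fun i => (e.symm i : α), fun i => hts (e.symm i).2, Subtype.val_injective.comp e.symm.injective⟩

/-- `k` strands with pairwise different entrances, all inward or all outward, give `k` pairwise disjoint crossings of each colour -/
theorem pvak_disj_of_family (hT : T.IsSph) (h : c'.Inside c) {k : ℕ} (Γ : Fin k → PvanStr T s (c'.Ann c))
    (hΓ : (∀ i, (Γ i).CrIn) ∨ ∀ i, (Γ i).CrOut) (hinj : ∀ i j, (Γ i).e 0 = (Γ j).e 0 → i = j) :
    PvbkDisj (fun _ => pvakW c' c) true k s ∧ PvbkDisj (fun _ => pvakW c' c) false k s := by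
  have hcr : ∀ i, (Γ i).CrIn ∨ (Γ i).CrOut := fun i => hΓ.elim (fun H => Or.inl (H i)) (fun H => Or.inr (H i))
  have hdis : ∀ i j, i ≠ j → Disjoint (Γ i).LayB (Γ j).LayB ∧ Disjoint (Γ i).LayW (Γ j).LayW := by
    intro i j hij
    rcases hΓ with H | H
    · exact pvak_in_disj hT h _ _ (H i) (H j) fun he => hij (hinj i j he)
    · exact pvak_out_disj hT h _ _ (H i) (H j) fun he => hij (hinj i j he)
  constructor
  · refine ⟨fun i => if hi : i < k then (Γ ⟨i, hi⟩).layB else ∅, fun i hi => ?_, fun i hi j hj hij => ?_⟩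
    · simp only [dif_pos hi]
      exact ⟨(pvak_lay_W hT h _ (hcr _)).1, pvak_layB_col _⟩
    · simp only [dif_pos hi, dif_pos hj]
      rw [← Finset.disjoint_coe, pvak_coe_layB, pvak_coe_layB]
      exact (hdis ⟨i, hi⟩ ⟨j, hj⟩ fun he => hij (Fin.mk.inj_iff.1 he)).1
  · refine ⟨fun i => if hi : i < k then (Γ ⟨i, hi⟩).layW else ∅, fun i hi => ?_, fun i hi j hj hij => ?_⟩
    · simp only [dif_pos hi]
      exact ⟨(pvak_lay_W hT h _ (hcr _)).2, pvak_layW_col _⟩
    · simp only [dif_pos hi, dif_pos hj]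
      rw [← Finset.disjoint_coe, pvak_coe_layW, pvak_coe_layW]
      exact (hdis ⟨i, hi⟩ ⟨j, hj⟩ fun he => hij (Fin.mk.inj_iff.1 he)).2

/-- **`2k` crossing strands give `k` pairwise disjoint black crossings and `k` pairwise disjoint white crossings** -/
theorem pvak_K_disj (hT : T.IsSph) (h : c'.Inside c) {k : ℕ} (hk : 2 * k ≤ pvakK c' c s) :
    PvbkDisj (fun _ => pvakW c' c) true k s ∧ PvbkDisj (fun _ => pvakW c' c) false k s := by
  unfold pvakK at hk
  rcases Nat.lt_or_ge (pvakIn c' c s).ncard k with h1 | h1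
  · obtain ⟨g, hg, hinj⟩ := pvak_pick (S := pvakOut c' c s) (k := k) (by omega)
    choose Γ hΓ0 hΓ using hg
    exact pvak_disj_of_family hT h Γ (Or.inr hΓ) fun i j he => hinj (by rw [← hΓ0 i, ← hΓ0 j, he])
  · obtain ⟨g, hg, hinj⟩ := pvak_pick (S := pvakIn c' c s) (k := k) h1
    choose Γ hΓ0 hΓ using hg
    exact pvak_disj_of_family hT h Γ (Or.inl hΓ) fun i j he => hinj (by rw [← hΓ0 i, ← hΓ0 j, he])

/-! ## 7. probability -/

/-- a circuit of colour `col` in the closed annulus, round the inner disc -/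
def PvakCirc (c' c : T.Cyc) (col : Bool) (ω : V → Bool) : Prop :=
  ∃ c'' : T.Cyc, (∀ v ∈ c''.verts, ω v = col) ∧ c'.Left ⊆ c''.Left ∧ c''.Left ⊆ c.Left

/-- a circuit excludes every crossing of the other colour -/
theorem pvak_circ_excl (hT : T.IsSph) {col : Bool} {ω : V → Bool} (hc : PvakCirc c' c (!col) ω) : ¬ ∃ a, pvakW c' c a ∧ PvbkCol col ω a := by
  rintro ⟨a, ⟨x, hx, y, hy, hxa, hp⟩, hcol⟩
  obtain ⟨c'', hw, h1, h2⟩ := hc
  refine pl_ann_excl hT (X := (↑a : Set V)) (fun v hv hva => ?_) h1 h2 hx hy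
    ⟨hxa, ReflTransGen.mono (fun u v huv => ⟨?_, huv.2⟩) _ _ hp⟩
  · have e1 := hw v hv
    have e2 := hcol v hva
    rw [e2] at e1
    cases col <;> simp at e1
  · obtain ⟨d, -, hs, ht⟩ := huv.1
    exact ⟨d, Or.inl (Set.mem_univ _), hs, ht⟩

/-- **exponential tail of the number of crossing strands** -/
theorem pvak_tail (hT : T.IsSph) (h : c'.Inside c) (A : Finset V) (ξ : V → Bool) {q : ℝ} (hq : q ≤ pvaP A ξ (PvakCirc c' c false)) (k : ℕ) :
    pvaP A ξ (fun ω => 2 * k ≤ pvakK c' c ω) ≤ (1 - q) ^ k :=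
  pvbk_tail true A ξ (pvakW c' c) (pvakK c' c) 2 (fun ω _ k hk => (pvak_K_disj hT h hk).1) hq (fun ω _ hc => pvak_circ_excl hT (col := true) hc) k

/-- **moments of the number of crossing strands**: a bound which depends on `(p, q)` only -/
theorem pvak_moment (hT : T.IsSph) (h : c'.Inside c) (A : Finset V) (ξ : V → Bool) {q : ℝ} (hq0 : 0 < q)
    (hq : q ≤ pvaP A ξ (PvakCirc c' c false)) (p : ℕ) : pvaE A ξ (fun ω => (pvakK c' c ω : ℝ) ^ p) ≤ pvbkM 2 p (1 - q) :=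
  pvbk_tail_moment true A ξ (pvakW c' c) (pvakK c' c) (by norm_num) hq0 (fun ω _ k hk => (pvak_K_disj hT h hk).1) hq
    (fun ω _ hc => pvak_circ_excl hT (col := true) hc) p

/-- `k` pairwise disjoint crossings of one colour -/
theorem pvak_cross_pow (hT : T.IsSph) (col : Bool) (A : Finset V) (ξ : V → Bool) {q : ℝ} (hq : q ≤ pvaP A ξ (PvakCirc c' c (!col))) (k : ℕ) :
    pvaP A ξ (PvbkDisj (fun _ => pvakW c' c) col k) ≤ (1 - q) ^ k := by
  have h1 : pvaP A ξ (fun ω => ∃ a, pvakW c' c a ∧ PvbkCol col ω a) ≤ 1 - q := by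
    have h2 : pvaP A ξ (fun ω => ∃ a, pvakW c' c a ∧ PvbkCol col ω a) ≤ pvaP A ξ (fun ω => ¬ PvakCirc c' c (!col) ω) :=
      pva_P_mono fun ω _ hh hc => pvak_circ_excl hT hc hh
    rw [pva_P_not] at h2
    linarith
  exact (pvbk_bk_pow col A ξ (pvakW c' c) k).trans (pow_le_pow_left₀ (pva_P_nonneg _ _ _) h1 k)

/-! ## 10. the U-form: sets which join the outer cycle to a NEIGHBOUR of a vertex set `U` (strands stopped at the first face with a vertex in `U`: `Arm/ReachU` of helper42; `PvMap.Hits` of `S2/Abs`) -/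

/-- the finite vertex set `a` joins `c.verts` to a neighbour of `U`, inside the closed disc of `c` -/
def pvakWU (c : T.Cyc) (U : Set V) (a : Finset V) : Prop :=
  ∃ x ∈ c.verts, ∃ d : D, T.tgt d ∈ U ∧ T.Join c.Left (↑a : Set V) x (T.src d)

/-- a circuit of colour `col` round the inner disc which does not touch the inner cycle -/
def PvakCircU (c' c : T.Cyc) (col : Bool) (ω : V → Bool) : Prop :=
  ∃ z : T.Cyc, (∀ v ∈ z.verts, ω v = col) ∧ c'.Left ⊆ z.Left ∧ z.Left ⊆ c.Left ∧ Disjoint z.verts c'.verts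

theorem pvak_circU_circ {col : Bool} {ω : V → Bool} (h : PvakCircU c' c col ω) : PvakCirc c' c col ω := by
  obtain ⟨z, h1, h2, h3, -⟩ := h
  exact ⟨z, h1, h2, h3⟩

/-- a circuit which does not touch the inner cycle excludes every set of the other colour from the outer cycle to a neighbour of the inner cycle -/
theorem pvak_circU_excl (hT : T.IsSph) {col : Bool} {ω : V → Bool} (hc : PvakCircU c' c (!col) ω) :
    ¬ ∃ a, pvakWU c c'.verts a ∧ PvbkCol col ω a := by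
  rintro ⟨a, ⟨x, hx, d, hd, hj⟩, hcol⟩
  obtain ⟨z, hw, h1, h2, h3⟩ := hc
  have hj1 : T.Join Set.univ ((↑a : Set V) ∪ c'.verts) x (T.src d) := pl_hx_join_mono (Set.subset_univ _) Set.subset_union_left hj
  have hj2 : T.Join Set.univ ((↑a : Set V) ∪ c'.verts) x (T.tgt d) :=
    pl_hx_join_tail hj1 ⟨d, Or.inl (Set.mem_univ _), rfl, rfl⟩ (Or.inr hd)
  refine pl_ann_excl hT (X := (↑a : Set V) ∪ c'.verts) (fun v hv hva => ?_) h1 h2 hd hx (pl_hx_join_symm hj2)
  rcases hva with hva | hva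
  · have e1 := hw v hv
    have e2 := hcol v hva
    rw [e2] at e1
    cases col <;> simp at e1
  · exact Set.disjoint_left.1 h3 hv hva

/-- `k` pairwise disjoint sets of one colour from the outer cycle to a neighbour of the inner cycle -/
theorem pvak_reach_pow (hT : T.IsSph) (col : Bool) (A : Finset V) (ξ : V → Bool) {q : ℝ} (hq : q ≤ pvaP A ξ (PvakCircU c' c (!col))) (k : ℕ) :
    pvaP A ξ (PvbkDisj (fun _ => pvakWU c c'.verts) col k) ≤ (1 - q) ^ k := by
  have h1 : pvaP A ξ (fun ω => ∃ a, pvakWU c c'.verts a ∧ PvbkCol col ω a) ≤ 1 - q := by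
    have h2 : pvaP A ξ (fun ω => ∃ a, pvakWU c c'.verts a ∧ PvbkCol col ω a) ≤ pvaP A ξ (fun ω => ¬ PvakCircU c' c (!col) ω) :=
      pva_P_mono fun ω _ hh hc => pvak_circU_excl hT hc hh
    rw [pva_P_not] at h2
    linarith
  exact (pvbk_bk_pow col A ξ (pvakWU c c'.verts) k).trans (pow_le_pow_left₀ (pva_P_nonneg _ _ _) h1 k)

/-- **tail in the U-form**, for ANY count `K` such that `m k ≤ K` forces `k` disjoint black sets from the outer cycle to a neighbour of the inner cycle -/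
theorem pvak_tailU (hT : T.IsSph) (A : Finset V) (ξ : V → Bool) (K : (V → Bool) → ℕ) (m : ℕ)
    (hK : ∀ ω, PvaCfg A ξ ω → ∀ k, m * k ≤ K ω → PvbkDisj (fun _ => pvakWU c c'.verts) true k ω)
    {q : ℝ} (hq : q ≤ pvaP A ξ (PvakCircU c' c false)) (k : ℕ) : pvaP A ξ (fun ω => m * k ≤ K ω) ≤ (1 - q) ^ k :=
  pvbk_tail true A ξ (pvakWU c c'.verts) K m hK hq (fun ω _ hc => pvak_circU_excl hT (col := true) hc) k

/-- **moments in the U-form** -/
theorem pvak_momentU (hT : T.IsSph) (A : Finset V) (ξ : V → Bool) (K : (V → Bool) → ℕ) {m : ℕ} (hm : 0 < m)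
    (hK : ∀ ω, PvaCfg A ξ ω → ∀ k, m * k ≤ K ω → PvbkDisj (fun _ => pvakWU c c'.verts) true k ω)
    {q : ℝ} (hq0 : 0 < q) (hq : q ≤ pvaP A ξ (PvakCircU c' c false)) (p : ℕ) : pvaE A ξ (fun ω => (K ω : ℝ) ^ p) ≤ pvbkM m p (1 - q) :=
  pvbk_tail_moment true A ξ (pvakWU c c'.verts) K hm hq0 hK hq (fun ω _ hc => pvak_circU_excl hT (col := true) hc) p

/-! ## 11. the RUN form: vocabulary of `Arm/Strand` (`pvasIn`, `pvasIt`, `pvasNot`); `PvakRun c' c s x n` is `PvatRun T c.Left c'.Left s x n` of `Arm/Trap`, field by field -/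

/-- RUN: the strand enters `c.Left` at `x`, the positions `0..n-1` are in `c.Left \ c'.Left`, the position `n` is in `c'.Left` -/
def PvakRun (c' c : T.Cyc) (s : V → Bool) (x : D) (n : ℕ) : Prop :=
  pvasIn T c.Left s x ∧ (∀ k, k < n → pvasIt T s x k ∈ c.Left ∧ pvasIt T s x k ∉ c'.Left) ∧ pvasIt T s x n ∈ c'.Left

theorem pvak_run_pos (hT : T.IsSph) (h : c'.Inside c) {x : D} {n : ℕ} (hr : PvakRun c' c s x n) : 0 < n := by
  rcases Nat.eq_zero_or_pos n with h0 | h0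
  · exfalso
    subst h0
    have hx : x ∈ c'.Left := hr.2.2
    have hx' : T.opp x ∉ c'.Left := fun hh => hr.1.2.1 (h.2 hh)
    have hv := (pvak_bd_verts hT c' (d := x) (fun hh => hx' (hh.1 hx))).2
    exact hr.1.2.1 (h.1 hv (T.opp x) (T.src_opp' x))
  · exact h0

/-- a run is an inward crossing strand of the annulus -/
theorem pvak_run_str (hT : T.IsSph) (h : c'.Inside c) {x : D} {n : ℕ} (hr : PvakRun c' c s x n) :
    ∃ γ : PvanStr T s (c'.Ann c), γ.e = pvasIt T s x ∧ γ.n = n ∧ γ.CrIn :=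
  ⟨{ n := n
     e := pvasIt T s x
     pos := pvak_run_pos hT h hr
     ok0 := hr.1.2.2
     step := fun k _ => pvas_it_succ s x k
     mem := fun k hk => hr.2.1 k hk
     ent := fun hh => hr.1.2.1 hh.1
     ext := fun hh => hh.2 hr.2.2 }, rfl, rfl, hr.1.2.1, hr.2.2⟩

theorem pvak_str_run (γ : PvanStr T s (c'.Ann c)) (hγ : γ.CrIn) : PvakRun c' c s (γ.e 0) γ.n := by
  refine ⟨⟨(γ.mem 0 γ.pos).1, hγ.1, γ.ok0⟩, fun k hk => ?_, ?_⟩
  · rw [← pvas_str_it γ k hk.le]
    exact γ.mem k hk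
  · rw [← pvas_str_it γ γ.n le_rfl]
    exact hγ.2

theorem pvak_in_iff_run (hT : T.IsSph) (h : c'.Inside c) (x : D) : x ∈ pvakIn c' c s ↔ ∃ n, PvakRun c' c s x n := by
  constructor
  · rintro ⟨γ, rfl, hγ⟩
    exact ⟨γ.n, pvak_str_run γ hγ⟩
  · rintro ⟨n, hr⟩
    obtain ⟨γ, h1, -, h3⟩ := pvak_run_str hT h hr
    exact ⟨γ, by rw [h1]; rfl, h3⟩

theorem pvak_col_not {col : Bool} {a : Finset V} (h : PvbkCol col (pvasNot s) a) : PvbkCol (!col) s a := by
  intro v hv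
  have := h v hv
  unfold pvasNot at this
  rw [← this, Bool.not_not]

theorem pvak_disj_not {W : ℕ → Finset V → Prop} {col : Bool} {k : ℕ} (h : PvbkDisj W col k (pvasNot s)) : PvbkDisj W (!col) k s := by
  obtain ⟨f, h1, h2⟩ := h
  exact ⟨f, fun i hi => ⟨(h1 i hi).1, pvak_col_not (h1 i hi).2⟩, h2⟩

/-- the entrances of the runs of `s` (black on the left of the strand) -/
def pvakRunSet (c' c : T.Cyc) (s : V → Bool) : Set D := {x | ∃ n, PvakRun c' c s x n}

/-- **the number of occupied darts of the outer cycle whose strand reaches the inner disc**, both types (black-white: runs of `s`; white-black: runs of `pvasNot s`) -/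
noncomputable def pvakR (c' c : T.Cyc) (s : V → Bool) : ℕ := (pvakRunSet c' c s).ncard + (pvakRunSet c' c (pvasNot s)).ncard

theorem pvak_runSet_eq (hT : T.IsSph) (h : c'.Inside c) (s : V → Bool) : pvakRunSet c' c s = pvakIn c' c s :=
  Set.ext fun x => (pvak_in_iff_run hT h x).symm

/-- the entrances of the runs are darts of the outer cycle -/
theorem pvak_runSet_sub (hT : T.IsSph) (c' c : T.Cyc) (s : V → Bool) : pvakRunSet c' c s ⊆ c.darts := by
  rintro x ⟨n, hr⟩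
  exact pvak_outer_dart hT hr.1.1 hr.1.2.1

theorem pvak_runSet_finite (hT : T.IsSph) (c' c : T.Cyc) (s : V → Bool) : (pvakRunSet c' c s).Finite :=
  (pl_cyc_darts_finite c).subset (pvak_runSet_sub hT c' c s)

/-- the two types of runs have different entrances -/
theorem pvak_runSet_disjoint (c' c : T.Cyc) (s : V → Bool) : Disjoint (pvakRunSet c' c s) (pvakRunSet c' c (pvasNot s)) := by
  rw [Set.disjoint_left]
  rintro x ⟨n, hr⟩ ⟨n', hr'⟩
  have h1 : s (T.src x) = true := hr.1.2.2.1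
  have h2 : (!s (T.src x)) = true := hr'.1.2.2.1
  rw [h1] at h2
  exact absurd h2 (by simp)

/-- `pvakR` is the cardinality of the set of all entrances -/
theorem pvak_R_eq (hT : T.IsSph) (c' c : T.Cyc) (s : V → Bool) : pvakR c' c s = (pvakRunSet c' c s ∪ pvakRunSet c' c (pvasNot s)).ncard :=
  (Set.ncard_union_eq (pvak_runSet_disjoint c' c s) (pvak_runSet_finite hT c' c s) (pvak_runSet_finite hT c' c _)).symm

/-- a finite set of entrances of runs has at most `pvakR` elements -/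
theorem pvak_card_le_R (hT : T.IsSph) (c' c : T.Cyc) (s : V → Bool) (F : Finset D)
    (hF : ∀ x ∈ F, (∃ n, PvakRun c' c s x n) ∨ ∃ n, PvakRun c' c (pvasNot s) x n) : F.card ≤ pvakR c' c s := by
  rw [pvak_R_eq hT, ← Set.ncard_coe_finset F]
  exact Set.ncard_le_ncard (fun x hx => hF x hx) ((pvak_runSet_finite hT c' c s).union (pvak_runSet_finite hT c' c _))

/-- `k` runs of one type give `k` pairwise disjoint crossings of each colour -/
theorem pvak_run_disj (hT : T.IsSph) (h : c'.Inside c) {k : ℕ} (hk : k ≤ (pvakRunSet c' c s).ncard) :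
    PvbkDisj (fun _ => pvakW c' c) true k s ∧ PvbkDisj (fun _ => pvakW c' c) false k s := by
  rw [pvak_runSet_eq hT h] at hk
  obtain ⟨g, hg, hinj⟩ := pvak_pick (S := pvakIn c' c s) (k := k) hk
  choose Γ hΓ0 hΓ using hg
  exact pvak_disj_of_family hT h Γ (Or.inl hΓ) fun i j he => hinj (by rw [← hΓ0 i, ← hΓ0 j, he])

/-- **`2k` runs give `k` pairwise disjoint black crossings and `k` pairwise disjoint white crossings** -/
theorem pvak_R_disj (hT : T.IsSph) (h : c'.Inside c) {k : ℕ} (hk : 2 * k ≤ pvakR c' c s) :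
    PvbkDisj (fun _ => pvakW c' c) true k s ∧ PvbkDisj (fun _ => pvakW c' c) false k s := by
  unfold pvakR at hk
  rcases Nat.lt_or_ge (pvakRunSet c' c s).ncard k with h1 | h1
  · have := pvak_run_disj (s := pvasNot s) hT h (k := k) (by omega)
    exact ⟨pvak_disj_not this.2, pvak_disj_not this.1⟩
  · exact pvak_run_disj hT h h1

/-- **exponential tail of the number of runs** -/
theorem pvak_tailR (hT : T.IsSph) (h : c'.Inside c) (A : Finset V) (ξ : V → Bool) {q : ℝ} (hq : q ≤ pvaP A ξ (PvakCirc c' c false)) (k : ℕ) :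
    pvaP A ξ (fun ω => 2 * k ≤ pvakR c' c ω) ≤ (1 - q) ^ k :=
  pvbk_tail true A ξ (pvakW c' c) (pvakR c' c) 2 (fun ω _ k hk => (pvak_R_disj hT h hk).1) hq (fun ω _ hc => pvak_circ_excl hT (col := true) hc) k

/-- **moments of the number of runs**: a bound which depends on `(p, q)` only -/
theorem pvak_momentR (hT : T.IsSph) (h : c'.Inside c) (A : Finset V) (ξ : V → Bool) {q : ℝ} (hq0 : 0 < q)
    (hq : q ≤ pvaP A ξ (PvakCirc c' c false)) (p : ℕ) : pvaE A ξ (fun ω => (pvakR c' c ω : ℝ) ^ p) ≤ pvbkM 2 p (1 - q) :=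
  pvbk_tail_moment true A ξ (pvakW c' c) (pvakR c' c) (by norm_num) hq0 (fun ω _ k hk => (pvak_R_disj hT h hk).1) hq
    (fun ω _ hc => pvak_circ_excl hT (col := true) hc) p

/-! ## 12. the BLOCKING form: the input is `PvaxBlk` / `PvaxBxp` of `Arm/Bxp` (what QBX delivers: no crossing of a FIXED colour with probability `≥ q`; no circuits) -/

section blk

/-- a monochromatic witness is a crossing in the sense of `Arm/Bxp` -/
theorem pvak_W_cr {col : Bool} {ω : V → Bool} {a : Finset V} (hW : pvakW c' c a) (hcol : PvbkCol col ω a) : PvaxCr T c' c Set.univ col ω := by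
  obtain ⟨x, hx, y, hy, hj⟩ := hW
  have hsub : (↑a : Set V) ⊆ {v | v ∈ (Set.univ : Set V) ∧ ω v = col} := fun v hv => ⟨Set.mem_univ v, hcol v hv⟩
  exact ⟨x, hx, y, hy, pl_hx_join_mono subset_rfl hsub hj⟩

/-- `k` pairwise disjoint crossings of one colour, blocking form -/
theorem pvak_cross_pow_blk {q : ℝ} (hB : PvaxBlk T c' c q) (col : Bool) (A : Finset V) (hA : ∀ v ∈ T.VOf (c'.Ann c), v ∈ A) (ξ : V → Bool) (k : ℕ) :
    pvaP A ξ (PvbkDisj (fun _ => pvakW c' c) col k) ≤ (1 - q) ^ k := by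
  have h1 : pvaP A ξ (fun ω => ∃ a, pvakW c' c a ∧ PvbkCol col ω a) ≤ 1 - q := by
    have h2 : pvaP A ξ (fun ω => ∃ a, pvakW c' c a ∧ PvbkCol col ω a) ≤ pvaP A ξ (fun ω => ¬ ¬ PvaxCr T c' c Set.univ col ω) :=
      pva_P_mono fun ω _ hh hc => by
        obtain ⟨a, h3, h4⟩ := hh
        exact hc (pvak_W_cr h3 h4)
    rw [pva_P_not] at h2
    linarith [hB A ξ col hA]
  exact (pvbk_bk_pow col A ξ (pvakW c' c) k).trans (pow_le_pow_left₀ (pva_P_nonneg _ _ _) h1 k)

/-- **exponential tail of the number of runs, blocking form** -/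
theorem pvak_tail_blk (hT : T.IsSph) (h : c'.Inside c) {q : ℝ} (hB : PvaxBlk T c' c q) (A : Finset V) (hA : ∀ v ∈ T.VOf (c'.Ann c), v ∈ A) (ξ : V → Bool) (k : ℕ) :
    pvaP A ξ (fun ω => 2 * k ≤ pvakR c' c ω) ≤ (1 - q) ^ k :=
  pvbk_tail true A ξ (pvakW c' c) (pvakR c' c) 2 (fun ω _ k hk => (pvak_R_disj hT h hk).1) (hB A ξ true hA)
    (fun ω _ hc hh => by
      obtain ⟨a, h3, h4⟩ := hh
      exact hc (pvak_W_cr h3 h4)) k

/-- **moments of the number of runs, blocking form**: a bound which depends on `(p, q)` only -/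
theorem pvak_moment_blk (hT : T.IsSph) (h : c'.Inside c) {q : ℝ} (hq0 : 0 < q) (hB : PvaxBlk T c' c q) (A : Finset V)
    (hA : ∀ v ∈ T.VOf (c'.Ann c), v ∈ A) (ξ : V → Bool) (p : ℕ) : pvaE A ξ (fun ω => (pvakR c' c ω : ℝ) ^ p) ≤ pvbkM 2 p (1 - q) :=
  pvbk_tail_moment true A ξ (pvakW c' c) (pvakR c' c) (by norm_num) hq0 (fun ω _ k hk => (pvak_R_disj hT h hk).1) (hB A ξ true hA)
    (fun ω _ hc hh => by
      obtain ⟨a, h3, h4⟩ := hh
      exact hc (pvak_W_cr h3 h4)) p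

/-- **moments of the number of runs between two cycles of a frame** (`c'` at radius `(r, r')`, `c` at radius `(R, R')`, BXP(q) between `r'` and `R`) -/
theorem pvak_moment_at (hT : T.IsSph) {pos : V → ℂ} {q : ℝ} (hq0 : 0 < q) {z : ℂ} {r r' R R' : ℝ} (h' : PvaxAt T pos z r r' c') (h : PvaxAt T pos z R R' c)
    (hB : PvaxBxp T pos q z r' R) (hrR : r' ≤ R) (A : Finset V) (hA : ∀ v ∈ T.VOf (c'.Ann c), v ∈ A) (ξ : V → Bool) (p : ℕ) :
    pvaE A ξ (fun ω => (pvakR c' c ω : ℝ) ^ p) ≤ pvbkM 2 p (1 - q) :=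
  pvak_moment_blk hT (pvax_at_blk hT h' h hB hrR).1 hq0 (pvax_at_blk hT h' h hB hrR).2 A hA ξ p

theorem pvak_tail_at (hT : T.IsSph) {pos : V → ℂ} {q : ℝ} {z : ℂ} {r r' R R' : ℝ} (h' : PvaxAt T pos z r r' c') (h : PvaxAt T pos z R R' c)
    (hB : PvaxBxp T pos q z r' R) (hrR : r' ≤ R) (A : Finset V) (hA : ∀ v ∈ T.VOf (c'.Ann c), v ∈ A) (ξ : V → Bool) (k : ℕ) :
    pvaP A ξ (fun ω => 2 * k ≤ pvakR c' c ω) ≤ (1 - q) ^ k :=
  pvak_tail_blk hT (pvax_at_blk hT h' h hB hrR).1 (pvax_at_blk hT h' h hB hrR).2 A hA ξ k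

end blk

theorem pvak_eqns_cite : True := by
  have := @pvakE.eq_1; have := @pvakFc.eq_1; have := @pvakZ.eq_1; have := @PvanStr.CrIn.eq_1; have := @PvanStr.CrOut.eq_1
  have := @pvakW.eq_1; have := @PvanStr.layB.eq_1; have := @PvanStr.layW.eq_1; have := @pvakIn.eq_1; have := @pvakOut.eq_1
  have := @pvakK.eq_1; have := @PvakCirc.eq_1; have := @pvakWU.eq_1; have := @PvakCircU.eq_1
  have := @PvakRun.eq_1; have := @pvakRunSet.eq_1; have := @pvakR.eq_1
  trivial

end Claimed.Agent.R289
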