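-- KEEP
import Claimed.Agent.R289.Arm.Bxp
import Claimed.Agent.R289.Arm.GateP
import Claimed.Agent.R289.Arm.KCount
import Claimed.Agent.R289.Tr.Strand

/-!
# Row 289 (S0537, Cardy for Poisson-Voronoi), box ARM, block A6, leaf G5, file Arm/Fresh : THE FRESH STEP = THE ADAPTIVE LAYER OF THE GATE DENSITY      (owner helper13; owner of A6 helper281; prefix `pvaf_`, defs `pvaf…` / `Pvaf…`)

Blueprint: `origin/helper281:notes/R289/A6_281.md` sec. 3 (F1), (F2), sec. 5 (ii), (iii).      QUENCHED, MODEL FREE: a dart map `T`, fair colours on a finite set `A`, any background `ξ` (`Arm/Stop`), towers of annuli with blocking probability `q` (`Arm/Bxp`).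
sec. 1-5: NO planarity beyond `pvax_cr_inter`, NO strands: the exploration is ANY stopping set `S`, the selection of the trials is ANY `S`-measurable datum.      0 sorry.

* `PvafFail T m a o X b s`   the TRIAL `(a, o)` (a tower of `m` annuli) FAILS: each of the `m` annuli is crossed by a path of colour `b` through ALLOWED vertices (`X` = the unexplored vertices).      NOT fail = (FG) of A6_281.
* `pvafReg T m a o`          the vertices of the annuli of the trial
* sec. 1  `pvaf_fail_congr` (a trial reads the allowed vertices of its annuli only), `pvaf_fail_le` (`≤ (1-q)^m`), `pvaf_some_le` (one of `≤ N` trials fails: `≤ N (1-q)^m`)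
* sec. 2  **`pvaf_prod`** (F1, F2, (ii)): `S` stopping set, `K`, `X`, `Z x` (the trials selected in the block `x`, at most `N`) `S`-measurable, trials selected in different blocks of `I` read disjoint sets:
          `P(K, in every block of I some selected trial fails) ≤ (N (1-q)^m)^#I P(K)`
* sec. 3  `pvafMu A ξ` the law as a measure for the discrete sigma-field; **`pvaf_peierls`** = `pvag_peierls_frac` of 281 in the language `pvaP`
* sec. 4  **`pvaf_chain`** = sec. 2 + sec. 3: `P(K, some *-chain of k+1 blocks from Start has ≥ n blocks with a failing selected trial) ≤ #Start 8^k 2^(k+1) (N (1-q)^m)^(n/D²) P(K)`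
* sec. 5  **`pvaf_union`**, **`pvaf_main`** ((iii): union over the entrance darts `e`): `≤ #Start 8^k 2^(k+1) (N (1-q)^m)^(n/D²) E #{e : K e}`
* sec. 6  `pvaf_enter` (a position in `B` of a wall which leaves `B` lies on a chord; copy of 228's `pvnr_enter`)
* sec. 7  **L8** (PIN_273 sec. 6 = A6_281 v2 sec. 5 (o)), on `Tr/Strand` of helper64.   `B` a finite face set (`= C.Left`), chord of an entrance `e` = the strand up to the time `pvasTime T e Bᶜ s`;
          `PvafOn T s B e f` (the bank dart `f` is carried by the chord), `pvafBank`, **`pvafGam T B e s`** `= Γ(χ_e) = pvtLE (bank walk of the chord)`: ONE simple black path (`pvaf_gam_path`), a function of the explored chord (`pvaf_gam_meas`);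
          `PvafRim T s c` black rim;   `pvaf_on_exists` (every dart of the rim inside `B` is carried), `pvaf_on_conv` (the darts carried by one chord form an interval), `pvaf_on_gam`, `pvaf_on_infix` (an interval of carried darts is an INFIX of `Γ(χ_e)`),
          `pvaf_pieces` (model free pigeonhole), **`pvaf_L8`**: an arc `i..j` of a rim which leaves `B` contains a sub-arc on ONE chord, infix of `Γ(χ_e)`, with end points at distance `≥ |v_j - v_i| / K`
* sec. 8  SELECTION, model free (binding rule of 281, 09:40Z): `PvafMin In Far i j` minimal crossing (last visit -> first exit), `PvafFirst G i j τ` first good time, `pvafCrs`, `pvafSel`;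
          `pvaf_min_exists` (every passage contains a minimal crossing), `pvaf_min_disj`, `pvaf_sel_card`, `pvaf_sel_exists`
* sec. 9  **`pvafZ L blk box en J g Ok G b`** `= Zsel`: the admissible trials `(box, k)`, `k < g`, at the first good times of the minimal crossings of the list `L` (`= Γ(χ_e)`) from the block `b`; empty if there are more than `J` crossings;
          `pvaf_mem_Z`, `pvaf_Z_card` (`≤ J g`), **`pvaf_Z_exists`** (the (DI) side), `PvafOk` (admissible trial: tower, inside the region of the block, inside `A`), `pvaf_fail_compl`,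
          **`pvaf_hAB`** = THE QUENCHED FORM OF `hAB` of `pvtd_dense_ord`: `P(∃ e ∈ Ie, K e ∧ PvtdHalf Start k Bad_e) ≤ #Start 8^k 2^(k+1) (J g (1-q)^m)^((k+1)/2/D²) E #{e : K e}`, NO hypothesis on the selection
          (twin of `pvaa_hab_q` of helper237, `Arm/AdaptAB`, which is the statement of record)
* sec. 10 `pvafTB`, `pvafGamTr T tr`, **`pvaf_gam_tr`**: `Γ(χ_e)` is a function of the TRACE (time of the exit, stopped positions) `= pvaaTr` of 237: every selection built on `pvafGamTr` is a legal `Sel` of `Arm/AdaptAB`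
* sec. 11 (J): `pvaf_walk_cross`, **`pvaf_crs_disj`**, `pvaf_gam_black`, **`pvaf_gam_crs_disj`**: `k` minimal crossings of `Γ(χ_e)` give `PvbkDisj (fun _ => pvakW c' c) true k s` (`k` disjoint black crossings of the annulus round the block)
* sec. 12 `pvafZc L blk box en J Good b` the selected CENTRES (`pvaf_mem_Zc`, `pvaf_Zc_card ≤ J`, `pvaf_Zc_good`, `pvaf_mem_Z_Zc`), `pvaf_infix_get`, `pvaf_hsel_list`, **`pvaf_hsel`** = the hypothesis `hsel` of `pvaga_DI` (281, `Arm/GateA`):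
          a passage of a carried arc contains a minimal crossing `i < i'`; if the crossing has a good time it has a SELECTED good time
-/

set_option autoImplicit false
set_option linter.unusedSectionVars false
set_option linter.unusedVariables false

namespace Claimed.Agent.R289

open MeasureTheory

variable {V D : Type} [DecidableEq V] {T : PvMap V D}

/-! ## 0. definitions -/

/-- the trial (tower `a j`, `o j`, `j < m`) FAILS for the allowed set `X` and the colour `b` -/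
def PvafFail (T : PvMap V D) (m : ℕ) (a o : ℕ → T.Cyc) (X : Set V) (b : Bool) (s : V → Bool) : Prop :=
  ∀ j < m, PvaxCr T (a j) (o j) X b s

/-- the vertices of the annuli of a trial -/
def pvafReg (T : PvMap V D) (m : ℕ) (a o : ℕ → T.Cyc) : Set V := {v | ∃ j < m, v ∈ T.VOf ((a j).Ann (o j))}

theorem pvaf_eqns_cite : True := by
  have := @PvafFail.eq_1; have := @pvafReg.eq_1
  trivial

/-! ## 1. one trial, one block -/

/-- a trial reads the colours of the allowed vertices of its annuli only -/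
theorem pvaf_fail_congr (hT : T.IsSph) {m : ℕ} {a o : ℕ → T.Cyc} (hin : ∀ j < m, (a j).Inside (o j)) {X : Set V} {b : Bool} {s s' : V → Bool}
    (h : ∀ v ∈ X, v ∈ pvafReg T m a o → s' v = s v) : PvafFail T m a o X b s' ↔ PvafFail T m a o X b s := by
  unfold PvafFail
  refine forall_congr' fun j => forall_congr' fun hj => ?_
  rw [pvax_cr_inter hT (hin j hj), pvax_cr_inter hT (hin j hj) (s := s)]
  exact pvax_cr_congr fun v hv => h v hv.1 ⟨j, hj, hv.2⟩

theorem pvaf_fail_mono {m : ℕ} {a o : ℕ → T.Cyc} {X X' : Set V} (h : X ⊆ X') {b : Bool} {s : V → Bool} (hf : PvafFail T m a o X b s) :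
    PvafFail T m a o X' b s := fun j hj => pvax_cr_mono h (hf j hj)

/-- (F1) a trial through fresh vertices fails with probability at most `(1-q)^m` -/
theorem pvaf_fail_le (hT : T.IsSph) {m : ℕ} {a o : ℕ → T.Cyc} {q : ℝ} (h : PvaxTower T m a o q) (A : Finset V) (ξ : V → Bool) (b : Bool)
    {X : Set V} (hX : ∀ v ∈ X, v ∈ A) : pvaP A ξ (PvafFail T m a o X b) ≤ (1 - q) ^ m :=
  pvax_arm_le hT h A ξ b hX

/-- (F2) one of at most `N` trials fails -/
theorem pvaf_some_le (hT : T.IsSph) {ι : Type} {m N : ℕ} {q : ℝ} (hq : q ≤ 1) (a o : ι → ℕ → T.Cyc) (Z : Finset ι) (hZ : Z.card ≤ N)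
    (h : ∀ i ∈ Z, PvaxTower T m (a i) (o i) q) (A : Finset V) (ξ : V → Bool) (b : Bool) {X : Set V} (hX : ∀ v ∈ X, v ∈ A) :
    pvaP A ξ (fun s => ∃ i ∈ Z, PvafFail T m (a i) (o i) X b s) ≤ N * (1 - q) ^ m := by
  have h0 : (0 : ℝ) ≤ (1 - q) ^ m := pow_nonneg (by linarith) m
  calc pvaP A ξ (fun s => ∃ i ∈ Z, PvafFail T m (a i) (o i) X b s) ≤ ∑ i ∈ Z, pvaP A ξ (PvafFail T m (a i) (o i) X b) :=
        pva_P_exists_le A ξ Z _
    _ ≤ ∑ _i ∈ Z, (1 - q) ^ m := Finset.sum_le_sum fun i hi => pvaf_fail_le hT (h i hi) A ξ b hX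
    _ = Z.card * (1 - q) ^ m := by rw [Finset.sum_const, nsmul_eq_mul]
    _ ≤ N * (1 - q) ^ m := mul_le_mul_of_nonneg_right (by exact_mod_cast hZ) h0

/-! ## 2. the conditional product -/

/-- a configuration of the conditional problem agrees with `ω` on the explored set -/
theorem pvaf_cfg_seen {A : Finset V} {S : Finset V} {ω ω' : V → Bool} (h : PvaCfg (A \ S) ω ω') : ∀ v ∈ S, ω' v = ω v :=
  fun v hv => h v fun h' => (Finset.mem_sdiff.1 h').2 hv

/-- **THE FRESH STEP** ((F1), (F2), (ii) of A6_281).   `S` = the explored set (a stopping set), `K` = an explored event, `X ω` = allowed vertices (fresh), `Z x ω` = the trials selected in the block `x` (at most `N`);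
the trials selected in different blocks of `I` have disjoint vertex sets.   Then, given the exploration, the blocks fail independently, each with probability at most `N (1-q)^m`. -/
theorem pvaf_prod (hT : T.IsSph) {ι β : Type} [DecidableEq β] {m N : ℕ} {q : ℝ} (hq : q ≤ 1) (a o : ι → ℕ → T.Cyc)
    {S : (V → Bool) → Finset V} (hS : PvaStop S) {K : (V → Bool) → Prop} (hK : PvaMeas S K) {X : (V → Bool) → Set V} (hX : PvaMeas S X)
    (A : Finset V) (ξ : V → Bool) (b : Bool) (hXA : ∀ ω, ∀ v ∈ X ω, v ∈ A ∧ v ∉ S ω)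
    (I : Finset β) (Z : β → (V → Bool) → Finset ι) (hZ : ∀ x ∈ I, PvaMeas S (Z x))
    (hN : ∀ ω, PvaCfg A ξ ω → K ω → ∀ x ∈ I, (Z x ω).card ≤ N)
    (htow : ∀ ω, PvaCfg A ξ ω → K ω → ∀ x ∈ I, ∀ i ∈ Z x ω, PvaxTower T m (a i) (o i) q)
    (hdisj : ∀ ω, PvaCfg A ξ ω → K ω → ∀ x ∈ I, ∀ y ∈ I, x ≠ y → ∀ i ∈ Z x ω, ∀ i' ∈ Z y ω,
      Disjoint (pvafReg T m (a i) (o i)) (pvafReg T m (a i') (o i'))) :
    pvaP A ξ (fun ω => K ω ∧ ∀ x ∈ I, ∃ i ∈ Z x ω, PvafFail T m (a i) (o i) (X ω) b ω) ≤ (N * (1 - q) ^ m) ^ I.card * pvaP A ξ K := by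
  classical
  refine pva_smarkov_le_prod hS hK A ξ I
    (fun x ω => (A \ S ω).filter fun v => v ∈ X ω ∧ ∃ i ∈ Z x ω, v ∈ pvafReg T m (a i) (o i))
    (fun x ω => ∃ i ∈ Z x ω, PvafFail T m (a i) (o i) (X ω) b ω) ?_ ?_ ?_ ?_
  · intro ω _ _ x _
    exact Finset.filter_subset _ _
  · intro ω hω hk x hx y hy hxy
    rw [Finset.disjoint_left]
    intro v hv hv'
    obtain ⟨-, -, i, hi, hvi⟩ := Finset.mem_filter.1 hv
    obtain ⟨-, -, i', hi', hvi'⟩ := Finset.mem_filter.1 hv'
    exact Set.disjoint_left.1 (hdisj ω hω hk x hx y hy hxy i hi i' hi') hvi hvi'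
  · intro ω hω hk x hx ω₁ ω₂ h1 h2 h12
    have e1 : Z x ω₁ = Z x ω := hZ x hx ω ω₁ (pvaf_cfg_seen h1)
    have e2 : Z x ω₂ = Z x ω := hZ x hx ω ω₂ (pvaf_cfg_seen h2)
    have f1 : X ω₁ = X ω := hX ω ω₁ (pvaf_cfg_seen h1)
    have f2 : X ω₂ = X ω := hX ω ω₂ (pvaf_cfg_seen h2)
    simp only [e1, e2, f1, f2]
    refine propext (exists_congr fun i => and_congr_right fun hi => ?_)
    refine pvaf_fail_congr hT (fun j hj => (htow ω hω hk x hx i hi).ins j hj) fun v hv hvr => ?_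
    refine h12 v (Finset.mem_filter.2 ⟨Finset.mem_sdiff.2 (hXA ω v hv), hv, i, hi, hvr⟩)
  · intro ω hω hk x hx
    have hc : pvaP (A \ S ω) ω (fun ω' => ∃ i ∈ Z x ω', PvafFail T m (a i) (o i) (X ω') b ω')
        = pvaP (A \ S ω) ω (fun ω' => ∃ i ∈ Z x ω, PvafFail T m (a i) (o i) (X ω) b ω') := by
      refine pva_P_congr fun ω' h' => ?_
      rw [hZ x hx ω ω' (pvaf_cfg_seen h'), hX ω ω' (pvaf_cfg_seen h')]
    rw [hc]
    exact pvaf_some_le hT hq a o (Z x ω) (hN ω hω hk x hx) (htow ω hω hk x hx) _ _ b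
      fun v hv => Finset.mem_sdiff.2 (hXA ω v hv)

/-! ## 3. the law as a measure, Peierls in the language `pvaP` -/

/-- the law of the colouring (fair bits on `A`, background `ξ`) as a measure for the DISCRETE sigma-field: every set is measurable -/
noncomputable def pvafMu (A : Finset V) (ξ : V → Bool) : @Measure (V → Bool) ⊤ :=
  letI : MeasurableSpace (V → Bool) := ⊤
  ∑ ω ∈ pvaCfgs A ξ, ((2 : ENNReal) ^ A.card)⁻¹ • Measure.dirac ω

theorem pvaf_eqns_cite3 : True := by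
  have := @pvafMu.eq_1
  trivial

theorem pvaf_mu_apply (A : Finset V) (ξ : V → Bool) (U : Set (V → Bool)) :
    pvafMu A ξ U = ENNReal.ofReal (pvaP A ξ (fun ω => ω ∈ U)) := by
  classical
  let _ : MeasurableSpace (V → Bool) := ⊤
  have hm : MeasurableSet U := MeasurableSpace.measurableSet_top
  have h1 : pvafMu A ξ U = ∑ ω ∈ pvaCfgs A ξ, ((2 : ENNReal) ^ A.card)⁻¹ * (if ω ∈ U then 1 else 0) := by
    unfold pvafMu
    rw [Measure.finsetSum_apply]
    refine Finset.sum_congr rfl fun ω _ => ?_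
    rw [Measure.smul_apply, Measure.dirac_apply' _ hm, smul_eq_mul]
    simp only [Set.indicator_apply, Pi.one_apply]
  have h2 : pvaP A ξ (fun ω => ω ∈ U) = ∑ ω ∈ pvaCfgs A ξ, ((2 : ℝ) ^ A.card)⁻¹ * (if ω ∈ U then 1 else 0) := by
    unfold pvaP
    rw [pva_E_eq, div_eq_inv_mul, Finset.mul_sum]
  rw [h1, h2, ENNReal.ofReal_sum_of_nonneg]
  · refine Finset.sum_congr rfl fun ω _ => ?_
    have h3 : ENNReal.ofReal (((2 : ℝ) ^ A.card)⁻¹) = ((2 : ENNReal) ^ A.card)⁻¹ := by
      rw [ENNReal.ofReal_inv_of_pos (by positivity), ENNReal.ofReal_pow (by norm_num)]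
      norm_num
    by_cases h : ω ∈ U
    · rw [if_pos h, if_pos h, mul_one, mul_one, h3]
    · rw [if_neg h, if_neg h, mul_zero, mul_zero, ENNReal.ofReal_zero]
  · intro ω _
    split_ifs <;> positivity

/-- **PEIERLS WITH A FRACTION OF BAD BLOCKS, GIVEN AN AUXILIARY EVENT** = `pvag_peierls_frac` of helper281 for the quenched law `pvaP A ξ` -/
theorem pvaf_peierls (A : Finset V) (ξ : V → Bool) (Bad : ℤ × ℤ → (V → Bool) → Prop) (D : ℕ) (hD : 0 < D) (K : (V → Bool) → Prop)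
    (a q : ℝ) (ha : 0 ≤ a) (hq0 : 0 ≤ q) (hq1 : q ≤ 1)
    (hind : ∀ J : Finset (ℤ × ℤ), (∀ x ∈ J, ∀ y ∈ J, x ≠ y → (D : ℤ) ≤ pv5Dist x y) →
      pvaP A ξ (fun ω => K ω ∧ ∀ x ∈ J, Bad x ω) ≤ a * q ^ J.card)
    (Start : Finset (ℤ × ℤ)) (k n : ℕ) :
    pvaP A ξ (fun ω => K ω ∧ ∃ c, Pv5Chain k c ∧ c 0 ∈ Start ∧ ∃ U : Finset ℕ, (∀ i ∈ U, i ≤ k ∧ Bad (c i) ω) ∧ n ≤ U.card)
      ≤ (Start.card * 8 ^ k * 2 ^ (k + 1) : ℕ) * (a * q ^ (n / D ^ 2)) := by
  let _ : MeasurableSpace (V → Bool) := ⊤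
  have key := pvag_peierls_frac (pvafMu A ξ) (fun x => {ω | Bad x ω}) D hD {ω | K ω} (ENNReal.ofReal a) (ENNReal.ofReal q)
    (by rw [← ENNReal.ofReal_one]; exact ENNReal.ofReal_le_ofReal hq1)
    (by
      intro J hJ
      rw [pvaf_mu_apply, ← ENNReal.ofReal_pow hq0, ← ENNReal.ofReal_mul ha]
      refine ENNReal.ofReal_le_ofReal (le_trans (le_of_eq ?_) (hind J hJ))
      refine pva_P_congr fun ω _ => ?_
      simp only [Set.mem_inter_iff, Set.mem_ofPred_eq, Set.mem_iInter])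
    Start k n
  rw [pvaf_mu_apply, ← ENNReal.ofReal_pow hq0, ← ENNReal.ofReal_mul ha, ← ENNReal.ofReal_natCast, ← ENNReal.ofReal_mul (Nat.cast_nonneg _)] at key
  have hnn : (0 : ℝ) ≤ (Start.card * 8 ^ k * 2 ^ (k + 1) : ℕ) * (a * q ^ (n / D ^ 2)) :=
    mul_nonneg (Nat.cast_nonneg _) (mul_nonneg ha (pow_nonneg hq0 _))
  refine le_trans (le_of_eq ?_) ((ENNReal.ofReal_le_ofReal_iff hnn).1 key)
  refine pva_P_congr fun ω _ => ?_
  simp only [Set.mem_inter_iff, Set.mem_ofPred_eq]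

/-! ## 4. chains of blocks with failing trials, given the exploration -/

/-- **(ii) of A6_281**: `D`-separated blocks select trials with disjoint vertex sets.   Given the exploration, the probability that some simple `*`-chain of `k + 1` blocks from `Start` has at least `n` blocks in which a selected
trial fails is at most `#Start 8^k 2^(k+1) (N (1-q)^m)^⌊n/D²⌋`. -/
theorem pvaf_chain (hT : T.IsSph) {ι : Type} {m N : ℕ} {q : ℝ} (hq : q ≤ 1) (hp1 : N * (1 - q) ^ m ≤ 1) (a o : ι → ℕ → T.Cyc)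
    {S : (V → Bool) → Finset V} (hS : PvaStop S) {K : (V → Bool) → Prop} (hK : PvaMeas S K) {X : (V → Bool) → Set V} (hX : PvaMeas S X)
    (A : Finset V) (ξ : V → Bool) (b : Bool) (hXA : ∀ ω, ∀ v ∈ X ω, v ∈ A ∧ v ∉ S ω)
    (Z : ℤ × ℤ → (V → Bool) → Finset ι) (hZ : ∀ x, PvaMeas S (Z x))
    (hN : ∀ ω, PvaCfg A ξ ω → K ω → ∀ x, (Z x ω).card ≤ N)
    (htow : ∀ ω, PvaCfg A ξ ω → K ω → ∀ x, ∀ i ∈ Z x ω, PvaxTower T m (a i) (o i) q)
    (D : ℕ) (hD : 0 < D)
    (hdisj : ∀ ω, PvaCfg A ξ ω → K ω → ∀ x y, (D : ℤ) ≤ pv5Dist x y → ∀ i ∈ Z x ω, ∀ i' ∈ Z y ω,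
      Disjoint (pvafReg T m (a i) (o i)) (pvafReg T m (a i') (o i')))
    (Start : Finset (ℤ × ℤ)) (k n : ℕ) :
    pvaP A ξ (fun ω => K ω ∧ ∃ c, Pv5Chain k c ∧ c 0 ∈ Start ∧
        ∃ U : Finset ℕ, (∀ i ∈ U, i ≤ k ∧ ∃ t ∈ Z (c i) ω, PvafFail T m (a t) (o t) (X ω) b ω) ∧ n ≤ U.card)
      ≤ (Start.card * 8 ^ k * 2 ^ (k + 1) : ℕ) * (N * (1 - q) ^ m) ^ (n / D ^ 2) * pvaP A ξ K := by
  have h0 : (0 : ℝ) ≤ N * (1 - q) ^ m := mul_nonneg (Nat.cast_nonneg _) (pow_nonneg (by linarith) m)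
  have key := pvaf_peierls A ξ (fun x ω => ∃ t ∈ Z x ω, PvafFail T m (a t) (o t) (X ω) b ω) D hD K (pvaP A ξ K) (N * (1 - q) ^ m)
    (pva_P_nonneg _ _ _) h0 hp1
    (by
      intro J hJ
      rw [mul_comm]
      exact pvaf_prod hT hq a o hS hK hX A ξ b hXA J Z (fun x _ => hZ x) (fun ω hω hk x _ => hN ω hω hk x)
        (fun ω hω hk x _ => htow ω hω hk x) (fun ω hω hk x hx y hy hxy => hdisj ω hω hk x y (hJ x hx y hy hxy)))
    Start k n
  calc _ ≤ _ := key
    _ = _ := by ring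

/-! ## 5. union over the entrance darts -/

/-- **(iii) of A6_281**: a conditional bound `p` for every entrance `e` costs `p E #{e : K e}` -/
theorem pvaf_union {E : Type} (A : Finset V) (ξ : V → Bool) (Ie : Finset E) (K B : E → (V → Bool) → Prop) (p : ℝ)
    (h : ∀ e ∈ Ie, pvaP A ξ (fun ω => K e ω ∧ B e ω) ≤ p * pvaP A ξ (K e)) :
    pvaP A ξ (fun ω => ∃ e ∈ Ie, K e ω ∧ B e ω) ≤ p * ∑ e ∈ Ie, pvaP A ξ (K e) := by
  calc pvaP A ξ (fun ω => ∃ e ∈ Ie, K e ω ∧ B e ω) ≤ ∑ e ∈ Ie, pvaP A ξ (fun ω => K e ω ∧ B e ω) := pva_P_exists_le A ξ Ie _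
    _ ≤ ∑ e ∈ Ie, p * pvaP A ξ (K e) := Finset.sum_le_sum h
    _ = p * ∑ e ∈ Ie, pvaP A ξ (K e) := by rw [Finset.mul_sum]

open Classical in
/-- the sum of the probabilities is the mean number of entrances -/
theorem pvaf_sum_eq {E : Type} (A : Finset V) (ξ : V → Bool) (Ie : Finset E) (K : E → (V → Bool) → Prop) :
    ∑ e ∈ Ie, pvaP A ξ (K e) = pvaE A ξ (fun ω => ((Ie.filter fun e => K e ω).card : ℝ)) := by
  unfold pvaP
  rw [← pva_E_sum]
  refine pva_E_congr fun ω _ => ?_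
  rw [Finset.card_filter]
  push_cast
  rfl

open Classical in
/-- **EXIT OF G5** = (ii) + (iii) of A6_281.   For every entrance `e ∈ Ie`: a stopping set `S e` (the explored chord), an explored event `K e` (`e` is a first hit, the chord reaches the patch), the unexplored vertices `X e`,
the selected trials `Z e x` of the block `x`.   The probability that for SOME entrance some `*`-chain of `k + 1` blocks has `≥ n` blocks with a failing selected trial is at most
`#Start 8^k 2^(k+1) (N (1-q)^m)^⌊n/D²⌋ E #{e : K e}`. -/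
theorem pvaf_main (hT : T.IsSph) {ι E : Type} {m N : ℕ} {q : ℝ} (hq : q ≤ 1) (hp1 : N * (1 - q) ^ m ≤ 1) (a o : ι → ℕ → T.Cyc)
    (Ie : Finset E) {S : E → (V → Bool) → Finset V} (hS : ∀ e ∈ Ie, PvaStop (S e)) {K : E → (V → Bool) → Prop} (hK : ∀ e ∈ Ie, PvaMeas (S e) (K e))
    {X : E → (V → Bool) → Set V} (hX : ∀ e ∈ Ie, PvaMeas (S e) (X e))
    (A : Finset V) (ξ : V → Bool) (b : Bool) (hXA : ∀ e ∈ Ie, ∀ ω, ∀ v ∈ X e ω, v ∈ A ∧ v ∉ S e ω)
    (Z : E → ℤ × ℤ → (V → Bool) → Finset ι) (hZ : ∀ e ∈ Ie, ∀ x, PvaMeas (S e) (Z e x))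
    (hN : ∀ e ∈ Ie, ∀ ω, PvaCfg A ξ ω → K e ω → ∀ x, (Z e x ω).card ≤ N)
    (htow : ∀ e ∈ Ie, ∀ ω, PvaCfg A ξ ω → K e ω → ∀ x, ∀ i ∈ Z e x ω, PvaxTower T m (a i) (o i) q)
    (D : ℕ) (hD : 0 < D)
    (hdisj : ∀ e ∈ Ie, ∀ ω, PvaCfg A ξ ω → K e ω → ∀ x y, (D : ℤ) ≤ pv5Dist x y → ∀ i ∈ Z e x ω, ∀ i' ∈ Z e y ω,
      Disjoint (pvafReg T m (a i) (o i)) (pvafReg T m (a i') (o i')))
    (Start : Finset (ℤ × ℤ)) (k n : ℕ) :
    pvaP A ξ (fun ω => ∃ e ∈ Ie, K e ω ∧ ∃ c, Pv5Chain k c ∧ c 0 ∈ Start ∧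
        ∃ U : Finset ℕ, (∀ i ∈ U, i ≤ k ∧ ∃ t ∈ Z e (c i) ω, PvafFail T m (a t) (o t) (X e ω) b ω) ∧ n ≤ U.card)
      ≤ (Start.card * 8 ^ k * 2 ^ (k + 1) : ℕ) * (N * (1 - q) ^ m) ^ (n / D ^ 2) * pvaE A ξ (fun ω => ((Ie.filter fun e => K e ω).card : ℝ)) := by
  rw [← pvaf_sum_eq]
  exact pvaf_union A ξ Ie K _ _ fun e he =>
    pvaf_chain hT hq hp1 a o (hS e he) (hK e he) (hX e he) A ξ b (hXA e he) (Z e) (hZ e he) (hN e he) (htow e he) D hD (hdisj e he) Start k n

/-! ## 6. strands through a face of a wall which leaves a finite face set      (= `pvnr_wall_orbit`, `pvnr_leave`, `pvnr_enter` of helper228, `Arm/NearRet`; copied so that this file does not import `Arm/Ret`) -/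

section enter

open Relation

theorem pvaf_wall_not {s : V → Bool} {a b : D} : T.Wall (pvasNot s) a b ↔ T.Wall s a b := by
  constructor
  · exact fun h => ReflTransGen.mono (fun x y hxy => hxy.imp id fun h2 => ⟨pvas_occ_not.1 h2.1, h2.2⟩) a b h
  · exact fun h => ReflTransGen.mono (fun x y hxy => hxy.imp id fun h2 => ⟨pvas_occ_not.2 h2.1, h2.2⟩) a b h

/-- the occupied darts of the face of a position: the position itself and the opposite of the next position -/
theorem pvaf_face_occ {s : V → Bool} {q a : D} (hq : pvasBW T s q) (hf : T.SF q a) (ha : T.Occ s a) : a = q ∨ T.opp a = pvasStep T s q := by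
  rcases hf with rfl | rfl | rfl
  · exact Or.inl rfl
  · right
    have h1 : s (T.apex q) = true := by
      unfold PvMap.Occ at ha
      rw [T.src_nxt, T.tgt_nxt, hq.2] at ha
      cases h : s (T.apex q)
      · exact absurd h.symm ha
      · rfl
    rw [pvas_step_black h1]
  · right
    have h1 : s (T.apex q) = false := by
      unfold PvMap.Occ at ha
      rw [T.src_nxt2, T.tgt_nxt2, hq.1] at ha
      cases h : s (T.apex q)
      · rfl
      · exact absurd h ha
    rw [pvas_step_white h1]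

/-- a periodic strand visits all the faces of its wall -/
theorem pvaf_wall_orbit {s : V → Bool} {p : D} (hp : pvasBW T s p) {m : ℕ} (hm : 0 < m) (hper : pvasIt T s p m = p) {d : D} (h : T.Wall s p d) :
    ∃ k, T.SF (pvasIt T s p k) d := by
  induction h with
  | refl => exact ⟨0, T.sf_refl p⟩
  | @tail a b _ hab ih =>
    obtain ⟨k, hk⟩ := ih
    rcases hab with hab | ⟨hocc, rfl⟩
    · exact ⟨k, T.sf_trans hk hab⟩
    · rcases pvaf_face_occ (pvas_it_bw hp k) hk hocc with rfl | h2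
      · obtain ⟨j, hj⟩ : ∃ j, pvasIt T s p (j + 1) = pvasIt T s p k := by
          rcases Nat.eq_zero_or_pos k with rfl | hk0
          · exact ⟨m - 1, by rw [Nat.sub_add_cancel hm, hper]; rfl⟩
          · exact ⟨k - 1, by rw [Nat.sub_add_cancel hk0]⟩
        refine ⟨j, ?_⟩
        rw [← hj, pvas_it_succ]
        exact pvas_step_sf s _
      · exact ⟨k + 1, by rw [pvas_it_succ, ← h2]; exact T.sf_refl _⟩

/-- a strand of a wall which has a face outside the finite face set `B` leaves `B` -/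
theorem pvaf_leave {B : Set D} (hB : T.FaceSet B) (hfin : B.Finite) {s : V → Bool} {p g : D} (hp : pvasBW T s p) (hw : T.Wall s p g) (hg : g ∉ B) :
    ∃ n, pvasIt T s p n ∉ B := by
  by_contra hn
  have hall : ∀ n, pvasIt T s p n ∈ B := fun n => by
    by_contra hc
    exact hn ⟨n, hc⟩
  have hni : ¬ Function.Injective (fun n => pvasIt T s p n) := fun hinj => (Set.infinite_of_injective_forall_mem hinj hall) hfin
  obtain ⟨m, n, hmn, hlt⟩ : ∃ m n, pvasIt T s p m = pvasIt T s p n ∧ m < n := by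
    by_contra hc
    apply hni
    intro m n e
    rcases Nat.lt_trichotomy m n with hlt | heq | hlt
    · exact absurd ⟨m, n, e, hlt⟩ hc
    · exact heq
    · exact absurd ⟨n, m, e.symm, hlt⟩ hc
  have hper := pvas_it_return hp hlt.le hmn
  obtain ⟨k, hk⟩ := pvaf_wall_orbit hp (Nat.sub_pos_of_lt hlt) hper hw
  exact hg ((hB.sf T hk).2 (hall k))

/-- **the entrance**: a position in `B` of a wall which has a face outside `B` lies on the strand of an entrance of `B` -/
theorem pvaf_enter {B : Set D} (hB : T.FaceSet B) (hfin : B.Finite) {s : V → Bool} {p g : D} (hp : pvasBW T s p) (hpB : p ∈ B) (hw : T.Wall s p g) (hg : g ∉ B) :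
    ∃ x k, pvasIn T B s x ∧ pvasIt T s x k = p ∧ ∀ i, i ≤ k → pvasIt T s x i ∈ B := by
  classical
  have hq : pvasBW T (pvasNot s) (T.opp p) := pvas_bw_not.2 hp
  have hw' : T.Wall (pvasNot s) (T.opp p) g := by
    rw [pvaf_wall_not]
    exact pl_ra_wall_trans (pl_ra_wall_symm (pl_ra_wall_opp (pl_ra_wall_refl s _) (pvas_bw_occ hp))) hw
  have hex := pvaf_leave hB hfin hq hw' hg
  have hm := Nat.find_spec hex
  have hmin : ∀ j, j < Nat.find hex → pvasIt T (pvasNot s) (T.opp p) j ∈ B := fun j hj => not_not.1 (Nat.find_min hex hj)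
  set m := Nat.find hex with hmdef
  have hopp : ∀ j, j ≤ m → T.opp (pvasIt T (pvasNot s) (T.opp p) j) ∈ B := by
    intro j hj
    rcases Nat.eq_zero_or_pos j with rfl | hj0
    · rw [pvas_it_zero, T.opp_opp]; exact hpB
    · obtain ⟨l, rfl⟩ : ∃ l, j = l + 1 := ⟨j - 1, by omega⟩
      rw [pvas_it_succ, pvas_step_opp_mem hB]
      exact hmin l (by omega)
  have hrev : ∀ i, i ≤ m → pvasIt T s (T.opp (pvasIt T (pvasNot s) (T.opp p) m)) i = T.opp (pvasIt T (pvasNot s) (T.opp p) (m - i)) := by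
    intro i hi
    have := pvas_it_rev hq hi
    rwa [pvas_not_not] at this
  refine ⟨T.opp (pvasIt T (pvasNot s) (T.opp p) m), m, ⟨hopp m le_rfl, by rw [T.opp_opp]; exact hm, pvas_bw_not'.1 (pvas_it_bw hq m)⟩, ?_, ?_⟩
  · rw [hrev m le_rfl, Nat.sub_self, pvas_it_zero, T.opp_opp]
  · intro i hi
    rw [hrev i hi]
    exact hopp _ (Nat.sub_le _ _)

end enter

/-! ## 7. L8: the arcs of a rim on the chords of a finite face set -/

section chords

/-- the bank dart `f` is CARRIED by the chord of the entrance `e` of `B`: the position in the right triangle of `f` is a position of the chord before its exit -/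
def PvafOn (T : PvMap V D) (s : V → Bool) (B : Set D) (e f : D) : Prop := ∃ k, k < pvasTime T e Bᶜ s ∧ pvasIt T s e k = T.rotInv f

/-- the bank walk of the chord of `e` -/
noncomputable def pvafBank (T : PvMap V D) (B : Set D) (e : D) (s : V → Bool) : List D := pvtBank T s e (pvasTime T e Bᶜ s)

/-- `Γ(χ_e)` = the loop erasure of the bank walk of the chord of `e`: ONE simple black path, a function of the explored chord -/
noncomputable def pvafGam (T : PvMap V D) (B : Set D) (e : D) (s : V → Bool) : List D := pvtLE T (pvafBank T B e s)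

/-- black rim: a simple cycle of black vertices whose right triangles are tags of one wall -/
structure PvafRim (T : PvMap V D) (s : V → Bool) (c : T.Cyc) : Prop where
  tag : ∀ i, T.Tag s (T.opp (c.e i))
  wall : ∀ i, T.Wall s (T.opp (c.e 0)) (T.opp (c.e i))
  black : ∀ i, s (T.src (c.e i)) = true

theorem pvaf_eqns_cite7 : True := by
  have := @PvafOn.eq_1; have := @pvafBank.eq_1; have := @pvafGam.eq_1
  trivial

variable {s : V → Bool} {B : Set D}

/-- **MEASURABILITY**: the bank walk of the chord is a function of the explored chord -/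
theorem pvaf_bank_meas (hB : T.FaceSet B) (hfin : B.Finite) {e : D} (he : e ∈ B) (he' : T.opp e ∉ B) : PvaMeas (pvasExpl T e Bᶜ) (pvafBank T B e) := by
  intro ω ω' h
  have ht : pvasTime T e Bᶜ ω' = pvasTime T e Bᶜ ω :=
    pvas_time_meas e Bᶜ (fun s hs => pvas_exit_exists hB hfin ⟨he, he', hs⟩) ω ω' h
  unfold pvafBank
  rw [ht]
  exact pvt_s_bank_congr fun v hv => h v (pvas_mem_lay.2 hv)

theorem pvaf_gam_meas (hB : T.FaceSet B) (hfin : B.Finite) {e : D} (he : e ∈ B) (he' : T.opp e ∉ B) : PvaMeas (pvasExpl T e Bᶜ) (pvafGam T B e) :=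
  pva_meas_comp (pvaf_bank_meas hB hfin he he') (pvtLE T)

/-- the positions of a chord before its exit -/
theorem pvaf_time_spec (hB : T.FaceSet B) (hfin : B.Finite) {e : D} (he : pvasIn T B s e) :
    (∀ i, i < pvasTime T e Bᶜ s → pvasIt T s e i ∈ B) ∧ pvasIt T s e (pvasTime T e Bᶜ s) ∉ B := by
  rw [pvas_time_bw he.2.2]
  obtain ⟨-, h2, h3⟩ := pvas_exit_spec hB hfin he
  exact ⟨h2, h3.1⟩

/-- the positions of a chord are distinct -/
theorem pvaf_it_inj (hB : T.FaceSet B) (hfin : B.Finite) {e : D} (he : pvasIn T B s e) {i j : ℕ} (hi : i ≤ pvasTime T e Bᶜ s) (hj : j ≤ pvasTime T e Bᶜ s)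
    (h : pvasIt T s e i = pvasIt T s e j) : i = j := by
  have h1 := (pvaf_time_spec hB hfin he).1
  exact (pvas_disjoint hB he he (fun k hk => h1 k (by omega)) (fun k hk => h1 k (by omega)) (by rw [h]; exact T.sf_refl _)).2

theorem pvaf_apex_rotInv (f : D) : T.apex (T.rotInv f) = T.tgt f := by
  unfold PvMap.rotInv
  rw [T.apex_nxt, T.src_opp']

/-- a carried black dart belongs to the bank walk -/
theorem pvaf_on_bank {e f : D} (h : PvafOn T s B e f) (hf : s (T.tgt f) = true) : f ∈ pvafBank T B e s := by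
  obtain ⟨k, hk, e1⟩ := h
  exact pvt_s_bank_mem.2 ⟨k, hk, by rw [e1, pvaf_apex_rotInv]; exact hf, by rw [e1, T.rot_rotInv]⟩

theorem pvaf_bank_on {e f : D} (h : f ∈ pvafBank T B e s) : PvafOn T s B e f := by
  obtain ⟨k, hk, -, e1⟩ := pvt_s_bank_mem.1 h
  exact ⟨k, hk, by rw [e1, T.rotInv_rot]⟩

/-- the right triangle of a carried dart is a face of `B` -/
theorem pvaf_on_mem (hB : T.FaceSet B) (hfin : B.Finite) {e f : D} (he : pvasIn T B s e) (h : PvafOn T s B e f) : T.opp f ∈ B := by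
  obtain ⟨k, hk, e1⟩ := h
  have h1 := (pvaf_time_spec hB hfin he).1 k hk
  rw [e1] at h1
  exact (hB _).1 h1

theorem PvafRim.tgt_black {c : T.Cyc} (hP : PvafRim T s c) (i : ℕ) : s (T.tgt (c.e i)) = true := by
  rw [c.chain i]; exact hP.black (i + 1)

theorem PvafRim.bw {c : T.Cyc} (hP : PvafRim T s c) (i : ℕ) : pvasBW T s (T.rotInv (c.e i)) := pvt_s_rim_bw (hP.tag i) (hP.black i)

/-- **(1) every dart of the rim with its right triangle in `B` is carried by a chord**, as soon as the rim has a right triangle outside `B` -/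
theorem pvaf_on_exists (hB : T.FaceSet B) (hfin : B.Finite) {c : T.Cyc} (hP : PvafRim T s c) {t w : ℕ} (ht : T.opp (c.e t) ∈ B) (hw : T.opp (c.e w) ∉ B) :
    ∃ e, pvasIn T B s e ∧ PvafOn T s B e (c.e t) := by
  have hpB : T.rotInv (c.e t) ∈ B := (hB _).2 ht
  have hwall : T.Wall s (T.rotInv (c.e t)) (T.opp (c.e w)) :=
    pl_ra_wall_trans (pl_ra_wall_sf s (T.sf_symm (T.sf_nxt _))) (pl_ra_wall_trans (pl_ra_wall_symm (hP.wall t)) (hP.wall w))
  obtain ⟨x, k, hx, e1, h2⟩ := pvaf_enter hB hfin (hP.bw t) hpB hwall hw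
  refine ⟨x, hx, k, ?_, e1⟩
  by_contra hc
  exact (pvaf_time_spec hB hfin hx).2 (h2 _ (not_lt.1 hc))

/-- a piece of a chord: the bank darts of the piece are carried -/
theorem pvaf_piece_on {e : D} {k m : ℕ} (hkm : k + m ≤ pvasTime T e Bᶜ s) {f : D} (hf : f ∈ pvtBank T s (pvasIt T s e k) m) : PvafOn T s B e f := by
  obtain ⟨κ, hκ, -, e1⟩ := pvt_s_bank_mem.1 hf
  exact ⟨k + κ, by omega, by rw [pvas_it_add, e1, T.rotInv_rot]⟩

/-- **(2) the darts of the rim carried by ONE chord form an interval**: `w` = a dart of the rim beyond the arc whose right triangle is outside `B` -/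
theorem pvaf_on_conv (hT : T.IsSph) (hS : T.Simple) (hB : T.FaceSet B) (hfin : B.Finite) {c : T.Cyc} (hP : PvafRim T s c) {e : D} (he : pvasIn T B s e)
    {t t' u w : ℕ} (htu : t ≤ u) (hut : u ≤ t') (htw : t' < w) (hwn : w < t + c.n) (hw : T.opp (c.e w) ∉ B)
    (h : PvafOn T s B e (c.e t)) (h' : PvafOn T s B e (c.e t')) : PvafOn T s B e (c.e u) := by
  rcases Nat.eq_or_lt_of_le hut with rfl | hut'
  · exact h'
  have htt : t < t' := lt_of_le_of_lt htu hut'
  obtain ⟨k, hk, e1⟩ := h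
  obtain ⟨k', hk', e2⟩ := h'
  have hne : k ≠ k' := by
    rintro rfl
    have : c.e t = c.e t' := by
      have := e1.symm.trans e2
      have h3 := congrArg T.rot this
      rwa [T.rot_rotInv, T.rot_rotInv] at h3
    exact pvt_s_cyc_ne c htt (by omega) this.symm
  rcases Nat.lt_or_gt_of_ne hne with hlt | hlt
  · -- the chord goes from `t` to `t'`
    obtain ⟨m, rfl⟩ := Nat.exists_eq_add_of_lt hlt
    have hm : pvasIt T s (T.rotInv (c.e t)) (m + 1) = T.rotInv (c.e t') := by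
      rw [← e1, ← pvas_it_add, ← e2, Nat.add_assoc]
    have hmin : ∀ κ, 0 < κ → κ ≤ m + 1 → pvasIt T s (T.rotInv (c.e t)) κ ≠ T.rotInv (c.e t) := by
      intro κ h0 h1 h2
      rw [← e1, ← pvas_it_add] at h2
      have := pvaf_it_inj hB hfin he (by omega) (by omega) h2
      omega
    have harc := pvt_s_arc hT hS c hP.tag hP.wall hP.black htt (by omega) hm hmin
    have hmem : c.e u ∈ pvtLE T (pvtBank T s (T.rotInv (c.e t)) (m + 1)) := by
      rw [harc]
      exact List.mem_map.2 ⟨u, List.mem_range'_1.2 ⟨htu, by omega⟩, rfl⟩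
    have hb := (pvt_s_le_sub _).subset hmem
    rw [← e1] at hb
    exact pvaf_piece_on (by omega) hb
  · -- the chord would go from `t'` round the rest of the rim to `t`
    exfalso
    obtain ⟨m, rfl⟩ := Nat.exists_eq_add_of_lt hlt
    have hm : pvasIt T s (T.rotInv (c.e t')) (m + 1) = T.rotInv (c.e (t + c.n)) := by
      rw [c.per, ← e2, ← pvas_it_add, ← e1, Nat.add_assoc]
    have hmin : ∀ κ, 0 < κ → κ ≤ m + 1 → pvasIt T s (T.rotInv (c.e t')) κ ≠ T.rotInv (c.e t') := by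
      intro κ h0 h1 h2
      rw [← e2, ← pvas_it_add] at h2
      have := pvaf_it_inj hB hfin he (by omega) (by omega) h2
      omega
    have harc := pvt_s_arc hT hS c hP.tag hP.wall hP.black (i := t') (j := t + c.n) (by omega) (by omega) hm hmin
    have hmem : c.e w ∈ pvtLE T (pvtBank T s (T.rotInv (c.e t')) (m + 1)) := by
      rw [harc]
      exact List.mem_map.2 ⟨w, List.mem_range'_1.2 ⟨by omega, by omega⟩, rfl⟩
    have hb := (pvt_s_le_sub _).subset hmem
    rw [← e2] at hb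
    exact hw (pvaf_on_mem hB hfin he (pvaf_piece_on (by omega) hb))

/-- **(3a) a carried dart of a rim which leaves `B` survives the loop erasure** -/
theorem pvaf_on_gam (hT : T.IsSph) (hS : T.Simple) (hB : T.FaceSet B) (hfin : B.Finite) {c : T.Cyc} (hP : PvafRim T s c) {e : D} (he : pvasIn T B s e)
    {t w : ℕ} (hw : T.opp (c.e w) ∉ B) (h : PvafOn T s B e (c.e t)) : c.e t ∈ pvafGam T B e s := by
  refine pvt_s_keep hT hS (pvt_s_bank_walk e _) (fun f hf => pvt_s_bank_bk he.2.2 hf) (pvaf_on_bank h (hP.tgt_black t))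
    ((pvt_s_recog' hT c hP.tag hP.wall t (T.opp (c.e w))).2 ⟨w, rfl⟩) ?_
  rw [T.opp_opp]
  exact fun hc => hw (pvaf_on_mem hB hfin he (pvaf_bank_on hc))

/-- `Γ(χ_e)` is a simple path -/
theorem pvaf_gam_path (e : D) : pvtS T (pvafGam T B e s) (T.src e) (T.src (pvasIt T s e (pvasTime T e Bᶜ s))) :=
  pvt_s_le_path (pvt_s_bank_walk e _)

/-- the darts of `Γ(χ_e)` are carried black bank darts -/
theorem pvaf_gam_on {e f : D} (h : f ∈ pvafGam T B e s) : PvafOn T s B e f := pvaf_bank_on ((pvt_s_le_sub _).subset h)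

/-- consecutive darts which all belong to a simple path form a prefix of the rest of the path -/
theorem pvaf_prefix_aux {p : List D} {y : V} (hn : (p.map T.src ++ [y]).Nodup) (f : ℕ → D) (hch : ∀ k, T.tgt (f k) = T.src (f (k + 1))) :
    ∀ (r t : ℕ) (q : List D), q <:+ p → pvtW T q (T.src (f t)) y → (∀ k, t ≤ k → k < t + r → f k ∈ p) → (List.range' t r).map f <+: q := by
  intro r
  induction r with
  | zero => intro t q _ _ _; simp
  | succ r ih =>
    intro t q hq hw hmem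
    have hft : f t ∈ p := hmem t le_rfl (by omega)
    have hn1 : (p.map T.src).Nodup := (List.nodup_append.1 hn).1
    cases q with
    | nil =>
      exfalso
      have hy : T.src (f t) = y := hw
      have h1 : T.src (f t) ∈ p.map T.src := List.mem_map_of_mem hft
      exact (List.nodup_append.1 hn).2.2 _ h1 _ (List.mem_singleton.2 rfl) hy
    | cons g q' =>
      obtain ⟨h1, h2⟩ := pvt_s_w_cons.1 hw
      have hg : g ∈ p := hq.subset (List.mem_cons_self)
      have hgf : g = f t := List.inj_on_of_nodup_map hn1 hg hft h1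
      subst hgf
      rw [hch t] at h2
      have := ih (t + 1) q' ((List.suffix_cons _ _).trans hq) h2 (fun k hk1 hk2 => hmem k (by omega) (by omega))
      rw [List.range'_succ, List.map_cons]
      exact (List.prefix_cons_inj _).2 this

/-- **consecutive darts which all belong to a simple path form an infix of the path** -/
theorem pvaf_infix {p : List D} {x y : V} (hp : pvtS T p x y) (f : ℕ → D) (hch : ∀ k, T.tgt (f k) = T.src (f (k + 1))) (t r : ℕ)
    (hmem : ∀ k, t ≤ k → k < t + r → f k ∈ p) : (List.range' t r).map f <:+: p := by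
  rcases Nat.eq_zero_or_pos r with rfl | hr
  · simp
  have hn : (p.map T.src ++ [y]).Nodup := by rw [pvt_s_w_src hp.1]; exact hp.2
  obtain ⟨p1, p2, rfl⟩ := List.append_of_mem (hmem t le_rfl (by omega))
  obtain ⟨z, -, hz⟩ := pvt_s_w_append.1 hp.1
  have hz' : pvtW T (f t :: p2) (T.src (f t)) y := by
    obtain ⟨h1, h2⟩ := pvt_s_w_cons.1 hz
    exact pvt_s_w_cons.2 ⟨rfl, h2⟩
  have := pvaf_prefix_aux hn f hch r t (f t :: p2) (List.suffix_append _ _) hz' hmem
  exact this.isInfix.trans (List.suffix_append _ _).isInfix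

/-- **(3) an interval of carried darts of a rim which leaves `B` is an infix of `Γ(χ_e)`** -/
theorem pvaf_on_infix (hT : T.IsSph) (hS : T.Simple) (hB : T.FaceSet B) (hfin : B.Finite) {c : T.Cyc} (hP : PvafRim T s c) {e : D} (he : pvasIn T B s e)
    {t1 t2 w : ℕ} (hw : T.opp (c.e w) ∉ B) (h : ∀ u, t1 ≤ u → u < t2 → PvafOn T s B e (c.e u)) :
    (List.range' t1 (t2 - t1)).map c.e <:+: pvafGam T B e s :=
  pvaf_infix (pvaf_gam_path e) c.e c.chain t1 (t2 - t1) fun k h1 h2 => pvaf_on_gam hT hS hB hfin hP he hw (h k h1 (by omega))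

/-- **PIGEONHOLE FOR PIECES** (model free): a path `i..j` whose steps are coloured by at most `K` colours, every colour class an interval, contains a monochromatic piece whose end points are at distance `≥ d i j / K` -/
theorem pvaf_pieces {E : Type} [DecidableEq E] (On : E → ℕ → Prop) (d : ℕ → ℕ → ℝ) (dnn : ∀ a b, 0 ≤ d a b) (dtri : ∀ a b c, d a c ≤ d a b + d b c)
    (i₀ j : ℕ) (hconv : ∀ e t t' u, i₀ ≤ t → t ≤ u → u ≤ t' → t' < j → On e t → On e t' → On e u) :
    ∀ (K : ℕ) (F : Finset E), F.card ≤ K → ∀ i, i₀ ≤ i → i < j → (∀ t, i ≤ t → t < j → ∃ e ∈ F, On e t) →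
      ∃ e ∈ F, ∃ t1 t2, i ≤ t1 ∧ t1 < t2 ∧ t2 ≤ j ∧ (∀ u, t1 ≤ u → u < t2 → On e u) ∧ d i j ≤ K * d t1 t2 := by
  classical
  intro K
  induction K with
  | zero =>
    intro F hF i _ hij hcol
    obtain ⟨e, he, -⟩ := hcol i le_rfl hij
    rw [Finset.card_eq_zero.1 (Nat.le_zero.1 hF)] at he
    exact absurd he (Finset.notMem_empty e)
  | succ K ih =>
    intro F hF i hi0 hij hcol
    obtain ⟨e, he, hei⟩ := hcol i le_rfl hij
    -- the last step of colour `e`
    have hex : ∃ t, t < j ∧ i ≤ t ∧ On e t := ⟨i, hij, le_rfl, hei⟩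
    obtain ⟨tm, ⟨htj, hit, hOn⟩, hmax⟩ : ∃ tm, (tm < j ∧ i ≤ tm ∧ On e tm) ∧ ∀ t, (t < j ∧ i ≤ t ∧ On e t) → t ≤ tm := by
      refine ⟨Nat.findGreatest (fun t => t < j ∧ i ≤ t ∧ On e t) j, ?_, fun t ht => Nat.le_findGreatest ht.1.le ht⟩
      exact Nat.findGreatest_spec (P := fun t => t < j ∧ i ≤ t ∧ On e t) hij.le ⟨hij, le_rfl, hei⟩
    have hrun : ∀ u, i ≤ u → u < tm + 1 → On e u := fun u h1 h2 => hconv e i tm u hi0 h1 (by omega) htj hei hOn
    by_cases hfirst : d i j ≤ ((K + 1 : ℕ) : ℝ) * d i (tm + 1)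
    · exact ⟨e, he, i, tm + 1, le_rfl, by omega, by omega, hrun, hfirst⟩
    have hlt : tm + 1 < j := by
      rcases Nat.lt_or_ge (tm + 1) j with h | h
      · exact h
      · exfalso
        have : tm + 1 = j := by omega
        apply hfirst
        rw [this]
        have h1 : (1 : ℝ) ≤ ((K + 1 : ℕ) : ℝ) := by exact_mod_cast Nat.succ_le_succ (Nat.zero_le K)
        nlinarith [dnn i j]
    obtain ⟨e', he', t1, t2, h1, h2, h3, h4, h5⟩ := ih (F.erase e) (by rw [Finset.card_erase_of_mem he]; omega) (tm + 1) (by omega) hlt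
      (by
        intro t ht1 ht2
        obtain ⟨e', he', hOn'⟩ := hcol t (by omega) ht2
        refine ⟨e', Finset.mem_erase.2 ⟨?_, he'⟩, hOn'⟩
        rintro rfl
        have := hmax t ⟨ht2, by omega, hOn'⟩
        omega)
    refine ⟨e', Finset.mem_of_mem_erase he', t1, t2, by omega, h2, h3, h4, ?_⟩
    have h6 := dtri i (tm + 1) j
    have h7 := not_le.1 hfirst
    push_cast at h7 ⊢
    have hK : (0 : ℝ) ≤ K := Nat.cast_nonneg K
    rcases Nat.eq_zero_or_pos K with rfl | hKpos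
    · exfalso
      simp only [Nat.cast_zero, zero_mul, zero_add, one_mul] at h5 h7
      linarith
    · have hK' : (0 : ℝ) < K := by exact_mod_cast hKpos
      have h8 : (K : ℝ) * d i j ≤ K * ((K + 1) * d t1 t2) := by nlinarith
      exact le_of_mul_le_mul_left h8 hK'

/-- **L8** (PIN_273 sec. 6, A6_281 v2 sec. 5 (o)).   `c` a black rim, `i..j` an arc of `c` whose right triangles are faces of the finite face set `B`, `w` a dart beyond the arc whose right triangle is outside `B`;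
`F` a finite set of at most `K` entrances which contains every entrance whose chord carries a dart of the arc.   Then some chord `e ∈ F` carries a sub-arc `t1..t2` whose end points are at distance `≥ |v_j - v_i| / K`,
and this sub-arc is an INFIX of the simple path `Γ(χ_e)`. -/
theorem pvaf_L8 (hT : T.IsSph) (hS : T.Simple) (hB : T.FaceSet B) (hfin : B.Finite) {c : T.Cyc} (hP : PvafRim T s c) {i j w : ℕ} (hij : i < j) (hjw : j ≤ w)
    (hwn : w < i + c.n) (hin : ∀ t, i ≤ t → t < j → T.opp (c.e t) ∈ B) (hw : T.opp (c.e w) ∉ B) (pos : V → ℂ) [DecidableEq D] (F : Finset D) (K : ℕ) (hK : F.card ≤ K)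
    (hF : ∀ e t, pvasIn T B s e → i ≤ t → t < j → PvafOn T s B e (c.e t) → e ∈ F) :
    ∃ e ∈ F, pvasIn T B s e ∧ ∃ t1 t2, i ≤ t1 ∧ t1 < t2 ∧ t2 ≤ j ∧ (∀ u, t1 ≤ u → u < t2 → PvafOn T s B e (c.e u)) ∧
      (List.range' t1 (t2 - t1)).map c.e <:+: pvafGam T B e s ∧
      ‖pos (T.src (c.e j)) - pos (T.src (c.e i))‖ ≤ K * ‖pos (T.src (c.e t2)) - pos (T.src (c.e t1))‖ := by
  obtain ⟨e, he, t1, t2, h1, h2, h3, h4, h5⟩ := pvaf_pieces (fun e t => pvasIn T B s e ∧ PvafOn T s B e (c.e t))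
    (fun a b => ‖pos (T.src (c.e b)) - pos (T.src (c.e a))‖) (fun _ _ => norm_nonneg _)
    (fun a b c' => by
      have := norm_add_le (pos (T.src (c.e c')) - pos (T.src (c.e b))) (pos (T.src (c.e b)) - pos (T.src (c.e a)))
      rw [sub_add_sub_cancel] at this
      linarith)
    i j
    (fun e t t' u h0 h1 h2 h3 h4 h5 => ⟨h4.1, pvaf_on_conv hT hS hB hfin hP h4.1 h1 h2 (by omega) (by omega) hw h4.2 h5.2⟩)
    K F hK i le_rfl hij
    (fun t ht1 ht2 => by
      obtain ⟨e, he, hon⟩ := pvaf_on_exists hB hfin hP (hin t ht1 ht2) hw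
      exact ⟨e, hF e t he ht1 ht2 hon, he, hon⟩)
  have hin' : pvasIn T B s e := (h4 t1 le_rfl h2).1
  exact ⟨e, he, hin', t1, t2, h1, h2, h3, fun u hu1 hu2 => (h4 u hu1 hu2).2,
    pvaf_on_infix hT hS hB hfin hP hin' hw (fun u hu1 hu2 => (h4 u hu1 hu2).2), h5⟩

end chords

/-! ## 8. MINIMAL CROSSINGS, FIRST GOOD TIMES (model free) -/

section select

/-- `(i, j)` is a MINIMAL CROSSING: `In i` (last visit of the block), `Far j` (first exit of the enlargement), nothing in between -/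
def PvafMin (In Far : ℕ → Prop) (i j : ℕ) : Prop := i < j ∧ In i ∧ Far j ∧ ∀ t, i < t → t < j → ¬ In t ∧ ¬ Far t

/-- `τ` is the FIRST GOOD TIME of the crossing `(i, j)` -/
def PvafFirst (G : ℕ → ℕ → ℕ → Prop) (i j τ : ℕ) : Prop := i ≤ τ ∧ τ ≤ j ∧ G i j τ ∧ ∀ t, i ≤ t → t < τ → ¬ G i j t

open Classical in
/-- the starting times of the minimal crossings before the time `n` -/
noncomputable def pvafCrs (n : ℕ) (In Far : ℕ → Prop) : Finset ℕ := (Finset.range n).filter fun i => ∃ j, j < n ∧ PvafMin In Far i j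

open Classical in
/-- the selected times: the first good time of each minimal crossing which has one -/
noncomputable def pvafSel (n : ℕ) (In Far : ℕ → Prop) (G : ℕ → ℕ → ℕ → Prop) : Finset ℕ :=
  (Finset.range n).filter fun τ => ∃ i j, j < n ∧ PvafMin In Far i j ∧ PvafFirst G i j τ

theorem pvaf_eqns_cite8 : True := by
  have := @PvafMin.eq_1; have := @PvafFirst.eq_1; have := @pvafCrs.eq_1; have := @pvafSel.eq_1
  trivial

variable {In Far : ℕ → Prop} {G : ℕ → ℕ → ℕ → Prop}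

/-- **every passage contains a minimal crossing** -/
theorem pvaf_min_exists (hne : ∀ t, In t → ¬ Far t) {j j' : ℕ} (hjj : j ≤ j') (hj : In j) (hj' : Far j') :
    ∃ i i', j ≤ i ∧ i' ≤ j' ∧ PvafMin In Far i i' := by
  classical
  have hex : ∃ t, j ≤ t ∧ Far t := ⟨j', hjj, hj'⟩
  have h1 : j ≤ Nat.find hex ∧ Far (Nat.find hex) := Nat.find_spec hex
  have h2 : ∀ t, t < Nat.find hex → ¬ (j ≤ t ∧ Far t) := fun t ht => Nat.find_min hex ht
  have h3 : Nat.find hex ≤ j' := Nat.find_min' hex ⟨hjj, hj'⟩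
  generalize Nat.find hex = i' at h1 h2 h3
  have hji : j < i' := lt_of_le_of_ne h1.1 (fun h => hne j hj (h ▸ h1.2))
  have h4 : j ≤ Nat.findGreatest (fun t => j ≤ t ∧ In t) i' ∧ In (Nat.findGreatest (fun t => j ≤ t ∧ In t) i') :=
    Nat.findGreatest_spec (P := fun t => j ≤ t ∧ In t) hji.le ⟨le_rfl, hj⟩
  have h5 : Nat.findGreatest (fun t => j ≤ t ∧ In t) i' ≤ i' := Nat.findGreatest_le i'
  have h7 : ∀ t, Nat.findGreatest (fun t => j ≤ t ∧ In t) i' < t → t ≤ i' → ¬ (j ≤ t ∧ In t) :=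
    fun t ht ht' => Nat.findGreatest_is_greatest (P := fun t => j ≤ t ∧ In t) ht ht'
  generalize Nat.findGreatest (fun t => j ≤ t ∧ In t) i' = i at h4 h5 h7
  have h6 : i < i' := lt_of_le_of_ne h5 (fun h => hne i h4.2 (h ▸ h1.2))
  exact ⟨i, i', h4.1, h3, h6, h4.2, h1.2, fun t ht ht' =>
    ⟨fun hIn => h7 t ht ht'.le ⟨h4.1.trans ht.le, hIn⟩, fun hF => h2 t ht' ⟨h4.1.trans ht.le, hF⟩⟩⟩

/-- **two minimal crossings are disjoint** -/
theorem pvaf_min_disj (hne : ∀ t, In t → ¬ Far t) {i₁ j₁ i₂ j₂ : ℕ} (h₁ : PvafMin In Far i₁ j₁) (h₂ : PvafMin In Far i₂ j₂) (h : i₁ < i₂) : j₁ < i₂ := by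
  by_contra hc
  rcases (not_lt.1 hc).lt_or_eq with h' | h'
  · exact (h₁.2.2.2 i₂ h h').1 h₂.2.1
  · exact hne i₂ h₂.2.1 (h' ▸ h₁.2.2.1)

theorem pvaf_min_right {i j₁ j₂ : ℕ} (h₁ : PvafMin In Far i j₁) (h₂ : PvafMin In Far i j₂) : j₁ = j₂ := by
  rcases lt_trichotomy j₁ j₂ with h | h | h
  · exact absurd h₁.2.2.1 (h₂.2.2.2 j₁ h₁.1 h).2
  · exact h
  · exact absurd h₂.2.2.1 (h₁.2.2.2 j₂ h₂.1 h).2

theorem pvaf_first_unique {i j τ₁ τ₂ : ℕ} (h₁ : PvafFirst G i j τ₁) (h₂ : PvafFirst G i j τ₂) : τ₁ = τ₂ := by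
  rcases lt_trichotomy τ₁ τ₂ with h | h | h
  · exact absurd h₁.2.2.1 (h₂.2.2.2 τ₁ h₁.1 h)
  · exact h
  · exact absurd h₂.2.2.1 (h₁.2.2.2 τ₂ h₂.1 h)

theorem pvaf_first_exists {i j t : ℕ} (h1 : i ≤ t) (h2 : t ≤ j) (h : G i j t) : ∃ τ, τ ≤ t ∧ PvafFirst G i j τ := by
  classical
  have hex : ∃ t, i ≤ t ∧ G i j t := ⟨t, h1, h⟩
  refine ⟨Nat.find hex, Nat.find_min' hex ⟨h1, h⟩, (Nat.find_spec hex).1, (Nat.find_min' hex ⟨h1, h⟩).trans h2, (Nat.find_spec hex).2, fun u hu hu' hG => Nat.find_min hex hu' ⟨hu, hG⟩⟩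

theorem pvaf_mem_crs {n i : ℕ} : i ∈ pvafCrs n In Far ↔ ∃ j, j < n ∧ PvafMin In Far i j := by
  classical
  unfold pvafCrs
  rw [Finset.mem_filter, Finset.mem_range]
  exact ⟨fun h => h.2, fun h => ⟨by obtain ⟨j, hj, hm⟩ := h; exact hm.1.trans hj, h⟩⟩

theorem pvaf_mem_sel {n τ : ℕ} : τ ∈ pvafSel n In Far G ↔ ∃ i j, j < n ∧ PvafMin In Far i j ∧ PvafFirst G i j τ := by
  classical
  unfold pvafSel
  rw [Finset.mem_filter, Finset.mem_range]
  exact ⟨fun h => h.2, fun h => ⟨by obtain ⟨i, j, hj, hm, hf⟩ := h; exact lt_of_le_of_lt hf.2.1 hj, h⟩⟩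

/-- at most one selected time for each minimal crossing -/
theorem pvaf_sel_card (n : ℕ) (In Far : ℕ → Prop) (G : ℕ → ℕ → ℕ → Prop) : (pvafSel n In Far G).card ≤ (pvafCrs n In Far).card := by
  classical
  have hmem : ∀ τ ∈ pvafSel n In Far G, ∃ i, ∃ j, j < n ∧ PvafMin In Far i j ∧ PvafFirst G i j τ := fun τ h => pvaf_mem_sel.1 h
  choose! f hf using hmem
  refine Finset.card_le_card_of_injOn f ?_ ?_
  · intro τ hτ
    obtain ⟨j, hj, hm, -⟩ := hf τ hτ
    exact pvaf_mem_crs.2 ⟨j, hj, hm⟩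
  · intro τ₁ h₁ τ₂ h₂ he
    obtain ⟨j₁, -, hm₁, hf₁⟩ := hf τ₁ h₁
    obtain ⟨j₂, -, hm₂, hf₂⟩ := hf τ₂ h₂
    rw [he] at hm₁ hf₁
    have := pvaf_min_right hm₁ hm₂
    subst this
    exact pvaf_first_unique hf₁ hf₂

/-- **every passage all of whose minimal crossings have a good time contains a selected time** -/
theorem pvaf_sel_exists (hne : ∀ t, In t → ¬ Far t) {n j j' : ℕ} (hjj : j ≤ j') (hn : j' < n) (hj : In j) (hj' : Far j')
    (hG : ∀ i i', j ≤ i → i' ≤ j' → PvafMin In Far i i' → ∃ t, i ≤ t ∧ t ≤ i' ∧ G i i' t) :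
    ∃ τ ∈ pvafSel n In Far G, j ≤ τ ∧ τ ≤ j' ∧ ∃ i i', j ≤ i ∧ i' ≤ j' ∧ PvafMin In Far i i' ∧ PvafFirst G i i' τ := by
  obtain ⟨i, i', h1, h2, hm⟩ := pvaf_min_exists hne hjj hj hj'
  obtain ⟨t, ht1, ht2, hg⟩ := hG i i' h1 h2 hm
  obtain ⟨τ, -, hf⟩ := pvaf_first_exists ht1 ht2 hg
  exact ⟨τ, pvaf_mem_sel.2 ⟨i, i', lt_of_le_of_lt h2 hn, hm, hf⟩, h1.trans hf.1, hf.2.1.trans h2, i, i', h1, h2, hm, hf⟩

end select

/-! ## 9. THE SELECTION `Zsel` ON `Γ(χ_e)` AND THE QUENCHED FORM OF `hAB` -/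

section zsel

variable {α κ : Type}

/-- the `t`-th element of the list lies in the block `b` -/
def PvafIn (L : List α) (blk : α → ℤ × ℤ) (b : ℤ × ℤ) (t : ℕ) : Prop := ∃ d, L[t]? = some d ∧ blk d = b

/-- the `t`-th element of the list lies in a block at sup-distance `≥ en` of `b` -/
def PvafFar (L : List α) (blk : α → ℤ × ℤ) (en : ℕ) (b : ℤ × ℤ) (t : ℕ) : Prop := ∃ d, L[t]? = some d ∧ (en : ℤ) ≤ pv5Dist b (blk d)

/-- the trial `i` is ADMISSIBLE for the block `b` (a property of the map, not of the colours): a tower with blocking constant `q`, inside the region of the block and inside the set of the fair colours -/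
def PvafOk (T : PvMap V D) {ι : Type} (m : ℕ) (q : ℝ) (a o : ι → ℕ → T.Cyc) (A : Finset V) (Rg : ℤ × ℤ → Set V) (b : ℤ × ℤ) (i : ι) : Prop :=
  PvaxTower T m (a i) (o i) q ∧ pvafReg T m (a i) (o i) ⊆ Rg b ∧ ∀ v ∈ pvafReg T m (a i) (o i), v ∈ A

open Classical in
/-- **`Zsel`**: the admissible trials `(box, k)`, `k < g`, at the boxes of the list at the first good times of its minimal crossings from `b` to the outside of the `en`-enlargement of `b`;   nothing if there are more than `J` crossings -/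
noncomputable def pvafZ (L : List α) (blk : α → ℤ × ℤ) (box : α → κ) (en J g : ℕ) (Ok : κ × ℕ → Prop) (G : ℕ → ℕ → ℕ → Prop) (b : ℤ × ℤ) : Finset (κ × ℕ) :=
  if (pvafCrs L.length (PvafIn L blk b) (PvafFar L blk en b)).card ≤ J then
    (((pvafSel L.length (PvafIn L blk b) (PvafFar L blk en b) G).biUnion fun τ => ((L[τ]?).map box).toFinset) ×ˢ Finset.range g).filter Ok
  else ∅

theorem pvaf_eqns_cite9 : True := by
  have := @PvafIn.eq_1; have := @PvafFar.eq_1; have := @PvafOk.eq_1; have := @pvafZ.eq_1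
  trivial

theorem pvaf_in_not_far {L : List α} {blk : α → ℤ × ℤ} {en : ℕ} (hen : 0 < en) {b : ℤ × ℤ} (t : ℕ) (h : PvafIn L blk b t) : ¬ PvafFar L blk en b t := by
  rintro ⟨d', hd', hf⟩
  obtain ⟨d, hd, hb⟩ := h
  rw [hd] at hd'
  obtain rfl := Option.some.inj hd'
  rw [hb, pv5_dist_self] at hf
  exact absurd hf (by exact_mod_cast hen.ne' ∘ (fun h => le_antisymm h (Nat.zero_le _)))

theorem pvaf_mem_Z {L : List α} {blk : α → ℤ × ℤ} {box : α → κ} {en J g : ℕ} {Ok : κ × ℕ → Prop} {G : ℕ → ℕ → ℕ → Prop} {b : ℤ × ℤ} {z : κ} {k : ℕ} :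
    (z, k) ∈ pvafZ L blk box en J g Ok G b ↔ (pvafCrs L.length (PvafIn L blk b) (PvafFar L blk en b)).card ≤ J ∧
      (∃ τ ∈ pvafSel L.length (PvafIn L blk b) (PvafFar L blk en b) G, ∃ d, L[τ]? = some d ∧ box d = z) ∧ k < g ∧ Ok (z, k) := by
  classical
  unfold pvafZ
  split_ifs with h
  · simp only [Finset.mem_filter, Finset.mem_product, Finset.mem_biUnion, Option.mem_toFinset, Option.mem_def, Option.map_eq_some_iff, Finset.mem_range]
    tauto
  · simp [h]

theorem pvaf_Z_card (L : List α) (blk : α → ℤ × ℤ) (box : α → κ) (en J g : ℕ) (Ok : κ × ℕ → Prop) (G : ℕ → ℕ → ℕ → Prop) (b : ℤ × ℤ) :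
    (pvafZ L blk box en J g Ok G b).card ≤ J * g := by
  classical
  unfold pvafZ
  split_ifs with h
  · refine (Finset.card_filter_le _ _).trans ?_
    rw [Finset.card_product, Finset.card_range]
    refine Nat.mul_le_mul_right g (le_trans ?_ ((pvaf_sel_card _ _ _ G).trans h))
    refine Finset.card_biUnion_le.trans ?_
    calc ∑ τ ∈ pvafSel L.length (PvafIn L blk b) (PvafFar L blk en b) G, ((L[τ]?).map box).toFinset.card
        ≤ ∑ τ ∈ pvafSel L.length (PvafIn L blk b) (PvafFar L blk en b) G, 1 := Finset.sum_le_sum fun τ _ => by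
          cases (L[τ]?).map box <;> simp
      _ = _ := by simp
  · simp

/-- **(DI) side of the selection**: a passage `j ≤ j'` of the list from the block `b` to the outside of its enlargement;  at most `J` minimal crossings;  every minimal crossing inside the passage has a good time;  the trials at
the boxes of the crossing are admissible.   Then the passage contains a time `τ`, the FIRST good time of a minimal crossing, all of whose `g` trials are selected. -/
theorem pvaf_Z_exists {L : List α} {blk : α → ℤ × ℤ} {box : α → κ} {en J g : ℕ} (hen : 0 < en) {Ok : κ × ℕ → Prop} {G : ℕ → ℕ → ℕ → Prop} {b : ℤ × ℤ}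
    (hJ : (pvafCrs L.length (PvafIn L blk b) (PvafFar L blk en b)).card ≤ J) {j j' : ℕ} (hjj : j ≤ j') (hj : PvafIn L blk b j) (hj' : PvafFar L blk en b j')
    (hG : ∀ i i', j ≤ i → i' ≤ j' → PvafMin (PvafIn L blk b) (PvafFar L blk en b) i i' → ∃ t, i ≤ t ∧ t ≤ i' ∧ G i i' t)
    (hOk : ∀ i i' τ d, j ≤ i → i' ≤ j' → PvafMin (PvafIn L blk b) (PvafFar L blk en b) i i' → i ≤ τ → τ ≤ i' → L[τ]? = some d → ∀ k < g, Ok (box d, k)) :
    ∃ τ d, j ≤ τ ∧ τ ≤ j' ∧ L[τ]? = some d ∧ (∃ i i', j ≤ i ∧ i' ≤ j' ∧ PvafMin (PvafIn L blk b) (PvafFar L blk en b) i i' ∧ PvafFirst G i i' τ) ∧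
      ∀ k < g, (box d, k) ∈ pvafZ L blk box en J g Ok G b := by
  have hn : j' < L.length := by
    obtain ⟨d, hd, -⟩ := hj'
    exact (List.getElem?_eq_some_iff.1 hd).1
  obtain ⟨τ, hτ, h1, h2, i, i', h3, h4, hm, hf⟩ := pvaf_sel_exists (pvaf_in_not_far hen) hjj hn hj hj' hG
  have hτn : τ < L.length := lt_of_le_of_lt h2 hn
  refine ⟨τ, L[τ], h1, h2, List.getElem?_eq_getElem hτn, ⟨i, i', h3, h4, hm, hf⟩, fun k hk => pvaf_mem_Z.2 ⟨hJ, ⟨τ, hτ, L[τ], List.getElem?_eq_getElem hτn, rfl⟩, hk, ?_⟩⟩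
  exact hOk i i' τ L[τ] h3 h4 hm hf.1 hf.2.1 (List.getElem?_eq_getElem hτn) k hk

/-- for a trial inside the set of the fair colours: `unexplored` = `fair and unexplored` -/
theorem pvaf_fail_compl (hT : T.IsSph) {m : ℕ} {a o : ℕ → T.Cyc} (hin : ∀ j < m, (a j).Inside (o j)) {A S : Finset V} (hA : ∀ v ∈ pvafReg T m a o, v ∈ A)
    {b : Bool} {s : V → Bool} : PvafFail T m a o (↑S)ᶜ b s ↔ PvafFail T m a o {v | v ∈ A ∧ v ∉ S} b s := by
  refine ⟨fun h j hj => ?_, fun h => pvaf_fail_mono (fun v hv => hv.2) h⟩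
  exact pvax_cr_mono (X' := {v | v ∈ A ∧ v ∉ S}) (fun v hv => ⟨hA v ⟨j, hj, hv.2⟩, hv.1⟩) ((pvax_cr_inter hT (hin j hj)).1 (h j hj))

open Classical in
/-- **THE QUENCHED FORM OF `hAB`** (pens of 281, 09:40Z).   `B` a finite face set, `Ie` entrances of `B`, `K e` an explored event, `G e` the explored-measurable notion of good time;   `Lam_e = pvafGam T B e ω`;
`Bad_e b := ∃ t ∈ Zsel e b`, the trial `t` fails through the UNEXPLORED vertices.      The event in the bound is `∃ e ∈ Ie, K e ∧ PvtdHalf Start k Bad_e` (`Tr/Dense`, unfolded). -/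
theorem pvaf_hAB (hT : T.IsSph) {B : Set D} (hB : T.FaceSet B) (hfin : B.Finite) {m J g : ℕ} {q : ℝ} (hq : q ≤ 1) (hp1 : ((J * g : ℕ) : ℝ) * (1 - q) ^ m ≤ 1)
    (a o : κ × ℕ → ℕ → T.Cyc) (A : Finset V) (ξ : V → Bool) (Rg : ℤ × ℤ → Set V) (Dd : ℕ) (hD : 0 < Dd) (hRg : ∀ x y, (Dd : ℤ) ≤ pv5Dist x y → Disjoint (Rg x) (Rg y))
    (blk : D → ℤ × ℤ) (box : D → κ) (en : ℕ) (Ie : Finset D) (hIe : ∀ e ∈ Ie, e ∈ B ∧ T.opp e ∉ B)
    (K : D → (V → Bool) → Prop) (hK : ∀ e ∈ Ie, PvaMeas (pvasExpl T e Bᶜ) (K e))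
    (G : D → (V → Bool) → ℤ × ℤ → ℕ → ℕ → ℕ → Prop) (hG : ∀ e ∈ Ie, PvaMeas (pvasExpl T e Bᶜ) (G e)) (Start : Finset (ℤ × ℤ)) (k : ℕ) :
    pvaP A ξ (fun ω => ∃ e ∈ Ie, K e ω ∧ ∃ c, Pv5Chain k c ∧ c 0 ∈ Start ∧ ∃ I ⊆ Finset.range (k + 1), (k + 1) / 2 ≤ I.card ∧ ∀ i ∈ I,
        ∃ t ∈ pvafZ (pvafGam T B e ω) blk box en J g (PvafOk T m q a o A Rg (c i)) (G e ω (c i)) (c i),
          PvafFail T m (a t) (o t) (↑(pvasExpl T e Bᶜ ω))ᶜ true ω)
      ≤ (Start.card * 8 ^ k * 2 ^ (k + 1) : ℕ) * (((J * g : ℕ) : ℝ) * (1 - q) ^ m) ^ ((k + 1) / 2 / Dd ^ 2) *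
        pvaE A ξ (fun ω => ((Ie.filter fun e => K e ω).card : ℝ)) := by
  have hok : ∀ e ω x, ∀ t ∈ pvafZ (pvafGam T B e ω) blk box en J g (PvafOk T m q a o A Rg x) (G e ω x) x, PvafOk T m q a o A Rg x t := by
    rintro e ω x ⟨z, n⟩ ht
    exact (pvaf_mem_Z.1 ht).2.2.2
  have hstop : ∀ e ∈ Ie, PvaStop (pvasExpl T e Bᶜ) := fun e he => pvas_expl_stop_in hB hfin (hIe e he).1 (hIe e he).2 subset_rfl
  refine le_trans (pva_P_mono ?_) (pvaf_main hT hq hp1 a o Ie (S := fun e => pvasExpl T e Bᶜ) hstop hK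
    (X := fun e ω => {v | v ∈ A ∧ v ∉ pvasExpl T e Bᶜ ω}) (fun e he => pva_meas_comp (hstop e he) fun S => {v | v ∈ A ∧ v ∉ S}) A ξ true
    (fun e _ ω v hv => hv)
    (fun e x ω => pvafZ (pvafGam T B e ω) blk box en J g (PvafOk T m q a o A Rg x) (G e ω x) x)
    (fun e he x => pva_meas_map2 (pvaf_gam_meas hB hfin (hIe e he).1 (hIe e he).2) (hG e he)
      fun L G' => pvafZ L blk box en J g (PvafOk T m q a o A Rg x) (G' x) x)
    (fun e _ ω _ _ x => pvaf_Z_card _ _ _ _ _ _ _ _ _)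
    (fun e _ ω _ _ x i hi => (hok e ω x i hi).1) Dd hD
    (fun e _ ω _ _ x y hxy i hi i' hi' => (hRg x y hxy).mono (hok e ω x i hi).2.1 (hok e ω y i' hi').2.1) Start k ((k + 1) / 2))
  rintro ω - ⟨e, he, hKe, c, hc, hc0, I, hI, hcard, hbad⟩
  refine ⟨e, he, hKe, c, hc, hc0, I, fun i hi => ⟨Nat.lt_succ_iff.1 (Finset.mem_range.1 (hI hi)), ?_⟩, hcard⟩
  obtain ⟨t, ht, hf⟩ := hbad i hi
  have h := hok e ω (c i) t ht
  exact ⟨t, ht, (pvaf_fail_compl hT h.1.ins h.2.2).1 hf⟩

end zsel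

open Relation

/-! ## 10. `Γ(χ_e)` AS A FUNCTION OF THE TRACE (time of the exit, stopped positions) -/

section trace

open Classical in
/-- the bank walk read off a sequence of positions `l k, …, l (k + n)`: the apex of `l i` is black iff the next position is `opp (nxt (l i))` -/
noncomputable def pvafTB (T : PvMap V D) (l : ℕ → D) : ℕ → ℕ → List D
  | _, 0 => []
  | k, n + 1 => if l (k + 1) = T.opp (T.nxt (l k)) then T.rot (l k) :: pvafTB T l (k + 1) n else pvafTB T l (k + 1) n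

/-- `Γ` read off the trace -/
noncomputable def pvafGamTr (T : PvMap V D) (tr : ℕ × (ℕ → D)) : List D := pvtLE T (pvafTB T tr.2 0 tr.1)

theorem pvaf_eqns_cite10 : True := by
  have := @pvafTB.eq_1; have := @pvafGamTr.eq_1
  trivial

theorem pvaf_step_black_iff (s : V → Bool) (d : D) : pvasStep T s d = T.opp (T.nxt d) ↔ s (T.apex d) = true := by
  unfold pvasStep
  split_ifs with h
  · exact ⟨fun _ => h, fun _ => rfl⟩
  · refine ⟨fun h' => ?_, fun h' => absurd h' h⟩
    have h1 : T.nxt (T.nxt d) = T.nxt d := by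
      have := congrArg T.opp h'
      rwa [T.opp_opp, T.opp_opp] at this
    exact absurd h1 (T.nxt_ne_self _)

theorem pvaf_tb_eq (s : V → Bool) (e : D) (l : ℕ → D) (N : ℕ) (hl : ∀ i, i ≤ N → l i = pvasIt T s e i) :
    ∀ n k, k + n ≤ N → pvafTB T l k n = pvtBank T s (pvasIt T s e k) n := by
  intro n
  induction n with
  | zero => intro k _; rfl
  | succ n ih =>
    intro k hk
    have h1 : l (k + 1) = pvasStep T s (pvasIt T s e k) := by
      rw [hl (k + 1) (by omega)]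
      unfold pvasIt
      rw [Function.iterate_succ_apply']
    have h2 : pvasStep T s (pvasIt T s e k) = pvasIt T s e (k + 1) := by
      unfold pvasIt
      rw [Function.iterate_succ_apply']
    rw [pvafTB, pvtBank, h1, hl k (by omega), ih (k + 1) (by omega), h2]
    by_cases hb : s (T.apex (pvasIt T s e k)) = true
    · rw [if_pos hb, if_pos (by rw [← h2]; exact (pvaf_step_black_iff s _).2 hb)]
    · rw [if_neg hb, if_neg (by rw [← h2]; exact fun h => hb ((pvaf_step_black_iff s _).1 h))]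

/-- **`Γ(χ_e)` is a function of the trace of the chord** (`= pvaaTr T B e s` of helper237, `Arm/AdaptAB`) -/
theorem pvaf_gam_tr (B : Set D) (e : D) (s : V → Bool) :
    pvafGam T B e s = pvafGamTr T (pvasTime T e Bᶜ s, fun i => pvasIt T s e (min i (pvasTime T e Bᶜ s))) := by
  unfold pvafGam pvafGamTr pvafBank
  congr 1
  exact (pvaf_tb_eq s e _ (pvasTime T e Bᶜ s) (fun i hi => by simp only [min_eq_left hi]) (pvasTime T e Bᶜ s) 0 (by omega)).symm

end trace

/-! ## 11. (J): the minimal crossings of a simple black path are pairwise disjoint black crossings of an annulus round the block -/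

section jbad

/-- a walk from the closed inner disc to a vertex which is not interior to the outer disc contains a crossing of the closed annulus -/
theorem pvaf_walk_cross (hT : T.IsSph) {c' c : T.Cyc} (h : c'.Inside c) {Y : Set V} {u w : V} (hu : u ∈ T.VOf c'.Left) (huY : u ∈ Y) (hw : w ∉ T.Int c.Left)
    (hp : ReflTransGen (fun x y => T.Adj x y ∧ y ∈ Y) u w) : ∃ u₁ ∈ c'.verts, ∃ w₁ ∈ c.verts, T.Join (c'.Ann c) Y u₁ w₁ := by
  by_contra hG
  have key : ∀ v, ReflTransGen (fun x y => T.Adj x y ∧ y ∈ Y) u v →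
      v ∈ T.Int c'.Left ∨ (v ∈ T.Int c.Left ∧ ∃ u₁ ∈ c'.verts, T.Join (c'.Ann c) Y u₁ v) := by
    intro v hv
    induction hv with
    | refl =>
      rw [pl_VOf_left hT c'] at hu
      rcases hu with hu | hu
      · exact Or.inr ⟨h.1 hu, u, hu, huY, ReflTransGen.refl⟩
      · exact Or.inl hu
    | @tail v v' _ hstep ih =>
      obtain ⟨⟨d, rfl, rfl⟩, hv'Y⟩ := hstep
      have hin : T.tgt d ∈ T.VOf c'.Left →
          T.tgt d ∈ T.Int c'.Left ∨ (T.tgt d ∈ T.Int c.Left ∧ ∃ u₁ ∈ c'.verts, T.Join (c'.Ann c) Y u₁ (T.tgt d)) := by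
        intro h'
        rw [pl_VOf_left hT c'] at h'
        rcases h' with h' | h'
        · exact Or.inr ⟨h.1 h', _, h', hv'Y, ReflTransGen.refl⟩
        · exact Or.inl h'
      rcases ih with ih | ⟨ih1, u₁, hu₁, hj⟩
      · exact hin (pl_int_edge hT c' ih).2.2
      · obtain ⟨e1, e2, e3⟩ := pl_int_edge hT c ih1
        by_cases hboth : d ∈ c'.Left ∧ T.opp d ∈ c'.Left
        · exact hin ⟨T.opp d, hboth.2, T.src_opp' d⟩
        · have hedge : T.EdgeIn (c'.Ann c) (T.src d) (T.tgt d) := by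
            refine ⟨d, ?_, rfl, rfl⟩
            by_cases hd : d ∈ c'.Left
            · exact Or.inr ⟨e2, fun h => hboth ⟨hd, h⟩⟩
            · exact Or.inl ⟨e1, hd⟩
          have hj' : T.Join (c'.Ann c) Y u₁ (T.tgt d) := ⟨hj.1, hj.2.tail ⟨hedge, hv'Y⟩⟩
          rw [pl_VOf_left hT c] at e3
          rcases e3 with e3 | e3
          · exact absurd ⟨u₁, hu₁, _, e3, hj'⟩ hG
          · exact Or.inr ⟨e3, u₁, hu₁, hj'⟩
  rcases key w hp with h' | ⟨h', -⟩
  · exact hw ((pl_nested_vert hT c c' h.2).2 h')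
  · exact hw h'

/-- **(J)**: `L` a simple black path, `c'` inside `c`, the sources of the darts of the block `b` lie in the closed disc of `c'`, the sources of the far darts are not interior to the disc of `c`.
Then `k` minimal crossings of `L` give `k` pairwise disjoint black crossings of the closed annulus (cost `(1-q)^k`: `pvak_cross_pow`). -/
theorem pvaf_crs_disj (hT : T.IsSph) {c' c : T.Cyc} (h : c'.Inside c) {L : List D} {x y : V} (hL : pvtS T L x y) {s : V → Bool} (hblack : ∀ d ∈ L, s (T.src d) = true)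
    (blk : D → ℤ × ℤ) {en : ℕ} (hen : 0 < en) (b : ℤ × ℤ) (hin : ∀ d ∈ L, blk d = b → T.src d ∈ T.VOf c'.Left)
    (hfar : ∀ d ∈ L, (en : ℤ) ≤ pv5Dist b (blk d) → T.src d ∉ T.Int c.Left) {k : ℕ}
    (hk : k ≤ (pvafCrs L.length (PvafIn L blk b) (PvafFar L blk en b)).card) : PvbkDisj (fun _ => pvakW c' c) true k s := by
  classical
  rcases Nat.eq_zero_or_pos k with rfl | hk0
  · exact ⟨fun _ => ∅, fun i hi => absurd hi (Nat.not_lt_zero _), fun i hi => absurd hi (Nat.not_lt_zero _)⟩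
  obtain ⟨g, hg, hginj⟩ := pvak_pick (S := (↑(pvafCrs L.length (PvafIn L blk b) (PvafFar L blk en b)) : Set ℕ)) (k := k) (by rwa [Set.ncard_coe_finset])
  have hmem : ∀ i : Fin k, ∃ j, j < L.length ∧ PvafMin (PvafIn L blk b) (PvafFar L blk en b) (g i) j := fun i => pvaf_mem_crs.1 (hg i)
  choose jj hjn hmin using hmem
  have hpos : 0 < L.length := lt_of_le_of_lt (Nat.zero_le _) (hjn ⟨0, hk0⟩)
  set a₀ : D := L[0] with ha₀
  set v : ℕ → V := fun t => T.src (L.getD t a₀) with hv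
  have hgetD : ∀ t d, L[t]? = some d → L.getD t a₀ = d := by
    intro t d hd
    rw [List.getD_eq_getElem?_getD, hd]; rfl
  have hmemL : ∀ t, t < L.length → L.getD t a₀ ∈ L := by
    intro t ht
    rw [List.getD_eq_getElem _ _ ht]; exact List.getElem_mem ht
  have hnd : (L.map T.src).Nodup := by
    have : (L.map T.src ++ [y]).Nodup := by rw [pvt_s_w_src hL.1]; exact hL.2
    exact (List.nodup_append.1 this).1
  have hvinj : ∀ t₁ t₂, t₁ < L.length → t₂ < L.length → v t₁ = v t₂ → t₁ = t₂ := by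
    intro t₁ t₂ h₁ h₂ he
    have h₁' : t₁ < (L.map T.src).length := by rwa [List.length_map]
    have h₂' : t₂ < (L.map T.src).length := by rwa [List.length_map]
    refine (List.Nodup.getElem_inj_iff hnd (hi := h₁') (hj := h₂')).1 ?_
    rw [List.getElem_map, List.getElem_map]
    simpa only [hv, List.getD_eq_getElem _ _ h₁, List.getD_eq_getElem _ _ h₂] using he
  set F : Fin k → Finset V := fun i => (Finset.Icc (g i) (jj i)).image v with hF
  refine ⟨fun n => if hn : n < k then F ⟨n, hn⟩ else ∅, fun n hn => ?_, fun n hn n' hn' hne => ?_⟩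
  · simp only [dif_pos hn]
    set i : Fin k := ⟨n, hn⟩ with hi
    obtain ⟨hlt, ⟨d₁, hd₁, hb₁⟩, ⟨d₂, hd₂, hb₂⟩, -⟩ := hmin i
    refine ⟨?_, ?_⟩
    · -- the crossing
      have hwalk : ∀ t, g i ≤ t → t ≤ jj i → ReflTransGen (fun x y => T.Adj x y ∧ y ∈ (↑(F i) : Set V)) (v (g i)) (v t) := by
        intro t ht
        induction t, ht using Nat.le_induction with
        | base => intro _; exact ReflTransGen.refl
        | succ t ht ih =>
          intro ht'
          refine (ih (by omega)).tail ⟨⟨L.getD t a₀, rfl, ?_⟩, ?_⟩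
          · exact pvt_s_w_getD hL.1 a₀ (lt_of_le_of_lt ht' (hjn i))
          · exact Finset.mem_coe.2 (Finset.mem_image.2 ⟨t + 1, Finset.mem_Icc.2 ⟨by omega, ht'⟩, rfl⟩)
      have h1 : v (g i) ∈ T.VOf c'.Left := by
        have := hin d₁ (List.mem_of_getElem? hd₁) hb₁
        simpa only [hv, hgetD _ _ hd₁] using this
      have h2 : v (jj i) ∉ T.Int c.Left := by
        have := hfar d₂ (List.mem_of_getElem? hd₂) hb₂
        simpa only [hv, hgetD _ _ hd₂] using this
      have h3 : v (g i) ∈ (↑(F i) : Set V) := Finset.mem_coe.2 (Finset.mem_image.2 ⟨g i, Finset.mem_Icc.2 ⟨le_rfl, hlt.le⟩, rfl⟩)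
      exact pvaf_walk_cross hT h h1 h3 h2 (hwalk (jj i) hlt.le le_rfl)
    · intro w hw
      obtain ⟨t, ht, rfl⟩ := Finset.mem_image.1 hw
      exact hblack _ (hmemL t (lt_of_le_of_lt (Finset.mem_Icc.1 ht).2 (hjn i)))
  · simp only [dif_pos hn, dif_pos hn']
    rw [Finset.disjoint_left]
    intro w hw hw'
    obtain ⟨t, ht, rfl⟩ := Finset.mem_image.1 hw
    obtain ⟨t', ht', he⟩ := Finset.mem_image.1 hw'
    rw [Finset.mem_Icc] at ht ht'
    have htt : t' = t := hvinj t' t (lt_of_le_of_lt ht'.2 (hjn _)) (lt_of_le_of_lt ht.2 (hjn _)) he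
    subst htt
    have hgne : g ⟨n, hn⟩ ≠ g ⟨n', hn'⟩ := fun he => hne (by simpa using hginj he)
    rcases lt_or_gt_of_ne hgne with hlt | hlt
    · have := pvaf_min_disj (pvaf_in_not_far hen) (hmin ⟨n, hn⟩) (hmin ⟨n', hn'⟩) hlt
      omega
    · have := pvaf_min_disj (pvaf_in_not_far hen) (hmin ⟨n', hn'⟩) (hmin ⟨n, hn⟩) hlt
      omega

/-- the vertices of `Γ(χ_e)` are black -/
theorem pvaf_gam_black {B : Set D} {e : D} {s : V → Bool} {d : D} (hd : d ∈ pvafGam T B e s) : s (T.src d) = true := by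
  have hb : d ∈ pvafBank T B e s := (pvt_s_le_sub _).subset hd
  by_cases he : pvasBW T s e
  · exact pvas_layB_black he (pvt_s_bank_src hb)
  · exfalso
    unfold pvafBank pvasTime at hb
    rw [if_neg he, pvt_s_bank_zero] at hb
    exact List.not_mem_nil hb

/-- **(J) for `Γ(χ_e)`** -/
theorem pvaf_gam_crs_disj (hT : T.IsSph) {c' c : T.Cyc} (h : c'.Inside c) (B : Set D) (e : D) (s : V → Bool)
    (blk : D → ℤ × ℤ) {en : ℕ} (hen : 0 < en) (b : ℤ × ℤ) (hin : ∀ d ∈ pvafGam T B e s, blk d = b → T.src d ∈ T.VOf c'.Left)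
    (hfar : ∀ d ∈ pvafGam T B e s, (en : ℤ) ≤ pv5Dist b (blk d) → T.src d ∉ T.Int c.Left) {k : ℕ}
    (hk : k ≤ (pvafCrs (pvafGam T B e s).length (PvafIn (pvafGam T B e s) blk b) (PvafFar (pvafGam T B e s) blk en b)).card) :
    PvbkDisj (fun _ => pvakW c' c) true k s :=
  pvaf_crs_disj hT h (pvaf_gam_path e) (fun _ hd => pvaf_gam_black hd) blk hen b hin hfar hk

end jbad

/-! ## 12. `hsel` of `pvaga_DI` (`Arm/GateA`, helper281): a minimal crossing which has a good time has a SELECTED good time -/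

section hsel

variable {α κ : Type}

/-- the good times of a list for a notion of good box -/
def PvafGd (L : List α) (box : α → κ) (Good : κ → Prop) (_ _ τ : ℕ) : Prop := ∃ d, L[τ]? = some d ∧ Good (box d)

open Classical in
/-- **the selected centres** `Zc`: the boxes of the list at the first good times of its minimal crossings from the block `b`;   nothing if there are more than `J` crossings -/
noncomputable def pvafZc (L : List α) (blk : α → ℤ × ℤ) (box : α → κ) (en J : ℕ) (Good : κ → Prop) (b : ℤ × ℤ) : Finset κ :=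
  if (pvafCrs L.length (PvafIn L blk b) (PvafFar L blk en b)).card ≤ J then
    (pvafSel L.length (PvafIn L blk b) (PvafFar L blk en b) (PvafGd L box Good)).biUnion fun τ => ((L[τ]?).map box).toFinset
  else ∅

theorem pvaf_eqns_cite12 : True := by
  have := @PvafGd.eq_1; have := @pvafZc.eq_1
  trivial

theorem pvaf_mem_Zc {L : List α} {blk : α → ℤ × ℤ} {box : α → κ} {en J : ℕ} {Good : κ → Prop} {b : ℤ × ℤ} {z : κ} :
    z ∈ pvafZc L blk box en J Good b ↔ (pvafCrs L.length (PvafIn L blk b) (PvafFar L blk en b)).card ≤ J ∧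
      ∃ τ ∈ pvafSel L.length (PvafIn L blk b) (PvafFar L blk en b) (PvafGd L box Good), ∃ d, L[τ]? = some d ∧ box d = z := by
  classical
  unfold pvafZc
  split_ifs with h
  · simp only [Finset.mem_biUnion, Option.mem_toFinset, Option.mem_def, Option.map_eq_some_iff]
    tauto
  · simp [h]

theorem pvaf_Zc_card (L : List α) (blk : α → ℤ × ℤ) (box : α → κ) (en J : ℕ) (Good : κ → Prop) (b : ℤ × ℤ) : (pvafZc L blk box en J Good b).card ≤ J := by
  classical
  unfold pvafZc
  split_ifs with h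
  · refine le_trans ?_ ((pvaf_sel_card _ _ _ (PvafGd L box Good)).trans h)
    refine Finset.card_biUnion_le.trans ?_
    calc ∑ τ ∈ pvafSel L.length (PvafIn L blk b) (PvafFar L blk en b) (PvafGd L box Good), ((L[τ]?).map box).toFinset.card
        ≤ ∑ τ ∈ pvafSel L.length (PvafIn L blk b) (PvafFar L blk en b) (PvafGd L box Good), 1 := Finset.sum_le_sum fun τ _ => by
          cases (L[τ]?).map box <;> simp
      _ = _ := by simp
  · simp

/-- the selected centres are good -/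
theorem pvaf_Zc_good {L : List α} {blk : α → ℤ × ℤ} {box : α → κ} {en J : ℕ} {Good : κ → Prop} {b : ℤ × ℤ} {z : κ} (h : z ∈ pvafZc L blk box en J Good b) : Good z := by
  obtain ⟨-, τ, hτ, d, hd, rfl⟩ := pvaf_mem_Zc.1 h
  obtain ⟨i, j, -, -, hf⟩ := pvaf_mem_sel.1 hτ
  obtain ⟨d', hd', hg⟩ := hf.2.2.1
  rw [hd] at hd'
  obtain rfl := Option.some.inj hd'
  exact hg

/-- `Zsel` of sec. 9 = (selected centres) × (trials), filtered -/
theorem pvaf_mem_Z_Zc {L : List α} {blk : α → ℤ × ℤ} {box : α → κ} {en J g : ℕ} {Ok : κ × ℕ → Prop} {Good : κ → Prop} {b : ℤ × ℤ} {z : κ} {k : ℕ} :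
    (z, k) ∈ pvafZ L blk box en J g Ok (PvafGd L box Good) b ↔ z ∈ pvafZc L blk box en J Good b ∧ k < g ∧ Ok (z, k) := by
  rw [pvaf_mem_Z, pvaf_mem_Zc]
  tauto

/-- an infix, in coordinates -/
theorem pvaf_infix_get {L : List α} {f : ℕ → α} {t n : ℕ} (h : (List.range' t n).map f <:+: L) : ∃ k₀, ∀ u, u < n → L[k₀ + u]? = some (f (t + u)) := by
  obtain ⟨p, q, rfl⟩ := h
  refine ⟨p.length, fun u hu => ?_⟩
  have h1 : p.length + u < (p ++ (List.range' t n).map f).length := by simp; exact hu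
  rw [List.getElem?_append_left h1, List.getElem?_append_right (Nat.le_add_right _ _), Nat.add_sub_cancel_left, List.getElem?_map, List.getElem?_range' hu]
  simp

/-- **`hsel`, model free**.   `f t, …, f (t + n - 1)` is an infix of the list `L`;  `j ≤ j'` a passage of this infix from the block `b` to the outside of its enlargement;  `L` has at most `J` minimal crossings.
Then the passage contains a minimal crossing `i < i'`, and if the crossing has a good time, it has a SELECTED good time. -/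
theorem pvaf_hsel_list {L : List α} {f : ℕ → α} {t n : ℕ} (hinf : (List.range' t n).map f <:+: L) (blk : α → ℤ × ℤ) (box : α → κ) {en J : ℕ} (hen : 0 < en) (Good : κ → Prop)
    {b : ℤ × ℤ} (hJ : (pvafCrs L.length (PvafIn L blk b) (PvafFar L blk en b)).card ≤ J) {j j' : ℕ} (h1 : t ≤ j) (hjj : j ≤ j') (h2 : j' < t + n)
    (hj : blk (f j) = b) (hj' : (en : ℤ) ≤ pv5Dist b (blk (f j'))) :
    ∃ i i', j ≤ i ∧ i < i' ∧ i' ≤ j' ∧ blk (f i) = b ∧ (en : ℤ) ≤ pv5Dist b (blk (f i')) ∧ (∀ u, i < u → u < i' → blk (f u) ≠ b ∧ pv5Dist b (blk (f u)) < en) ∧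
      ((∃ τ, i ≤ τ ∧ τ ≤ i' ∧ Good (box (f τ))) → ∃ τ, i ≤ τ ∧ τ ≤ i' ∧ Good (box (f τ)) ∧ box (f τ) ∈ pvafZc L blk box en J Good b) := by
  obtain ⟨k₀, hk₀⟩ := pvaf_infix_get hinf
  -- dictionary: the index `u` of the infix is the index `k₀ + (u - t)` of the list
  have hget : ∀ u, t ≤ u → u < t + n → L[k₀ + (u - t)]? = some (f u) := by
    intro u hu1 hu2
    have := hk₀ (u - t) (by omega)
    rwa [Nat.add_sub_cancel' hu1] at this
  have hIn : ∀ u, t ≤ u → u < t + n → (PvafIn L blk b (k₀ + (u - t)) ↔ blk (f u) = b) := by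
    intro u hu1 hu2
    constructor
    · rintro ⟨d, hd, hb⟩
      rw [hget u hu1 hu2] at hd
      obtain rfl := Option.some.inj hd
      exact hb
    · exact fun hb => ⟨f u, hget u hu1 hu2, hb⟩
  have hFar : ∀ u, t ≤ u → u < t + n → (PvafFar L blk en b (k₀ + (u - t)) ↔ (en : ℤ) ≤ pv5Dist b (blk (f u))) := by
    intro u hu1 hu2
    constructor
    · rintro ⟨d, hd, hb⟩
      rw [hget u hu1 hu2] at hd
      obtain rfl := Option.some.inj hd
      exact hb
    · exact fun hb => ⟨f u, hget u hu1 hu2, hb⟩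
  obtain ⟨a, a', ha1, ha2, hm⟩ := pvaf_min_exists (pvaf_in_not_far hen) (j := k₀ + (j - t)) (j' := k₀ + (j' - t)) (by omega)
    ((hIn j h1 (by omega)).2 hj) ((hFar j' (by omega) h2).2 hj')
  -- back to the indices of the infix
  have hlt := hm.1
  obtain ⟨i, hai, hi1, hi2⟩ : ∃ i, a = k₀ + (i - t) ∧ j ≤ i ∧ i ≤ j' := ⟨a - k₀ + t, by omega, by omega, by omega⟩
  obtain ⟨i', hai', hi1', hi2'⟩ : ∃ i', a' = k₀ + (i' - t) ∧ j ≤ i' ∧ i' ≤ j' := ⟨a' - k₀ + t, by omega, by omega, by omega⟩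
  subst hai hai'
  have hii : i < i' := by omega
  refine ⟨i, i', hi1, hii, hi2', (hIn i (by omega) (by omega)).1 hm.2.1, (hFar i' (by omega) (by omega)).1 hm.2.2.1, fun u hu1 hu2 => ?_, ?_⟩
  · obtain ⟨e1, e2⟩ := hm.2.2.2 (k₀ + (u - t)) (by omega) (by omega)
    exact ⟨fun h => e1 ((hIn u (by omega) (by omega)).2 h), not_le.1 fun h => e2 ((hFar u (by omega) (by omega)).2 h)⟩
  · rintro ⟨τ, hτ1, hτ2, hg⟩
    obtain ⟨σ, hσ, hf⟩ := pvaf_first_exists (G := PvafGd L box Good) (i := k₀ + (i - t)) (j := k₀ + (i' - t)) (t := k₀ + (τ - t)) (by omega) (by omega)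
      ⟨f τ, hget τ (by omega) (by omega), hg⟩
    have hσ1 := hf.1
    obtain ⟨τ', hστ, hτ1', hτ2'⟩ : ∃ τ', σ = k₀ + (τ' - t) ∧ i ≤ τ' ∧ τ' ≤ τ := ⟨σ - k₀ + t, by omega, by omega, by omega⟩
    subst hστ
    have hgetτ := hget τ' (by omega) (by omega)
    have hn : k₀ + (i' - t) < L.length := (List.getElem?_eq_some_iff.1 (hget i' (by omega) (by omega))).1
    refine ⟨τ', hτ1', by omega, ?_, pvaf_mem_Zc.2 ⟨hJ, k₀ + (τ' - t), pvaf_mem_sel.2 ⟨_, _, hn, hm, hf⟩, f τ', hgetτ, rfl⟩⟩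
    obtain ⟨d, hd, hgd⟩ := hf.2.2.1
    rw [hgetτ] at hd
    obtain rfl := Option.some.inj hd
    exact hgd

/-- **`hsel` of `pvaga_DI`** (helper281, `Arm/GateA`).   `c` a black rim which leaves `B`, the darts `j..j'` are carried by the chord of `e`, a passage from the block `b` to the outside of its enlargement, `Γ(χ_e)` has at most `J` minimal crossings
(`pvaf_gam_crs_disj`: off the J-bad blocks).   Then the passage contains a minimal crossing `i < i'` for which `hsel` holds with `Zc := pvafZc (pvafGam T B e s) blk box en J Good b`:   apply `pvaga_DI` to `i..i'`. -/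
theorem pvaf_hsel (hT : T.IsSph) (hS : T.Simple) {B : Set D} (hB : T.FaceSet B) (hfin : B.Finite) {s : V → Bool} {c : T.Cyc} (hP : PvafRim T s c) {e : D} (he : pvasIn T B s e)
    {w j j' : ℕ} (hjj : j ≤ j') (hw : T.opp (c.e w) ∉ B) (hon : ∀ u, j ≤ u → u ≤ j' → PvafOn T s B e (c.e u))
    (blk : D → ℤ × ℤ) (box : D → κ) {en J : ℕ} (hen : 0 < en) (Good : κ → Prop) {b : ℤ × ℤ}
    (hJ : (pvafCrs (pvafGam T B e s).length (PvafIn (pvafGam T B e s) blk b) (PvafFar (pvafGam T B e s) blk en b)).card ≤ J)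
    (hj : blk (c.e j) = b) (hj' : (en : ℤ) ≤ pv5Dist b (blk (c.e j'))) :
    ∃ i i', j ≤ i ∧ i < i' ∧ i' ≤ j' ∧ blk (c.e i) = b ∧ (en : ℤ) ≤ pv5Dist b (blk (c.e i')) ∧ (∀ u, i < u → u < i' → blk (c.e u) ≠ b ∧ pv5Dist b (blk (c.e u)) < en) ∧
      ((∃ τ, i ≤ τ ∧ τ ≤ i' ∧ Good (box (c.e τ))) → ∃ τ, i ≤ τ ∧ τ ≤ i' ∧ Good (box (c.e τ)) ∧ box (c.e τ) ∈ pvafZc (pvafGam T B e s) blk box en J Good b) := by
  have hinf := pvaf_on_infix hT hS hB hfin hP he (t1 := j) (t2 := j' + 1) hw (fun u hu1 hu2 => hon u hu1 (by omega))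
  exact pvaf_hsel_list hinf blk box hen Good hJ le_rfl hjj (by omega) hj hj'

end hsel

end Claimed.Agent.R289
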