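-- KEEP
import Claimed.Agent.R289.Arm.Fresh
import Claimed.Agent.R289.Arm.KCount
import Claimed.Agent.R289.Arm.Law
import Claimed.Agent.R289.Tr.Dense
import Claimed.Agent.R289.Tr.Hub
import Claimed.Agent.R289.Arm.BxpPv
import Claimed.Agent.R289.Del.Bulk

/-!
# Row 289 (S0537, Cardy for Poisson-Voronoi), box ARM, block A6, hypothesis `hAB` of DENSE, file Arm/AdaptAB : THE ADAPTIVE BAD BLOCKS, FROM THE FRESH STEP TO THE ORDERED LIMIT      (owner helper237; owner of A6 helper281; prefix `pvaa_`, defs `pvaa…` / `Pvaa…`)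

Blueprint: `origin/helper281:notes/R289/A6_281.md` sec. 5 (ii), (iii);  post of 281 "WHO HOLDS WHICH PEN" (09:40Z): `hAB` = 13 (product bound: `Arm/Fresh.lean`) + 237 (THE REST: the selection is measurable w.r.t. the explored chord, Peierls, sum over the entrances, quenched → annealed).

DESIGN.
* THE SELECTION IS A FREE PARAMETER.   A TRIAL IS ITS TOWER: `PvaaTrial T = (ℕ → T.Cyc) × (ℕ → T.Cyc)`.   `Sel : D → ℤ × ℤ → (V → Bool) → Finset (PvaaTrial T)` (entrance, block, colouring) is ANY family which is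
  `PvaMeas` w.r.t. the explored chord `pvasExpl T e C0.Leftᶜ`: any function of `pvafGam T C0.Left e s` of 13 (`pvaf_gam_meas` + `pva_meas_comp`), any function of the TRACE `pvaaTr T B e s` = (time of the exit, stopped positions) (`pvaa_sel_tr`).
* NO OTHER HYPOTHESIS ON `Sel`: the selected trials are FILTERED (`PvaaAdm`: the tower blocks with probability `q`, its vertices lie in `VOf C0.Left` and in blocks at sup-distance `≤ w` of the block) and dropped if more than `N` survive (`pvaaZ`).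
  The price is paid in (DI): off the static bad blocks the selected trial passes the filter (`pvaa_mem_Z`).
* `PvaaK C1 C0 s e` the chord of `e` reaches `C1.Left`;   `PvaaBad … s e b` some trial of `pvaaZ e b s` FAILS (`PvafFail` of 13) through the vertices which the chord has not explored.
* sec. 2  **`pvaa_hab_q`** QUENCHED: `P(∃ e, K e, PvtdHalf Start k (Bad e)) ≤ #Start 8^k 2^(k+1) (N (1-q)^mt)^⌊⌊(k+1)/2⌋/(2w+1)²⌋ pvbkM 2 1 (1-q0)`;   `pvaa_hab_loc` the event reads the colours of `VOf C0.Left` only.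
* sec. 3  the seam colours ↔ `pvaP` on the plain two-level space;   `pvaa_up_le` (`PvUp.iter`: sections small off a set of geometries).
* sec. 5-6  **`pvaa_hab_fam`** (finite family of LOCAL BALLS), `pvaa_up_gen` (quenched → U-form, general), **`pvaa_many_ord`** (the count of the chords `≤ K0 m`), **`pvaa_geo_frame`** (`PvaxFrame` of 196 ⟹ `PvaaGeo` on `(delbPl Y).toMap`)
* sec. 4  **`pvaa_hab`** THE EXIT in U-form (`pvhbUp ε` of 73), for ANY family `Y ↦ T Y`, ANY frame events `G m Y`, ANY data `(C0, C1, Sel)` defined on `G m Y` with `PvaaGeo`;   **`pvaa_hab_rims`** the shape of `hAB` in `pvtd_dense_ord` of 101.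
-/

set_option autoImplicit false
set_option linter.unusedSectionVars false
set_option linter.unusedVariables false

namespace Claimed.Agent.R289

open MeasureTheory Set Filter Topology Claims.C0465
open scoped ENNReal

/-! ## 1. trace, trials, selection -/

section model

variable {V D : Type} [DecidableEq V]

/-- the TRACE of the chord which enters the face set `B` at `e`: the time of the exit and the positions, stopped at the exit -/
noncomputable def pvaaTr (T : PvMap V D) (B : Set D) (e : D) (s : V → Bool) : ℕ × (ℕ → D) :=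
  (pvasTime T e Bᶜ s, fun i => pvasIt T s e (min i (pvasTime T e Bᶜ s)))

/-- a trial is its tower: inner and outer cycles of the annuli -/
abbrev PvaaTrial (T : PvMap V D) : Type := (ℕ → T.Cyc) × (ℕ → T.Cyc)

/-- the trial `i` is ADMISSIBLE for the block `x`: a tower of `mt` annuli with blocking probability `q`, drawn in `C0.Left`, in the blocks at sup-distance `≤ w` of `x` -/
def PvaaAdm (T : PvMap V D) (pos : V → ℂ) (C0 : T.Cyc) (ℓ : ℝ) (w mt : ℕ) (q : ℝ) (x : ℤ × ℤ) (i : PvaaTrial T) : Prop :=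
  PvaxTower T mt i.1 i.2 q ∧ ∀ v ∈ pvafReg T mt i.1 i.2, v ∈ T.VOf C0.Left ∧ pv5Dist (pv5Blk ℓ (pos v)) x ≤ w

open Classical in
/-- the admissible selected trials of the block `x` (none if there are more than `N`) -/
noncomputable def pvaaZ (T : PvMap V D) (pos : V → ℂ) (C0 : T.Cyc) (ℓ : ℝ) (w mt N : ℕ) (q : ℝ) (Sel : D → ℤ × ℤ → (V → Bool) → Finset (PvaaTrial T))
    (e : D) (x : ℤ × ℤ) (s : V → Bool) : Finset (PvaaTrial T) :=
  if ((Sel e x s).filter (PvaaAdm T pos C0 ℓ w mt q x)).card ≤ N then (Sel e x s).filter (PvaaAdm T pos C0 ℓ w mt q x) else ∅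

/-- the chord which enters `C0.Left` at `e` reaches `C1.Left` -/
def PvaaK (T : PvMap V D) (C1 C0 : T.Cyc) (s : V → Bool) (e : D) : Prop := ∃ n, PvakRun C1 C0 s e n

/-- **the block `x` is ADAPTIVELY BAD for the chord of `e`**: some admissible selected trial fails through the vertices which the chord has not explored -/
def PvaaBad (T : PvMap V D) (pos : V → ℂ) (C0 : T.Cyc) (ℓ : ℝ) (w mt N : ℕ) (q : ℝ) (Sel : D → ℤ × ℤ → (V → Bool) → Finset (PvaaTrial T))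
    (s : V → Bool) (e : D) (x : ℤ × ℤ) : Prop :=
  ∃ i ∈ pvaaZ T pos C0 ℓ w mt N q Sel e x s, PvafFail T mt i.1 i.2 (↑(pvasExpl T e C0.Leftᶜ s) : Set V)ᶜ true s

theorem pvaa_ab_eqns_cite : True := by
  have := @pvaaTr.eq_1; have := @PvaaAdm.eq_1; have := @pvaaZ.eq_1; have := @PvaaK.eq_1; have := @PvaaBad.eq_1
  trivial

variable {T : PvMap V D}

/-- the trace is read off the explored vertices -/
theorem pvaa_tr_meas (B : Set D) (e : D) (h : ∀ s, pvasBW T s e → ∃ n, pvasIt T s e n ∈ Bᶜ) : PvaMeas (pvasExpl T e Bᶜ) (pvaaTr T B e) :=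
  pva_meas_pair (pvas_time_meas e Bᶜ h) (pvas_it_meas e Bᶜ h)

variable {pos : V → ℂ} {C0 C1 : T.Cyc} {ℓ : ℝ} {w mt N : ℕ} {q : ℝ} {Sel : D → ℤ × ℤ → (V → Bool) → Finset (PvaaTrial T)}

theorem pvaa_Z_sub (e : D) (x : ℤ × ℤ) (s : V → Bool) {i : PvaaTrial T} (hi : i ∈ pvaaZ T pos C0 ℓ w mt N q Sel e x s) :
    i ∈ Sel e x s ∧ PvaaAdm T pos C0 ℓ w mt q x i := by
  classical
  unfold pvaaZ at hi
  split_ifs at hi with h
  · exact Finset.mem_filter.1 hi
  · exact absurd hi (Finset.notMem_empty _)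

theorem pvaa_Z_card (e : D) (x : ℤ × ℤ) (s : V → Bool) : (pvaaZ T pos C0 ℓ w mt N q Sel e x s).card ≤ N := by
  classical
  unfold pvaaZ
  split_ifs with h
  · exact h
  · simp

/-- **what (DI) has to check**: a selected admissible trial is in `pvaaZ` as soon as at most `N` trials are selected -/
theorem pvaa_mem_Z {e : D} {x : ℤ × ℤ} {s : V → Bool} {i : PvaaTrial T} (hi : i ∈ Sel e x s) (ha : PvaaAdm T pos C0 ℓ w mt q x i)
    (hN : (Sel e x s).card ≤ N) : i ∈ pvaaZ T pos C0 ℓ w mt N q Sel e x s := by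
  classical
  unfold pvaaZ
  rw [if_pos ((Finset.card_filter_le _ _).trans hN)]
  exact Finset.mem_filter.2 ⟨hi, ha⟩

/-- **what (DI) gets**: the block is not adaptively bad, the trial is selected and admissible: (FG) = some annulus of the tower has no black crossing through unexplored vertices -/
theorem pvaa_not_bad {e : D} {x : ℤ × ℤ} {s : V → Bool} (hb : ¬ PvaaBad T pos C0 ℓ w mt N q Sel s e x) {i : PvaaTrial T} (hi : i ∈ Sel e x s)
    (ha : PvaaAdm T pos C0 ℓ w mt q x i) (hN : (Sel e x s).card ≤ N) :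
    ∃ j < mt, ¬ PvaxCr T (i.1 j) (i.2 j) (↑(pvasExpl T e C0.Leftᶜ s) : Set V)ᶜ true s := by
  by_contra hcon
  push Not at hcon
  exact hb ⟨i, pvaa_mem_Z hi ha hN, hcon⟩

theorem pvaa_Z_meas (e : D) (x : ℤ × ℤ) (h : PvaMeas (pvasExpl T e C0.Leftᶜ) (Sel e x)) :
    PvaMeas (pvasExpl T e C0.Leftᶜ) (pvaaZ T pos C0 ℓ w mt N q Sel e x) := by
  classical
  intro s s' hs
  unfold pvaaZ
  rw [h s s' hs]

/-- a selection which is a function of the trace is measurable -/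
theorem pvaa_sel_tr (e : D) (h : ∀ s, pvasBW T s e → ∃ n, pvasIt T s e n ∈ C0.Leftᶜ) {β : Type} (F : ℕ × (ℕ → D) → β) :
    PvaMeas (pvasExpl T e C0.Leftᶜ) (fun s => F (pvaaTr T C0.Left e s)) := pva_meas_comp (pvaa_tr_meas C0.Left e h) F

/-- the exit exists for a boundary dart of a finite face set -/
theorem pvaa_exit (hfin : C0.Left.Finite) {e : D} (h1 : e ∈ C0.Left) (h2 : T.opp e ∉ C0.Left) : ∀ s, pvasBW T s e → ∃ n, pvasIt T s e n ∈ C0.Leftᶜ :=
  fun s hs => pvas_exit_exists (pl_left_face C0) hfin ⟨h1, h2, hs⟩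

theorem pvaa_K_aux (hin : C1.Inside C0) (hfin : C0.Left.Finite) {e : D} {s s' : V → Bool} (hs : ∀ v ∈ pvasExpl T e C0.Leftᶜ s, s' v = s v)
    (hK : PvaaK T C1 C0 s e) : PvaaK T C1 C0 s' e := by
  obtain ⟨n, hI, hk, hn⟩ := hK
  have hex := pvaa_exit hfin hI.1 hI.2.1
  have hbw : pvasBW T s' e := by
    have : pvasBW T s' e = pvasBW T s e := pvas_bw_meas (T := T) e C0.Leftᶜ s s' hs
    rw [this]; exact hI.2.2
  have ht := pvas_time_meas e C0.Leftᶜ hex s s' hs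
  have hit := pvas_it_meas e C0.Leftᶜ hex s s' hs
  have hτ : n < pvasTime T e C0.Leftᶜ s := by
    rw [pvas_time_bw hI.2.2]
    by_contra hcon
    have hle : pvasHit T s e C0.Leftᶜ ≤ n := not_lt.1 hcon
    have hmem := pvas_hit_mem (hex s hI.2.2)
    rcases Nat.lt_or_ge (pvasHit T s e C0.Leftᶜ) n with h | h
    · exact hmem (hk _ h).1
    · have : pvasHit T s e C0.Leftᶜ = n := le_antisymm hle h
      rw [this] at hmem
      exact hmem (hin.2 hn)
  have hpos : ∀ k ≤ n, pvasIt T s' e k = pvasIt T s e k := by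
    intro k hk'
    have := congrFun hit k
    simp only [ht] at this
    rwa [min_eq_left (by omega)] at this
  refine ⟨n, ⟨hI.1, hI.2.1, hbw⟩, fun k hk' => ?_, ?_⟩
  · rw [hpos k hk'.le]; exact hk k hk'
  · rw [hpos n le_rfl]; exact hn

/-- `the chord reaches C1.Left` is read off the explored vertices -/
theorem pvaa_K_meas (hin : C1.Inside C0) (hfin : C0.Left.Finite) {e : D} (h1 : e ∈ C0.Left) (h2 : T.opp e ∉ C0.Left) :
    PvaMeas (pvasExpl T e C0.Leftᶜ) (fun s => PvaaK T C1 C0 s e) := by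
  intro s s' hs
  have hst := pvas_expl_stop_in (T := T) (pl_left_face C0) hfin h1 h2 (Z := C0.Leftᶜ) subset_rfl s s' hs
  refine propext ⟨fun h => pvaa_K_aux hin hfin (s := s') (s' := s) (fun v hv => ?_) h, pvaa_K_aux hin hfin hs⟩
  rw [hst] at hv
  exact (hs v hv).symm

/-- the explored vertices of a chord are vertices of `C0.Left` -/
theorem pvaa_expl_sub (hfin : C0.Left.Finite) {e : D} {s : V → Bool} (h : pvasIn T C0.Left s e) : ∀ v ∈ pvasExpl T e C0.Leftᶜ s, v ∈ T.VOf C0.Left := by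
  intro v hv
  unfold pvasExpl at hv
  rw [pvas_time_bw h.2.2, pvas_mem_lay] at hv
  exact pvas_lay_sub (pl_left_face C0) hfin h hv

/-- an admissible trial fails through the unexplored vertices iff it fails through the unexplored vertices of `A ⊇ VOf C0.Left` -/
theorem pvaa_fail_iff (hT : T.IsSph) {A : Finset V} (hA : ∀ v ∈ T.VOf C0.Left, v ∈ A) {x : ℤ × ℤ} {i : PvaaTrial T} (ha : PvaaAdm T pos C0 ℓ w mt q x i) (S : Finset V) (b : Bool)
    (s : V → Bool) : PvafFail T mt i.1 i.2 (↑S : Set V)ᶜ b s ↔ PvafFail T mt i.1 i.2 {v | v ∈ A ∧ v ∉ S} b s := by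
  refine ⟨fun h j hj => ?_, pvaf_fail_mono fun v hv => hv.2⟩
  have h1 := (pvax_cr_inter hT (ha.1.ins j hj)).1 (h j hj)
  refine pvax_cr_mono (X' := {v | v ∈ A ∧ v ∉ S}) (fun v hv => ?_) h1
  exact ⟨hA v (ha.2 v ⟨j, hj, hv.2⟩).1, fun h' => hv.1 (Finset.mem_coe.2 h')⟩

/-! ## 2. the quenched bound -/

/-- **`hAB`, QUENCHED** = (ii) + (iii) of A6_281 with the count of the chords -/
theorem pvaa_hab_q (hT : T.IsSph) (hin : C1.Inside C0) (hfin : C0.Left.Finite) {q0 : ℝ} (hq0 : 0 < q0) (hq01 : q0 ≤ 1) (hB : PvaxBlk T C1 C0 q0) (hq : q ≤ 1)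
    (hp1 : N * (1 - q) ^ mt ≤ 1) (hSel : ∀ e, e ∈ C0.Left → T.opp e ∉ C0.Left → ∀ x, PvaMeas (pvasExpl T e C0.Leftᶜ) (Sel e x))
    (A : Finset V) (hA : ∀ v ∈ T.VOf C0.Left, v ∈ A) (ξ : V → Bool) (Start : Finset (ℤ × ℤ)) (k : ℕ) :
    pvaP A ξ (fun s => ∃ e, PvaaK T C1 C0 s e ∧ PvtdHalf Start k (PvaaBad T pos C0 ℓ w mt N q Sel s e))
      ≤ (Start.card * 8 ^ k * 2 ^ (k + 1) : ℕ) * (N * (1 - q) ^ mt) ^ ((k + 1) / 2 / (2 * w + 1) ^ 2) * pvbkM 2 1 (1 - q0) := by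
  classical
  set Ie : Finset D := (pl_cyc_darts_finite C0).toFinset.filter fun e => e ∈ C0.Left ∧ T.opp e ∉ C0.Left with hIe
  have hI : ∀ e ∈ Ie, e ∈ C0.Left ∧ T.opp e ∉ C0.Left := fun e he => (Finset.mem_filter.1 he).2
  have hstop : ∀ e ∈ Ie, PvaStop (pvasExpl T e C0.Leftᶜ) := fun e he =>
    pvas_expl_stop_in (pl_left_face C0) hfin (hI e he).1 (hI e he).2 subset_rfl
  have key := pvaf_main hT (ι := PvaaTrial T) (E := D) (m := mt) (N := N) hq hp1 (fun i => i.1) (fun i => i.2) Ie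
    (S := fun e => pvasExpl T e C0.Leftᶜ) hstop (K := fun e s => PvaaK T C1 C0 s e) (fun e he => pvaa_K_meas hin hfin (hI e he).1 (hI e he).2)
    (X := fun e s => {v | v ∈ A ∧ v ∉ pvasExpl T e C0.Leftᶜ s})
    (fun e he s s' hs => by
      show {v | v ∈ A ∧ v ∉ pvasExpl T e C0.Leftᶜ s'} = {v | v ∈ A ∧ v ∉ pvasExpl T e C0.Leftᶜ s}
      rw [hstop e he s s' hs])
    A ξ true (fun e _ ω v hv => hv)
    (fun e x => pvaaZ T pos C0 ℓ w mt N q Sel e x) (fun e he x => pvaa_Z_meas e x (hSel e (hI e he).1 (hI e he).2 x))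
    (fun e _ ω _ _ x => pvaa_Z_card e x ω) (fun e _ ω _ _ x i hi => (pvaa_Z_sub e x ω hi).2.1)
    (2 * w + 1) (by omega)
    (fun e _ ω _ _ x y hxy i hi i' hi' => by
      rw [Set.disjoint_left]
      intro v hv hv'
      have h1 := ((pvaa_Z_sub e x ω hi).2.2 v hv).2
      have h2 := ((pvaa_Z_sub e y ω hi').2.2 v hv').2
      have h3 := pv5_dist_triangle x (pv5Blk ℓ (pos v)) y
      rw [pvtd_dist_comm x (pv5Blk ℓ (pos v))] at h3
      push_cast at hxy
      linarith)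
    Start k ((k + 1) / 2)
  have hsub : pvaP A ξ (fun s => ∃ e, PvaaK T C1 C0 s e ∧ PvtdHalf Start k (PvaaBad T pos C0 ℓ w mt N q Sel s e)) ≤ _ :=
    le_trans (pva_P_mono fun ω _ hω => ?_) key
  · refine hsub.trans (mul_le_mul_of_nonneg_left ?_ ?_)
    · refine le_trans (pva_E_mono fun ω _ => ?_) (pvak_moment_blk hT hin hq0 hB A (fun v hv => hA v ?_) ξ 1)
      · rw [pow_one]
        exact_mod_cast pvak_card_le_R hT C1 C0 ω _ fun x hx => Or.inl (Finset.mem_filter.1 hx).2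
      · obtain ⟨d, hd, rfl⟩ := hv
        exact ⟨d, hd.1, rfl⟩
    · exact mul_nonneg (Nat.cast_nonneg _) (pow_nonneg (mul_nonneg (Nat.cast_nonneg _) (pow_nonneg (by linarith) _)) _)
  · obtain ⟨e, hK, c, hc, h0, I, hIs, hcard, hbad⟩ := hω
    have heI : e ∈ Ie := by
      obtain ⟨n, hr⟩ := hK
      exact Finset.mem_filter.2 ⟨(pl_cyc_darts_finite C0).mem_toFinset.2 (pvak_outer_dart hT hr.1.1 hr.1.2.1), hr.1.1, hr.1.2.1⟩
    refine ⟨e, heI, hK, c, hc, h0, I, fun i hi => ⟨Nat.lt_succ_iff.1 (Finset.mem_range.1 (hIs hi)), ?_⟩, hcard⟩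
    obtain ⟨t, ht, hf⟩ := hbad i hi
    exact ⟨t, ht, (pvaa_fail_iff hT hA (pvaa_Z_sub e (c i) ω ht).2 _ true ω).1 hf⟩

/-- the event of `pvaa_hab_q` reads the colours of the vertices of `C0.Left` only -/
theorem pvaa_hab_loc (hT : T.IsSph) (hin : C1.Inside C0) (hfin : C0.Left.Finite)
    (hSel : ∀ e, e ∈ C0.Left → T.opp e ∉ C0.Left → ∀ x, PvaMeas (pvasExpl T e C0.Leftᶜ) (Sel e x)) (A : Finset V) (hA : ∀ v ∈ T.VOf C0.Left, v ∈ A) (Start : Finset (ℤ × ℤ)) (k : ℕ) :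
    PvalLoc A (fun s => ∃ e, PvaaK T C1 C0 s e ∧ PvtdHalf Start k (PvaaBad T pos C0 ℓ w mt N q Sel s e)) := by
  have aux : ∀ s s' : V → Bool, (∀ v ∈ A, s' v = s v) → (∃ e, PvaaK T C1 C0 s e ∧ PvtdHalf Start k (PvaaBad T pos C0 ℓ w mt N q Sel s e)) →
      ∃ e, PvaaK T C1 C0 s' e ∧ PvtdHalf Start k (PvaaBad T pos C0 ℓ w mt N q Sel s' e) := by
    rintro s s' hs ⟨e, hK, c, hc, h0, I, hIs, hcard, hbad⟩
    have hI : pvasIn T C0.Left s e := by obtain ⟨n, hr⟩ := hK; exact hr.1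
    have hs' : ∀ v ∈ pvasExpl T e C0.Leftᶜ s, s' v = s v := fun v hv => hs v (hA v (pvaa_expl_sub hfin hI v hv))
    have hex := pvaa_exit hfin hI.1 hI.2.1
    have hst := pvas_expl_stop_in (T := T) (pl_left_face C0) hfin hI.1 hI.2.1 (Z := C0.Leftᶜ) subset_rfl s s' hs'
    refine ⟨e, pvaa_K_aux hin hfin hs' hK, c, hc, h0, I, hIs, hcard, fun i hi => ?_⟩
    obtain ⟨t, ht, hf⟩ := hbad i hi
    refine ⟨t, by rw [pvaa_Z_meas e (c i) (hSel e hI.1 hI.2.1 (c i)) s s' hs']; exact ht, ?_⟩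
    rw [hst]
    have ha := (pvaa_Z_sub e (c i) s ht).2
    exact (pvaf_fail_congr hT (fun j hj => ha.1.ins j hj) fun v _ hv => hs v (hA v (ha.2 v hv).1)).2 hf
  intro ω ω' h
  exact propext ⟨aux ω ω' fun v hv => (h v hv).symm, aux ω' ω fun v hv => h v hv⟩

end model

/-! ## 3. the seam: two-level upper expectation, colours at fixed geometry -/

section seam

/-- **`PvUp.iter`**: an event whose sections are small off a set of geometries (ANY event, ANY set of geometries) -/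
theorem pvaa_up_le {G K : Type} [MeasurableSpace G] [MeasurableSpace K] (γ : Measure G) (κ : Measure K) [IsProbabilityMeasure γ] [IsProbabilityMeasure κ]
    (A : Set (G × K)) (Bad : Set G) (L : ℝ≥0∞) (h : ∀ g, g ∉ Bad → κ {k | (g, k) ∈ A} ≤ L) : (PvUp.iter γ κ).P A ≤ L + γ Bad := by
  rw [pvup_iter_P]
  have hm := measurableSet_toMeasurable γ Bad
  refine (pvup_int_le γ (φ := fun g => L + (toMeasurable γ Bad).indicator (fun _ => 1) g) (measurable_const.add (measurable_const.indicator hm)) fun g => ?_).trans ?_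
  · by_cases hg : g ∈ toMeasurable γ Bad
    · rw [indicator_of_mem hg]
      exact prob_le_one.trans le_add_self
    · rw [indicator_of_notMem hg, add_zero]
      exact h g fun hb => hg (subset_toMeasurable _ _ hb)
  · rw [lintegral_add_left measurable_const, lintegral_const, measure_univ, mul_one, lintegral_indicator_const hm, one_mul, measure_toMeasurable]

/-- NO DEPENDENT TYPES: a property of (site set, colouring of the sites) at the merged sample -/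
theorem pvaa_merge (P : ∀ Y : Set ℂ, (↥Y → Bool) → Prop) {g : PvGeoT} (hg : PvgOk g) (c : PvColT) :
    P (cfSites (pvConf (pvMerge (g, c)))) (fun v => cfCol (pvConf (pvMerge (g, c))) v) ↔ P (pvgSites g) (fun v => pvgColAt g c v) := by
  have key : ∀ (Y : Set ℂ), cfSites (pvConf (pvMerge (g, c))) = Y →
      (P (cfSites (pvConf (pvMerge (g, c)))) (fun v => cfCol (pvConf (pvMerge (g, c))) v) ↔ P Y (fun v => cfCol (pvConf (pvMerge (g, c))) v)) := by
    intro Y h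
    subst h
    rfl
  rw [key _ (pvqu_cfSites g c)]
  have e : (fun v : pvgSites g => cfCol (pvConf (pvMerge (g, c))) v) = fun v : pvgSites g => pvgColAt g c v := funext fun v => pval_cfCol hg c v.2
  rw [e]

/-- at fixed geometry the colours of the sites are fair bits (= `armt_col` of 186 / 128, in the form `site set ↦ property`) -/
theorem pvaa_sec (P : ∀ Y : Set ℂ, (↥Y → Bool) → Prop) {g : PvGeoT} (hg : PvgOk g) [DecidableEq ↥(pvgSites g)] (A : Finset ↥(pvgSites g)) (hloc : PvalLoc A (P (pvgSites g)))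
    (ξ : ↥(pvgSites g) → Bool) :
    pvCol {c | P (cfSites (pvConf (pvMerge (g, c)))) (fun v => cfCol (pvConf (pvMerge (g, c))) v)} = ENNReal.ofReal (pvaP A ξ (P (pvgSites g))) := by
  have he : Function.Injective (fun v : pvgSites g => pvgIdx g v) := fun v w h => Subtype.ext (pvqu_idx_injOn g v.2 w.2 h)
  have hm : Measurable (fun s : PvIx → Bool => s ∘ (fun v : pvgSites g => pvgIdx g v)) := measurable_pi_lambda _ fun v => measurable_pi_apply _
  rw [← pval_measure hloc ξ, ← pvf_colLaw_comp _ he, Measure.map_apply hm (pval_loc_measurableSet hloc)]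
  congr 1
  ext c
  exact pvaa_merge P hg c

/-- the colouring seen by a rim of colour `b` has the same law -/
theorem pvaa_P_beq {V : Type} [DecidableEq V] (A : Finset V) (Q : (V → Bool) → Prop) (L : ℝ) (h : ∀ ξ, pvaP A ξ Q ≤ L) (b : Bool) (ξ : V → Bool) :
    pvaP A ξ (fun σ => Q (fun v => σ v == b)) ≤ L := by
  cases b
  · have e : (fun σ : V → Bool => Q (fun v => σ v == false)) = fun σ => Q (fun v => !σ v) := by
      funext σ
      congr 2
      funext v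
      cases σ v <;> rfl
    rw [e, pva_P_flip]
    exact h _
  · have e : (fun σ : V → Bool => Q (fun v => σ v == true)) = Q := by
      funext σ
      congr 2
      funext v
      cases σ v <;> rfl
    rw [e]
    exact h _

theorem pvaa_loc_beq {V : Type} [DecidableEq V] {A : Finset V} {Q : (V → Bool) → Prop} (h : PvalLoc A Q) (b : Bool) : PvalLoc A (fun σ => Q (fun v => σ v == b)) := by
  intro ω ω' hω
  exact h _ _ fun v hv => by rw [hω v hv]

end seam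

/-! ## 4. the exit -/

section exit

/-- the geometry is good for the count of the chords -/
def PvaaGeo {V D : Type} [DecidableEq V] (T : PvMap V D) (C1 C0 : T.Cyc) (q0 : ℝ) : Prop :=
  T.IsSph ∧ C1.Inside C0 ∧ C0.Left.Finite ∧ PvaxBlk T C1 C0 q0

/-- the event of `hAB` at the site set `Y` coloured by `σ`, for the rims of colour `b`: the geometry is in the frame event `G` and some chord which reaches `C1.Left` has a chain with a half of adaptively bad blocks.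
(`G Y` = any event of the geometry; the cycles and the selection exist on `G Y` only: the type `(T Y).Cyc` may be empty.) -/
def PvaaEv1 {Dt : Set ℂ → Type} [∀ Y : Set ℂ, DecidableEq ↥Y] (T : ∀ Y : Set ℂ, PvMap ↥Y (Dt Y)) (G : Set ℂ → Prop) (C0 C1 : ∀ Y, G Y → (T Y).Cyc) (ℓ : ℝ) (w mt N : ℕ) (q : ℝ)
    (Sel : ∀ Y : Set ℂ, G Y → Dt Y → ℤ × ℤ → (↥Y → Bool) → Finset (PvaaTrial (T Y))) (Start : Finset (ℤ × ℤ)) (k : ℕ) (b : Bool) (Y : Set ℂ) (σ : ↥Y → Bool) : Prop :=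
  ∃ hG : G Y, ∃ e, PvaaK (T Y) (C1 Y hG) (C0 Y hG) (fun v => σ v == b) e ∧
    PvtdHalf Start k (PvaaBad (T Y) Subtype.val (C0 Y hG) ℓ w mt N q (Sel Y hG) (fun v => σ v == b) e)

/-- **the event of `hAB`**: both colours -/
def PvaaEv {Dt : Set ℂ → Type} [∀ Y : Set ℂ, DecidableEq ↥Y] (T : ∀ Y : Set ℂ, PvMap ↥Y (Dt Y)) (G : Set ℂ → Prop) (C0 C1 : ∀ Y, G Y → (T Y).Cyc) (ℓ : ℝ) (w mt N : ℕ) (q : ℝ)
    (Sel : ∀ Y : Set ℂ, G Y → Dt Y → ℤ × ℤ → (↥Y → Bool) → Finset (PvaaTrial (T Y))) (Start : Finset (ℤ × ℤ)) (k : ℕ) (Y : Set ℂ) (σ : ↥Y → Bool) : Prop :=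
  ∃ b : Bool, PvaaEv1 T G C0 C1 ℓ w mt N q Sel Start k b Y σ

theorem pvaa_ab_eqns_cite2 : True := by
  have := @PvaaGeo.eq_1; have := @PvaaEv1.eq_1; have := @PvaaEv.eq_1
  trivial

variable {Dt : Set ℂ → Type} [∀ Y : Set ℂ, DecidableEq ↥Y] (T : ∀ Y : Set ℂ, PvMap ↥Y (Dt Y))

/-- the arithmetic: the quenched bound is `≤ #Start C(w) 2^(-k) M` -/
theorem pvaa_num (w : ℕ) {p M : ℝ} (hp0 : 0 ≤ p) (hp : ENNReal.ofReal p ≤ pvtdQ w) (hM : 0 ≤ M) (n k : ℕ) :
    ENNReal.ofReal ((n * 8 ^ k * 2 ^ (k + 1) : ℕ) * p ^ ((k + 1) / 2 / (2 * w + 1) ^ 2) * M) ≤ n * (pvtdC w * (2⁻¹ : ℝ≥0∞) ^ k) * ENNReal.ofReal M := by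
  rw [ENNReal.ofReal_mul (by positivity), ENNReal.ofReal_mul (by positivity), ENNReal.ofReal_pow hp0, ENNReal.ofReal_natCast]
  refine mul_le_mul_left ?_ _
  have h := pvtd_half_num w _ hp k
  push_cast
  calc (n : ℝ≥0∞) * 8 ^ k * 2 ^ (k + 1) * ENNReal.ofReal p ^ ((k + 1) / 2 / (2 * w + 1) ^ 2)
      = n * (8 ^ k * 2 ^ (k + 1) * ENNReal.ofReal p ^ ((k + 1) / 2 / (2 * w + 1) ^ 2)) := by ring
    _ ≤ n * (pvtdC w * (2⁻¹ : ℝ≥0∞) ^ k) := mul_le_mul_right h _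

/-- **`hAB` AT FIXED `(ε, level)`**, U-form -/
theorem pvaa_hab_up (G : Set ℂ → Prop) (C0 C1 : ∀ Y, G Y → (T Y).Cyc) {q0 q : ℝ} (hq0 : 0 < q0) (hq01 : q0 ≤ 1) (hq : q ≤ 1)
    (hG : ∀ Y (h : G Y), PvaaGeo (T Y) (C1 Y h) (C0 Y h) q0) (ℓ : ℝ) (w mt N : ℕ) (hp : ENNReal.ofReal (N * (1 - q) ^ mt) ≤ pvtdQ w)
    (Sel : ∀ Y : Set ℂ, G Y → Dt Y → ℤ × ℤ → (↥Y → Bool) → Finset (PvaaTrial (T Y)))
    (hSel : ∀ Y (h : G Y), ∀ e, e ∈ (C0 Y h).Left → (T Y).opp e ∉ (C0 Y h).Left → ∀ x, PvaMeas (pvasExpl (T Y) e (C0 Y h).Leftᶜ) (Sel Y h e x))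
    (Start : Finset (ℤ × ℤ)) (k : ℕ) (ε : ℝ) :
    (pvhbUp ε).P {p | PvaaEv T G C0 C1 ℓ w mt N q Sel Start k (cfSites (pvConf (pvMerge p))) (fun v => cfCol (pvConf (pvMerge p)) v)}
      ≤ 2 * (Start.card * (pvtdC w * (2⁻¹ : ℝ≥0∞) ^ k) * ENNReal.ofReal (pvbkM 2 1 (1 - q0))) := by
  have h0 : pvGeo ε {g | ¬ PvgOk g} = 0 := pvqu_ok_ae ε
  refine le_trans (pvaa_up_le (pvGeo ε) pvCol _ {g | ¬ PvgOk g} _ fun g hg => ?_) (by rw [h0, add_zero])
  simp only [mem_ofPred_eq, not_not] at hg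
  have hsub : {c | (g, c) ∈ {p | PvaaEv T G C0 C1 ℓ w mt N q Sel Start k (cfSites (pvConf (pvMerge p))) (fun v => cfCol (pvConf (pvMerge p)) v)}} ⊆
      {c | PvaaEv1 T G C0 C1 ℓ w mt N q Sel Start k false (cfSites (pvConf (pvMerge (g, c)))) (fun v => cfCol (pvConf (pvMerge (g, c))) v)} ∪
      {c | PvaaEv1 T G C0 C1 ℓ w mt N q Sel Start k true (cfSites (pvConf (pvMerge (g, c)))) (fun v => cfCol (pvConf (pvMerge (g, c))) v)} := by
    rintro c ⟨b, hb⟩
    cases b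
    · exact Or.inl hb
    · exact Or.inr hb
  refine (measure_mono hsub).trans ((measure_union_le _ _).trans ?_)
  rw [two_mul]
  suffices hone : ∀ b : Bool, pvCol {c | PvaaEv1 T G C0 C1 ℓ w mt N q Sel Start k b (cfSites (pvConf (pvMerge (g, c)))) (fun v => cfCol (pvConf (pvMerge (g, c))) v)}
      ≤ Start.card * (pvtdC w * (2⁻¹ : ℝ≥0∞) ^ k) * ENNReal.ofReal (pvbkM 2 1 (1 - q0)) from add_le_add (hone false) (hone true)
  intro b
  by_cases hGg : G (pvgSites g)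
  · obtain ⟨hT, hin, hfin, hB⟩ := hG _ hGg
    have hp0 : (0 : ℝ) ≤ N * (1 - q) ^ mt := mul_nonneg (Nat.cast_nonneg _) (pow_nonneg (by linarith) _)
    have hp1 : (N : ℝ) * (1 - q) ^ mt ≤ 1 := by
      have := hp.trans (pvtd_Q_le_one w)
      rwa [ENNReal.ofReal_le_one] at this
    have hVfin : ((T (pvgSites g)).VOf (C0 (pvgSites g) hGg).Left).Finite := by
      refine (hfin.image (T (pvgSites g)).src).subset ?_
      rintro v ⟨d, hd, rfl⟩
      exact ⟨d, hd, rfl⟩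
    have hA : ∀ v ∈ (T (pvgSites g)).VOf (C0 (pvgSites g) hGg).Left, v ∈ hVfin.toFinset := fun v hv => hVfin.mem_toFinset.2 hv
    have hS := hSel (pvgSites g) hGg
    have hQloc := pvaa_hab_loc (pos := Subtype.val) (ℓ := ℓ) (w := w) (mt := mt) (N := N) (q := q) hT hin hfin hS hVfin.toFinset hA Start k
    have hQle := fun ξ => pvaa_hab_q (pos := Subtype.val) (ℓ := ℓ) (w := w) hT hin hfin hq0 hq01 hB hq hp1 hS hVfin.toFinset hA ξ Start k
    have e : PvaaEv1 T G C0 C1 ℓ w mt N q Sel Start k b (pvgSites g) = fun σ => (fun s => ∃ e, PvaaK (T (pvgSites g)) (C1 (pvgSites g) hGg) (C0 (pvgSites g) hGg) s e ∧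
        PvtdHalf Start k (PvaaBad (T (pvgSites g)) Subtype.val (C0 (pvgSites g) hGg) ℓ w mt N q (Sel (pvgSites g) hGg) s e)) (fun v => σ v == b) := by
      funext σ
      exact propext ⟨fun ⟨_, h⟩ => h, fun h => ⟨hGg, h⟩⟩
    rw [pvaa_sec (PvaaEv1 T G C0 C1 ℓ w mt N q Sel Start k b) hg hVfin.toFinset (by rw [e]; exact pvaa_loc_beq hQloc b) (fun _ => false), e]
    exact (ENNReal.ofReal_le_ofReal (pvaa_P_beq _ _ _ hQle b _)).trans (pvaa_num w hp0 hp (pvbk_M_nonneg 2 1 (by linarith)) _ k)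
  · have : {c | PvaaEv1 T G C0 C1 ℓ w mt N q Sel Start k b (cfSites (pvConf (pvMerge (g, c)))) (fun v => cfCol (pvConf (pvMerge (g, c))) v)} = ∅ := by
      ext c
      simp only [mem_ofPred_eq, mem_empty_iff_false, iff_false]
      rintro ⟨h, -⟩
      rw [pvqu_cfSites g c] at h
      exact hGg h
    rw [this, measure_empty]
    exact zero_le

/-- **THE EXIT: `hAB` IN THE ORDERED LIMIT**, U-form.      Numbers: `N_m (1-q)^(mt_m) ≤ pvtdQ w = 32^(-2(2w+1)²)`, `#Start_m 2^(-k_m) → 0` (`pvtd_num_lim` of 101).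
Geometry: NOTHING is asked (off the frame event `G m Y` the event is empty: the failure of the frame is paid by the exceptional event `Ex` of DENSE; at fixed level it is `o(1)` as `ε ↓ 0`: `pvax_frame` of 196). -/
theorem pvaa_hab (G : ℕ → Set ℂ → Prop) (C0 C1 : ∀ m Y, G m Y → (T Y).Cyc) {q0 q : ℝ} (hq0 : 0 < q0) (hq01 : q0 ≤ 1) (hq : q ≤ 1)
    (hG : ∀ m Y (h : G m Y), PvaaGeo (T Y) (C1 m Y h) (C0 m Y h) q0) (ℓ : ℕ → ℝ) (w : ℕ) (mt N : ℕ → ℕ) (hp : ∀ᶠ m in atTop, ENNReal.ofReal (N m * (1 - q) ^ mt m) ≤ pvtdQ w)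
    (Sel : ∀ (m : ℕ) (Y : Set ℂ), G m Y → Dt Y → ℤ × ℤ → (↥Y → Bool) → Finset (PvaaTrial (T Y)))
    (hSel : ∀ m Y (h : G m Y), ∀ e, e ∈ (C0 m Y h).Left → (T Y).opp e ∉ (C0 m Y h).Left → ∀ x, PvaMeas (pvasExpl (T Y) e (C0 m Y h).Leftᶜ) (Sel m Y h e x))
    (Start : ℕ → Finset (ℤ × ℤ)) (k : ℕ → ℕ) (hnum : Tendsto (fun m => ((Start m).card : ℝ) * (2⁻¹ : ℝ) ^ k m) atTop (𝓝 0)) :
    PvhbOrd fun m ε => ((pvhbUp ε).P {p | PvaaEv T (G m) (C0 m) (C1 m) (ℓ m) w (mt m) (N m) q (Sel m) (Start m) (k m)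
      (cfSites (pvConf (pvMerge p))) (fun v => cfCol (pvConf (pvMerge p)) v)}).toReal := by
  intro η hη
  set M : ℝ := pvbkM 2 1 (1 - q0) with hM
  have hM0 : 0 ≤ M := pvbk_M_nonneg 2 1 (by linarith)
  have hb : Tendsto (fun m => 2 * (pvtdC w).toReal * M * (((Start m).card : ℝ) * (2⁻¹ : ℝ) ^ k m)) atTop (𝓝 0) := by
    simpa using hnum.const_mul (2 * (pvtdC w).toReal * M)
  filter_upwards [hp, hb.eventually (ge_mem_nhds hη)] with m hm1 hm2
  refine Eventually.of_forall fun ε => ?_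
  have h1 := pvaa_hab_up T (G m) (C0 m) (C1 m) hq0 hq01 hq (hG m) (ℓ m) w (mt m) (N m) hm1 (Sel m) (hSel m) (Start m) (k m) ε
  have hfin : 2 * (((Start m).card : ℝ≥0∞) * (pvtdC w * (2⁻¹ : ℝ≥0∞) ^ k m) * ENNReal.ofReal M) ≠ ⊤ :=
    ENNReal.mul_ne_top (by norm_num) (ENNReal.mul_ne_top (ENNReal.mul_ne_top (ENNReal.natCast_ne_top _)
      (ENNReal.mul_ne_top (pvtd_C_ne_top w) (ENNReal.pow_ne_top (by norm_num)))) ENNReal.ofReal_ne_top)
  have h2 := ENNReal.toReal_mono hfin h1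
  have e : (2 * (((Start m).card : ℝ≥0∞) * (pvtdC w * (2⁻¹ : ℝ≥0∞) ^ k m) * ENNReal.ofReal M)).toReal
      = 2 * (pvtdC w).toReal * M * (((Start m).card : ℝ) * (2⁻¹ : ℝ) ^ k m) := by
    rw [ENNReal.toReal_mul, ENNReal.toReal_mul, ENNReal.toReal_mul, ENNReal.toReal_mul, ENNReal.toReal_pow, ENNReal.toReal_inv, ENNReal.toReal_natCast,
      ENNReal.toReal_ofReal hM0]
    norm_num
    ring
  rw [e] at h2
  exact h2.trans hm2

/-- **the adaptive bad blocks of an encoded piece `P`**: `x` is bad for EVERY chord which carries `P` (`Car b e`: the chord of the entrance `e`, in the colouring in which `true` = the colour `b`, carries `P`) -/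
def pvaaAB (G : Set ℂ → Prop) (C0 : ∀ Y, G Y → (T Y).Cyc) (ℓ : ℝ) (w mt N : ℕ) (q : ℝ) (Sel : ∀ Y : Set ℂ, G Y → Dt Y → ℤ × ℤ → (↥Y → Bool) → Finset (PvaaTrial (T Y)))
    (Y : Set ℂ) (σ : ↥Y → Bool) (Car : Bool → Dt Y → Prop) (x : ℤ × ℤ) : Prop :=
  ∀ (hG : G Y) (b : Bool) (e : Dt Y), Car b e → PvaaBad (T Y) Subtype.val (C0 Y hG) ℓ w mt N q (Sel Y hG) (fun v => σ v == b) e x

theorem pvaa_ab_eqns_cite3 : True := by
  have := @pvaaAB.eq_1
  trivial

theorem pvaa_half_mono {Start : Finset (ℤ × ℤ)} {k : ℕ} {B B' : ℤ × ℤ → Prop} (h : ∀ x, B x → B' x) (hB : PvtdHalf Start k B) : PvtdHalf Start k B' := by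
  obtain ⟨c, hc, h0, I, hI, hcard, hb⟩ := hB
  exact ⟨c, hc, h0, I, hI, hcard, fun i hi => h _ (hb i hi)⟩

/-- **`hAB` IN THE SHAPE OF `pvtd_dense_ord`** (101), U-form: `rims m ε p` = the PIECES (arcs of the rims carried by one chord, re-encoded; NO piece off the frame event), `Car m ε p P b e` = the chord of `e` carries `P`;
every piece is carried by a chord which reaches `C1.Left`. -/
theorem pvaa_hab_rims (G : ℕ → Set ℂ → Prop) (C0 C1 : ∀ m Y, G m Y → (T Y).Cyc) {q0 q : ℝ} (hq0 : 0 < q0) (hq01 : q0 ≤ 1) (hq : q ≤ 1)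
    (hG : ∀ m Y (h : G m Y), PvaaGeo (T Y) (C1 m Y h) (C0 m Y h) q0) (ℓ : ℕ → ℝ) (w : ℕ) (mt N : ℕ → ℕ) (hp : ∀ᶠ m in atTop, ENNReal.ofReal (N m * (1 - q) ^ mt m) ≤ pvtdQ w)
    (Sel : ∀ (m : ℕ) (Y : Set ℂ), G m Y → Dt Y → ℤ × ℤ → (↥Y → Bool) → Finset (PvaaTrial (T Y)))
    (hSel : ∀ m Y (h : G m Y), ∀ e, e ∈ (C0 m Y h).Left → (T Y).opp e ∉ (C0 m Y h).Left → ∀ x, PvaMeas (pvasExpl (T Y) e (C0 m Y h).Leftᶜ) (Sel m Y h e x))
    (Start : ℕ → Finset (ℤ × ℤ)) (k : ℕ → ℕ) (hnum : Tendsto (fun m => ((Start m).card : ℝ) * (2⁻¹ : ℝ) ^ k m) atTop (𝓝 0))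
    (rims : ℕ → ℝ → PvGeoT × PvColT → Set PvbRim) (Car : ∀ (_ : ℕ) (_ : ℝ) (p : PvGeoT × PvColT), PvbRim → Bool → Dt (cfSites (pvConf (pvMerge p))) → Prop)
    (hCar : ∀ m ε p, ∀ P ∈ rims m ε p, ∃ (h : G m (cfSites (pvConf (pvMerge p)))) (b : Bool) (e : Dt (cfSites (pvConf (pvMerge p)))), Car m ε p P b e ∧
      PvaaK (T (cfSites (pvConf (pvMerge p)))) (C1 m _ h) (C0 m _ h) (fun v => cfCol (pvConf (pvMerge p)) v == b) e) :
    PvhbOrd fun m ε => ((pvhbUp ε).P {p | ∃ P ∈ rims m ε p, PvtdHalf (Start m) (k m)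
      (pvaaAB T (G m) (C0 m) (ℓ m) w (mt m) (N m) q (Sel m) (cfSites (pvConf (pvMerge p))) (fun v => cfCol (pvConf (pvMerge p)) v) (Car m ε p P))}).toReal := by
  refine (pvaa_hab T G C0 C1 hq0 hq01 hq hG ℓ w mt N hp Sel hSel Start k hnum).mono fun m ε => ?_
  refine ENNReal.toReal_mono (PvUp.P_ne_top _ _) ((pvhbUp ε).P_mono ?_)
  rintro p ⟨P, hP, hH⟩
  obtain ⟨h, b, e, hc, hK⟩ := hCar m ε p P hP
  exact ⟨b, h, e, hK, pvaa_half_mono (fun x hx => hx h b e hc) hH⟩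

end exit

/-! ## 5. finite families (LOCAL BALLS), the count of the chords, the frame -/

section fam

/-- a finite union of events which are small in the ordered limit -/
theorem pvaa_ord_fam {J : Type} [Fintype J] (A : J → ℕ → ℝ → Set (PvGeoT × PvColT))
    (h : ∀ j, PvhbOrd fun m ε => ((pvhbUp ε).P (A j m ε)).toReal) : PvhbOrd fun m ε => ((pvhbUp ε).P (⋃ j, A j m ε)).toReal := by
  classical
  have key : ∀ S : Finset J, PvhbOrd fun m ε => ((pvhbUp ε).P (⋃ j ∈ S, A j m ε)).toReal := by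
    intro S
    induction S using Finset.induction_on with
    | empty =>
      intro η hη
      refine Eventually.of_forall fun m => Eventually.of_forall fun ε => ?_
      simp only [Finset.notMem_empty, iUnion_of_empty, iUnion_empty, PvUp.P_empty, ENNReal.toReal_zero]
      exact hη.le
    | insert j S hj ih =>
      refine ((h j).add ih).mono fun m ε => ?_
      rw [Finset.set_biUnion_insert, ← ENNReal.toReal_add (PvUp.P_ne_top _ _) (PvUp.P_ne_top _ _)]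
      exact ENNReal.toReal_mono (ENNReal.add_ne_top.2 ⟨PvUp.P_ne_top _ _, PvUp.P_ne_top _ _⟩) (PvUp.P_union_le _ _ _)
  simpa using key Finset.univ

/-- **QUENCHED → U-FORM, GENERAL**: `Q Y hG` = any event of the colours of the sites, defined on the geometry event `G Y`, which reads the finite set `Af Y hG` and has quenched probability `≤ L`; both colours -/
theorem pvaa_up_gen [∀ Y : Set ℂ, DecidableEq ↥Y] (G : Set ℂ → Prop) (Q : ∀ Y : Set ℂ, G Y → (↥Y → Bool) → Prop) (Af : ∀ Y : Set ℂ, G Y → Finset ↥Y)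
    (hloc : ∀ Y (h : G Y), PvalLoc (Af Y h) (Q Y h)) (L : ℝ) (hL : ∀ Y (h : G Y) ξ, pvaP (Af Y h) ξ (Q Y h) ≤ L) (ε : ℝ) :
    (pvhbUp ε).P {p | ∃ (b : Bool) (hG : G (cfSites (pvConf (pvMerge p)))), Q _ hG (fun v => cfCol (pvConf (pvMerge p)) v == b)} ≤ 2 * ENNReal.ofReal L := by
  have h0 : pvGeo ε {g | ¬ PvgOk g} = 0 := pvqu_ok_ae ε
  refine le_trans (pvaa_up_le (pvGeo ε) pvCol _ {g | ¬ PvgOk g} _ fun g hg => ?_) (by rw [h0, add_zero])
  simp only [mem_ofPred_eq, not_not] at hg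
  set P1 : Bool → ∀ Y : Set ℂ, (↥Y → Bool) → Prop := fun b Y σ => ∃ hG : G Y, Q Y hG (fun v => σ v == b) with hP1
  have hsub : {c | (g, c) ∈ {p | ∃ (b : Bool) (hG : G (cfSites (pvConf (pvMerge p)))), Q _ hG (fun v => cfCol (pvConf (pvMerge p)) v == b)}} ⊆
      {c | P1 false (cfSites (pvConf (pvMerge (g, c)))) (fun v => cfCol (pvConf (pvMerge (g, c))) v)} ∪
      {c | P1 true (cfSites (pvConf (pvMerge (g, c)))) (fun v => cfCol (pvConf (pvMerge (g, c))) v)} := by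
    rintro c ⟨b, hb⟩
    cases b
    · exact Or.inl hb
    · exact Or.inr hb
  refine (measure_mono hsub).trans ((measure_union_le _ _).trans ?_)
  rw [two_mul]
  suffices hone : ∀ b : Bool, pvCol {c | P1 b (cfSites (pvConf (pvMerge (g, c)))) (fun v => cfCol (pvConf (pvMerge (g, c))) v)} ≤ ENNReal.ofReal L from
    add_le_add (hone false) (hone true)
  intro b
  by_cases hGg : G (pvgSites g)
  · have e : P1 b (pvgSites g) = fun σ => (Q (pvgSites g) hGg) (fun v => σ v == b) := by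
      funext σ
      exact propext ⟨fun ⟨_, h⟩ => h, fun h => ⟨hGg, h⟩⟩
    rw [pvaa_sec (P1 b) hg (Af _ hGg) (by rw [e]; exact pvaa_loc_beq (hloc _ hGg) b) (fun _ => false), e]
    exact ENNReal.ofReal_le_ofReal (pvaa_P_beq _ _ _ (hL _ hGg) b _)
  · have : {c | P1 b (cfSites (pvConf (pvMerge (g, c)))) (fun v => cfCol (pvConf (pvMerge (g, c))) v)} = ∅ := by
      ext c
      simp only [mem_ofPred_eq, mem_empty_iff_false, iff_false]
      rintro ⟨h, -⟩
      rw [pvqu_cfSites g c] at h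
      exact hGg h
    rw [this, measure_empty]
    exact zero_le

end fam



section count

variable {V D : Type} [DecidableEq V] {T : PvMap V D} {C0 C1 : T.Cyc}

/-- more than `K0` chords reach `C1.Left` -/
def PvaaMany (T : PvMap V D) (C1 C0 : T.Cyc) (K0 : ℕ) (s : V → Bool) : Prop := ∃ F : Finset D, K0 < F.card ∧ ∀ e ∈ F, PvaaK T C1 C0 s e

theorem pvaa_many_eqns_cite : True := by
  have := @PvaaMany.eq_1
  trivial

/-- **the count of the chords, QUENCHED** (Markov) -/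
theorem pvaa_many_q (hT : T.IsSph) (hin : C1.Inside C0) {q0 : ℝ} (hq0 : 0 < q0) (hB : PvaxBlk T C1 C0 q0) (A : Finset V) (hA : ∀ v ∈ T.VOf C0.Left, v ∈ A)
    (ξ : V → Bool) (K0 : ℕ) : pvaP A ξ (PvaaMany T C1 C0 K0) ≤ pvbkM 2 1 (1 - q0) / (K0 + 1) := by
  classical
  rw [le_div_iff₀ (by positivity)]
  have h1 := pvak_moment_blk hT hin hq0 hB A (fun v hv => hA v (by obtain ⟨d, hd, rfl⟩ := hv; exact ⟨d, hd.1, rfl⟩)) ξ 1
  refine le_trans ?_ h1
  unfold pvaP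
  rw [← pva_E_mul_right]
  refine pva_E_mono fun ω _ => ?_
  rw [pow_one]
  split_ifs with h
  · obtain ⟨F, hF, he⟩ := h
    have := pvak_card_le_R hT C1 C0 ω F fun x hx => Or.inl (he x hx)
    rw [one_mul]
    exact_mod_cast (Nat.succ_le_of_lt hF).trans this
  · rw [zero_mul]
    exact Nat.cast_nonneg _

/-- the count of the chords reads the colours of the vertices of `C0.Left` only -/
theorem pvaa_many_loc (hin : C1.Inside C0) (hfin : C0.Left.Finite) (A : Finset V) (hA : ∀ v ∈ T.VOf C0.Left, v ∈ A) (K0 : ℕ) : PvalLoc A (PvaaMany T C1 C0 K0) := by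
  have aux : ∀ s s' : V → Bool, (∀ v ∈ A, s' v = s v) → PvaaMany T C1 C0 K0 s → PvaaMany T C1 C0 K0 s' := by
    rintro s s' hs ⟨F, hF, he⟩
    refine ⟨F, hF, fun e heF => ?_⟩
    have hK := he e heF
    have hI : pvasIn T C0.Left s e := by obtain ⟨n, hr⟩ := hK; exact hr.1
    exact pvaa_K_aux hin hfin (fun v hv => hs v (hA v (pvaa_expl_sub hfin hI v hv))) hK
  intro ω ω' h
  exact propext ⟨aux ω ω' fun v hv => (h v hv).symm, aux ω' ω fun v hv => h v hv⟩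

/-- **what SPLIT gets** off the event `PvaaMany`: a finite set of at most `K0` entrances which contains all the chords which reach `C1.Left` -/
theorem pvaa_not_many (hT : T.IsSph) {K0 : ℕ} {s : V → Bool} (h : ¬ PvaaMany T C1 C0 K0 s) : ∃ F : Finset D, F.card ≤ K0 ∧ ∀ e, PvaaK T C1 C0 s e → e ∈ F := by
  classical
  have hfin := pvak_runSet_finite hT C1 C0 s
  refine ⟨hfin.toFinset, ?_, fun e he => hfin.mem_toFinset.2 he⟩
  by_contra hcon
  exact h ⟨hfin.toFinset, not_le.1 hcon, fun e he => hfin.mem_toFinset.1 he⟩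

end count


section exit2

variable {Dt : Set ℂ → Type} [∀ Y : Set ℂ, DecidableEq ↥Y] (T : ∀ Y : Set ℂ, PvMap ↥Y (Dt Y))

/-- **THE COUNT OF THE CHORDS AT FIXED `(ε, level)`**, U-form, both colours -/
theorem pvaa_many_up (G : Set ℂ → Prop) (C0 C1 : ∀ Y, G Y → (T Y).Cyc) {q0 : ℝ} (hq0 : 0 < q0)
    (hG : ∀ Y (h : G Y), PvaaGeo (T Y) (C1 Y h) (C0 Y h) q0) (K0 : ℕ) (ε : ℝ) :
    (pvhbUp ε).P {p | ∃ (b : Bool) (hG : G (cfSites (pvConf (pvMerge p)))), PvaaMany (T _) (C1 _ hG) (C0 _ hG) K0 (fun v => cfCol (pvConf (pvMerge p)) v == b)}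
      ≤ 2 * ENNReal.ofReal (pvbkM 2 1 (1 - q0) / (K0 + 1)) := by
  have hVfin : ∀ Y (h : G Y), ((T Y).VOf (C0 Y h).Left).Finite := fun Y h => by
    refine ((hG Y h).2.2.1.image (T Y).src).subset ?_
    rintro v ⟨d, hd, rfl⟩
    exact ⟨d, hd, rfl⟩
  exact pvaa_up_gen G (fun Y h => PvaaMany (T Y) (C1 Y h) (C0 Y h) K0) (fun Y h => (hVfin Y h).toFinset)
    (fun Y h => pvaa_many_loc (hG Y h).2.1 (hG Y h).2.2.1 _ (fun v hv => (hVfin Y h).mem_toFinset.2 hv) K0) _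
    (fun Y h ξ => pvaa_many_q (hG Y h).1 (hG Y h).2.1 hq0 (hG Y h).2.2.2 _ (fun v hv => (hVfin Y h).mem_toFinset.2 hv) ξ K0) ε

/-- **THE COUNT OF THE CHORDS IN THE ORDERED LIMIT** ((o) of A6): for ANY `K0 m → ∞`, with upper probability `→ 1` at most `K0 m` chords reach `C1.Left` (part of the exceptional event `Ex` of DENSE) -/
theorem pvaa_many_ord (G : ℕ → Set ℂ → Prop) (C0 C1 : ∀ m Y, G m Y → (T Y).Cyc) {q0 : ℝ} (hq0 : 0 < q0) (hq01 : q0 ≤ 1)
    (hG : ∀ m Y (h : G m Y), PvaaGeo (T Y) (C1 m Y h) (C0 m Y h) q0) (K0 : ℕ → ℕ) (hK : Tendsto K0 atTop atTop) :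
    PvhbOrd fun m ε => ((pvhbUp ε).P {p | ∃ (b : Bool) (hG : G m (cfSites (pvConf (pvMerge p)))),
      PvaaMany (T _) (C1 m _ hG) (C0 m _ hG) (K0 m) (fun v => cfCol (pvConf (pvMerge p)) v == b)}).toReal := by
  intro η hη
  set M : ℝ := pvbkM 2 1 (1 - q0) with hM
  have hM0 : 0 ≤ M := pvbk_M_nonneg 2 1 (by linarith)
  have hb : Tendsto (fun m => 2 * (M / ((K0 m : ℝ) + 1))) atTop (𝓝 0) := by
    have h1 : Tendsto (fun m => (K0 m : ℝ) + 1) atTop atTop := tendsto_atTop_add_const_right _ _ ((tendsto_natCast_atTop_atTop).comp hK)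
    simpa using (h1.const_div_atTop M).const_mul 2
  filter_upwards [hb.eventually (ge_mem_nhds hη)] with m hm
  refine Eventually.of_forall fun ε => ?_
  have h1 := pvaa_many_up T (G m) (C0 m) (C1 m) hq0 (hG m) (K0 m) ε
  have h2 := ENNReal.toReal_mono (ENNReal.mul_ne_top (by norm_num) ENNReal.ofReal_ne_top) h1
  rw [ENNReal.toReal_mul, ENNReal.toReal_ofReal (by positivity)] at h2
  exact h2.trans (by simpa using hm)

/-- **`hAB` FOR A FINITE FAMILY OF LOCAL BALLS** `j : J`, in the shape of `pvtd_dense_ord` / of the field `AB_ord` of `PvX2Loc`: every piece is carried, in SOME ball `j`, by a chord which reaches `C1 j`;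
a block is adaptively bad for the piece if it is so for ALL the balls and ALL the chords which carry the piece. -/
theorem pvaa_hab_fam {J : Type} [Fintype J] (G : J → ℕ → Set ℂ → Prop) (C0 C1 : ∀ j m Y, G j m Y → (T Y).Cyc) {q0 q : ℝ} (hq0 : 0 < q0) (hq01 : q0 ≤ 1) (hq : q ≤ 1)
    (hG : ∀ j m Y (h : G j m Y), PvaaGeo (T Y) (C1 j m Y h) (C0 j m Y h) q0) (ℓ : ℕ → ℝ) (w : ℕ) (mt N : ℕ → ℕ) (hp : ∀ᶠ m in atTop, ENNReal.ofReal (N m * (1 - q) ^ mt m) ≤ pvtdQ w)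
    (Sel : ∀ (j : J) (m : ℕ) (Y : Set ℂ), G j m Y → Dt Y → ℤ × ℤ → (↥Y → Bool) → Finset (PvaaTrial (T Y)))
    (hSel : ∀ j m Y (h : G j m Y), ∀ e, e ∈ (C0 j m Y h).Left → (T Y).opp e ∉ (C0 j m Y h).Left → ∀ x, PvaMeas (pvasExpl (T Y) e (C0 j m Y h).Leftᶜ) (Sel j m Y h e x))
    (Start : ℕ → Finset (ℤ × ℤ)) (k : ℕ → ℕ) (hnum : Tendsto (fun m => ((Start m).card : ℝ) * (2⁻¹ : ℝ) ^ k m) atTop (𝓝 0))
    (rims : ℕ → ℝ → PvGeoT × PvColT → Set PvbRim) (Car : ∀ (_ : J) (_ : ℕ) (_ : ℝ) (p : PvGeoT × PvColT), PvbRim → Bool → Dt (cfSites (pvConf (pvMerge p))) → Prop)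
    (hCar : ∀ m ε p, ∀ P ∈ rims m ε p, ∃ (j : J) (h : G j m (cfSites (pvConf (pvMerge p)))) (b : Bool) (e : Dt (cfSites (pvConf (pvMerge p)))), Car j m ε p P b e ∧
      PvaaK (T (cfSites (pvConf (pvMerge p)))) (C1 j m _ h) (C0 j m _ h) (fun v => cfCol (pvConf (pvMerge p)) v == b) e) :
    PvhbOrd fun m ε => ((pvhbUp ε).P {p | ∃ P ∈ rims m ε p, PvtdHalf (Start m) (k m) (fun x => ∀ j,
      pvaaAB T (G j m) (C0 j m) (ℓ m) w (mt m) (N m) q (Sel j m) (cfSites (pvConf (pvMerge p))) (fun v => cfCol (pvConf (pvMerge p)) v) (Car j m ε p P) x)}).toReal := by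
  refine (pvaa_ord_fam _ fun j => pvaa_hab T (G j) (C0 j) (C1 j) hq0 hq01 hq (hG j) ℓ w mt N hp (Sel j) (hSel j) Start k hnum).mono fun m ε => ?_
  refine ENNReal.toReal_mono (PvUp.P_ne_top _ _) ((pvhbUp ε).P_mono ?_)
  rintro p ⟨P, hP, hH⟩
  obtain ⟨j, h, b, e, hc, hK⟩ := hCar m ε p P hP
  exact mem_iUnion.2 ⟨j, b, h, e, hK, pvaa_half_mono (fun x hx => hx j h b e hc) hH⟩

end exit2

/-! ## 6. the frame of 196 gives the geometry, on the TOTAL plane map `(delbPl Y).toMap` -/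

/-- **`PvaxFrame` ⟹ `PvaaGeo`** on `(delbPl Y).toMap`: `C1` at radius `(r1, 5 r1 / 4)`, `C0` at radius `(r0, 5 r0 / 4)` round `z`, as soon as `25 r1 / 2 ≤ r0`.
LOCAL BALLS: for the node `(x, R)` take `z = x_j ∈ (R/16) ℤ²`, `r1 = R / 8`, `r0 = 25 R / 16`: then `VOf C0.Left ⊆ B(x_j, 125 R / 64) ⊆ B(x, 4 R)`. -/
theorem pvaa_geo_frame {q : ℝ} {Z : Finset ℂ} {Rs : Finset ℝ} {Y : Set ℂ} (hF : PvaxFrame q Z Rs Y) {z : ℂ} (hz : z ∈ Z) {r1 r0 : ℝ} (h1 : r1 ∈ Rs) (h0 : r0 ∈ Rs)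
    (h10 : 25 / 2 * r1 ≤ r0) (hr1 : 0 ≤ r1) :
    ∃ C1 C0 : (delbPl Y).toMap.Cyc, PvaaGeo (delbPl Y).toMap C1 C0 q ∧ PvaxAt (delbPl Y).toMap Subtype.val z r1 (5 / 4 * r1) C1 ∧
      PvaxAt (delbPl Y).toMap Subtype.val z r0 (5 / 4 * r0) C0 := by
  have h := hF.1
  have key : ∀ Pl : PlTri ↥Y, Pl = delPl h → ∃ C1 C0 : Pl.toMap.Cyc, PvaaGeo Pl.toMap C1 C0 q ∧ PvaxAt Pl.toMap Subtype.val z r1 (5 / 4 * r1) C1 ∧
      PvaxAt Pl.toMap Subtype.val z r0 (5 / 4 * r0) C0 := by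
    rintro Pl rfl
    obtain ⟨⟨C1, a1⟩, hb⟩ := pvax_frame_spec hF h hz h1
    obtain ⟨⟨C0, a0⟩, -⟩ := pvax_frame_spec hF h hz h0
    have hT : (delMap h).IsSph := dls_isSph h
    obtain ⟨hin, hblk⟩ := pvax_at_blk hT a1 a0 (pvax_bxp_mono hb le_rfl h10) (by linarith)
    exact ⟨C1, C0, ⟨hT, hin, a0.fin, hblk⟩, a1, a0⟩
  exact key _ (delb_pl_eq h)


end Claimed.Agent.R289
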