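-- KEEP
import Claimed.Agent.R289.Arm.Strand
import Claimed.Agent.R289.Pl.Rim

/-!
# Row 289 (S0537), box ARM, block A5 (COVERING), file Arm/BB : LEMMA BB OF THE COVERING      (blueprint `origin/helper241:notes/R289/ARM_241.md` sec. 7; prefix `pvbb_`, records `Pvbb…`)

* sec.1  (helper42)  `PvbbLoop T s` = a CLOSED STRAND: `N` black-white darts `l t`, indexed periodically, pairwise different inside one period; `β t = src (l t)` black bank, `tgt (l t)` white bank.
         `pvbb_tog`: the toggle of a piece `(a, a + m]`;  `pvbb_pot`: the potential of a piece closed up by a rotation round a common black vertex `z`;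
         **`pvbb_BB`** (BLACK BANKS DO NOT PINCH ACROSS `P`): if `β i = β j = z`, `i < j < i + N`, a simple black cycle `P` cannot meet, off `z`, both `{β t : i < t < j}` and `{β t : j < t < i + N}`.
         `pvbb_BB'`: potential form (any black connected set off `z`);  `pvbb_loop`: a black-white dart with a finite orbit lies on a closed strand;  `pvbb_shift`: change of the origin of the times.
-/

set_option autoImplicit false

namespace Claimed.Agent.R289

open Relation

variable {V D : Type}

/-! ## 1. closed strands, lemma BB -/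

/-- a CLOSED STRAND: `N` black-white darts, indexed periodically, pairwise different inside one period -/
structure PvbbLoop (T : PvMap V D) (s : V → Bool) where
  N : ℕ
  l : ℕ → D
  pos : 0 < N
  bw : ∀ t, pvasBW T s (l t)
  step : ∀ t, l (t + 1) = pvasStep T s (l t)
  per : ∀ t, l (t + N) = l t
  inj : ∀ t t', t < N → t' < N → l t = l t' → t = t'

variable {T : PvMap V D} {s : V → Bool}

theorem pvbb_per_mul (L : PvbbLoop T s) (t k : ℕ) : L.l (t + k * L.N) = L.l t := by
  induction k with
  | zero => rw [Nat.zero_mul, Nat.add_zero]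
  | succ k ih => rw [Nat.succ_mul, ← Nat.add_assoc, L.per, ih]

theorem pvbb_mod (L : PvbbLoop T s) (t : ℕ) : L.l (t % L.N) = L.l t := by
  conv_rhs => rw [← Nat.mod_add_div t L.N, Nat.mul_comm]
  exact (pvbb_per_mul L _ _).symm

theorem pvbb_mod_eq (L : PvbbLoop T s) {t t' : ℕ} (h : L.l t = L.l t') : t % L.N = t' % L.N :=
  L.inj _ _ (Nat.mod_lt _ L.pos) (Nat.mod_lt _ L.pos) (by rw [pvbb_mod, pvbb_mod, h])

/-- two different times of one period carry different darts -/
theorem pvbb_ne (L : PvbbLoop T s) {t t' : ℕ} (h1 : t < t') (h2 : t' < t + L.N) : L.l t ≠ L.l t' := fun h =>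
  pvan_mod_ne h1 h2 (pvbb_mod_eq L h)

theorem pvbb_ne_opp (L : PvbbLoop T s) (t t' : ℕ) : L.l t ≠ T.opp (L.l t') := fun h =>
  pvas_bw_not_opp (L.bw t') (h ▸ L.bw t)

/-- the toggle of the piece `(a, a + m]` -/
noncomputable def pvbbG (L : PvbbLoop T s) (a m : ℕ) (d : D) : ZMod 2 := ∑ r ∈ Finset.range m, T.indE (L.l (a + 1 + r)) d

theorem pvbb_eqns_cite : True := by
  have := @pvbbG.eq_1
  trivial

theorem pvbb_G_sym (L : PvbbLoop T s) (a m : ℕ) : T.Sym (pvbbG L a m) := by
  intro d
  unfold pvbbG
  exact Finset.sum_congr rfl fun r _ => pl_indE_opp _ _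

theorem pvbb_G_succ (L : PvbbLoop T s) (a m : ℕ) : pvbbG L a (m + 1) = fun d => pvbbG L a m d + T.indE (L.l (a + 1 + m)) d :=
  funext fun _ => Finset.sum_range_succ _ _

/-- **toggle of a piece**: its face sums are the first and the last face -/
theorem pvbb_tog (L : PvbbLoop T s) (a m : ℕ) (e : D) : T.sumF (pvbbG L a m) e = T.indF (L.l a) e + T.indF (L.l (a + m)) e := by
  induction m with
  | zero =>
    rw [Nat.add_zero, pl_z2_add_self]
    simp [pvbbG, PvMap.sumF]
  | succ m ih =>
    have h : T.indF (T.opp (L.l (a + 1 + m))) e = T.indF (L.l (a + m)) e := by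
      have e1 : a + 1 + m = (a + m) + 1 := by omega
      rw [e1, L.step]
      exact pl_indF_sf (pvas_step_sf s _) e
    have e2 : a + (m + 1) = a + 1 + m := by omega
    rw [pvbb_G_succ, pl_sumF_add, ih, pl_sumF_indE, h, e2]
    linear_combination pl_z2_add_self (T.indF (L.l (a + m)) e)

/-- the toggle vanishes on the monochromatic edges -/
theorem pvbb_G_unocc (L : PvbbLoop T s) (a m : ℕ) {d : D} (h : ¬ T.Occ s d) : pvbbG L a m d = 0 := by
  unfold pvbbG
  refine Finset.sum_eq_zero fun r _ => pl_indE_eq_zero ?_ ?_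
  · rintro rfl; exact h (pvas_bw_occ (L.bw _))
  · rintro rfl; exact h (pl_ra_occ_opp (pvas_bw_occ (L.bw _)))

/-- the value of the toggle on a dart of the loop inside the piece -/
theorem pvbb_G_in (L : PvbbLoop T s) {a m t : ℕ} (hm : a + m < a + L.N) (h1 : a < t) (h2 : t ≤ a + m) : pvbbG L a m (L.l t) = 1 := by
  unfold pvbbG
  obtain ⟨r0, rfl⟩ : ∃ r0, t = a + 1 + r0 := ⟨t - (a + 1), by omega⟩
  rw [Finset.sum_eq_single r0]
  · exact pl_indE_self _
  · intro r hr hne
    have hr' := Finset.mem_range.1 hr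
    refine pl_indE_eq_zero ?_ (pvbb_ne_opp L _ _)
    rcases Nat.lt_or_gt_of_ne hne with h | h
    · exact (pvbb_ne L (by omega) (by omega)).symm
    · exact pvbb_ne L (by omega) (by omega)
  · intro h
    exact absurd (Finset.mem_range.2 (by omega)) h

/-- the value of the toggle on a dart of the loop in the complementary piece -/
theorem pvbb_G_out (L : PvbbLoop T s) {a m t : ℕ} (h1 : a + m < t) (h2 : t ≤ a + L.N) : pvbbG L a m (L.l t) = 0 := by
  unfold pvbbG
  refine Finset.sum_eq_zero fun r hr => ?_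
  have hr' := Finset.mem_range.1 hr
  exact pl_indE_eq_zero (pvbb_ne L (by omega) (by omega)).symm (pvbb_ne_opp L _ _)

/-- **potential of a piece closed up round a vertex**: `β a = β (a + m) = z`; off the edges at `z` the potential jumps exactly across the darts of the piece -/
theorem pvbb_pot (hT : T.IsSph) (L : PvbbLoop T s) {a m : ℕ} (hz : T.src (L.l a) = T.src (L.l (a + m))) :
    ∃ u : V → ZMod 2, ∀ d, T.src d ≠ T.src (L.l a) → T.tgt d ≠ T.src (L.l a) → u (T.src d) + u (T.tgt d) = pvbbG L a m d := by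
  obtain ⟨q, hq⟩ := hT.link _ _ hz
  obtain ⟨u, hu⟩ := pl_pot hT (fun x => pvbbG L a m x + T.rotTog (L.l a) q x)
    (fun x => by
      show pvbbG L a m (T.opp x) + T.rotTog (L.l a) q (T.opp x) = _
      rw [pvbb_G_sym L a m x, pl_rotTog_sym (L.l a) q x])
    (fun x => by
      rw [pl_sumF_add, pvbb_tog, pl_rotTog_sumF, hq]
      linear_combination pl_z2_add_self (T.indF (L.l a) x) + pl_z2_add_self (T.indF (L.l (a + m)) x))
  refine ⟨u, fun d h1 h2 => ?_⟩
  rw [← hu d, pl_rotTog_off _ _ h1 h2, add_zero]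

/-- a function which does not change along the white-white edges is constant on the white bank -/
theorem pvbb_white_const (L : PvbbLoop T s) (u : V → ZMod 2) (hu : ∀ d, s (T.src d) = false → s (T.tgt d) = false → u (T.src d) = u (T.tgt d)) (t : ℕ) :
    u (T.tgt (L.l t)) = u (T.tgt (L.l 0)) := by
  induction t with
  | zero => rfl
  | succ t ih =>
    rw [L.step]
    rcases pvas_step_ends s (L.l t) with ⟨_, _, e⟩ | ⟨ha, _, e⟩
    · rw [e, ih]
    · rw [e, ← ih]
      have := hu (T.nxt (L.l t)) (by rw [T.src_nxt]; exact (L.bw t).2) (by rw [T.tgt_nxt]; exact ha)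
      rw [T.src_nxt, T.tgt_nxt] at this
      exact this.symm

/-- a cycle minus one vertex is connected -/
theorem pvbb_cyc_const (P : T.Cyc) (z : V) (u : V → ZMod 2)
    (hu : ∀ k, T.src (P.e k) ≠ z → T.src (P.e (k + 1)) ≠ z → u (T.src (P.e k)) = u (T.src (P.e (k + 1)))) {a b : ℕ} (ha : T.src (P.e a) ≠ z) (hb : T.src (P.e b) ≠ z) :
    u (T.src (P.e a)) = u (T.src (P.e b)) := by
  have hn := pl_cyc_pos P
  by_cases hzP : ∃ m, T.src (P.e m) = z
  · obtain ⟨m, hm⟩ := hzP
    -- the window `m + 1, …, m + n - 1`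
    have hoff : ∀ r, 1 ≤ r → r < P.n → T.src (P.e (m + r)) ≠ z := by
      intro r h1 h2 h
      exact pvan_mod_ne (i := m) (k := m + r) (n := P.n) (by omega) (by omega) (pl_cyc_src_inj P (by rw [hm, h]))
    have hwin : ∀ r, 1 ≤ r → r < P.n → u (T.src (P.e (m + r))) = u (T.src (P.e (m + 1))) := by
      intro r
      induction r with
      | zero => intro h; omega
      | succ r ih =>
        intro _ h2
        rcases Nat.eq_zero_or_pos r with rfl | hr
        · rfl
        · rw [← ih hr (by omega)]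
          exact (hu (m + r) (hoff r hr (by omega)) (hoff (r + 1) (by omega) h2)).symm
    have hrep : ∀ c, T.src (P.e c) ≠ z → ∃ r, 1 ≤ r ∧ r < P.n ∧ P.e c = P.e (m + r) := by
      intro c hc
      refine ⟨(c + (P.n - m % P.n)) % P.n, ?_, Nat.mod_lt _ hn, ?_⟩
      · rcases Nat.eq_zero_or_pos ((c + (P.n - m % P.n)) % P.n) with h0 | h0
        · exfalso
          apply hc
          rw [← hm]
          congr 1
          apply pl_cyc_eq_of_mod
          have hmm := Nat.mod_lt m hn
          have h1 : (c + (P.n - m % P.n) + m % P.n) % P.n = (0 + m % P.n) % P.n := by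
            rw [Nat.add_mod, h0, Nat.mod_mod]
          have h2 : c + (P.n - m % P.n) + m % P.n = c + P.n := by omega
          rw [h2, Nat.add_mod_right, Nat.zero_add, Nat.mod_mod] at h1
          exact h1
        · exact h0
      · apply pl_cyc_eq_of_mod
        have hmm := Nat.mod_lt m hn
        have h2 : m % P.n + (c + (P.n - m % P.n)) = c + P.n := by omega
        have h3 : (m + (c + (P.n - m % P.n)) % P.n) % P.n = (m % P.n + (c + (P.n - m % P.n))) % P.n := by
          simp only [Nat.add_mod, Nat.mod_mod]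
        rw [h3, h2, Nat.add_mod_right]
    obtain ⟨r, r1, r2, hr⟩ := hrep a ha
    obtain ⟨r', r1', r2', hr'⟩ := hrep b hb
    rw [hr, hr', hwin r r1 r2, hwin r' r1' r2']
  · have hall : ∀ k, T.src (P.e k) ≠ z := fun k h => hzP ⟨k, h⟩
    have h0 : ∀ k, u (T.src (P.e k)) = u (T.src (P.e 0)) := by
      intro k
      induction k with
      | zero => rfl
      | succ k ih => rw [← ih]; exact (hu k (hall k) (hall (k + 1))).symm
    rw [h0 a, h0 b]

/-- **BB, connected form**: `β i = β j = z`, `i < j < i + N`; two black bank vertices `≠ z`, one in each gap, are not joined by a black path which avoids `z` -/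
theorem pvbb_BB' (hT : T.IsSph) (L : PvbbLoop T s) {i j t t' : ℕ} (hij : i < j) (hj : j < i + L.N) (hz : T.src (L.l i) = T.src (L.l j))
    (h1 : i < t) (h2 : t < j) (h3 : j < t') (h4 : t' < i + L.N) (hn : T.src (L.l t) ≠ T.src (L.l i)) (hn' : T.src (L.l t') ≠ T.src (L.l i)) :
    ∃ u : V → ZMod 2, u (T.src (L.l t)) ≠ u (T.src (L.l t')) ∧
      ∀ d, T.src d ≠ T.src (L.l i) → T.tgt d ≠ T.src (L.l i) → ¬ T.Occ s d → u (T.src d) = u (T.tgt d) := by
  obtain ⟨m, rfl⟩ : ∃ m, j = i + m := ⟨j - i, by omega⟩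
  obtain ⟨u, hu⟩ := pvbb_pot hT L hz
  have hzb : s (T.src (L.l i)) = true := (L.bw i).1
  have hmono : ∀ d, T.src d ≠ T.src (L.l i) → T.tgt d ≠ T.src (L.l i) → ¬ T.Occ s d → u (T.src d) = u (T.tgt d) := by
    intro d d1 d2 hd
    have := hu d d1 d2
    rw [pvbb_G_unocc L i m hd] at this
    exact pl_z2_eq_of_add this
  have hw := pvbb_white_const L u (fun d d1 d2 => hmono d (fun h => by rw [h, hzb] at d1; exact absurd d1 (by simp))
    (fun h => by rw [h, hzb] at d2; exact absurd d2 (by simp)) (fun h => h (by rw [d1, d2])))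
  have hwz : ∀ k, T.tgt (L.l k) ≠ T.src (L.l i) := fun k h => by
    have := (L.bw k).2
    rw [h, hzb] at this
    exact absurd this (by simp)
  have e1 := hu (L.l t) hn (hwz t)
  have e2 := hu (L.l t') hn' (hwz t')
  rw [pvbb_G_in L (by omega) h1 h2.le, hw t] at e1
  rw [pvbb_G_out L h3 h4.le, hw t'] at e2
  refine ⟨u, fun h => ?_, hmono⟩
  rw [h, e2] at e1
  exact absurd e1 (by decide)

/-- **BB** (BLACK BANKS DO NOT PINCH ACROSS `P`): `β i = β j = z`, `i < j < i + N`; a simple black cycle `P` does not meet, off `z`, both `{β t : i < t < j}` and `{β t : j < t < i + N}` -/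
theorem pvbb_BB (hT : T.IsSph) (L : PvbbLoop T s) (P : T.Cyc) (hP : ∀ v ∈ P.verts, s v = true) {i j t t' : ℕ} (hij : i < j) (hj : j < i + L.N)
    (hz : T.src (L.l i) = T.src (L.l j)) (h1 : i < t) (h2 : t < j) (h3 : j < t') (h4 : t' < i + L.N)
    (hn : T.src (L.l t) ≠ T.src (L.l i)) (hn' : T.src (L.l t') ≠ T.src (L.l i)) (hp : T.src (L.l t) ∈ P.verts) (hp' : T.src (L.l t') ∈ P.verts) : False := by
  obtain ⟨u, hne, hmono⟩ := pvbb_BB' hT L hij hj hz h1 h2 h3 h4 hn hn'
  obtain ⟨a, ha⟩ := hp
  obtain ⟨b, hb⟩ := hp'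
  apply hne
  rw [← ha, ← hb]
  refine pvbb_cyc_const P (T.src (L.l i)) u (fun k k1 k2 => ?_) (by rw [ha]; exact hn) (by rw [hb]; exact hn')
  have := hmono (P.e k) k1 (by rw [P.chain]; exact k2) (fun h => h (by rw [hP _ ⟨k, rfl⟩, P.chain, hP _ ⟨k + 1, rfl⟩]))
  rwa [P.chain] at this

/-- **a black-white dart whose strand visits finitely many darts lies on a closed strand** -/
theorem pvbb_loop {d : D} (h : pvasBW T s d) (hfin : (Set.range (pvasIt T s d)).Finite) : ∃ L : PvbbLoop T s, ∀ t, L.l t = pvasIt T s d t := by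
  classical
  have hex : ∃ k, 0 < k ∧ pvasIt T s d k = d := by
    obtain ⟨m, n, hmn, he⟩ : ∃ m n : ℕ, m ≠ n ∧ pvasIt T s d m = pvasIt T s d n := by
      by_contra hno
      have hinj : Function.Injective (pvasIt T s d) := fun m n he => by_contra fun hne => hno ⟨m, n, hne, he⟩
      exact Set.infinite_range_of_injective hinj hfin
    rcases Nat.lt_or_gt_of_ne hmn with hlt | hlt
    · exact ⟨n - m, by omega, pvas_it_return h hlt.le he⟩
    · exact ⟨m - n, by omega, pvas_it_return h hlt.le he.symm⟩
  refine ⟨⟨Nat.find hex, pvasIt T s d, (Nat.find_spec hex).1, pvas_it_bw h, pvas_it_succ s d, fun t => ?_, ?_⟩, fun _ => rfl⟩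
  · rw [Nat.add_comm, pvas_it_add, (Nat.find_spec hex).2]
  · have key : ∀ t t', t < t' → t' < Nat.find hex → pvasIt T s d t ≠ pvasIt T s d t' := by
      intro t t' h1 h2 he
      exact Nat.find_min hex (m := t' - t) (by omega) ⟨by omega, pvas_it_return h h1.le he⟩
    intro t t' h1 h2 he
    rcases Nat.lt_trichotomy t t' with hlt | heq | hlt
    · exact absurd he (key t t' hlt h2)
    · exact heq
    · exact absurd he.symm (key t' t hlt h1)

/-- change of the origin of the times -/
def PvbbLoop.shift (L : PvbbLoop T s) (k : ℕ) : PvbbLoop T s where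
  N := L.N
  l := fun t => L.l (t + k)
  pos := L.pos
  bw := fun t => L.bw _
  step := fun t => by rw [← L.step, Nat.add_right_comm]
  per := fun t => by rw [Nat.add_right_comm, L.per]
  inj := fun t t' h1 h2 he => by
    rcases Nat.lt_trichotomy t t' with hlt | heq | hlt
    · exact absurd he (pvbb_ne L (by omega) (by omega))
    · exact heq
    · exact absurd he.symm (pvbb_ne L (by omega) (by omega))

theorem pvbb_shift_eqns_cite : True := by
  have := @PvbbLoop.shift.eq_1
  trivial

/-- the positions of a closed strand are the iterates of any of them -/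
theorem pvbb_it (L : PvbbLoop T s) (a t : ℕ) : L.l (a + t) = pvasIt T s (L.l a) t := by
  induction t with
  | zero => rfl
  | succ t ih => rw [← Nat.add_assoc, L.step, ih, pvas_it_succ]

end Claimed.Agent.R289
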