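import Claimed.Agent.R289.Arm.Trap
import Claimed.Agent.R289.Arm.Bxp
import Claimed.Agent.R289.Arm.KCount

/-!
# Row 289 (S0537, Cardy for Poisson-Voronoi), box ARM, block A4 (probability half), file Arm/Count : THE FIVE-ARM COUNT AND THE SIX-ARM SUM      (owner helper89; architect of ARM helper241; variant of helper249; prefix `pvau_`, defs `pvau…` / `Pvau…`)

Blueprint: `origin/helper249:notes/R289/A4_249.md` sec. 2-4.      NO new planarity: glue of
`Arm/Trap` (249: `PvatRun PvatCfg PvatRule PvatRC pvatMk`, `pvat_rule`, `pvat_rule_congr`, **`pvat_marker`**), `Arm/Bxp` (196: `PvaxCr PvaxBlk PvaxTower`, `pvax_blk_fresh`, `pvax_ncr_iff`, `pvax_arm_stop`),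
`Arm/Stop` (128: `pvaP PvaStop PvaMeas`, `pva_smarkov_ge`, `pva_P_fl`, `pva_fkg_P_dec`), `Arm/KCount` (221: `pvakIn pvakK`, `pvak_moment`).

* `PvauIx D`            index `a = ((x, x2, x4), (n1, n2, n4))` of a configuration: three entrances of `c0.Left`, three times
* `pvauS T a ω`         the vertices seen by the three runs: a STOPPING SET for every fixed index (`pvau_S_stop`)
* `PvauCfg`             CONFIG5 of 249, explored-measurable (`pvau_cfg_meas`)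
* `PvauGam`             GAMMA: two rule circuits, for SOME rule colourings of the explored runs (no choice)
* sec. 2  `pvau_rc_of_ncr`   no crossing by vertices which violate the rule ⟹ rule circuit      `pvau_two_blk`   two disjoint annuli, two rules: probability `≥ q * q` (flip of the fresh vertices where the rule is black, then Harris)
* sec. 3  **`pvau_gam_ge`**  `q * q * P(CONFIG5) ≤ P(CONFIG5, GAMMA)`
* sec. 4  **`pvau_count`**   for a fixed colouring, `#{(b, a) : CONFIG5_b(a), GAMMA_b(a)} ≤ Cl * Kf * Kb` (marker of 249)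
* sec. 5  **`pvau_five_sum`** `∑_b ∑_a P(CONFIG5_b(a)) ≤ (q * q)⁻¹ Cl E[Kf Kb]`,      `pvau_KK` `E[Kf Kb] ≤ pvbkM 2 2 (1 - q)`
* sec. 6b `PvauFive` (some index), **`pvau_five_ex_sum`**, **`pvau_heavy`** (Markov: `P(≥ N boxes with five arms) ≤ C₅ / N`), `pvau_five_congr` (locality)      sec. 7 `PvauChain`, `PvauChain.count` = `armt_count` of `Arm/Top`
* sec. 6  `pvau_arm_le` a tower with one colour PER LEVEL;   `PvauSix` = CONFIG5 + in every annulus `i < m` of the tower a crossing of colour `col i` off the explored vertices;      **`pvau_six_sum`**  `∑_b P(∃ a, CONFIG6_b(a)) ≤ (1 - q)^m (q * q)⁻¹ Cl pvbkM 2 2 (1 - q)`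
-/

set_option autoImplicit false
set_option linter.unusedSectionVars false
set_option linter.unusedVariables false

namespace Claimed.Agent.R289

open Relation

variable {V D : Type} [DecidableEq V] {T : PvMap V D}

/-! ## 0. definitions -/

/-- index of a configuration: `((x, x2, x4), (n1, n2, n4))` -/
abbrev PvauIx (D : Type) : Type := (D × D × D) × (ℕ × ℕ × ℕ)

/-- the vertices seen by the three runs -/
def pvauS (T : PvMap V D) (a : PvauIx D) (ω : V → Bool) : Finset V :=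
  pvasLay T ω a.1.1 a.2.1 ∪ pvasLay T (pvasNot ω) a.1.2.1 a.2.2.1 ∪ pvasLay T (pvasNot ω) a.1.2.2 a.2.2.2

/-- CONFIG5 -/
def PvauCfg (T : PvMap V D) (c0 c1 c2 : T.Cyc) (a : PvauIx D) (ω : V → Bool) : Prop :=
  PvatCfg T c0 c1 c2 ω a.1.1 a.1.2.1 a.1.2.2 a.2.1 a.2.2.1 a.2.2.2

/-- GAMMA: two rule circuits -/
def PvauGam (T : PvMap V D) (c0 c1 c2 c3 : T.Cyc) (a : PvauIx D) (ω : V → Bool) : Prop :=
  ∃ (m1 : ℕ) (r12 r14 : V → Bool), PvatRun T c0.Left c2.Left ω a.1.1 m1 ∧ m1 ≤ a.2.1 ∧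
    PvatRule T c0.Left c1.Left ω a.1.1 a.2.1 a.1.2.1 a.2.2.1 r12 ∧ PvatRule T c0.Left c2.Left ω a.1.1 m1 a.1.2.2 a.2.2.2 r14 ∧
    PvatRC T c1 c2 (↑(pvauS T a ω)) r12 ω ∧ PvatRC T c2 c3 (↑(pvauS T a ω)) r14 ω

/-- the colouring `true` exactly where `s` violates the rule `r` -/
def pvauX (s r : V → Bool) : V → Bool := fun v => xor (s v) (r v)

theorem pvau_eqns_cite : True := by
  have := @pvauS.eq_1; have := @PvauCfg.eq_1; have := @PvauGam.eq_1; have := @pvauX.eq_1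
  trivial

/-! ## 1. the three runs: stopping set, measurability -/

theorem pvau_lay_coe (s : V → Bool) (d : D) (n : ℕ) : (↑(pvasLay T s d n) : Set V) = pvatLay T s d n := by
  ext v
  rw [Finset.mem_coe, pvas_mem_lay]
  rfl

theorem pvau_S_coe (a : PvauIx D) (ω : V → Bool) :
    (↑(pvauS T a ω) : Set V) = pvatLay T ω a.1.1 a.2.1 ∪ pvatLay T (pvasNot ω) a.1.2.1 a.2.2.1 ∪ pvatLay T (pvasNot ω) a.1.2.2 a.2.2.2 := by
  unfold pvauS
  rw [Finset.coe_union, Finset.coe_union, pvau_lay_coe, pvau_lay_coe, pvau_lay_coe]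

theorem pvau_not_congr {s s' : V → Bool} {v : V} (h : s' v = s v) : pvasNot s' v = pvasNot s v := by
  unfold pvasNot
  rw [h]

theorem pvau_S_stop (a : PvauIx D) : PvaStop (pvauS T a) := by
  intro ω ω' h
  unfold pvauS at h ⊢
  rw [pvas_lay_congr (T := T) (s := ω) (s' := ω') fun v hv => h v (Finset.mem_union_left _ (Finset.mem_union_left _ hv)),
    pvas_lay_congr (T := T) (s := pvasNot ω) (s' := pvasNot ω') fun v hv => pvau_not_congr (h v (Finset.mem_union_left _ (Finset.mem_union_right _ hv))),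
    pvas_lay_congr (T := T) (s := pvasNot ω) (s' := pvasNot ω') fun v hv => pvau_not_congr (h v (Finset.mem_union_right _ hv))]

theorem pvau_lay_congr {s s' : V → Bool} {x : D} {n : ℕ} (h : ∀ v ∈ pvatLay T s x n, s' v = s v) : pvatLay T s' x n = pvatLay T s x n := by
  rw [← pvau_lay_coe, ← pvau_lay_coe, pvas_lay_congr (T := T) (s := s) (s' := s') fun v hv => h v (by rw [← pvau_lay_coe]; exact hv)]

theorem pvau_run_congr' {B A : Set D} {s s' : V → Bool} {x : D} {n : ℕ} (h : ∀ v ∈ pvatLay T s x n, s' v = s v) (hr : PvatRun T B A s x n) : PvatRun T B A s' x n := by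
  have key := pvas_it_congr (T := T) (s := s) (s' := s') (d := x) (n := n) h
  refine ⟨⟨hr.ent.1, hr.ent.2.1, ?_, ?_⟩, fun k hk => ?_, ?_⟩
  · exact (h (T.src x) (Or.inl ⟨0, Nat.zero_le n, rfl⟩)).trans hr.ent.2.2.1
  · exact (h (T.tgt x) (Or.inr ⟨0, Nat.zero_le n, rfl⟩)).trans hr.ent.2.2.2
  · rw [key k hk.le]
    exact hr.mid k hk
  · rw [key n le_rfl]
    exact hr.hit

theorem pvau_run_congr {B A : Set D} {s s' : V → Bool} {x : D} {n : ℕ} (h : ∀ v ∈ pvatLay T s x n, s' v = s v) : PvatRun T B A s' x n ↔ PvatRun T B A s x n := by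
  refine ⟨fun hr => pvau_run_congr' (fun v hv => ?_) hr, pvau_run_congr' h⟩
  rw [pvau_lay_congr h] at hv
  exact (h v hv).symm

theorem pvau_cfg_meas (c0 c1 c2 : T.Cyc) (a : PvauIx D) : PvaMeas (pvauS T a) (PvauCfg T c0 c1 c2 a) := by
  intro ω ω' h
  have h' : ∀ v ∈ (↑(pvauS T a ω) : Set V), ω' v = ω v := fun v hv => h v hv
  rw [pvau_S_coe] at h'
  have h1 : ∀ v ∈ pvatLay T ω a.1.1 a.2.1, ω' v = ω v := fun v hv => h' v (Or.inl (Or.inl hv))
  have h2 : ∀ v ∈ pvatLay T (pvasNot ω) a.1.2.1 a.2.2.1, pvasNot ω' v = pvasNot ω v := fun v hv => pvau_not_congr (h' v (Or.inl (Or.inr hv)))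
  have h4 : ∀ v ∈ pvatLay T (pvasNot ω) a.1.2.2 a.2.2.2, pvasNot ω' v = pvasNot ω v := fun v hv => pvau_not_congr (h' v (Or.inr hv))
  refine propext ⟨fun hc => ⟨(pvau_run_congr h1).1 hc.r1, (pvau_run_congr h2).1 hc.r2, (pvau_run_congr h4).1 hc.r4, ?_, ?_⟩,
    fun hc => ⟨(pvau_run_congr h1).2 hc.r1, (pvau_run_congr h2).2 hc.r2, (pvau_run_congr h4).2 hc.r4, ?_, ?_⟩⟩
  · have := hc.dis1
    rwa [pvau_lay_congr h1, pvau_lay_congr h4] at this
  · have := hc.dis2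
    rwa [pvau_lay_congr h2, pvau_lay_congr h4] at this
  · rw [pvau_lay_congr h1, pvau_lay_congr h4]
    exact hc.dis1
  · rw [pvau_lay_congr h2, pvau_lay_congr h4]
    exact hc.dis2

/-! ## 2. rule circuits from blocking -/

theorem pvau_X_true {s r : V → Bool} {v : V} : pvauX s r v = true ↔ s v ≠ r v := by
  unfold pvauX
  cases s v <;> cases r v <;> simp

theorem pvau_verts_VOf (hT : T.IsSph) (c : T.Cyc) : c.verts ⊆ T.VOf c.Left := by
  rw [pl_VOf_left hT]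
  exact Set.subset_union_left

/-- no crossing by allowed vertices which violate the rule ⟹ a rule circuit -/
theorem pvau_rc_of_ncr (hT : T.IsSph) (hS : T.Simple) {c' a o c'' : T.Cyc} (h1 : c'.Inside a) (h2 : a.Inside o) (h3 : o.Inside c'') (hfin : o.Left.Finite)
    {S X : Set V} {r s : V → Bool} (hX : ∀ v ∈ T.VOf o.Left, v ∉ S → v ∈ X) (h : ¬ PvaxCr T a o X true (pvauX s r)) : PvatRC T c' c'' S r s := by
  obtain ⟨k, hk, hak, hko⟩ := (pvax_ncr_iff hT hS h2 hfin X true (pvauX s r)).1 h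
  refine ⟨k, ⟨fun v hv => (pl_nested_vert hT k a hak).2 (h1.1 hv), h1.2.trans hak⟩, ⟨fun v hv => ?_, hko.trans h3.2⟩, fun v hv hvS => ?_⟩
  · exact pvat_VOf_int hT h3 ((pl_nested_vert hT o k hko).1 (pvau_verts_VOf hT k hv))
  · by_contra hne
    exact hk v hv ⟨hX v ((pl_nested_vert hT o k hko).1 (pvau_verts_VOf hT k hv)) hvS, pvau_X_true.2 hne⟩

/-- "no black crossing" is decreasing -/
theorem pvau_cr_dec (c' c : T.Cyc) (X : Set V) (A : Finset V) (ξ : V → Bool) : PvaDecP A ξ (fun s => ¬ PvaxCr T c' c X true s) := by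
  intro ω ω' _ _ hle hn hc
  apply hn
  obtain ⟨u, hu, w, hw, h1, h2⟩ := hc
  exact ⟨u, hu, w, hw, ⟨h1.1, hle _ h1.2⟩, ReflTransGen.mono (fun _ _ h3 => ⟨h3.1, h3.2.1, hle _ h3.2.2⟩) _ _ h2⟩

theorem pvau_ann_disj (hT : T.IsSph) {a o a' o' : T.Cyc} (h : o.Inside a') {v : V} (h1 : v ∈ T.VOf (a.Ann o)) : v ∉ T.VOf (a'.Ann o') := by
  rintro ⟨d', hd', e⟩
  obtain ⟨d, hd, rfl⟩ := h1
  have h2 : T.src d ∈ T.Int a'.Left := pvat_VOf_int hT h ⟨d, hd.1, rfl⟩
  exact hd'.2 (h2 d' e)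

/-- **two disjoint annuli, two rules**: flip the fresh vertices at which the rule is black, then Harris -/
theorem pvau_two_blk (hT : T.IsSph) {a o a' o' : T.Cyc} (hao : a.Inside o) (hoa : o.Inside a') (hao' : a'.Inside o') (hfin : o'.Left.Finite) {q : ℝ} (hq : 0 ≤ q)
    (hb : PvaxBlk T a o q) (hb' : PvaxBlk T a' o' q) (A : Finset V) (ξ : V → Bool) {X : Set V} (hX : ∀ v ∈ X, v ∈ A) (r r' : V → Bool) :
    q * q ≤ pvaP A ξ (fun s => ¬ PvaxCr T a o X true (pvauX s r) ∧ ¬ PvaxCr T a' o' X true (pvauX s r')) := by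
  classical
  set R : Finset V := A.filter (fun v => (v ∈ T.VOf (a.Ann o) ∧ r v = true) ∨ (v ∉ T.VOf (a.Ann o) ∧ r' v = true)) with hR
  have e1 : ∀ s, PvaxCr T a o X true (pvauX s r) ↔ PvaxCr T a o X true (pvaFl R s) := by
    intro s
    rw [pvax_cr_inter hT hao, pvax_cr_inter hT hao (s := pvaFl R s)]
    refine pvax_cr_congr fun v hv => ?_
    by_cases hr : r v = true
    · rw [pva_fl_in (Finset.mem_filter.2 ⟨hX v hv.1, Or.inl ⟨hv.2, hr⟩⟩)]
      unfold pvauX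
      rw [hr, Bool.xor_true]
    · rw [pva_fl_out (fun h => by
        rcases (Finset.mem_filter.1 h).2 with h1 | h1
        · exact hr h1.2
        · exact h1.1 hv.2)]
      unfold pvauX
      rw [Bool.eq_false_of_not_eq_true hr, Bool.xor_false]
  have e2 : ∀ s, PvaxCr T a' o' X true (pvauX s r') ↔ PvaxCr T a' o' X true (pvaFl R s) := by
    intro s
    rw [pvax_cr_inter hT hao', pvax_cr_inter hT hao' (s := pvaFl R s)]
    refine pvax_cr_congr fun v hv => ?_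
    have hv' : v ∉ T.VOf (a.Ann o) := fun h => pvau_ann_disj hT hoa h hv.2
    by_cases hr : r' v = true
    · rw [pva_fl_in (Finset.mem_filter.2 ⟨hX v hv.1, Or.inr ⟨hv', hr⟩⟩)]
      unfold pvauX
      rw [hr, Bool.xor_true]
    · rw [pva_fl_out (fun h => by
        rcases (Finset.mem_filter.1 h).2 with h1 | h1
        · exact hv' h1.1
        · exact hr h1.2)]
      unfold pvauX
      rw [Bool.eq_false_of_not_eq_true hr, Bool.xor_false]
  have e3 : pvaP A ξ (fun s => ¬ PvaxCr T a o X true (pvauX s r) ∧ ¬ PvaxCr T a' o' X true (pvauX s r')) =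
      pvaP A ξ (fun s => (fun s' => ¬ PvaxCr T a o X true s' ∧ ¬ PvaxCr T a' o' X true s') (pvaFl R s)) :=
    pva_P_congr fun s _ => by rw [e1, e2]
  have hRA : R ⊆ A := Finset.filter_subset _ _
  rw [e3, pva_P_fl hRA ξ (fun s' => ¬ PvaxCr T a o X true s' ∧ ¬ PvaxCr T a' o' X true s')]
  have f1 := pvax_blk_fresh hT (hfin.subset (hoa.2.trans hao'.2)) hb A ξ true hX
  have f2 := pvax_blk_fresh hT hfin hb' A ξ true hX
  exact (mul_le_mul f1 f2 hq (hq.trans f1)).trans (pva_fkg_P_dec (pvau_cr_dec a o X A ξ) (pvau_cr_dec a' o' X A ξ))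

/-! ## 3. the two rule circuits cost `q * q` -/

/-- **`q * q * P(CONFIG5) ≤ P(CONFIG5, GAMMA)`** -/
theorem pvau_gam_ge (hT : T.IsSph) (hS : T.Simple) {c0 c1 c2 c3 a o a' o' : T.Cyc} (hfin : c0.Left.Finite)
    (h1a : c1.Inside a) (hao : a.Inside o) (ho2 : o.Inside c2) (h2a : c2.Inside a') (hao' : a'.Inside o') (ho3 : o'.Inside c3) (h30 : c3.Inside c0)
    {q : ℝ} (hq : 0 ≤ q) (hb : PvaxBlk T a o q) (hb' : PvaxBlk T a' o' q) (A : Finset V) (ξ : V → Bool) (hA : ∀ v ∈ T.VOf c0.Left, v ∈ A) (ix : PvauIx D) :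
    q * q * pvaP A ξ (PvauCfg T c0 c1 c2 ix) ≤ pvaP A ξ (fun ω => PvauCfg T c0 c1 c2 ix ω ∧ PvauGam T c0 c1 c2 c3 ix ω) := by
  refine pva_smarkov_ge (pvau_S_stop ix) (pvau_cfg_meas c0 c1 c2 ix) A ξ fun ω hω hK => ?_
  have h12 : c1.Inside c2 := pvat_inside_trans hT h1a (pvat_inside_trans hT hao ho2)
  have h23 : c2.Inside c3 := pvat_inside_trans hT h2a (pvat_inside_trans hT hao' ho3)
  have h20 : c2.Inside c0 := pvat_inside_trans hT h23 h30
  have h10 : c1.Inside c0 := pvat_inside_trans hT h12 h20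
  have ho'0 : o'.Left ⊆ c0.Left := ho3.2.trans h30.2
  have ho0 : o.Left ⊆ c0.Left := ho2.2.trans h20.2
  obtain ⟨m1, hm1, hrun⟩ := hK.r1.shorten (A' := c2.Left) h12.2 h10.2
  obtain ⟨r12, hr12⟩ := pvat_rule hT h10 hK.r1 hK.r2
  obtain ⟨r14, hr14⟩ := pvat_rule hT h20 hrun hK.r4
  refine (pvau_two_blk hT hao (pvat_inside_trans hT ho2 h2a) hao' (hfin.subset ho'0) hq hb hb' (A \ pvauS T ix ω) ω
    (X := ↑(A \ pvauS T ix ω)) (fun v hv => hv) r12 r14).trans (pva_P_mono fun ω' hω' hh => ?_)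
  have hag : ∀ v ∈ pvauS T ix ω, ω' v = ω v := fun v hv => hω' v fun h2 => (Finset.mem_sdiff.1 h2).2 hv
  have hSS : pvauS T ix ω' = pvauS T ix ω := pvau_S_stop ix ω ω' hag
  have hag' : ∀ v ∈ (↑(pvauS T ix ω) : Set V), ω' v = ω v := fun v hv => hag v hv
  rw [pvau_S_coe] at hag'
  have g1 : ∀ v ∈ pvatLay T ω ix.1.1 ix.2.1, ω' v = ω v := fun v hv => hag' v (Or.inl (Or.inl hv))
  have g2 : ∀ v ∈ pvatLay T (pvasNot ω) ix.1.2.1 ix.2.2.1, ω' v = ω v := fun v hv => hag' v (Or.inl (Or.inr hv))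
  have g4 : ∀ v ∈ pvatLay T (pvasNot ω) ix.1.2.2 ix.2.2.2, ω' v = ω v := fun v hv => hag' v (Or.inr hv)
  have g1' : ∀ v ∈ pvatLay T ω ix.1.1 m1, ω' v = ω v := fun v hv => g1 v (pvat_lay_mono ω ix.1.1 hm1 hv)
  refine ⟨m1, r12, r14, (pvau_run_congr g1').2 hrun, hm1, (pvat_rule_congr g1 g2 r12).2 hr12, (pvat_rule_congr g1' g4 r14).2 hr14, ?_, ?_⟩
  · rw [hSS]
    exact pvau_rc_of_ncr hT hS h1a hao ho2 (hfin.subset ho0)
      (fun v hv hvS => Finset.mem_coe.2 (Finset.mem_sdiff.2 ⟨hA v ((pl_nested_vert hT c0 o ho0).1 hv), hvS⟩)) hh.1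
  · rw [hSS]
    exact pvau_rc_of_ncr hT hS h2a hao' ho3 (hfin.subset ho'0)
      (fun v hv hvS => Finset.mem_coe.2 (Finset.mem_sdiff.2 ⟨hA v ((pl_nested_vert hT c0 o' ho'0).1 hv), hvS⟩)) hh.2

/-! ## 4. the deterministic count -/

/-- a run from `c0` to `cm` is a crossing strand of the annulus (vocabulary of `Arm/KCount`) -/
theorem pvau_run_in (hT : T.IsSph) {c0 cm : T.Cyc} (h : cm.Inside c0) {s : V → Bool} {x : D} {n : ℕ} (hr : PvatRun T c0.Left cm.Left s x n) : x ∈ pvakIn cm c0 s := by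
  have hpos : 0 < n := by
    rcases Nat.eq_zero_or_pos n with h0 | h0
    · exfalso
      have := hr.hit
      rw [h0] at this
      exact pvat_ent_not hT h hr.ent.1 hr.ent.2.1 this
    · exact h0
  refine ⟨⟨n, fun k => pvasIt T s x k, hpos, hr.ent.2.2, fun k _ => pvas_it_succ s x k, fun k hk => ⟨(hr.mid k hk).1, (hr.mid k hk).2⟩,
    fun h1 => hr.ent.2.1 h1.1, fun h1 => h1.2 hr.hit⟩, rfl, hr.ent.2.1, hr.hit⟩

theorem pvau_in_finite {c0 cm : T.Cyc} (hfin : c0.Left.Finite) (s : V → Bool) : (pvakIn cm c0 s).Finite := by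
  refine hfin.subset ?_
  rintro d ⟨γ, rfl, -⟩
  exact (γ.mem 0 γ.pos).1

theorem pvau_run_time {B A : Set D} {s : V → Bool} {x : D} {n n' : ℕ} (h : PvatRun T B A s x n) (h' : PvatRun T B A s x n') : n = n' := by
  rcases lt_trichotomy n n' with h1 | h1 | h1
  · exact absurd h.hit (h'.mid n h1).2
  · exact h1
  · exact absurd h'.hit (h.mid n' h1).2

/-- the trap of 249 in the vocabulary of this file -/
theorem pvau_marker (hT : T.IsSph) {c0 c1 c2 c3 : T.Cyc} (hfin : c0.Left.Finite) (h12 : c1.Inside c2) (h23 : c2.Inside c3) (h30 : c3.Inside c0) {a : PvauIx D} {ω : V → Bool}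
    (hc : PvauCfg T c0 c1 c2 a ω) (hg : PvauGam T c0 c1 c2 c3 a ω) :
    pvasIt T (pvasNot ω) a.1.2.2 (pvatMk T c0.Left ω a.1.1 a.1.2.2) ∈ c3.Left ∧ pvasExit T c0.Left ω a.1.1 = T.opp a.1.2.1 := by
  obtain ⟨m1, r12, r14, hm, hm1, hr12, hr14, hk1, hk2⟩ := hg
  rw [pvau_S_coe] at hk1 hk2
  exact pvat_marker hT hfin h12 h23 h30 hc hm hm1 hr12 hr14 hk1 hk2

open Classical in
/-- **THE COUNT**: for a fixed colouring, the pairs (box, index) with CONFIG5 and GAMMA are at most `Cl * Kf * Kb` -/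
theorem pvau_count (hT : T.IsSph) {ι : Type} {c0 cm : T.Cyc} {c1 c2 c3 : ι → T.Cyc} (hfin : c0.Left.Finite) (hm0 : cm.Inside c0)
    (h12 : ∀ b, (c1 b).Inside (c2 b)) (h23 : ∀ b, (c2 b).Inside (c3 b)) (h3m : ∀ b, (c3 b).Inside cm)
    (I : Finset ι) (J : Finset (PvauIx D)) {Cl : ℕ} (hCl : ∀ d : D, (I.filter (fun b => d ∈ (c3 b).Left)).card ≤ Cl) (ω : V → Bool) :
    ((I ×ˢ J).filter (fun p => PvauCfg T c0 (c1 p.1) (c2 p.1) p.2 ω ∧ PvauGam T c0 (c1 p.1) (c2 p.1) (c3 p.1) p.2 ω)).card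
      ≤ Cl * ((pvakIn cm c0 ω).ncard * (pvakIn cm c0 (pvasNot ω)).ncard) := by
  set P := (I ×ˢ J).filter (fun p => PvauCfg T c0 (c1 p.1) (c2 p.1) p.2 ω ∧ PvauGam T c0 (c1 p.1) (c2 p.1) (c3 p.1) p.2 ω) with hP
  have h30 : ∀ b, (c3 b).Inside c0 := fun b => pvat_inside_trans hT (h3m b) hm0
  have h2m : ∀ b, (c2 b).Inside cm := fun b => pvat_inside_trans hT (h23 b) (h3m b)
  have h1m : ∀ b, (c1 b).Inside cm := fun b => pvat_inside_trans hT (h12 b) (h2m b)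
  set f : ι × PvauIx D → D × D := fun p => (p.2.1.1, p.2.1.2.2) with hf
  have hfib : ∀ y ∈ P.image f, (P.filter fun p => f p = y).card ≤ Cl := by
    rintro ⟨x, x4⟩ -
    refine le_trans (Finset.card_le_card_of_injOn (fun p => p.1) (t := I.filter (fun b => pvasIt T (pvasNot ω) x4 (pvatMk T c0.Left ω x x4) ∈ (c3 b).Left)) ?_ ?_) (hCl _)
    · intro p hp
      have hp1 := (Finset.mem_filter.1 (Finset.mem_coe.1 hp))
      have hp2 := Finset.mem_filter.1 hp1.1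
      have hxy : p.2.1.1 = x ∧ p.2.1.2.2 = x4 := by
        have := hp1.2
        simp only [hf, Prod.mk.injEq] at this
        exact this
      have hm := (pvau_marker hT hfin (h12 p.1) (h23 p.1) (h30 p.1) hp2.2.1 hp2.2.2).1
      rw [hxy.1, hxy.2] at hm
      exact Finset.mem_coe.2 (Finset.mem_filter.2 ⟨(Finset.mem_product.1 hp2.1).1, hm⟩)
    · intro p hp p' hp' hbb
      have hp1 := (Finset.mem_filter.1 (Finset.mem_coe.1 hp))
      have hp2 := Finset.mem_filter.1 hp1.1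
      have hp1' := (Finset.mem_filter.1 (Finset.mem_coe.1 hp'))
      have hp2' := Finset.mem_filter.1 hp1'.1
      have hxy : p.2.1.1 = x ∧ p.2.1.2.2 = x4 := by
        have := hp1.2
        simp only [hf, Prod.mk.injEq] at this
        exact this
      have hxy' : p'.2.1.1 = x ∧ p'.2.1.2.2 = x4 := by
        have := hp1'.2
        simp only [hf, Prod.mk.injEq] at this
        exact this
      obtain ⟨b, ⟨⟨y, y2, y4⟩, ⟨n1, n2, n4⟩⟩⟩ := p
      obtain ⟨b', ⟨⟨y', y2', y4'⟩, ⟨n1', n2', n4'⟩⟩⟩ := p'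
      simp only at hbb hxy hxy' hp2 hp2'
      obtain rfl := hbb
      obtain ⟨rfl, rfl⟩ := hxy
      obtain ⟨rfl, rfl⟩ := hxy'
      have e1 := (pvau_marker hT hfin (h12 b) (h23 b) (h30 b) hp2.2.1 hp2.2.2).2
      have e2 := (pvau_marker hT hfin (h12 b) (h23 b) (h30 b) hp2'.2.1 hp2'.2.2).2
      simp only at e1 e2
      have e3 : y2 = y2' := by
        have := e1.symm.trans e2
        rw [← T.opp_opp y2, this, T.opp_opp]
      obtain rfl := e3
      have c := hp2.2.1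
      have c' := hp2'.2.1
      have t1 : n1 = n1' := pvau_run_time c.r1 c'.r1
      have t2 : n2 = n2' := pvau_run_time c.r2 c'.r2
      have t4 : n4 = n4' := pvau_run_time c.r4 c'.r4
      rw [t1, t2, t4]
  have himg : P.image f ⊆ (pvau_in_finite (cm := cm) hfin ω).toFinset ×ˢ (pvau_in_finite (cm := cm) hfin (pvasNot ω)).toFinset := by
    intro y hy
    obtain ⟨p, hp, rfl⟩ := Finset.mem_image.1 hy
    have hp2 := Finset.mem_filter.1 hp
    have c := hp2.2.1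
    obtain ⟨k1, -, hk1⟩ := c.r1.shorten (A' := cm.Left) (h1m p.1).2 ((h1m p.1).2.trans hm0.2)
    obtain ⟨k4, -, hk4⟩ := c.r4.shorten (A' := cm.Left) (h2m p.1).2 ((h2m p.1).2.trans hm0.2)
    exact Finset.mem_product.2 ⟨(Set.Finite.mem_toFinset _).2 (pvau_run_in hT hm0 hk1), (Set.Finite.mem_toFinset _).2 (pvau_run_in hT hm0 hk4)⟩
  calc P.card ≤ Cl * (P.image f).card := Finset.card_le_mul_card_image P Cl hfib
    _ ≤ Cl * ((pvau_in_finite (cm := cm) hfin ω).toFinset ×ˢ (pvau_in_finite (cm := cm) hfin (pvasNot ω)).toFinset).card :=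
        Nat.mul_le_mul_left _ (Finset.card_le_card himg)
    _ = Cl * ((pvakIn cm c0 ω).ncard * (pvakIn cm c0 (pvasNot ω)).ncard) := by
        rw [Finset.card_product, Set.ncard_eq_toFinset_card _ (pvau_in_finite hfin ω), Set.ncard_eq_toFinset_card _ (pvau_in_finite hfin (pvasNot ω))]

/-! ## 5. the five-arm sum -/

/-- **the cycles of the count**.   `c0` outer cycle, `cm` middle cycle; round each box `b`: `c1 < a12 < o12 < c2 < a23 < o23 < c3 < cm`, blocking in the annuli `(a12, o12)`, `(a23, o23)`, `(cm, c0)`;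
a tower of `m` annuli (anywhere: e.g. between `c3 b` and `cm`, then outside `c0`); a face lies in at most `Cl` of the discs `c3 b`. -/
structure PvauGeo (T : PvMap V D) (ι : Type) where
  c0 : T.Cyc
  cm : T.Cyc
  c1 : ι → T.Cyc
  a12 : ι → T.Cyc
  o12 : ι → T.Cyc
  c2 : ι → T.Cyc
  a23 : ι → T.Cyc
  o23 : ι → T.Cyc
  c3 : ι → T.Cyc
  twa : ι → ℕ → T.Cyc
  two : ι → ℕ → T.Cyc
  m : ℕ
  Cl : ℕ
  q : ℝ
  fin0 : c0.Left.Finite
  hm0 : cm.Inside c0
  h1a : ∀ b, (c1 b).Inside (a12 b)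
  h12 : ∀ b, (a12 b).Inside (o12 b)
  ho2 : ∀ b, (o12 b).Inside (c2 b)
  h2a : ∀ b, (c2 b).Inside (a23 b)
  h23 : ∀ b, (a23 b).Inside (o23 b)
  ho3 : ∀ b, (o23 b).Inside (c3 b)
  h3m : ∀ b, (c3 b).Inside cm
  hq : 0 < q
  blk12 : ∀ b, PvaxBlk T (a12 b) (o12 b) q
  blk23 : ∀ b, PvaxBlk T (a23 b) (o23 b) q
  blkm : PvaxBlk T cm c0 q
  tower : ∀ b, PvaxTower T m (twa b) (two b) q
  mult : ∀ (d : D) (I : Finset ι), (∀ b ∈ I, d ∈ (c3 b).Left) → I.card ≤ Cl

namespace PvauGeo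

variable {ι : Type} (g : PvauGeo T ι)

theorem i12 (hT : T.IsSph) (b : ι) : (g.c1 b).Inside (g.c2 b) := pvat_inside_trans hT (g.h1a b) (pvat_inside_trans hT (g.h12 b) (g.ho2 b))

theorem i23 (hT : T.IsSph) (b : ι) : (g.c2 b).Inside (g.c3 b) := pvat_inside_trans hT (g.h2a b) (pvat_inside_trans hT (g.h23 b) (g.ho3 b))

theorem i30 (hT : T.IsSph) (b : ι) : (g.c3 b).Inside g.c0 := pvat_inside_trans hT (g.h3m b) g.hm0

theorem ann_sub {A : Finset V} (hA : ∀ v ∈ T.VOf g.c0.Left, v ∈ A) (c : T.Cyc) : ∀ v ∈ T.VOf (c.Ann g.c0), v ∈ A := by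
  rintro v ⟨d, hd, rfl⟩
  exact hA _ ⟨d, hd.1, rfl⟩

theorem q_le_one : g.q ≤ 1 := by
  classical
  have hf : (T.VOf g.c0.Left).Finite := (g.fin0.image T.src).subset (by rintro v ⟨d, hd, rfl⟩; exact ⟨d, hd, rfl⟩)
  exact (g.blkm hf.toFinset (fun _ => true) true (g.ann_sub (fun v hv => hf.mem_toFinset.2 hv) g.cm)).trans (pva_P_le_one _ _ _)

end PvauGeo

/-- the number of forward runs times the number of backward runs from `c0` to `cm` -/
noncomputable def pvauKK {ι : Type} (g : PvauGeo T ι) (ω : V → Bool) : ℝ := ((pvakIn g.cm g.c0 ω).ncard : ℝ) * ((pvakIn g.cm g.c0 (pvasNot ω)).ncard : ℝ)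

/-- **FIVE-ARM SUM** -/
theorem pvau_five_sum (hT : T.IsSph) (hS : T.Simple) {ι : Type} (g : PvauGeo T ι) (I : Finset ι) (J : Finset (PvauIx D)) (A : Finset V) (ξ : V → Bool)
    (hA : ∀ v ∈ T.VOf g.c0.Left, v ∈ A) :
    ∑ b ∈ I, ∑ a ∈ J, pvaP A ξ (PvauCfg T g.c0 (g.c1 b) (g.c2 b) a) ≤ (g.q * g.q)⁻¹ * (g.Cl * pvaE A ξ (pvauKK g)) := by
  classical
  have hqq : 0 < g.q * g.q := mul_pos g.hq g.hq
  have h1 : ∀ b ∈ I, ∀ a ∈ J, pvaP A ξ (PvauCfg T g.c0 (g.c1 b) (g.c2 b) a) ≤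
      (g.q * g.q)⁻¹ * pvaP A ξ (fun ω => PvauCfg T g.c0 (g.c1 b) (g.c2 b) a ω ∧ PvauGam T g.c0 (g.c1 b) (g.c2 b) (g.c3 b) a ω) := by
    intro b _ a _
    have := pvau_gam_ge hT hS g.fin0 (g.h1a b) (g.h12 b) (g.ho2 b) (g.h2a b) (g.h23 b) (g.ho3 b) (g.i30 hT b) g.hq.le (g.blk12 b) (g.blk23 b) A ξ hA a
    rw [← div_eq_inv_mul, le_div_iff₀ hqq]
    linarith
  have hCl : ∀ d : D, (I.filter (fun b => d ∈ (g.c3 b).Left)).card ≤ g.Cl := fun d => g.mult d _ fun b hb => (Finset.mem_filter.1 hb).2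
  calc ∑ b ∈ I, ∑ a ∈ J, pvaP A ξ (PvauCfg T g.c0 (g.c1 b) (g.c2 b) a)
      ≤ ∑ b ∈ I, ∑ a ∈ J, (g.q * g.q)⁻¹ * pvaP A ξ (fun ω => PvauCfg T g.c0 (g.c1 b) (g.c2 b) a ω ∧ PvauGam T g.c0 (g.c1 b) (g.c2 b) (g.c3 b) a ω) :=
        Finset.sum_le_sum fun b hb => Finset.sum_le_sum fun a ha => h1 b hb a ha
    _ = (g.q * g.q)⁻¹ * ∑ p ∈ I ×ˢ J, pvaP A ξ (fun ω => PvauCfg T g.c0 (g.c1 p.1) (g.c2 p.1) p.2 ω ∧ PvauGam T g.c0 (g.c1 p.1) (g.c2 p.1) (g.c3 p.1) p.2 ω) := by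
        rw [Finset.sum_product, Finset.mul_sum]
        exact Finset.sum_congr rfl fun b _ => (Finset.mul_sum _ _ _).symm
    _ = (g.q * g.q)⁻¹ * pvaE A ξ (fun ω => ∑ p ∈ I ×ˢ J,
          if PvauCfg T g.c0 (g.c1 p.1) (g.c2 p.1) p.2 ω ∧ PvauGam T g.c0 (g.c1 p.1) (g.c2 p.1) (g.c3 p.1) p.2 ω then (1 : ℝ) else 0) := by
        rw [pva_E_sum]
        congr 1
        refine Finset.sum_congr rfl fun p _ => ?_
        unfold pvaP
        refine pva_E_congr fun ω _ => ?_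
        by_cases h : PvauCfg T g.c0 (g.c1 p.1) (g.c2 p.1) p.2 ω ∧ PvauGam T g.c0 (g.c1 p.1) (g.c2 p.1) (g.c3 p.1) p.2 ω
        · rw [if_pos h, if_pos h]
        · rw [if_neg h, if_neg h]
    _ ≤ (g.q * g.q)⁻¹ * pvaE A ξ (fun ω => g.Cl * pvauKK g ω) := by
        refine mul_le_mul_of_nonneg_left (pva_E_mono fun ω _ => ?_) (inv_nonneg.2 hqq.le)
        rw [Finset.sum_boole]
        have := pvau_count hT g.fin0 g.hm0 (g.i12 hT) (g.i23 hT) g.h3m I J hCl ω
        unfold pvauKK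
        exact_mod_cast this
    _ = (g.q * g.q)⁻¹ * (g.Cl * pvaE A ξ (pvauKK g)) := by rw [pva_E_mul_left]

/-- blocking gives a white circuit -/
theorem pvau_circ (hT : T.IsSph) (hS : T.Simple) {c' c : T.Cyc} (h : c'.Inside c) (hfin : c.Left.Finite) {q : ℝ} (hb : PvaxBlk T c' c q) (A : Finset V) (ξ : V → Bool)
    (hA : ∀ v ∈ T.VOf (c'.Ann c), v ∈ A) : q ≤ pvaP A ξ (PvakCirc c' c false) := by
  refine (hb A ξ true hA).trans (pva_P_mono fun ω _ hω => ?_)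
  obtain ⟨k, hk, h1, h2⟩ := (pvax_ncr_iff hT hS h hfin Set.univ true ω).1 hω
  exact ⟨k, fun v hv => Bool.eq_false_of_not_eq_true fun hv' => hk v hv ⟨Set.mem_univ v, hv'⟩, h1, h2⟩

/-- **second moment of the number of runs**: a constant which depends on `q` only -/
theorem pvau_KK (hT : T.IsSph) (hS : T.Simple) {ι : Type} (g : PvauGeo T ι) (A : Finset V) (ξ : V → Bool) (hA : ∀ v ∈ T.VOf g.c0.Left, v ∈ A) :
    pvaE A ξ (pvauKK g) ≤ pvbkM 2 2 (1 - g.q) := by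
  have m1 := pvak_moment hT g.hm0 A ξ g.hq (pvau_circ hT hS g.hm0 g.fin0 g.blkm A ξ (g.ann_sub hA g.cm)) 2
  have m2 := pvak_moment hT g.hm0 A (fun v => !ξ v) g.hq (pvau_circ hT hS g.hm0 g.fin0 g.blkm A (fun v => !ξ v) (g.ann_sub hA g.cm)) 2
  rw [← pva_E_not A ξ (fun ω => (pvakK g.cm g.c0 ω : ℝ) ^ 2)] at m2
  have h1 : pvaE A ξ (pvauKK g) ≤ pvaE A ξ (fun ω => (1 / 2 : ℝ) * ((pvakK g.cm g.c0 ω : ℝ) ^ 2 + (pvakK g.cm g.c0 (fun v => !ω v) : ℝ) ^ 2)) := by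
    refine pva_E_mono fun ω _ => ?_
    unfold pvauKK
    have a1 : ((pvakIn g.cm g.c0 ω).ncard : ℝ) ≤ (pvakK g.cm g.c0 ω : ℝ) := by
      unfold pvakK
      exact_mod_cast Nat.le_add_right _ _
    have a2 : ((pvakIn g.cm g.c0 (pvasNot ω)).ncard : ℝ) ≤ (pvakK g.cm g.c0 (fun v => !ω v) : ℝ) := by
      unfold pvakK
      exact_mod_cast Nat.le_add_right _ _
    have a3 : (0 : ℝ) ≤ ((pvakIn g.cm g.c0 ω).ncard : ℝ) := Nat.cast_nonneg _
    have a4 : (0 : ℝ) ≤ ((pvakIn g.cm g.c0 (pvasNot ω)).ncard : ℝ) := Nat.cast_nonneg _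
    nlinarith [mul_le_mul a1 a2 a4 (a3.trans a1), sq_nonneg ((pvakK g.cm g.c0 ω : ℝ) - (pvakK g.cm g.c0 (fun v => !ω v) : ℝ))]
  rw [pva_E_mul_left, pva_E_add] at h1
  linarith

/-! ## 6. the sixth arm, the six-arm sum -/

/-- **one arm through a tower, one colour per level** (`pvax_arm_le` of 196 with `b : ℕ → Bool`) -/
theorem pvau_arm_le (hT : T.IsSph) {m : ℕ} {a o : ℕ → T.Cyc} {q : ℝ} (h : PvaxTower T m a o q) (A : Finset V) (ξ : V → Bool) (b : ℕ → Bool)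
    {X : Set V} (hX : ∀ v ∈ X, v ∈ A) : pvaP A ξ (fun s => ∀ i < m, PvaxCr T (a i) (o i) X (b i) s) ≤ (1 - q) ^ m := by
  classical
  have hmono : ∀ k i, i + k < m → (a i).Left ⊆ (a (i + k)).Left := by
    intro k
    induction k with
    | zero => exact fun i _ => subset_rfl
    | succ k ih =>
      intro i hi
      exact (ih i (by omega)).trans (((h.ins (i + k) (by omega)).2).trans (h.nxt (i + k) (by omega)).2)
  have hdisj : ∀ i j, i < j → j < m → ∀ v, v ∈ T.VOf ((a i).Ann (o i)) → v ∉ T.VOf ((a j).Ann (o j)) := by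
    rintro i j hij hj v ⟨d, hd, rfl⟩ ⟨d', hd', h1⟩
    have h3 : T.src d ∈ T.Int (a (i + 1)).Left := pvat_VOf_int hT (h.nxt i (by omega)) ⟨d, hd.1, rfl⟩
    have h4 : (a (i + 1)).Left ⊆ (a j).Left := by
      have := hmono (j - (i + 1)) (i + 1) (by omega)
      rwa [show i + 1 + (j - (i + 1)) = j by omega] at this
    exact hd'.2 (h4 (h3 d' h1))
  set R : ℕ → Finset V := fun i => A.filter (fun v => v ∈ X ∧ v ∈ T.VOf ((a i).Ann (o i))) with hR
  have e1 : pvaP A ξ (fun s => ∀ i < m, PvaxCr T (a i) (o i) X (b i) s) = pvaP A ξ (fun s => ∀ i ∈ Finset.range m, PvaxCr T (a i) (o i) X (b i) s) :=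
    pva_P_congr fun ω _ => by simp only [Finset.mem_range]
  rw [e1, pva_P_forall (Finset.range m) R (fun i s => PvaxCr T (a i) (o i) X (b i) s) (fun i _ => Finset.filter_subset _ _)]
  · calc ∏ i ∈ Finset.range m, pvaP A ξ (fun s => PvaxCr T (a i) (o i) X (b i) s) ≤ ∏ _i ∈ Finset.range m, (1 - q) := by
          refine Finset.prod_le_prod (fun _ _ => pva_P_nonneg _ _ _) fun i hi => ?_
          have hi' := Finset.mem_range.1 hi
          have h1 := pvax_blk_fresh hT (h.fin i hi') (h.blk i hi') A ξ (b i) hX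
          rw [pva_P_not] at h1
          linarith
      _ = (1 - q) ^ m := by rw [Finset.prod_const, Finset.card_range]
  · intro i hi j hj hij
    have hi' := Finset.mem_range.1 hi
    have hj' := Finset.mem_range.1 hj
    rw [Finset.disjoint_left]
    intro v hv hv'
    have h1 := (Finset.mem_filter.1 hv).2.2
    have h2 := (Finset.mem_filter.1 hv').2.2
    rcases lt_or_gt_of_ne hij with h3 | h3
    · exact hdisj i j h3 hj' v h1 h2
    · exact hdisj j i h3 hi' v h2 h1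
  · intro i hi ω₁ ω₂ _ _ h12
    have hi' := Finset.mem_range.1 hi
    refine propext ?_
    show PvaxCr T (a i) (o i) X (b i) ω₁ ↔ PvaxCr T (a i) (o i) X (b i) ω₂
    rw [pvax_cr_inter hT (h.ins i hi'), pvax_cr_inter hT (h.ins i hi') (s := ω₂)]
    exact pvax_cr_congr fun v hv => h12 v (Finset.mem_filter.2 ⟨hX v hv.1, hv.1, hv.2⟩)

/-- the same after an exploration -/
theorem pvau_arm_stop (hT : T.IsSph) {m : ℕ} {a o : ℕ → T.Cyc} {q : ℝ} (h : PvaxTower T m a o q) {S : (V → Bool) → Finset V} (hS : PvaStop S)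
    {K : (V → Bool) → Prop} (hK : PvaMeas S K) {X : (V → Bool) → Set V} (hX : PvaMeas S X) (A : Finset V) (ξ : V → Bool) (b : ℕ → Bool)
    (hXA : ∀ ω, ∀ v ∈ X ω, v ∈ A ∧ v ∉ S ω) :
    pvaP A ξ (fun ω => K ω ∧ ∀ i < m, PvaxCr T (a i) (o i) (X ω) (b i) ω) ≤ (1 - q) ^ m * pvaP A ξ K := by
  refine pva_smarkov_le hS hK A ξ fun ω hω hk => ?_
  have e1 : pvaP (A \ S ω) ω (fun ω' => ∀ i < m, PvaxCr T (a i) (o i) (X ω') (b i) ω') = pvaP (A \ S ω) ω (fun ω' => ∀ i < m, PvaxCr T (a i) (o i) (X ω) (b i) ω') := by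
    refine pva_P_congr fun ω' hω' => ?_
    have h1 : X ω' = X ω := hX ω ω' fun v hv => hω' v fun h2 => (Finset.mem_sdiff.1 h2).2 hv
    rw [h1]
  rw [e1]
  exact pvau_arm_le hT h (A \ S ω) ω b fun v hv => Finset.mem_sdiff.2 (hXA ω v hv)

/-- CONFIG6 for a fixed index: CONFIG5 and, in every annulus of the tower, a crossing of the colour `col i` which avoids the explored vertices -/
def PvauSixAt {ι : Type} (g : PvauGeo T ι) (col : ℕ → Bool) (b : ι) (a : PvauIx D) (ω : V → Bool) : Prop :=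
  PvauCfg T g.c0 (g.c1 b) (g.c2 b) a ω ∧ ∀ i < g.m, PvaxCr T (g.twa b i) (g.two b i) (↑(pvauS T a ω))ᶜ (col i) ω

/-- CONFIG6 -/
def PvauSix {ι : Type} (g : PvauGeo T ι) (col : ℕ → Bool) (b : ι) (ω : V → Bool) : Prop := ∃ a : PvauIx D, PvauSixAt g col b a ω

/-- the indices which can occur -/
noncomputable def pvauJ {ι : Type} (g : PvauGeo T ι) : Finset (PvauIx D) :=
  (g.fin0.toFinset ×ˢ g.fin0.toFinset ×ˢ g.fin0.toFinset) ×ˢ
    (Finset.range g.fin0.toFinset.card ×ˢ Finset.range g.fin0.toFinset.card ×ˢ Finset.range g.fin0.toFinset.card)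

theorem pvau_eqns_cite2 : True := by
  have := @pvauKK.eq_1; have := @PvauSixAt.eq_1; have := @PvauSix.eq_1; have := @pvauJ.eq_1
  trivial

/-- the crossings of the tower live on fresh vertices: they cost `(1 - q)^m` -/
theorem pvau_six_le (hT : T.IsSph) {ι : Type} (g : PvauGeo T ι) (A : Finset V) (ξ : V → Bool)
    (hA' : ∀ b, ∀ i < g.m, ∀ v ∈ T.VOf ((g.twa b i).Ann (g.two b i)), v ∈ A) (col : ℕ → Bool) (b : ι) (a : PvauIx D) :
    pvaP A ξ (PvauSixAt g col b a) ≤ (1 - g.q) ^ g.m * pvaP A ξ (PvauCfg T g.c0 (g.c1 b) (g.c2 b) a) := by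
  have hX : PvaMeas (pvauS T a) (fun ω => {v : V | v ∈ A ∧ v ∉ pvauS T a ω}) := by
    intro ω ω' h
    show {v : V | v ∈ A ∧ v ∉ pvauS T a ω'} = {v : V | v ∈ A ∧ v ∉ pvauS T a ω}
    rw [pvau_S_stop a ω ω' h]
  refine le_trans (pva_P_mono fun ω _ hω => ?_)
    (pvau_arm_stop hT (g.tower b) (pvau_S_stop a) (pvau_cfg_meas g.c0 (g.c1 b) (g.c2 b) a) hX A ξ col (fun ω v hv => hv))
  refine ⟨hω.1, fun i hi => ?_⟩
  exact pvax_cr_mono (X' := {v : V | v ∈ A ∧ v ∉ pvauS T a ω}) (fun v hv => ⟨hA' b i hi v hv.2, hv.1⟩) ((pvax_cr_inter hT ((g.tower b).ins i hi)).1 (hω.2 i hi))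

/-- a run is shorter than the number of darts of the disc -/
theorem pvau_run_lt {B A : Set D} (hB : T.FaceSet B) (hfin : B.Finite) (hAB : A ⊆ B) {s : V → Bool} {x : D} {n : ℕ} (h : PvatRun T B A s x n) : n < hfin.toFinset.card := by
  classical
  have h1 : (Finset.range (n + 1)).card ≤ hfin.toFinset.card := by
    refine Finset.card_le_card_of_injOn (fun k => pvasIt T s x k) (fun k hk => ?_) ?_
    · exact Finset.mem_coe.2 (hfin.mem_toFinset.2 (h.mem hAB (Nat.lt_succ_iff.1 (Finset.mem_range.1 (Finset.mem_coe.1 hk)))))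
    · intro k hk t ht e
      have hk' : k ≤ n := Nat.lt_succ_iff.1 (Finset.mem_range.1 (Finset.mem_coe.1 hk))
      have ht' : t ≤ n := Nat.lt_succ_iff.1 (Finset.mem_range.1 (Finset.mem_coe.1 ht))
      by_contra hne
      rcases lt_or_gt_of_ne hne with h1 | h1
      · exact pvat_no_return hB h.ent h1 (fun i hi => h.mem hAB (by omega)) e.symm
      · exact pvat_no_return hB h.ent h1 (fun i hi => h.mem hAB (by omega)) e
  rw [Finset.card_range] at h1
  omega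

theorem pvau_cfg_mem (hT : T.IsSph) {ι : Type} (g : PvauGeo T ι) {b : ι} {a : PvauIx D} {ω : V → Bool} (h : PvauCfg T g.c0 (g.c1 b) (g.c2 b) a ω) : a ∈ pvauJ g := by
  have h20 : (g.c2 b).Left ⊆ g.c0.Left := (g.i23 hT b).2.trans (g.i30 hT b).2
  have h10 : (g.c1 b).Left ⊆ g.c0.Left := (g.i12 hT b).2.trans h20
  have hF := pl_left_face g.c0
  unfold pvauJ
  simp only [Finset.mem_product, Finset.mem_range, Set.Finite.mem_toFinset]
  exact ⟨⟨h.r1.ent.1, h.r2.ent.1, h.r4.ent.1⟩, pvau_run_lt hF g.fin0 h10 h.r1, pvau_run_lt hF g.fin0 h10 h.r2, pvau_run_lt hF g.fin0 h20 h.r4⟩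

/-- **EXIT: THE SIX-ARM SUM**.   The bound depends on `(q, m, Cl)` only. -/
theorem pvau_six_sum (hT : T.IsSph) (hS : T.Simple) {ι : Type} (g : PvauGeo T ι) (I : Finset ι) (A : Finset V) (ξ : V → Bool) (hA : ∀ v ∈ T.VOf g.c0.Left, v ∈ A)
    (hA' : ∀ b, ∀ i < g.m, ∀ v ∈ T.VOf ((g.twa b i).Ann (g.two b i)), v ∈ A) (col : ℕ → Bool) :
    ∑ b ∈ I, pvaP A ξ (PvauSix g col b) ≤ (1 - g.q) ^ g.m * ((g.q * g.q)⁻¹ * (g.Cl * pvbkM 2 2 (1 - g.q))) := by
  have h0 : 0 ≤ (1 - g.q) ^ g.m := pow_nonneg (by linarith [g.q_le_one]) _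
  have hqq : 0 ≤ (g.q * g.q)⁻¹ := inv_nonneg.2 (mul_pos g.hq g.hq).le
  calc ∑ b ∈ I, pvaP A ξ (PvauSix g col b) ≤ ∑ b ∈ I, ∑ a ∈ pvauJ g, pvaP A ξ (PvauSixAt g col b a) := by
        refine Finset.sum_le_sum fun b _ => le_trans (pva_P_mono fun ω _ hω => ?_) (pva_P_exists_le A ξ (pvauJ g) (fun a => PvauSixAt g col b a))
        obtain ⟨a, ha⟩ := hω
        exact ⟨a, pvau_cfg_mem hT g ha.1, ha⟩
    _ ≤ ∑ b ∈ I, ∑ a ∈ pvauJ g, (1 - g.q) ^ g.m * pvaP A ξ (PvauCfg T g.c0 (g.c1 b) (g.c2 b) a) :=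
        Finset.sum_le_sum fun b _ => Finset.sum_le_sum fun a _ => pvau_six_le hT g A ξ hA' col b a
    _ = (1 - g.q) ^ g.m * ∑ b ∈ I, ∑ a ∈ pvauJ g, pvaP A ξ (PvauCfg T g.c0 (g.c1 b) (g.c2 b) a) := by
        rw [Finset.mul_sum]
        exact Finset.sum_congr rfl fun b _ => (Finset.mul_sum _ _ _).symm
    _ ≤ (1 - g.q) ^ g.m * ((g.q * g.q)⁻¹ * (g.Cl * pvaE A ξ (pvauKK g))) := mul_le_mul_of_nonneg_left (pvau_five_sum hT hS g I (pvauJ g) A ξ hA) h0
    _ ≤ (1 - g.q) ^ g.m * ((g.q * g.q)⁻¹ * (g.Cl * pvbkM 2 2 (1 - g.q))) :=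
        mul_le_mul_of_nonneg_left (mul_le_mul_of_nonneg_left (mul_le_mul_of_nonneg_left (pvau_KK hT hS g A ξ hA) (Nat.cast_nonneg _)) hqq) h0

/-- the same for the colouring with the colours exchanged (= the mirror configurations) -/
theorem pvau_six_sum_not (hT : T.IsSph) (hS : T.Simple) {ι : Type} (g : PvauGeo T ι) (I : Finset ι) (A : Finset V) (ξ : V → Bool) (hA : ∀ v ∈ T.VOf g.c0.Left, v ∈ A)
    (hA' : ∀ b, ∀ i < g.m, ∀ v ∈ T.VOf ((g.twa b i).Ann (g.two b i)), v ∈ A) (col : ℕ → Bool) :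
    ∑ b ∈ I, pvaP A ξ (fun ω => PvauSix g col b (pvasNot ω)) ≤ (1 - g.q) ^ g.m * ((g.q * g.q)⁻¹ * (g.Cl * pvbkM 2 2 (1 - g.q))) := by
  refine le_trans (le_of_eq (Finset.sum_congr rfl fun b _ => ?_)) (pvau_six_sum hT hS g I A (fun v => !ξ v) hA hA' col)
  exact pva_P_flip A ξ (PvauSix g col b)

/-! ## 6b. five arms only: existence form, heavy cells, locality (for A6 of 281) -/

/-- CONFIG5 round the box `b`, some index -/
def PvauFive {ι : Type} (g : PvauGeo T ι) (b : ι) (ω : V → Bool) : Prop := ∃ a : PvauIx D, PvauCfg T g.c0 (g.c1 b) (g.c2 b) a ω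

theorem pvau_eqns_cite4 : True := by
  have := @PvauFive.eq_1
  trivial

/-- **FIVE-ARM SUM, existence form**: the bound depends on `(q, Cl)` only -/
theorem pvau_five_ex_sum (hT : T.IsSph) (hS : T.Simple) {ι : Type} (g : PvauGeo T ι) (I : Finset ι) (A : Finset V) (ξ : V → Bool) (hA : ∀ v ∈ T.VOf g.c0.Left, v ∈ A) :
    ∑ b ∈ I, pvaP A ξ (PvauFive g b) ≤ (g.q * g.q)⁻¹ * (g.Cl * pvbkM 2 2 (1 - g.q)) := by
  have hqq : 0 ≤ (g.q * g.q)⁻¹ := inv_nonneg.2 (mul_pos g.hq g.hq).le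
  calc ∑ b ∈ I, pvaP A ξ (PvauFive g b) ≤ ∑ b ∈ I, ∑ a ∈ pvauJ g, pvaP A ξ (PvauCfg T g.c0 (g.c1 b) (g.c2 b) a) := by
        refine Finset.sum_le_sum fun b _ => le_trans (pva_P_mono fun ω _ hω => ?_) (pva_P_exists_le A ξ (pvauJ g) (fun a => PvauCfg T g.c0 (g.c1 b) (g.c2 b) a))
        obtain ⟨a, ha⟩ := hω
        exact ⟨a, pvau_cfg_mem hT g ha, ha⟩
    _ ≤ (g.q * g.q)⁻¹ * (g.Cl * pvaE A ξ (pvauKK g)) := pvau_five_sum hT hS g I (pvauJ g) A ξ hA
    _ ≤ (g.q * g.q)⁻¹ * (g.Cl * pvbkM 2 2 (1 - g.q)) :=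
        mul_le_mul_of_nonneg_left (mul_le_mul_of_nonneg_left (pvau_KK hT hS g A ξ hA) (Nat.cast_nonneg _)) hqq

open Classical in
/-- **HEAVY CELLS** (Markov): at least `N` boxes with five arms -/
theorem pvau_heavy (hT : T.IsSph) (hS : T.Simple) {ι : Type} (g : PvauGeo T ι) (I : Finset ι) (A : Finset V) (ξ : V → Bool) (hA : ∀ v ∈ T.VOf g.c0.Left, v ∈ A)
    {N : ℕ} (hN : 0 < N) : pvaP A ξ (fun ω => N ≤ (I.filter (fun b => PvauFive g b ω)).card) ≤ (g.q * g.q)⁻¹ * (g.Cl * pvbkM 2 2 (1 - g.q)) / N := by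
  have hN' : (0 : ℝ) < N := Nat.cast_pos.2 hN
  rw [le_div_iff₀ hN']
  refine le_trans ?_ (pvau_five_ex_sum hT hS g I A ξ hA)
  unfold pvaP
  rw [← pva_E_sum, ← pva_E_mul_right]
  refine pva_E_mono fun ω _ => ?_
  rw [Finset.sum_boole]
  by_cases h : N ≤ (I.filter (fun b => PvauFive g b ω)).card
  · rw [if_pos h, one_mul]
    exact_mod_cast h
  · rw [if_neg h, zero_mul]
    exact Nat.cast_nonneg _

/-- what the three runs of a configuration see lies in the closed outer disc -/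
theorem pvau_S_sub {c0 c1 c2 : T.Cyc} (h10 : c1.Left ⊆ c0.Left) (h20 : c2.Left ⊆ c0.Left) {a : PvauIx D} {ω : V → Bool} (h : PvauCfg T c0 c1 c2 a ω) :
    (↑(pvauS T a ω) : Set V) ⊆ T.VOf c0.Left := by
  have hF := pl_left_face c0
  have key : ∀ {B A : Set D}, T.FaceSet B → A ⊆ B → ∀ {s : V → Bool} {x : D} {n : ℕ}, PvatRun T B A s x n → pvatLay T s x n ⊆ T.VOf B := by
    intro B A hB hAB s x n hr
    rintro v (⟨i, hi, rfl⟩ | ⟨i, hi, rfl⟩)
    · exact ⟨_, hr.mem hAB hi, rfl⟩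
    · exact ⟨T.nxt (pvasIt T s x i), (hB _).2 (hr.mem hAB hi), rfl⟩
  rw [pvau_S_coe]
  rintro v ((hv | hv) | hv)
  · exact key hF h10 h.r1 hv
  · exact key hF h10 h.r2 hv
  · exact key hF h20 h.r4 hv

/-- **LOCALITY**: CONFIG5 reads the colours of the closed outer disc only -/
theorem pvau_five_congr (hT : T.IsSph) {ι : Type} (g : PvauGeo T ι) (b : ι) {ω ω' : V → Bool} (h : ∀ v ∈ T.VOf g.c0.Left, ω' v = ω v) : PvauFive g b ω' ↔ PvauFive g b ω := by
  have h20 : (g.c2 b).Left ⊆ g.c0.Left := (g.i23 hT b).2.trans (g.i30 hT b).2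
  have h10 : (g.c1 b).Left ⊆ g.c0.Left := (g.i12 hT b).2.trans h20
  constructor
  · rintro ⟨a, ha⟩
    refine ⟨a, ?_⟩
    have := pvau_cfg_meas g.c0 (g.c1 b) (g.c2 b) a ω' ω fun v hv => (h v (pvau_S_sub h10 h20 ha hv)).symm
    rw [this]
    exact ha
  · rintro ⟨a, ha⟩
    refine ⟨a, ?_⟩
    have := pvau_cfg_meas g.c0 (g.c1 b) (g.c2 b) a ω ω' fun v hv => h v (pvau_S_sub h10 h20 ha hv)
    rw [this]
    exact ha

/-! ## 7. chain form = the record `ArmtGeo` of `Arm/Top` (186) -/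

theorem pvau_chain_ins (hT : T.IsSph) {c : ℕ → T.Cyc} {N : ℕ} (h : ∀ j, j < N → (c j).Inside (c (j + 1))) : ∀ k j, j < k → k ≤ N → (c j).Inside (c k) := by
  intro k
  induction k with
  | zero => intro j hj; omega
  | succ k ih =>
    intro j hj hk
    rcases Nat.lt_or_ge j k with h1 | h1
    · exact pvat_inside_trans hT (ih j h1 (by omega)) (h k (by omega))
    · obtain rfl : j = k := by omega
      exact h j (by omega)

theorem pvau_chain_le (hT : T.IsSph) {c : ℕ → T.Cyc} {N : ℕ} (h : ∀ j, j < N → (c j).Inside (c (j + 1))) {j k : ℕ} (hjk : j ≤ k) (hk : k ≤ N) : (c j).Left ⊆ (c k).Left := by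
  rcases Nat.lt_or_ge j k with h1 | h1
  · exact (pvau_chain_ins hT h k j h1 hk).2
  · obtain rfl : j = k := by omega
    exact subset_rfl

/-- the hypotheses of the record `ArmtGeo`: `c1 = γ b 0`, rule circuits in `(γ b 1, γ b 2)`, `(γ b 4, γ b 5)`, `c2 = γ b 3`, `c3 = γ b 6`, inner tower `(γ b (7+2i), γ b (8+2i))`, `cm = δ 0`, `c0 = δ 1`, outer tower `(δ (2+2i), δ (3+2i))` -/
structure PvauChain (T : PvMap V D) {ι : Type} (q : ℝ) (m m' Cl : ℕ) (γ : ι → ℕ → T.Cyc) (δ : ℕ → T.Cyc) : Prop where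
  fin : ∀ j, (δ j).Left.Finite
  γ_blk : ∀ b j, j < 7 + 2 * m → (γ b j).Inside (γ b (j + 1)) ∧ PvaxBlk T (γ b j) (γ b (j + 1)) q
  γ_top : ∀ b, (γ b (7 + 2 * m)).Inside (δ 0)
  δ_blk : ∀ j, j < 2 + 2 * m' → (δ j).Inside (δ (j + 1)) ∧ PvaxBlk T (δ j) (δ (j + 1)) q
  mult : ∀ d : D, {b | d ∈ (γ b 6).Left}.encard ≤ Cl

section chain

variable {ι : Type} {q : ℝ} {m m' Cl : ℕ} {γ : ι → ℕ → T.Cyc} {δ : ℕ → T.Cyc}

theorem PvauChain.gi (h : PvauChain T q m m' Cl γ δ) (hT : T.IsSph) (b : ι) {j k : ℕ} (hjk : j < k) (hk : k ≤ 7 + 2 * m) : (γ b j).Inside (γ b k) :=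
  pvau_chain_ins hT (fun j hj => (h.γ_blk b j hj).1) k j hjk hk

theorem PvauChain.di (h : PvauChain T q m m' Cl γ δ) (hT : T.IsSph) {j k : ℕ} (hjk : j < k) (hk : k ≤ 2 + 2 * m') : (δ j).Inside (δ k) :=
  pvau_chain_ins hT (fun j hj => (h.δ_blk j hj).1) k j hjk hk

theorem PvauChain.gd (h : PvauChain T q m m' Cl γ δ) (hT : T.IsSph) (b : ι) {j k : ℕ} (hj : j ≤ 7 + 2 * m) (hk : k ≤ 2 + 2 * m') : (γ b j).Inside (δ k) := by
  have h1 : (γ b j).Inside (δ 0) := by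
    rcases Nat.lt_or_ge j (7 + 2 * m) with h2 | h2
    · exact pvat_inside_trans hT (h.gi hT b h2 le_rfl) (h.γ_top b)
    · obtain rfl : j = 7 + 2 * m := by omega
      exact h.γ_top b
  rcases Nat.eq_zero_or_pos k with rfl | h3
  · exact h1
  · exact pvat_inside_trans hT h1 (h.di hT h3 hk)

/-- the combined tower: `m` levels round the box, then `m'` levels outside `c0` -/
theorem PvauChain.tower (h : PvauChain T q m m' Cl γ δ) (hT : T.IsSph) (b : ι) :
    PvaxTower T (m + m') (fun i => if i < m then γ b (7 + 2 * i) else δ (2 + 2 * (i - m))) (fun i => if i < m then γ b (8 + 2 * i) else δ (3 + 2 * (i - m))) q := by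
  refine ⟨fun i hi => ?_, fun i hi => ?_, fun i hi => ?_, fun i hi => ?_⟩
  · by_cases him : i < m
    · simp only [if_pos him]
      exact (h.fin 0).subset (h.gd hT b (by omega) (by omega)).2
    · simp only [if_neg him]
      exact h.fin _
  · by_cases him : i < m
    · simp only [if_pos him]
      rw [show 8 + 2 * i = 7 + 2 * i + 1 by omega]
      exact (h.γ_blk b (7 + 2 * i) (by omega)).1
    · simp only [if_neg him]
      rw [show 3 + 2 * (i - m) = 2 + 2 * (i - m) + 1 by omega]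
      exact (h.δ_blk (2 + 2 * (i - m)) (by omega)).1
  · by_cases him : i + 1 < m
    · have him' : i < m := by omega
      simp only [if_pos him, if_pos him']
      rw [show 7 + 2 * (i + 1) = 8 + 2 * i + 1 by omega]
      exact (h.γ_blk b (8 + 2 * i) (by omega)).1
    · by_cases him' : i < m
      · simp only [if_neg him, if_pos him']
        exact h.gd hT b (by omega) (by omega)
      · simp only [if_neg him, if_neg him']
        rw [show 2 + 2 * (i + 1 - m) = 3 + 2 * (i - m) + 1 by omega]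
        exact (h.δ_blk (3 + 2 * (i - m)) (by omega)).1
  · by_cases him : i < m
    · simp only [if_pos him]
      rw [show 8 + 2 * i = 7 + 2 * i + 1 by omega]
      exact (h.γ_blk b (7 + 2 * i) (by omega)).2
    · simp only [if_neg him]
      rw [show 3 + 2 * (i - m) = 2 + 2 * (i - m) + 1 by omega]
      exact (h.δ_blk (2 + 2 * (i - m)) (by omega)).2

/-- the record of the count -/
def PvauChain.geo (h : PvauChain T q m m' Cl γ δ) (hT : T.IsSph) (hq : 0 < q) : PvauGeo T ι where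
  c0 := δ 1
  cm := δ 0
  c1 := fun b => γ b 0
  a12 := fun b => γ b 1
  o12 := fun b => γ b 2
  c2 := fun b => γ b 3
  a23 := fun b => γ b 4
  o23 := fun b => γ b 5
  c3 := fun b => γ b 6
  twa := fun b i => if i < m then γ b (7 + 2 * i) else δ (2 + 2 * (i - m))
  two := fun b i => if i < m then γ b (8 + 2 * i) else δ (3 + 2 * (i - m))
  m := m + m'
  Cl := Cl
  q := q
  fin0 := h.fin 1
  hm0 := (h.δ_blk 0 (by omega)).1
  h1a := fun b => (h.γ_blk b 0 (by omega)).1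
  h12 := fun b => (h.γ_blk b 1 (by omega)).1
  ho2 := fun b => (h.γ_blk b 2 (by omega)).1
  h2a := fun b => (h.γ_blk b 3 (by omega)).1
  h23 := fun b => (h.γ_blk b 4 (by omega)).1
  ho3 := fun b => (h.γ_blk b 5 (by omega)).1
  h3m := fun b => h.gd hT b (by omega) (by omega)
  hq := hq
  blk12 := fun b => (h.γ_blk b 1 (by omega)).2
  blk23 := fun b => (h.γ_blk b 4 (by omega)).2
  blkm := (h.δ_blk 0 (by omega)).2
  tower := h.tower hT
  mult := fun d I hI => by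
    have h1 : ((I : Set ι)).encard ≤ Cl := (Set.encard_le_encard (fun b hb => hI b hb)).trans (h.mult d)
    rw [Set.encard_coe_eq_coe_finsetCard] at h1
    exact_mod_cast h1

theorem pvau_eqns_cite3 : True := by
  have := @PvauChain.geo.eq_1
  trivial

/-- what a run sees lies in the closed disc -/
theorem pvau_lay_sub {B A : Set D} (hB : T.FaceSet B) (hAB : A ⊆ B) {s : V → Bool} {x : D} {n : ℕ} (h : PvatRun T B A s x n) : pvatLay T s x n ⊆ T.VOf B := by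
  rintro v (⟨i, hi, rfl⟩ | ⟨i, hi, rfl⟩)
  · exact ⟨_, h.mem hAB hi, rfl⟩
  · exact ⟨T.nxt (pvasIt T s x i), (hB _).2 (h.mem hAB hi), rfl⟩

theorem pvau_cr_not {c' c : T.Cyc} {X : Set V} {b : Bool} {s : V → Bool} : PvaxCr T c' c X (!b) (pvasNot s) ↔ PvaxCr T c' c X b s := by
  have hset : {v | v ∈ X ∧ pvasNot s v = !b} = {v | v ∈ X ∧ s v = b} := by
    ext v
    unfold pvasNot
    constructor
    · rintro ⟨h1, h2⟩
      exact ⟨h1, Bool.not_inj h2⟩
    · rintro ⟨h1, h2⟩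
      exact ⟨h1, congrArg _ h2⟩
  unfold PvaxCr
  rw [hset]

/-- CONFIG6 of `Arm/Top` and an outer arm of colour `col` give the event of the count -/
theorem PvauChain.six (h : PvauChain T q m m' Cl γ δ) (hT : T.IsSph) (hq : 0 < q) {b : ι} {s : V → Bool} {col : Bool}
    (h6 : ∃ (x x2 x4 : D) (n1 n2 n4 : ℕ), PvatCfg T (δ 1) (γ b 0) (γ b 3) s x x2 x4 n1 n2 n4 ∧
      PvaxCr T (γ b 6) (δ 0) (pvatLay T s x n1 ∪ pvatLay T (pvasNot s) x2 n2 ∪ pvatLay T (pvasNot s) x4 n4)ᶜ true s)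
    (ho : PvaxCr T (δ 2) (δ (2 + 2 * m')) Set.univ col s) : PvauSix (h.geo hT hq) (fun i => if i < m then true else col) b s := by
  obtain ⟨x, x2, x4, n1, n2, n4, hc, ha⟩ := h6
  refine ⟨((x, x2, x4), (n1, n2, n4)), hc, fun i hi => ?_⟩
  have hi' : i < m + m' := hi
  rw [pvau_S_coe]
  by_cases him : i < m
  · show PvaxCr T (if i < m then γ b (7 + 2 * i) else δ (2 + 2 * (i - m))) (if i < m then γ b (8 + 2 * i) else δ (3 + 2 * (i - m))) _ (if i < m then true else col) s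
    simp only [if_pos him]
    refine pvax_cr_sub hT (h.gi hT b (by omega) (by omega)).2 ?_ (h.gd hT b (by omega) (by omega)).2 ha
    exact h.gi hT b (by omega) (by omega)
  · show PvaxCr T (if i < m then γ b (7 + 2 * i) else δ (2 + 2 * (i - m))) (if i < m then γ b (8 + 2 * i) else δ (3 + 2 * (i - m))) _ (if i < m then true else col) s
    simp only [if_neg him]
    have hins : (δ (2 + 2 * (i - m))).Inside (δ (3 + 2 * (i - m))) := h.di hT (by omega) (by omega)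
    have h1 : PvaxCr T (δ (2 + 2 * (i - m))) (δ (3 + 2 * (i - m))) Set.univ col s :=
      pvax_cr_sub hT (pvau_chain_le hT (fun j hj => (h.δ_blk j hj).1) (by omega) (by omega)) hins
        (pvau_chain_le hT (fun j hj => (h.δ_blk j hj).1) (by omega) (le_refl _)) ho
    refine pvax_cr_mono (fun v hv hvS => ?_) ((pvax_cr_inter hT hins).1 h1)
    have hF := pl_left_face (δ 1)
    have h10 : (γ b 0).Left ⊆ (δ 1).Left := (h.gd hT b (by omega) (by omega)).2
    have h30 : (γ b 3).Left ⊆ (δ 1).Left := (h.gd hT b (by omega) (by omega)).2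
    have hv1 : v ∈ T.VOf (δ 1).Left := by
      rcases hvS with (hv1 | hv1) | hv1
      · exact pvau_lay_sub hF h10 hc.r1 hv1
      · exact pvau_lay_sub hF h10 hc.r2 hv1
      · exact pvau_lay_sub hF h30 hc.r4 hv1
    have hv2 : v ∈ T.Int (δ (2 + 2 * (i - m))).Left := pvat_VOf_int hT (h.di hT (by omega) (by omega)) hv1
    obtain ⟨d, hd, rfl⟩ := hv.2
    exact hd.2 (hv2 d rfl)

/-- **THE QUENCHED COUNT in the form of `armt_count`** -/
theorem PvauChain.count [Fintype ι] (h : PvauChain T q m m' Cl γ δ) (hT : T.IsSph) (hS : T.Simple) (hq : 0 < q) (A : Finset V) (ξ : V → Bool)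
    (hA : ∀ v ∈ T.VOf (δ (2 + 2 * m')).Left, v ∈ A) :
    ∑ b, pvaP A ξ (fun s =>
      ((∃ (x x2 x4 : D) (n1 n2 n4 : ℕ), PvatCfg T (δ 1) (γ b 0) (γ b 3) s x x2 x4 n1 n2 n4 ∧
          PvaxCr T (γ b 6) (δ 0) (pvatLay T s x n1 ∪ pvatLay T (pvasNot s) x2 n2 ∪ pvatLay T (pvasNot s) x4 n4)ᶜ true s) ∨
        (∃ (x x2 x4 : D) (n1 n2 n4 : ℕ), PvatCfg T (δ 1) (γ b 0) (γ b 3) (pvasNot s) x x2 x4 n1 n2 n4 ∧
          PvaxCr T (γ b 6) (δ 0) (pvatLay T (pvasNot s) x n1 ∪ pvatLay T (pvasNot (pvasNot s)) x2 n2 ∪ pvatLay T (pvasNot (pvasNot s)) x4 n4)ᶜ true (pvasNot s))) ∧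
        ∃ col : Bool, PvaxCr T (δ 2) (δ (2 + 2 * m')) Set.univ col s)
      ≤ 4 * ((q * q)⁻¹ * pvbkM 2 2 (1 - q)) * Cl * (1 - q) ^ m * (1 - q) ^ m' := by
  set g := h.geo hT hq with hg
  have hA0 : ∀ v ∈ T.VOf g.c0.Left, v ∈ A := fun v hv =>
    hA v ((pl_nested_vert hT _ _ (pvau_chain_le hT (fun j hj => (h.δ_blk j hj).1) (by omega) (le_refl _))).1 hv)
  have hA' : ∀ b, ∀ i < g.m, ∀ v ∈ T.VOf ((g.twa b i).Ann (g.two b i)), v ∈ A := by
    rintro b i hi v ⟨d, hd, rfl⟩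
    have hi' : i < m + m' := hi
    refine hA _ ⟨d, ?_, rfl⟩
    have hd1 : d ∈ (if i < m then γ b (8 + 2 * i) else δ (3 + 2 * (i - m))).Left := hd.1
    by_cases him : i < m
    · rw [if_pos him] at hd1
      exact (h.gd hT b (by omega) (le_refl _)).2 hd1
    · rw [if_neg him] at hd1
      exact pvau_chain_le hT (fun j hj => (h.δ_blk j hj).1) (by omega) (le_refl _) hd1
  set cf : Bool → ℕ → Bool := fun col i => if i < m then true else col with hcf
  set Bd : ℝ := (1 - q) ^ (m + m') * ((q * q)⁻¹ * (Cl * pvbkM 2 2 (1 - q))) with hBd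
  have s1 : ∀ col, ∑ b, pvaP A ξ (PvauSix g (cf col) b) ≤ Bd := fun col => pvau_six_sum hT hS g Finset.univ A ξ hA0 hA' (cf col)
  have s2 : ∀ col, ∑ b, pvaP A ξ (fun ω => PvauSix g (cf col) b (pvasNot ω)) ≤ Bd := fun col => pvau_six_sum_not hT hS g Finset.univ A ξ hA0 hA' (cf col)
  have hb : ∀ b, pvaP A ξ (fun s =>
      ((∃ (x x2 x4 : D) (n1 n2 n4 : ℕ), PvatCfg T (δ 1) (γ b 0) (γ b 3) s x x2 x4 n1 n2 n4 ∧
          PvaxCr T (γ b 6) (δ 0) (pvatLay T s x n1 ∪ pvatLay T (pvasNot s) x2 n2 ∪ pvatLay T (pvasNot s) x4 n4)ᶜ true s) ∨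
        (∃ (x x2 x4 : D) (n1 n2 n4 : ℕ), PvatCfg T (δ 1) (γ b 0) (γ b 3) (pvasNot s) x x2 x4 n1 n2 n4 ∧
          PvaxCr T (γ b 6) (δ 0) (pvatLay T (pvasNot s) x n1 ∪ pvatLay T (pvasNot (pvasNot s)) x2 n2 ∪ pvatLay T (pvasNot (pvasNot s)) x4 n4)ᶜ true (pvasNot s))) ∧
        ∃ col : Bool, PvaxCr T (δ 2) (δ (2 + 2 * m')) Set.univ col s)
      ≤ (pvaP A ξ (PvauSix g (cf true) b) + pvaP A ξ (PvauSix g (cf false) b)) +
        (pvaP A ξ (fun ω => PvauSix g (cf true) b (pvasNot ω)) + pvaP A ξ (fun ω => PvauSix g (cf false) b (pvasNot ω))) := by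
    intro b
    refine le_trans (pva_P_mono (L := fun s => (PvauSix g (cf true) b s ∨ PvauSix g (cf false) b s) ∨
      (PvauSix g (cf true) b (pvasNot s) ∨ PvauSix g (cf false) b (pvasNot s))) fun s _ hs => ?_) ?_
    · obtain ⟨h6 | h6, col, ho⟩ := hs
      · left
        cases col
        · exact Or.inr (h.six hT hq h6 ho)
        · exact Or.inl (h.six hT hq h6 ho)
      · right
        cases col
        · exact Or.inl (h.six hT hq h6 (pvau_cr_not (b := false).2 ho))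
        · exact Or.inr (h.six hT hq h6 (pvau_cr_not (b := true).2 ho))
    · exact (pva_P_or_le A ξ _ _).trans (add_le_add (pva_P_or_le A ξ _ _) (pva_P_or_le A ξ _ _))
  refine (Finset.sum_le_sum fun b _ => hb b).trans ?_
  rw [Finset.sum_add_distrib, Finset.sum_add_distrib, Finset.sum_add_distrib]
  have e : 4 * ((q * q)⁻¹ * pvbkM 2 2 (1 - q)) * Cl * (1 - q) ^ m * (1 - q) ^ m' = Bd + Bd + (Bd + Bd) := by
    rw [hBd, pow_add]
    ring
  rw [e]
  exact add_le_add (add_le_add (s1 true) (s1 false)) (add_le_add (s2 true) (s2 false))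

end chain

end Claimed.Agent.R289
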