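-- KEEP
import Claimed.Agent.R289.Pl.Wall

/-!
# Row 289 (S0537), box ARM, block A5a, file Arm/Ret : NEAR RETURN OF A RIM  ⟹  SLIT STRAND + FOUR SEPARATION-ORDERED ARMS      (block helper84; prefix `ar5_`)

TeX: 02-probability.tex, Lemma 2.7 (near return), first (deterministic) half.  The proof of the paper (Hex four times, successive crosscuts, no right bypass) is NOT followed.

INPUT  `T.NearRet s c' c`: a rim `P` (`T.ArRim s P`: all the right faces `opp (P.e i)` are tags of ONE finite wall `L`) which visits the open inner disc `Int c'.Left` twice, both complementary arcs visiting `Int c.Right`.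
OUTPUT `T.SixArm s c' c`: a crossing strand `σ₀` of the annulus (its two layers = 2 arms) and, in the slit annulus `X = VOf Ann \ layers σ₀` (edges `EdgeIn Ann`), four pairwise disjoint monochromatic sets `G 0, …, G 3`
       which are SEPARATION ORDERED between `Lf` (neighbours of the target layer) and `Rt` (neighbours of the source layer): every path of `X` from `Lf ∪ G_{<j}` to `Rt ∪ G_{>j}` meets `G j`      (format of A2, helper89).

* sec.1  DUAL CHAINS mod 2: `T.DCh g a b` (`g` symmetric, odd exactly at the faces of `a` and `b`); edges, concatenation, `DJoin` paths, fans round a vertex, pieces of walls; a closed chain is a cocycle, hence has a potential (`h1`).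
* sec.2  CROSSING STRANDS `T.XStr s c' c` = pieces `e, wnx e, …, wnx^[N] e` of a wall, first face in `c'.Left`, last face in `c.Right`, the others in `Ann`.  Layers `srcL tgtL lay`.
* sec.3  PART II (no rim): sector potentials `u` of a pair of crossing strands (closed up inside `c'.Left` and inside `c.Right`), their table of values (read on `c'`), cut lemma; four strands with pairwise disjoint layers of one colour ⟹ `SixArm`.
* sec.4  PART I: the wall of a rim as a dual circuit; PINCH LEMMA (a bank vertex seen at the positions `l, l'` of the wall: one of the two arcs carries no tag of the rim); the wall visits the tags in the order of the rim, one turn;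
         extraction of crossing strands; near return ⟹ four crossing strands with pairwise disjoint layers of the colour of the rim.
* sec.5  `ar5_main`.
Prove IN PLACE, helpers just above the theorem.  A misfit of a statement: one line to 84.
-/

set_option autoImplicit false

namespace Claimed.Agent.R289

open Relation

/-! ## 0. Definitions -/

open Classical in
/-- indicator with values in `ZMod 2` -/
noncomputable def ar5I (p : Prop) : ZMod 2 := if p then 1 else 0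

/-- no path of `X` off `G` from `A` to `B` (end points included) -/
def ar5Blk {V : Type} (adj : V → V → Prop) (X G A B : Set V) : Prop :=
  ∀ a ∈ A, ∀ b ∈ B, a ∉ G → ¬ ReflTransGen (fun u v => adj u v ∧ v ∈ X ∧ v ∉ G) a b

namespace PvMap

variable {V D : Type} (T : PvMap V D)

/-- cochain of one edge -/
noncomputable def eCh (a d : D) : ZMod 2 := ar5I (d = a ∨ d = T.opp a)

/-- `g` = cochain of a dual chain from the face of `a` to the face of `b` -/
def DCh (g : D → ZMod 2) (a b : D) : Prop :=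
  T.Sym g ∧ ∀ d, g d + g (T.nxt d) + g (T.nxt (T.nxt d)) = ar5I (T.SF a d) + ar5I (T.SF b d)

/-- cochain of the piece `e, wnx e, …, wnx^[N] e` of a wall -/
noncomputable def sCh (s : V → Bool) (e : D) (N : ℕ) (d : D) : ZMod 2 := ∑ k ∈ Finset.range (N + 1), T.eCh ((T.wnx s)^[k] e) d

/-- crossing strand of the annulus between `c'` and `c`, from the inner disc to the outer region: it crosses the darts `wnx^[k] e`, `k ≤ N` -/
structure XStr (s : V → Bool) (c' c : T.Cyc) where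
  e : D
  N : ℕ
  occ : T.Occ s e
  h0 : e ∈ c'.Left
  hin : ∀ k, k < N → T.opp ((T.wnx s)^[k] e) ∈ c'.Ann c
  hN : T.opp ((T.wnx s)^[N] e) ∈ c.Right

/-- rim: all the right faces are tags of one finite wall -/
structure ArRim (s : V → Bool) (P : T.Cyc) : Prop where
  tag : ∀ i, T.Tag s (T.opp (P.e i))
  wall : ∀ i, T.Wall s (T.opp (P.e 0)) (T.opp (P.e i))
  fin : {d | T.Wall s (T.opp (P.e 0)) d}.Finite

/-- a rim visits the open inner disc twice, and both complementary arcs visit the open outer region -/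
def NearRet (s : V → Bool) (c' c : T.Cyc) : Prop :=
  ∃ P : T.Cyc, T.ArRim s P ∧ ∃ i₀ i₁ i₂ i₃ : ℕ, i₀ < i₁ ∧ i₁ < i₂ ∧ i₂ < i₃ ∧ i₃ < i₀ + P.n ∧
    T.src (P.e i₀) ∈ T.Int c'.Left ∧ T.src (P.e i₁) ∈ T.Int c.Right ∧ T.src (P.e i₂) ∈ T.Int c'.Left ∧ T.src (P.e i₃) ∈ T.Int c.Right

variable {T}

/-- the dart through which the wall leaves the right face of the `i`-th edge of the rim, forwards: facing vertex `→` head of the edge -/
def Cyc.yd (P : T.Cyc) (i : ℕ) : D := T.nxt (T.nxt (T.opp (P.e i)))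

variable {s : V → Bool} {c' c : T.Cyc}

/-- the darts crossed by the strand -/
noncomputable def XStr.d (σ : T.XStr s c' c) (k : ℕ) : D := (T.wnx s)^[k] σ.e
/-- source layer -/
def XStr.srcL (σ : T.XStr s c' c) : Set V := {v | ∃ k, k ≤ σ.N ∧ T.src (σ.d k) = v}
/-- target layer -/
def XStr.tgtL (σ : T.XStr s c' c) : Set V := {v | ∃ k, k ≤ σ.N ∧ T.tgt (σ.d k) = v}
/-- the layer of colour `b` -/
def XStr.lay (σ : T.XStr s c' c) (b : Bool) : Set V := {v | s v = b ∧ (v ∈ σ.srcL ∨ v ∈ σ.tgtL)}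
/-- both layers -/
def XStr.L (σ : T.XStr s c' c) : Set V := σ.srcL ∪ σ.tgtL
/-- cochain of the strand -/
noncomputable def XStr.ch (σ : T.XStr s c' c) : D → ZMod 2 := T.sCh s σ.e σ.N
/-- vertices of the slit annulus -/
def XStr.X (σ : T.XStr s c' c) : Set V := T.VOf (c'.Ann c) \ (σ.srcL ∪ σ.tgtL)
/-- left side of the slit annulus: neighbours of the target layer -/
def XStr.Lf (σ : T.XStr s c' c) : Set V := {y | y ∈ σ.X ∧ ∃ z ∈ σ.tgtL, T.EdgeIn (c'.Ann c) z y}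
/-- right side of the slit annulus: neighbours of the source layer -/
def XStr.Rt (σ : T.XStr s c' c) : Set V := {y | y ∈ σ.X ∧ ∃ z ∈ σ.srcL, T.EdgeIn (c'.Ann c) z y}

variable (T)

/-- **six arms**: a crossing strand and four separation-ordered monochromatic cut sets of the slit annulus -/
def SixArm (s : V → Bool) (c' c : T.Cyc) : Prop :=
  ∃ (σ : T.XStr s c' c) (G : Fin 4 → Set V) (col : Fin 4 → Bool),
    (∀ j, G j ⊆ σ.X) ∧ (∀ j, ∀ v ∈ G j, s v = col j) ∧ (∀ i j, i ≠ j → Disjoint (G i) (G j)) ∧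
    ∀ j, ar5Blk (T.EdgeIn (c'.Ann c)) σ.X (G j) (σ.Lf ∪ {v | ∃ i, i < j ∧ v ∈ G i}) (σ.Rt ∪ {v | ∃ i, j < i ∧ v ∈ G i})

/-- the wall of a rim as a dual circuit, followed forwards along the rim (sources = facing vertices, targets = bank of the colour of the rim) -/
structure RimW (s : V → Bool) (P : T.Cyc) where
  w : T.DCyc
  h0 : w.e 0 = P.yd 0
  nx : ∀ l, w.e (l + 1) = T.wnx s (w.e l)
  occ : ∀ l, T.Occ s (w.e l)
  col : ∀ l, s (T.src (w.e l)) = s (T.src (P.yd 0))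
  pos : ∀ i, ∃ p, w.e p = P.yd i

end PvMap

theorem ar5_defs_eqns_cite : True := by
  have := @ar5I.eq_1; have := @ar5Blk.eq_1; have := @PvMap.eCh.eq_1; have := @PvMap.DCh.eq_1; have := @PvMap.sCh.eq_1
  have := @PvMap.NearRet.eq_1; have := @PvMap.Cyc.yd.eq_1; have := @PvMap.XStr.d.eq_1; have := @PvMap.XStr.srcL.eq_1; have := @PvMap.XStr.tgtL.eq_1
  have := @PvMap.XStr.lay.eq_1; have := @PvMap.XStr.ch.eq_1; have := @PvMap.XStr.X.eq_1; have := @PvMap.XStr.Lf.eq_1; have := @PvMap.XStr.Rt.eq_1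
  have := @PvMap.SixArm.eq_1; have := @PvMap.XStr.L.eq_1
  trivial

variable {V D : Type} {T : PvMap V D}

/-! ## 1. Dual chains mod 2 -/

theorem ar5_I_true {p : Prop} (h : p) : ar5I p = 1 := by
  unfold ar5I; rw [if_pos h]

theorem ar5_I_false {p : Prop} (h : ¬ p) : ar5I p = 0 := by
  unfold ar5I; rw [if_neg h]

theorem ar5_I_congr {p q : Prop} (h : p ↔ q) : ar5I p = ar5I q := by
  rw [propext h]

theorem ar5_I_ne_zero {p : Prop} (h : ar5I p ≠ 0) : p := by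
  by_contra hp
  exact h (ar5_I_false hp)

theorem ar5_ech_sym (a : D) : T.Sym (T.eCh a) := by
  intro d
  unfold PvMap.eCh
  refine ar5_I_congr ⟨?_, ?_⟩
  · rintro (h | h)
    · right; rw [← h, T.opp_opp]
    · left; exact T.opp_injective h
  · rintro (h | h)
    · right; rw [h]
    · left; rw [h, T.opp_opp]

theorem ar5_ech_opp (a d : D) : T.eCh (T.opp a) d = T.eCh a d := by
  unfold PvMap.eCh
  rw [T.opp_opp]
  exact ar5_I_congr or_comm

theorem ar5_sum_pt (a e : D) : ar5I (e = a) + ar5I (T.nxt e = a) + ar5I (T.nxt (T.nxt e) = a) = ar5I (T.SF a e) := by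
  by_cases h1 : e = a
  · subst h1
    rw [ar5_I_true rfl, ar5_I_false (T.nxt_ne_self e), ar5_I_false (T.nxt2_ne_self e), ar5_I_true (T.sf_refl e)]
    simp
  · by_cases h2 : T.nxt e = a
    · subst h2
      rw [ar5_I_false h1, ar5_I_true rfl, ar5_I_false (T.nxt_ne_self _), ar5_I_true (T.sf_symm (T.sf_nxt e))]
      simp
    · by_cases h3 : T.nxt (T.nxt e) = a
      · subst h3
        rw [ar5_I_false h1, ar5_I_false h2, ar5_I_true rfl, ar5_I_true (T.sf_symm (T.sf_nxt2 e))]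
        simp
      · have h4 : ¬ T.SF a e := by
          intro h
          rcases T.sf_symm h with h | h | h
          · exact h1 h.symm
          · exact h2 h.symm
          · exact h3 h.symm
        rw [ar5_I_false h1, ar5_I_false h2, ar5_I_false h3, ar5_I_false h4]
        simp

theorem ar5_ech_split (a e : D) : T.eCh a e = ar5I (e = a) + ar5I (e = T.opp a) := by
  unfold PvMap.eCh
  by_cases h1 : e = a
  · subst h1
    have : e ≠ T.opp e := fun h => T.opp_ne_self e h.symm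
    rw [ar5_I_true (Or.inl rfl), ar5_I_true rfl, ar5_I_false this, add_zero]
  · by_cases h2 : e = T.opp a
    · rw [ar5_I_true (Or.inr h2), ar5_I_false h1, ar5_I_true h2, zero_add]
    · rw [ar5_I_false (by tauto), ar5_I_false h1, ar5_I_false h2, zero_add]

/-- the three darts of a face are different, `a` and `opp a` lie in different faces -/
theorem ar5_ech_face (a d : D) : T.eCh a d + T.eCh a (T.nxt d) + T.eCh a (T.nxt (T.nxt d)) = ar5I (T.SF a d) + ar5I (T.SF (T.opp a) d) := by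
  rw [ar5_ech_split, ar5_ech_split, ar5_ech_split, ← ar5_sum_pt a d, ← ar5_sum_pt (T.opp a) d]
  ring

theorem ar5_dch_refl (a : D) : T.DCh 0 a a := by
  refine ⟨fun _ => rfl, fun d => ?_⟩
  rw [CharTwo.add_self_eq_zero]
  simp

theorem ar5_dch_edge (a : D) : T.DCh (T.eCh a) a (T.opp a) :=
  ⟨ar5_ech_sym a, ar5_ech_face a⟩

theorem ar5_dch_sf_right {g : D → ZMod 2} {a b b' : D} (h : T.SF b b') (hg : T.DCh g a b) : T.DCh g a b' := by
  refine ⟨hg.1, fun d => ?_⟩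
  rw [hg.2 d, ar5_I_congr (p := T.SF b d) (q := T.SF b' d) ⟨fun h' => T.sf_trans (T.sf_symm h) h', fun h' => T.sf_trans h h'⟩]

theorem ar5_dch_symm {g : D → ZMod 2} {a b : D} (hg : T.DCh g a b) : T.DCh g b a := by
  refine ⟨hg.1, fun d => ?_⟩
  rw [hg.2 d, add_comm]

theorem ar5_dch_sf_left {g : D → ZMod 2} {a a' b : D} (h : T.SF a a') (hg : T.DCh g a b) : T.DCh g a' b :=
  ar5_dch_symm (ar5_dch_sf_right h (ar5_dch_symm hg))

theorem ar5_dch_trans {g g' : D → ZMod 2} {a b c : D} (hg : T.DCh g a b) (hg' : T.DCh g' b c) : T.DCh (g + g') a c := by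
  refine ⟨fun d => ?_, fun d => ?_⟩
  · show g (T.opp d) + g' (T.opp d) = g d + g' d
    rw [hg.1 d, hg'.1 d]
  · show g d + g' d + (g (T.nxt d) + g' (T.nxt d)) + (g (T.nxt (T.nxt d)) + g' (T.nxt (T.nxt d))) = _
    have h1 := hg.2 d
    have h2 := hg'.2 d
    have h3 : ar5I (T.SF b d) + ar5I (T.SF b d) = 0 := CharTwo.add_self_eq_zero _
    linear_combination h1 + h2 + h3

theorem ar5_dch_coc {g : D → ZMod 2} {a : D} (hg : T.DCh g a a) : T.Coc g := by
  intro d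
  rw [hg.2 d, CharTwo.add_self_eq_zero]

/-- **a closed dual chain has a potential** -/
theorem ar5_dch_pot (hT : T.IsSph) {g : D → ZMod 2} {a : D} (hg : T.DCh g a a) : ∃ u : V → ZMod 2, ∀ d, g d = u (T.src d) + u (T.tgt d) :=
  hT.h1 g hg.1 (ar5_dch_coc hg)

/-- a dual path off `Z` carries a chain supported on crossed edges: off `Z`, both faces in the class of `a`.   Induction on the path: `nxt` step: same chain (`ar5_dch_sf_right`); `opp` step: add `eCh b`. -/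
theorem ar5_dch_djoin {Z : Set D} {a b : D} (h : T.DJoin Z a b) :
    ∃ g, T.DCh g a b ∧ ∀ d, g d ≠ 0 → ¬ T.Edg Z d ∧ T.DJoin Z a d ∧ T.DJoin Z a (T.opp d) := by
  induction h with
  | refl => exact ⟨0, ar5_dch_refl a, fun d hd => absurd rfl hd⟩
  | @tail b c hab hbc ih =>
    obtain ⟨g, hg, hs⟩ := ih
    rcases hbc with rfl | ⟨rfl, hZ⟩
    · exact ⟨g, ar5_dch_sf_right (T.sf_nxt b) hg, hs⟩
    · refine ⟨g + T.eCh b, ar5_dch_trans hg (ar5_dch_edge b), fun d hd => ?_⟩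
      by_cases h0 : g d = 0
      · have h1 : T.eCh b d ≠ 0 := by
          intro h1
          apply hd
          show g d + T.eCh b d = 0
          rw [h0, h1, add_zero]
        have hab' : T.DJoin Z a b := hab
        have hab'' : T.DJoin Z a (T.opp b) := hab.tail (Or.inr ⟨rfl, hZ⟩)
        rcases ar5_I_ne_zero h1 with rfl | rfl
        · exact ⟨hZ, hab', hab''⟩
        · refine ⟨fun h => hZ (T.edg_opp.1 h), hab'', ?_⟩
          rw [T.opp_opp]
          exact hab'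
      · exact hs d h0

/-- fan: two faces round a vertex are joined by a chain of edges at this vertex.   `link` gives `rot^[n] d = d'`; induction on `n`: `T.DCh (T.eCh (T.rot x)) x (T.rot x)` because `rot x = opp (nxt (nxt x))`. -/
theorem ar5_dch_fan (hT : T.IsSph) {d d' : D} (h : T.src d = T.src d') :
    ∃ g, T.DCh g d d' ∧ ∀ x, g x ≠ 0 → T.src x = T.src d ∨ T.tgt x = T.src d := by
  obtain ⟨n, rfl⟩ := hT.link d d' h
  clear h
  induction n with
  | zero => exact ⟨0, ar5_dch_refl d, fun x hx => absurd rfl hx⟩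
  | succ n ih =>
    obtain ⟨g, hg, hs⟩ := ih
    rw [Function.iterate_succ_apply']
    obtain ⟨x, hx⟩ : ∃ x, x = T.rot^[n] d := ⟨_, rfl⟩
    rw [← hx] at hg ⊢
    have hsx : T.src x = T.src d := by rw [hx, T.src_rot_iter]
    have h1 : T.DCh (T.eCh (T.nxt (T.nxt x))) x (T.rot x) :=
      ar5_dch_sf_left (T.sf_symm (T.sf_nxt2 x)) (ar5_dch_edge (T.nxt (T.nxt x)))
    refine ⟨g + T.eCh (T.nxt (T.nxt x)), ar5_dch_trans hg h1, fun y hy => ?_⟩
    by_cases h0 : g y = 0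
    · have h2 : T.eCh (T.nxt (T.nxt x)) y ≠ 0 := by
        intro h2
        apply hy
        show g y + T.eCh (T.nxt (T.nxt x)) y = 0
        rw [h0, h2, add_zero]
      rcases ar5_I_ne_zero h2 with rfl | rfl
      · right
        rw [T.tgt_nxt2, hsx]
      · left
        rw [T.src_opp', T.tgt_nxt2, hsx]
    · exact hs y h0

/-- a piece of a wall is a chain from its first face to the face behind its last dart (`pl_w_nx_chain`) -/
theorem ar5_sch_dch (s : V → Bool) (e : D) (N : ℕ) : T.DCh (T.sCh s e N) e (T.opp ((T.wnx s)^[N] e)) := by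
  induction N with
  | zero =>
    have h : T.sCh s e 0 = T.eCh e := by
      funext d
      unfold PvMap.sCh
      simp
    rw [h]
    exact ar5_dch_edge e
  | succ N ih =>
    have h : T.sCh s e (N + 1) = T.sCh s e N + T.eCh ((T.wnx s)^[N + 1] e) := by
      funext d
      unfold PvMap.sCh
      rw [Finset.sum_range_succ]
      rfl
    rw [h]
    refine ar5_dch_trans (ar5_dch_sf_right ?_ ih) (ar5_dch_edge _)
    rw [Function.iterate_succ_apply']
    exact (pl_w_nx_chain s _).1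

theorem ar5_sch_supp {s : V → Bool} {e : D} {N : ℕ} {d : D} (h : T.sCh s e N d ≠ 0) :
    ∃ k, k ≤ N ∧ (d = (T.wnx s)^[k] e ∨ d = T.opp ((T.wnx s)^[k] e)) := by
  unfold PvMap.sCh at h
  obtain ⟨k, hk, hne⟩ := Finset.exists_ne_zero_of_sum_ne_zero h
  exact ⟨k, Nat.lt_succ_iff.1 (Finset.mem_range.1 hk), ar5_I_ne_zero hne⟩

/-! ## 2. Crossing strands -/

section strands

variable {s : V → Bool} {c' c : T.Cyc}

theorem ar5_x_succ (σ : T.XStr s c' c) (k : ℕ) : σ.d (k + 1) = T.wnx s (σ.d k) := by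
  unfold PvMap.XStr.d
  rw [Function.iterate_succ_apply']

theorem ar5_x_occ (σ : T.XStr s c' c) (k : ℕ) : T.Occ s (σ.d k) := by
  induction k with
  | zero => exact σ.occ
  | succ k ih => rw [ar5_x_succ]; exact pl_w_nx_occ s ih

theorem ar5_x_src_col (σ : T.XStr s c' c) (k : ℕ) : s (T.src (σ.d k)) = s (T.src σ.e) := by
  induction k with
  | zero => rfl
  | succ k ih => rw [ar5_x_succ, (pl_w_nx_src s (ar5_x_occ σ k)).1, ih]

theorem ar5_x_tgt_col (σ : T.XStr s c' c) (k : ℕ) : s (T.tgt (σ.d k)) = s (T.tgt σ.e) := by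
  induction k with
  | zero => rfl
  | succ k ih => rw [ar5_x_succ, (pl_w_nx_tgt s (ar5_x_occ σ k)).1, ih]

theorem ar5_ann_face (c' c : T.Cyc) : T.FaceSet (c'.Ann c) := by
  intro d
  unfold PvMap.Cyc.Ann
  simp only [Set.mem_sdiff]
  rw [pl_left_face c d, pl_left_face c' d]

/-- the darts number `1, …, N` lie in faces of the annulus -/
theorem ar5_x_mem_ann (σ : T.XStr s c' c) {k : ℕ} (h1 : 1 ≤ k) (hk : k ≤ σ.N) : σ.d k ∈ c'.Ann c := by
  obtain ⟨j, rfl⟩ : ∃ j, k = j + 1 := ⟨k - 1, by omega⟩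
  rw [ar5_x_succ]
  exact ((ar5_ann_face c' c).sf T (pl_w_nx_chain s (σ.d j)).1).2 (σ.hin j (by omega))

/-- an edge of `c'` has both faces in `c.Left` -/
theorem ar5_x_N_pos (hT : T.IsSph) (h : c'.Inside c) (σ : T.XStr s c' c) : 0 < σ.N := by
  by_contra h0
  have hN0 : σ.N = 0 := by omega
  have h1 : T.opp σ.e ∈ c.Right := by
    have := σ.hN
    rwa [hN0] at this
  have h2 : T.tgt σ.e ∈ T.VOf c'.Left := ⟨T.nxt σ.e, (pl_left_face c' σ.e).2 σ.h0, rfl⟩
  have h3 : T.tgt σ.e ∈ T.Int c.Left := by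
    rw [pl_VOf_left hT c'] at h2
    rcases h2 with h2 | h2
    · exact h.1 h2
    · exact (pl_nested_vert hT c c' h.2).2 h2
  have h4 : T.opp σ.e ∈ c.Left := h3 _ (T.src_opp' σ.e)
  rw [(pl_jordan hT c).1] at h1
  exact h1 h4

theorem ar5_x_edge_ann (hT : T.IsSph) (h : c'.Inside c) (σ : T.XStr s c' c) {k : ℕ} (hk : k ≤ σ.N) : σ.d k ∈ c'.Ann c ∨ T.opp (σ.d k) ∈ c'.Ann c := by
  rcases Nat.lt_or_ge k σ.N with hlt | hge
  · exact Or.inr (σ.hin k hlt)
  · have hN := ar5_x_N_pos hT h σ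
    exact Or.inl (ar5_x_mem_ann σ (by omega) hk)

/-- the first dart is a dart of the inner cycle -/
theorem ar5_x_first (hT : T.IsSph) (h : c'.Inside c) (σ : T.XStr s c' c) : ∃ p, p < c'.n ∧ σ.e = c'.e p := by
  have hN := ar5_x_N_pos hT h σ
  have h1 : T.opp σ.e ∉ c'.Left := (σ.hin 0 hN).2
  have h2 : T.Bd c'.Left σ.e := fun hb => h1 (hb.1 σ.h0)
  rcases pl_left_bd_sub c' h2 with ⟨i, hi⟩ | ⟨i, hi⟩
  · exact ⟨i % c'.n, Nat.mod_lt _ (pl_cyc_pos c'), by rw [pl_cyc_mod, hi]⟩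
  · exact absurd (hi ▸ (pl_jordan hT c').2.1 i) h1

/-- the other darts are not edges of the inner cycle -/
theorem ar5_x_not_cyc (hT : T.IsSph) (h : c'.Inside c) (σ : T.XStr s c' c) {k : ℕ} (h1 : 1 ≤ k) (hk : k ≤ σ.N) : ¬ T.Edg c'.darts (σ.d k) := by
  have h2 : σ.d k ∉ c'.Left := (ar5_x_mem_ann σ h1 hk).2
  rintro (⟨i, hi⟩ | ⟨i, hi⟩)
  · exact h2 (hi ▸ (pl_jordan hT c').2.1 i)
  · have h3 : T.opp (σ.d k) ∈ c'.Left := hi ▸ (pl_jordan hT c').2.1 i
    rcases Nat.lt_or_ge k σ.N with hlt | hge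
    · exact (σ.hin k hlt).2 h3
    · have hkN : k = σ.N := by omega
      have h4 : T.opp (σ.d k) ∈ c.Right := by rw [hkN]; exact σ.hN
      rw [(pl_jordan hT c).1] at h4
      exact h4 (h.2 h3)

/-- `wnx` is injective on occupied darts (`pl_w_pv_nx`); a repetition would bring the first dart, which lies in `c'.Left`, into the annulus -/
theorem ar5_x_inj (σ : T.XStr s c' c) {k k' : ℕ} (hk : k ≤ σ.N) (hk' : k' ≤ σ.N) (he : σ.d k = σ.d k') : k = k' := by
  have key : ∀ k j : ℕ, σ.d k = σ.d (k + j) → σ.d 0 = σ.d j := by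
    intro k
    induction k with
    | zero => intro j h; rwa [Nat.zero_add] at h
    | succ k ih =>
      intro j h
      apply ih
      have e1 : k + 1 + j = (k + j) + 1 := by omega
      rw [e1, ar5_x_succ, ar5_x_succ] at h
      have h2 := congrArg (T.wpv s) h
      rwa [pl_w_pv_nx s (ar5_x_occ σ k), pl_w_pv_nx s (ar5_x_occ σ (k + j))] at h2
  have no : ∀ j : ℕ, 1 ≤ j → j ≤ σ.N → σ.d 0 ≠ σ.d j := by
    intro j h1 h2 h
    have h3 : σ.d j ∈ c'.Ann c := ar5_x_mem_ann σ h1 h2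
    rw [← h] at h3
    exact h3.2 σ.h0
  rcases Nat.lt_trichotomy k k' with h | h | h
  · exfalso
    obtain ⟨j, rfl⟩ := Nat.exists_eq_add_of_lt h
    exact no (j + 1) (by omega) (by omega) (key k (j + 1) (by rw [he]; congr 1))
  · exact h
  · exfalso
    obtain ⟨j, rfl⟩ := Nat.exists_eq_add_of_lt h
    exact no (j + 1) (by omega) (by omega) (key k' (j + 1) (by rw [← he]; congr 1))

/-- colours of the sources -/
theorem ar5_x_ne_opp (σ : T.XStr s c' c) (k k' : ℕ) : σ.d k ≠ T.opp (σ.d k') := by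
  intro h
  have h1 : s (T.src (σ.d k)) = s (T.src (T.opp (σ.d k'))) := by rw [h]
  rw [T.src_opp', ar5_x_src_col σ k, ar5_x_tgt_col σ k'] at h1
  exact σ.occ h1

theorem ar5_x_ch_supp (σ : T.XStr s c' c) {d : D} (h : σ.ch d ≠ 0) : ∃ k, k ≤ σ.N ∧ (d = σ.d k ∨ d = T.opp (σ.d k)) :=
  ar5_sch_supp h

theorem ar5_x_ch_occ (σ : T.XStr s c' c) {d : D} (h : ¬ T.Occ s d) : σ.ch d = 0 := by
  by_contra h0
  obtain ⟨k, -, rfl | rfl⟩ := ar5_x_ch_supp σ h0
  · exact h (ar5_x_occ σ k)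
  · exact h ((pl_w_occ_opp s _).2 (ar5_x_occ σ k))

theorem ar5_x_ch_self (σ : T.XStr s c' c) {k : ℕ} (hk : k ≤ σ.N) : σ.ch (σ.d k) = 1 := by
  have e : σ.ch (σ.d k) = ∑ j ∈ Finset.range (σ.N + 1), T.eCh (σ.d j) (σ.d k) := rfl
  rw [e, Finset.sum_eq_single k]
  · exact ar5_I_true (Or.inl rfl)
  · intro j hj hjk
    refine ar5_I_false ?_
    rintro (h | h)
    · exact hjk (ar5_x_inj σ (by have := Finset.mem_range.1 hj; omega) hk h.symm)
    · exact ar5_x_ne_opp σ k j h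
  · intro h
    exact absurd (Finset.mem_range.2 (by omega)) h

theorem ar5_x_ch_cyc (hT : T.IsSph) (h : c'.Inside c) (σ : T.XStr s c' c) (t : ℕ) : σ.ch (c'.e t) = ar5I (c'.e t = σ.e) := by
  by_cases h0 : c'.e t = σ.e
  · rw [ar5_I_true h0, h0]
    exact ar5_x_ch_self σ (Nat.zero_le _)
  · rw [ar5_I_false h0]
    by_contra h1
    obtain ⟨k, hk, h2⟩ := ar5_x_ch_supp σ h1
    rcases Nat.eq_zero_or_pos k with rfl | hk1
    · rcases h2 with h2 | h2
      · exact h0 h2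
      · obtain ⟨p, -, hp⟩ := ar5_x_first hT h σ
        have h3 : σ.d 0 = c'.e p := hp
        rw [h3] at h2
        exact pl_cyc_ne_opp c' t p h2
    · refine ar5_x_not_cyc hT h σ hk1 hk ?_
      rcases h2 with h2 | h2
      · exact Or.inl ⟨t, h2⟩
      · exact Or.inr ⟨t, h2⟩

theorem ar5_x_ch_dch (σ : T.XStr s c' c) : T.DCh σ.ch σ.e (T.opp (σ.d σ.N)) :=
  ar5_sch_dch s σ.e σ.N

theorem ar5_x_lay_VOf (hT : T.IsSph) (h : c'.Inside c) (σ : T.XStr s c' c) : σ.srcL ∪ σ.tgtL ⊆ T.VOf (c'.Ann c) := by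
  have hA := ar5_ann_face c' c
  rintro v (⟨k, hk, rfl⟩ | ⟨k, hk, rfl⟩)
  · rcases ar5_x_edge_ann hT h σ hk with h1 | h1
    · exact ⟨_, h1, rfl⟩
    · exact ⟨T.nxt (T.opp (σ.d k)), (hA _).2 h1, by rw [T.src_nxt, T.tgt_opp]⟩
  · rcases ar5_x_edge_ann hT h σ hk with h1 | h1
    · exact ⟨T.nxt (σ.d k), (hA _).2 h1, T.src_nxt _⟩
    · exact ⟨_, h1, T.src_opp' _⟩

/-- the layer of colour `b` is the source layer or the target layer -/
theorem ar5_x_lay_eq (σ : T.XStr s c' c) (b : Bool) :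
    (s (T.src σ.e) = b ∧ s (T.tgt σ.e) = !b ∧ σ.lay b = σ.srcL ∧ σ.lay (!b) = σ.tgtL) ∨ (s (T.tgt σ.e) = b ∧ s (T.src σ.e) = !b ∧ σ.lay b = σ.tgtL ∧ σ.lay (!b) = σ.srcL) := by
  have hocc : s (T.src σ.e) ≠ s (T.tgt σ.e) := σ.occ
  have hS : ∀ v ∈ σ.srcL, s v = s (T.src σ.e) := by
    rintro v ⟨k, -, rfl⟩
    exact ar5_x_src_col σ k
  have hTt : ∀ v ∈ σ.tgtL, s v = s (T.tgt σ.e) := by
    rintro v ⟨k, -, rfl⟩
    exact ar5_x_tgt_col σ k
  have gen : ∀ (x y : Bool) (A B : Set V), x ≠ y → (∀ v ∈ A, s v = x) → (∀ v ∈ B, s v = y) → {v | s v = x ∧ (v ∈ A ∨ v ∈ B)} = A := by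
    intro x y A B hxy hA hB
    ext v
    constructor
    · rintro ⟨h1, h2 | h2⟩
      · exact h2
      · exact absurd (h1.symm.trans (hB v h2)) hxy
    · intro h1
      exact ⟨hA v h1, Or.inl h1⟩
  have gen' : ∀ (x y : Bool) (A B : Set V), x ≠ y → (∀ v ∈ A, s v = x) → (∀ v ∈ B, s v = y) → {v | s v = y ∧ (v ∈ A ∨ v ∈ B)} = B := by
    intro x y A B hxy hA hB
    ext v
    constructor
    · rintro ⟨h1, h2 | h2⟩
      · exact absurd ((hA v h2).symm.trans h1) hxy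
      · exact h2
    · intro h1
      exact ⟨hB v h1, Or.inr h1⟩
  by_cases hb : s (T.src σ.e) = b
  · left
    have ht : s (T.tgt σ.e) = !b := by
      revert hocc hb
      generalize s (T.src σ.e) = x
      generalize s (T.tgt σ.e) = y
      revert x y b
      decide
    refine ⟨hb, ht, ?_, ?_⟩
    · rw [← hb]; exact gen _ _ _ _ hocc hS hTt
    · rw [← ht]; exact gen' _ _ _ _ hocc hS hTt
  · right
    have ht : s (T.tgt σ.e) = b := by
      revert hocc hb
      generalize s (T.src σ.e) = x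
      generalize s (T.tgt σ.e) = y
      revert x y b
      decide
    have hs' : s (T.src σ.e) = !b := by
      clear ht
      revert hb
      generalize s (T.src σ.e) = x
      revert x b
      decide
    refine ⟨ht, hs', ?_, ?_⟩
    · rw [← ht]; exact gen' _ _ _ _ hocc hS hTt
    · rw [← hs']; exact gen _ _ _ _ hocc hS hTt

/-- one step of a wall: one foot stays, the other one moves along the missing spoke `x` of the new face -/
theorem ar5_wnx_step (s : V → Bool) {e : D} (he : T.Occ s e) :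
    (T.src (T.wnx s e) = T.src e ∧ ∃ x, T.SF (T.opp e) x ∧ ¬ T.Occ s x ∧ T.src x = T.tgt (T.wnx s e) ∧ T.tgt x = T.tgt e) ∨
    (T.tgt (T.wnx s e) = T.tgt e ∧ ∃ x, T.SF (T.opp e) x ∧ ¬ T.Occ s x ∧ T.src x = T.src e ∧ T.tgt x = T.src (T.wnx s e)) := by
  classical
  have hf : T.Occ s (T.opp e) := (pl_w_occ_opp s e).2 he
  unfold PvMap.wnx
  split_ifs with h1
  · left
    refine ⟨by rw [T.src_nxt, T.tgt_opp], T.nxt (T.nxt (T.opp e)), T.sf_nxt2 _, ?_, by rw [T.src_nxt2, T.tgt_nxt], by rw [T.tgt_nxt2, T.src_opp']⟩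
    unfold PvMap.Occ at hf h1 ⊢
    rw [T.src_nxt, T.tgt_nxt] at h1
    rw [T.src_nxt2, T.tgt_nxt2]
    revert hf h1
    generalize s (T.src (T.opp e)) = a
    generalize s (T.tgt (T.opp e)) = b
    generalize s (T.apex (T.opp e)) = c
    revert a b c
    decide
  · right
    exact ⟨by rw [T.tgt_nxt2, T.src_opp'], T.nxt (T.opp e), T.sf_nxt _, h1, by rw [T.src_nxt, T.tgt_opp], by rw [T.tgt_nxt, T.src_nxt2]⟩

/-- a function which does not change along the unoccupied darts of the annulus is constant on each layer -/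
theorem ar5_x_const (σ : T.XStr s c' c) (u : V → ZMod 2) (hu : ∀ d, d ∈ c'.Ann c → ¬ T.Occ s d → u (T.src d) = u (T.tgt d)) {k : ℕ} (hk : k ≤ σ.N) :
    u (T.src (σ.d k)) = u (T.src σ.e) ∧ u (T.tgt (σ.d k)) = u (T.tgt σ.e) := by
  have hA := ar5_ann_face c' c
  induction k with
  | zero => exact ⟨rfl, rfl⟩
  | succ k ih =>
    obtain ⟨i1, i2⟩ := ih (by omega)
    have hin : T.opp (σ.d k) ∈ c'.Ann c := σ.hin k (by omega)
    rw [ar5_x_succ]
    rcases ar5_wnx_step s (ar5_x_occ σ k) with ⟨h1, x, hx, hxo, hx1, hx2⟩ | ⟨h1, x, hx, hxo, hx1, hx2⟩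
    · have h3 := hu x ((hA.sf T hx).2 hin) hxo
      rw [hx1, hx2] at h3
      exact ⟨by rw [h1, i1], by rw [h3, i2]⟩
    · have h3 := hu x ((hA.sf T hx).2 hin) hxo
      rw [hx1, hx2] at h3
      exact ⟨by rw [← h3, i1], by rw [h1, i2]⟩

/-! ## 3. PART II: sector potentials; four strands with disjoint layers give six arms -/

/-- `u` is a sector potential of the pair `σ, σ'`, equal to `0` on the target side of `σ` -/
def ar5Pot (σ σ' : T.XStr s c' c) (u : V → ZMod 2) : Prop :=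
  u (T.tgt σ.e) = 0 ∧ ∀ d, (d ∈ c'.Ann c ∨ T.opp d ∈ c'.Ann c) → u (T.src d) + u (T.tgt d) = σ.ch d + σ'.ch d

theorem ar5_pot_eqns_cite : True := by
  have := @ar5Pot.eq_1
  trivial

/-- **sector potential**.   Closed chain: `σ.ch`, a chain in `c.Right` from `opp (σ.d N)` to `opp (σ'.d N')` (`ar5_dch_djoin`, `Z = c.darts`), `σ'.ch` backwards, a chain in `c'.Left` from `σ'.e` to `σ.e`; `ar5_dch_pot`.
The two auxiliary chains vanish on the edges of the faces of the annulus (both faces of a crossed edge lie in `c.Right`, resp. `c'.Left`).  Normalise by adding a constant. -/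
theorem ar5_pair_pot (hT : T.IsSph) (h : c'.Inside c) (σ σ' : T.XStr s c' c) : ∃ u, ar5Pot σ σ' u := by
  have hR : c.Right = c.Leftᶜ := (pl_jordan hT c).1
  -- the chain in `c.Right`
  have j2 : T.DJoin c.darts (T.opp (σ.d σ.N)) (T.opp (σ'.d σ'.N)) :=
    ReflTransGen.trans (T.djoin_symm (show T.DJoin c.darts (T.opp (c.e 0)) (T.opp (σ.d σ.N)) from σ.hN))
      (show T.DJoin c.darts (T.opp (c.e 0)) (T.opp (σ'.d σ'.N)) from σ'.hN)
  obtain ⟨g2, hg2, hs2⟩ := ar5_dch_djoin j2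
  -- the chain in `c'.Left`
  have j4 : T.DJoin c'.darts σ'.e σ.e :=
    ReflTransGen.trans (T.djoin_symm (show T.DJoin c'.darts (c'.e 0) σ'.e from σ'.h0)) (show T.DJoin c'.darts (c'.e 0) σ.e from σ.h0)
  obtain ⟨g4, hg4, hs4⟩ := ar5_dch_djoin j4
  have hcl := ar5_dch_trans (ar5_dch_trans (ar5_dch_trans (ar5_x_ch_dch σ) hg2) (ar5_dch_symm (ar5_x_ch_dch σ'))) hg4
  obtain ⟨u0, hu0⟩ := ar5_dch_pot hT hcl
  have z2 : ∀ d, (d ∈ c'.Ann c ∨ T.opp d ∈ c'.Ann c) → g2 d = 0 := by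
    intro d hd
    by_contra hne
    obtain ⟨-, h1, h2⟩ := hs2 d hne
    have r1 : d ∈ c.Right := ReflTransGen.trans (show T.DJoin c.darts (T.opp (c.e 0)) (T.opp (σ.d σ.N)) from σ.hN) h1
    have r2 : T.opp d ∈ c.Right := ReflTransGen.trans (show T.DJoin c.darts (T.opp (c.e 0)) (T.opp (σ.d σ.N)) from σ.hN) h2
    rw [hR] at r1 r2
    rcases hd with hd | hd
    · exact r1 hd.1
    · exact r2 hd.1
  have z4 : ∀ d, (d ∈ c'.Ann c ∨ T.opp d ∈ c'.Ann c) → g4 d = 0 := by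
    intro d hd
    by_contra hne
    obtain ⟨-, h1, h2⟩ := hs4 d hne
    have r1 : d ∈ c'.Left := ReflTransGen.trans (show T.DJoin c'.darts (c'.e 0) σ'.e from σ'.h0) h1
    have r2 : T.opp d ∈ c'.Left := ReflTransGen.trans (show T.DJoin c'.darts (c'.e 0) σ'.e from σ'.h0) h2
    rcases hd with hd | hd
    · exact hd.2 r1
    · exact hd.2 r2
  refine ⟨fun v => u0 v + u0 (T.tgt σ.e), CharTwo.add_self_eq_zero _, fun d hd => ?_⟩
  have h5 := hu0 d
  simp only [Pi.add_apply, z2 d hd, z4 d hd, add_zero] at h5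
  rw [h5]
  have : ∀ a b k : ZMod 2, a + k + (b + k) = a + b := by decide
  exact this _ _ _

/-- a sector potential does not change along unoccupied darts of the annulus -/
theorem ar5_pot_unocc {σ σ' : T.XStr s c' c} {u : V → ZMod 2} (hu : ar5Pot σ σ' u) : ∀ d, d ∈ c'.Ann c → ¬ T.Occ s d → u (T.src d) = u (T.tgt d) := by
  intro d hd hocc
  have h1 := hu.2 d (Or.inl hd)
  rw [ar5_x_ch_occ σ hocc, ar5_x_ch_occ σ' hocc, add_zero] at h1
  exact pl_z2_eq_of_add h1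

/-- (215) two darts of a cycle with indices in one period -/
theorem ar5_cyc_eq_iff (c : T.Cyc) {p t t' : ℕ} (h1 : p ≤ t) (h2 : t < p + c.n) (h3 : p ≤ t') (h4 : t' < p + c.n) : c.e t = c.e t' ↔ t = t' := by
  constructor
  · intro h
    have hm := pl_cyc_src_inj c (congrArg T.src h)
    rcases Nat.le_total t t' with hle | hle
    · have h5 : (t' - t) % c.n = 0 := Nat.mod_eq_zero_of_dvd ((Nat.modEq_iff_dvd' hle).1 hm)
      rw [Nat.mod_eq_of_lt (by omega)] at h5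
      omega
    · have h5 : (t - t') % c.n = 0 := Nat.mod_eq_zero_of_dvd ((Nat.modEq_iff_dvd' hle).1 hm.symm)
      rw [Nat.mod_eq_of_lt (by omega)] at h5
      omega
  · rintro rfl
    rfl

/-- (215) the right face of a dart of the inner cycle lies in the annulus -/
theorem ar5_opp_mem_ann (hT : T.IsSph) {c' c : T.Cyc} (h : c'.Inside c) (t : ℕ) : T.opp (c'.e t) ∈ c'.Ann c := by
  refine ⟨?_, ?_⟩
  · refine h.1 ⟨t + 1, rfl⟩ _ ?_
    rw [T.src_opp', c'.chain]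
  · have h1 := (pl_jordan hT c').2.2.1 t
    rw [(pl_jordan hT c').1] at h1
    exact h1

/-- the sector potential read along the inner cycle -/
theorem ar5_pot_cyc (hT : T.IsSph) (h : c'.Inside c) {σ σ' : T.XStr s c' c} {u : V → ZMod 2} (hu : ar5Pot σ σ' u) {p p' : ℕ} (hp : σ.e = c'.e p) (hp' : σ'.e = c'.e p')
    (h1 : p < p') (h2 : p' < p + c'.n) {t : ℕ} (ht1 : p + 1 ≤ t) (ht2 : t ≤ p + c'.n) : u (T.src (c'.e t)) = ar5I (p' < t) := by
  have hn := pl_cyc_pos c'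
  induction t, ht1 using Nat.le_induction with
  | base =>
    rw [← c'.chain, ← hp, hu.1, ar5_I_false (by omega)]
  | succ t ht ih =>
    have ih' := ih (by omega)
    have h3 := hu.2 (c'.e t) (Or.inr (ar5_opp_mem_ann hT h t))
    have e1 : ar5I (c'.e t = c'.e p) = 0 := ar5_I_false fun he => by
      have := (ar5_cyc_eq_iff c' (p := p) (by omega) (by omega) le_rfl (by omega)).1 he
      omega
    have e2 : ar5I (c'.e t = c'.e p') = ar5I (t = p') := ar5_I_congr (ar5_cyc_eq_iff c' (p := p) (by omega) (by omega) (by omega) h2)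
    rw [ar5_x_ch_cyc hT h σ, ar5_x_ch_cyc hT h σ', hp, hp', c'.chain, ih', e1, e2, zero_add] at h3
    by_cases h4 : p' < t
    · rw [ar5_I_true h4, ar5_I_false (by omega)] at h3
      rw [ar5_I_true (by omega)]
      have : ∀ x : ZMod 2, 1 + x = 0 → x = 1 := by decide
      exact this _ h3
    · rw [ar5_I_false h4, zero_add] at h3
      rw [h3]
      exact ar5_I_congr (by omega)

/-- table of values, the pair itself -/
theorem ar5_pot_self (hT : T.IsSph) (h : c'.Inside c) {σ σ' : T.XStr s c' c} {u : V → ZMod 2} (hu : ar5Pot σ σ' u) {p p' : ℕ} (hp : σ.e = c'.e p) (hp' : σ'.e = c'.e p')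
    (h1 : p < p') (h2 : p' < p + c'.n) :
    (∀ v ∈ σ.tgtL, u v = 0) ∧ (∀ v ∈ σ.srcL, u v = 1) ∧ (∀ v ∈ σ'.srcL, u v = 0) ∧ (∀ v ∈ σ'.tgtL, u v = 1) := by
  have hn := pl_cyc_pos c'
  have hc := ar5_pot_unocc hu
  have e1 : u (T.src σ.e) = 1 := by
    have := ar5_pot_cyc hT h hu hp hp' h1 h2 (t := p + c'.n) (by omega) le_rfl
    rw [c'.per, ← hp, ar5_I_true h2] at this
    exact this
  have e2 : u (T.src σ'.e) = 0 := by
    have := ar5_pot_cyc hT h hu hp hp' h1 h2 (t := p') (by omega) (by omega)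
    rw [← hp', ar5_I_false (by omega)] at this
    exact this
  have e3 : u (T.tgt σ'.e) = 1 := by
    have := ar5_pot_cyc hT h hu hp hp' h1 h2 (t := p' + 1) (by omega) (by omega)
    rw [← c'.chain, ← hp', ar5_I_true (by omega)] at this
    exact this
  refine ⟨?_, ?_, ?_, ?_⟩
  · rintro v ⟨k, hk, rfl⟩
    rw [(ar5_x_const σ u hc hk).2, hu.1]
  · rintro v ⟨k, hk, rfl⟩
    rw [(ar5_x_const σ u hc hk).1, e1]
  · rintro v ⟨k, hk, rfl⟩
    rw [(ar5_x_const σ' u hc hk).1, e2]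
  · rintro v ⟨k, hk, rfl⟩
    rw [(ar5_x_const σ' u hc hk).2, e3]

/-- table of values, a third strand -/
theorem ar5_pot_third (hT : T.IsSph) (h : c'.Inside c) {σ σ' σ'' : T.XStr s c' c} {u : V → ZMod 2} (hu : ar5Pot σ σ' u) {p p' p'' : ℕ} (hp : σ.e = c'.e p) (hp' : σ'.e = c'.e p')
    (hp'' : σ''.e = c'.e p'') (h1 : p < p') (h2 : p' < p + c'.n) (h3 : p < p'') (h4 : p'' < p + c'.n) (hne : p'' ≠ p') :
    ∀ v, v ∈ σ''.srcL ∨ v ∈ σ''.tgtL → u v = ar5I (p' < p'') := by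
  have hc := ar5_pot_unocc hu
  have e2 : u (T.src σ''.e) = ar5I (p' < p'') := by
    have := ar5_pot_cyc hT h hu hp hp' h1 h2 (t := p'') (by omega) (by omega)
    rwa [← hp''] at this
  have e3 : u (T.tgt σ''.e) = ar5I (p' < p'') := by
    have := ar5_pot_cyc hT h hu hp hp' h1 h2 (t := p'' + 1) (by omega) (by omega)
    rw [← c'.chain, ← hp''] at this
    rw [this]
    exact ar5_I_congr (by omega)
  rintro v (⟨k, hk, rfl⟩ | ⟨k, hk, rfl⟩)
  · rw [(ar5_x_const σ'' u hc hk).1, e2]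
  · rw [(ar5_x_const σ'' u hc hk).2, e3]

/-- one edge of the slit annulus: the potential changes only from one layer of `σ'` to the other one -/
theorem ar5_pot_edge {σ σ' : T.XStr s c' c} {u : V → ZMod 2} (hu : ar5Pot σ σ' u) {x y : V} (hy : y ∈ σ.X) (hxy : T.EdgeIn (c'.Ann c) x y) (hne : u x ≠ u y) :
    (x ∈ σ'.srcL ∧ y ∈ σ'.tgtL) ∨ (x ∈ σ'.tgtL ∧ y ∈ σ'.srcL) := by
  obtain ⟨d, hd, rfl, rfl⟩ := hxy
  have h1 := hu.2 d hd
  have h0 : σ.ch d = 0 := by
    by_contra hne0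
    obtain ⟨k, hk, rfl | rfl⟩ := ar5_x_ch_supp σ hne0
    · exact hy.2 (Or.inr ⟨k, hk, rfl⟩)
    · exact hy.2 (Or.inl ⟨k, hk, (T.tgt_opp _).symm⟩)
  rw [h0, zero_add] at h1
  have h2 : σ'.ch d ≠ 0 := by
    intro h3
    rw [h3] at h1
    exact hne (pl_z2_eq_of_add h1)
  obtain ⟨k, hk, rfl | rfl⟩ := ar5_x_ch_supp σ' h2
  · exact Or.inl ⟨⟨k, hk, rfl⟩, ⟨k, hk, rfl⟩⟩
  · exact Or.inr ⟨⟨k, hk, (T.src_opp' _).symm⟩, ⟨k, hk, (T.tgt_opp _).symm⟩⟩

/-- **cut lemma**: a path of the slit annulus which avoids one layer of `σ'` stays on one side of `σ'` -/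
theorem ar5_cut_const {σ σ' : T.XStr s c' c} {u : V → ZMod 2} (hu : ar5Pot σ σ' u) {G : Set V} (hG : G = σ'.srcL ∨ G = σ'.tgtL) {a b : V} (haG : a ∉ G)
    (hab : ReflTransGen (fun x y => T.EdgeIn (c'.Ann c) x y ∧ y ∈ σ.X ∧ y ∉ G) a b) : u b = u a := by
  have key : u b = u a ∧ b ∉ G := by
    induction hab with
    | refl => exact ⟨rfl, haG⟩
    | tail _ hbc ih =>
      obtain ⟨ih1, ih2⟩ := ih
      refine ⟨?_, hbc.2.2⟩
      rw [← ih1]
      by_contra hne
      rcases ar5_pot_edge hu hbc.2.1 hbc.1 (fun h => hne h.symm) with ⟨h1, h2⟩ | ⟨h1, h2⟩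
      · rcases hG with rfl | rfl
        · exact ih2 h1
        · exact hbc.2.2 h2
      · rcases hG with rfl | rfl
        · exact hbc.2.2 h2
        · exact ih2 h1
  exact key.1

theorem ar5_srcL_col (σ : T.XStr s c' c) {v : V} (hv : v ∈ σ.srcL) : s v = s (T.src σ.e) := by
  obtain ⟨k, -, rfl⟩ := hv
  exact ar5_x_src_col σ k

theorem ar5_tgtL_col (σ : T.XStr s c' c) {v : V} (hv : v ∈ σ.tgtL) : s v = s (T.tgt σ.e) := by
  obtain ⟨k, -, rfl⟩ := hv
  exact ar5_x_tgt_col σ k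

/-- opposite a vertex which is not of colour `b` lies the layer of colour `b` -/
theorem ar5_lay_other (σ' : T.XStr s c' c) {b : Bool} {z y : V} (hz : s z ≠ b)
    (hh : (z ∈ σ'.srcL ∧ y ∈ σ'.tgtL) ∨ (z ∈ σ'.tgtL ∧ y ∈ σ'.srcL)) : y ∈ σ'.lay b := by
  have hocc : s (T.src σ'.e) ≠ s (T.tgt σ'.e) := σ'.occ
  rcases hh with ⟨h1, h2⟩ | ⟨h1, h2⟩
  · refine ⟨?_, Or.inr h2⟩
    rw [ar5_srcL_col σ' h1] at hz
    rw [ar5_tgtL_col σ' h2]
    revert hz hocc
    cases s (T.src σ'.e) <;> cases s (T.tgt σ'.e) <;> cases b <;> simp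
  · refine ⟨?_, Or.inl h2⟩
    rw [ar5_tgtL_col σ' h1] at hz
    rw [ar5_srcL_col σ' h2]
    revert hz hocc
    cases s (T.src σ'.e) <;> cases s (T.tgt σ'.e) <;> cases b <;> simp

/-- values of a sector potential on the two sides of the slit -/
theorem ar5_side_vals {σ σ' : T.XStr s c' c} {u : V → ZMod 2} (hu : ar5Pot σ σ' u)
    (tab : (∀ v ∈ σ.tgtL, u v = 0) ∧ (∀ v ∈ σ.srcL, u v = 1) ∧ (∀ v ∈ σ'.srcL, u v = 0) ∧ (∀ v ∈ σ'.tgtL, u v = 1)) {G : Set V}
    (hZ : ∀ z y, (z ∈ σ.srcL ∨ z ∈ σ.tgtL) → ((z ∈ σ'.srcL ∧ y ∈ σ'.tgtL) ∨ (z ∈ σ'.tgtL ∧ y ∈ σ'.srcL)) → y ∈ G) :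
    (∀ y ∈ σ.Lf, y ∉ G → u y = 0) ∧ (∀ y ∈ σ.Rt, y ∉ G → u y = 1) := by
  constructor
  · rintro y ⟨hyX, z, hz, hzy⟩ hyG
    by_contra hne
    have h1 : u z ≠ u y := by rw [tab.1 z hz]; exact Ne.symm hne
    exact hyG (hZ z y (Or.inr hz) (ar5_pot_edge hu hyX hzy h1))
  · rintro y ⟨hyX, z, hz, hzy⟩ hyG
    by_contra hne
    have h1 : u z ≠ u y := by rw [tab.2.1 z hz]; exact Ne.symm hne
    exact hyG (hZ z y (Or.inl hz) (ar5_pot_edge hu hyX hzy h1))

/-- a layer of `σ'` blocks the sets on which the sector potential takes different values -/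
theorem ar5_blk_of_pot {σ σ' : T.XStr s c' c} {u : V → ZMod 2} (hu : ar5Pot σ σ' u) {G A B : Set V} (hG : G = σ'.srcL ∨ G = σ'.tgtL)
    (hA : ∀ a ∈ A, a ∉ G → u a = 0) (hB : ∀ x ∈ B, x ∉ G → u x = 1) : ar5Blk (T.EdgeIn (c'.Ann c)) σ.X G A B := by
  intro a ha x hx haG hab
  have hxG : x ∉ G := by
    rcases ReflTransGen.cases_tail hab with h1 | ⟨y, -, hy⟩
    · rw [h1]; exact haG
    · exact hy.2.2
  have h2 := ar5_cut_const hu hG haG hab
  rw [hA a ha haG, hB x hx hxG] at h2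
  exact one_ne_zero h2

/-- bookkeeping: four named sets -/
theorem ar5_six_mk {σ₀ : T.XStr s c' c} {G0 G1 G2 G3 : Set V} {k0 k1 k2 k3 : Bool}
    (hX : G0 ⊆ σ₀.X ∧ G1 ⊆ σ₀.X ∧ G2 ⊆ σ₀.X ∧ G3 ⊆ σ₀.X)
    (hc : (∀ v ∈ G0, s v = k0) ∧ (∀ v ∈ G1, s v = k1) ∧ (∀ v ∈ G2, s v = k2) ∧ (∀ v ∈ G3, s v = k3))
    (hd : Disjoint G0 G1 ∧ Disjoint G0 G2 ∧ Disjoint G0 G3 ∧ Disjoint G1 G2 ∧ Disjoint G1 G3 ∧ Disjoint G2 G3)
    (b0 : ar5Blk (T.EdgeIn (c'.Ann c)) σ₀.X G0 σ₀.Lf (σ₀.Rt ∪ (G1 ∪ G2 ∪ G3)))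
    (b1 : ar5Blk (T.EdgeIn (c'.Ann c)) σ₀.X G1 (σ₀.Lf ∪ G0) (σ₀.Rt ∪ (G2 ∪ G3)))
    (b2 : ar5Blk (T.EdgeIn (c'.Ann c)) σ₀.X G2 (σ₀.Lf ∪ (G0 ∪ G1)) (σ₀.Rt ∪ G3))
    (b3 : ar5Blk (T.EdgeIn (c'.Ann c)) σ₀.X G3 (σ₀.Lf ∪ (G0 ∪ G1 ∪ G2)) σ₀.Rt) : T.SixArm s c' c := by
  refine ⟨σ₀, ![G0, G1, G2, G3], ![k0, k1, k2, k3], ?_, ?_, ?_, ?_⟩
  · intro j
    fin_cases j
    exacts [hX.1, hX.2.1, hX.2.2.1, hX.2.2.2]
  · intro j
    fin_cases j
    exacts [hc.1, hc.2.1, hc.2.2.1, hc.2.2.2]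
  · obtain ⟨d01, d02, d03, d12, d13, d23⟩ := hd
    intro i j hij
    fin_cases i <;> fin_cases j <;>
      first
        | exact absurd rfl hij
        | exact d01 | exact d02 | exact d03 | exact d12 | exact d13 | exact d23
        | exact d01.symm | exact d02.symm | exact d03.symm | exact d12.symm | exact d13.symm | exact d23.symm
  · intro j
    fin_cases j
    · intro a ha x hx
      refine b0 a ?_ x ?_
      · rcases ha with ha | ⟨i, hi, -⟩
        · exact ha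
        · exact absurd hi (Fin.not_lt_zero i)
      · rcases hx with hx | ⟨i, hi, hv⟩
        · exact Or.inl hx
        · fin_cases i
          · exact absurd hi (by decide)
          · exact Or.inr (Or.inl (Or.inl hv))
          · exact Or.inr (Or.inl (Or.inr hv))
          · exact Or.inr (Or.inr hv)
    · intro a ha x hx
      refine b1 a ?_ x ?_
      · rcases ha with ha | ⟨i, hi, hv⟩
        · exact Or.inl ha
        · fin_cases i
          · exact Or.inr hv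
          · exact absurd hi (by decide)
          · exact absurd hi (by decide)
          · exact absurd hi (by decide)
      · rcases hx with hx | ⟨i, hi, hv⟩
        · exact Or.inl hx
        · fin_cases i
          · exact absurd hi (by decide)
          · exact absurd hi (by decide)
          · exact Or.inr (Or.inl hv)
          · exact Or.inr (Or.inr hv)
    · intro a ha x hx
      refine b2 a ?_ x ?_
      · rcases ha with ha | ⟨i, hi, hv⟩
        · exact Or.inl ha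
        · fin_cases i
          · exact Or.inr (Or.inl hv)
          · exact Or.inr (Or.inr hv)
          · exact absurd hi (by decide)
          · exact absurd hi (by decide)
      · rcases hx with hx | ⟨i, hi, hv⟩
        · exact Or.inl hx
        · fin_cases i
          · exact absurd hi (by decide)
          · exact absurd hi (by decide)
          · exact absurd hi (by decide)
          · exact Or.inr hv
    · intro a ha x hx
      refine b3 a ?_ x ?_
      · rcases ha with ha | ⟨i, hi, hv⟩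
        · exact Or.inl ha
        · fin_cases i
          · exact Or.inr (Or.inl (Or.inl hv))
          · exact Or.inr (Or.inl (Or.inr hv))
          · exact Or.inr (Or.inr hv)
          · exact absurd hi (by decide)
      · rcases hx with hx | ⟨i, hi, hv⟩
        · exact hx
        · fin_cases i
          · exact absurd hi (by decide)
          · exact absurd hi (by decide)
          · exact absurd hi (by decide)
          · exact absurd hi (by decide)

/-- **PART II, sorted form** -/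
theorem ar5_six_sorted (hT : T.IsSph) (h : c'.Inside c) (b : Bool) (σ : Fin 4 → T.XStr s c' c) (hdis : ∀ i j, i ≠ j → Disjoint ((σ i).lay b) ((σ j).lay b))
    (p : Fin 4 → ℕ) (hp : ∀ i, (σ i).e = c'.e (p i)) (hpn : ∀ i, p i < c'.n) (hmono : StrictMono p) : T.SixArm s c' c := by
  have p01 : p 0 < p 1 := hmono (by decide)
  have p12 : p 1 < p 2 := hmono (by decide)
  have p23 : p 2 < p 3 := hmono (by decide)
  have n0 := hpn 0
  have n1 := hpn 1
  have n2 := hpn 2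
  have n3 := hpn 3
  obtain ⟨u1, hu1⟩ := ar5_pair_pot hT h (σ 0) (σ 1)
  obtain ⟨u2, hu2⟩ := ar5_pair_pot hT h (σ 0) (σ 2)
  obtain ⟨u3, hu3⟩ := ar5_pair_pot hT h (σ 0) (σ 3)
  obtain ⟨w, hw⟩ := ar5_pair_pot hT h (σ 1) (σ 3)
  have t1 := ar5_pot_self hT h hu1 (hp 0) (hp 1) p01 (by omega)
  have t2 := ar5_pot_self hT h hu2 (hp 0) (hp 2) (by omega) (by omega)
  have t3 := ar5_pot_self hT h hu3 (hp 0) (hp 3) (by omega) (by omega)
  have t12 : ∀ v, v ∈ (σ 2).srcL ∨ v ∈ (σ 2).tgtL → u1 v = 1 := fun v hv => by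
    rw [ar5_pot_third hT h hu1 (hp 0) (hp 1) (hp 2) p01 (by omega) (by omega) (by omega) (by omega) v hv, ar5_I_true p12]
  have t13 : ∀ v, v ∈ (σ 3).srcL ∨ v ∈ (σ 3).tgtL → u1 v = 1 := fun v hv => by
    rw [ar5_pot_third hT h hu1 (hp 0) (hp 1) (hp 3) p01 (by omega) (by omega) (by omega) (by omega) v hv, ar5_I_true (by omega)]
  have t21 : ∀ v, v ∈ (σ 1).srcL ∨ v ∈ (σ 1).tgtL → u2 v = 0 := fun v hv => by
    rw [ar5_pot_third hT h hu2 (hp 0) (hp 2) (hp 1) (by omega) (by omega) (by omega) (by omega) (by omega) v hv, ar5_I_false (by omega)]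
  have t23 : ∀ v, v ∈ (σ 3).srcL ∨ v ∈ (σ 3).tgtL → u2 v = 1 := fun v hv => by
    rw [ar5_pot_third hT h hu2 (hp 0) (hp 2) (hp 3) (by omega) (by omega) (by omega) (by omega) (by omega) v hv, ar5_I_true p23]
  have t31 : ∀ v, v ∈ (σ 1).srcL ∨ v ∈ (σ 1).tgtL → u3 v = 0 := fun v hv => by
    rw [ar5_pot_third hT h hu3 (hp 0) (hp 3) (hp 1) (by omega) (by omega) (by omega) (by omega) (by omega) v hv, ar5_I_false (by omega)]
  have t32 : ∀ v, v ∈ (σ 2).srcL ∨ v ∈ (σ 2).tgtL → u3 v = 0 := fun v hv => by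
    rw [ar5_pot_third hT h hu3 (hp 0) (hp 3) (hp 2) (by omega) (by omega) (by omega) (by omega) (by omega) v hv, ar5_I_false (by omega)]
  -- the strands number 0 and 2 have disjoint layers
  have F02 : ∀ v, (v ∈ (σ 0).srcL ∨ v ∈ (σ 0).tgtL) → (v ∈ (σ 2).srcL ∨ v ∈ (σ 2).tgtL) → False := by
    intro v h0 h2
    have e2 := ar5_pot_third hT h hw (hp 1) (hp 3) (hp 2) (by omega) (by omega) (by omega) (by omega) (by omega) v h2
    have e0 := ar5_pot_third hT h hw (hp 1) (hp 3) (p'' := p 0 + c'.n) (by rw [c'.per]; exact hp 0) (by omega) (by omega) (by omega) (by omega) (by omega) v h0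
    rw [ar5_I_false (by omega)] at e2
    rw [ar5_I_true (by omega), e2] at e0
    exact zero_ne_one e0
  -- layers of colour `b`
  have hdl : ∀ i j v, i ≠ j → s v = b → (v ∈ (σ i).srcL ∨ v ∈ (σ i).tgtL) → (v ∈ (σ j).srcL ∨ v ∈ (σ j).tgtL) → False :=
    fun i j v hij hv hi hj => Set.disjoint_left.1 (hdis i j hij) ⟨hv, hi⟩ ⟨hv, hj⟩
  have hlay : ∀ i, (σ i).lay b = (σ i).srcL ∨ (σ i).lay b = (σ i).tgtL := by
    intro i
    rcases ar5_x_lay_eq (σ i) b with h1 | h1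
    · exact Or.inl h1.2.2.1
    · exact Or.inr h1.2.2.1
  have hVOf : ∀ i v, (v ∈ (σ i).srcL ∨ v ∈ (σ i).tgtL) → v ∈ T.VOf (c'.Ann c) := fun i v hv => ar5_x_lay_VOf hT h (σ i) hv
  have hZ : ∀ i, i ≠ 0 → ∀ z y, (z ∈ (σ 0).srcL ∨ z ∈ (σ 0).tgtL) → ((z ∈ (σ i).srcL ∧ y ∈ (σ i).tgtL) ∨ (z ∈ (σ i).tgtL ∧ y ∈ (σ i).srcL)) → y ∈ (σ i).lay b := by
    intro i hi z y hz hh
    refine ar5_lay_other (σ i) (fun hzb => hdl 0 i z (Ne.symm hi) hzb hz ?_) hh
    rcases hh with hh | hh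
    · exact Or.inl hh.1
    · exact Or.inr hh.1
  have hZ2 : ∀ (G : Set V) z y, (z ∈ (σ 0).srcL ∨ z ∈ (σ 0).tgtL) → ((z ∈ (σ 2).srcL ∧ y ∈ (σ 2).tgtL) ∨ (z ∈ (σ 2).tgtL ∧ y ∈ (σ 2).srcL)) → y ∈ G := by
    intro G z y hz hh
    refine (F02 z hz ?_).elim
    rcases hh with hh | hh
    · exact Or.inl hh.1
    · exact Or.inr hh.1
  have s1 := ar5_side_vals hu1 t1 (hZ 1 (by decide))
  have s2a := ar5_side_vals hu2 t2 (hZ2 (σ 2).srcL)
  have s2b := ar5_side_vals hu2 t2 (hZ2 (σ 2).tgtL)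
  have s3 := ar5_side_vals hu3 t3 (hZ 3 (by decide))
  have hocc2 : s (T.src (σ 2).e) ≠ s (T.tgt (σ 2).e) := (σ 2).occ
  refine ar5_six_mk (σ₀ := σ 0) (G0 := (σ 1).lay b) (G1 := (σ 2).srcL) (G2 := (σ 2).tgtL) (G3 := (σ 3).lay b)
    (k0 := b) (k1 := s (T.src (σ 2).e)) (k2 := s (T.tgt (σ 2).e)) (k3 := b) ⟨?_, ?_, ?_, ?_⟩ ⟨?_, ?_, ?_, ?_⟩ ⟨?_, ?_, ?_, ?_, ?_, ?_⟩ ?_ ?_ ?_ ?_
  · exact fun v hv => ⟨hVOf 1 v hv.2, fun h0 => hdl 0 1 v (by decide) hv.1 h0 hv.2⟩
  · exact fun v hv => ⟨hVOf 2 v (Or.inl hv), fun h0 => F02 v h0 (Or.inl hv)⟩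
  · exact fun v hv => ⟨hVOf 2 v (Or.inr hv), fun h0 => F02 v h0 (Or.inr hv)⟩
  · exact fun v hv => ⟨hVOf 3 v hv.2, fun h0 => hdl 0 3 v (by decide) hv.1 h0 hv.2⟩
  · exact fun v hv => hv.1
  · exact fun v hv => ar5_srcL_col _ hv
  · exact fun v hv => ar5_tgtL_col _ hv
  · exact fun v hv => hv.1
  · exact Set.disjoint_left.2 fun v h1 h2 => hdl 1 2 v (by decide) h1.1 h1.2 (Or.inl h2)
  · exact Set.disjoint_left.2 fun v h1 h2 => hdl 1 2 v (by decide) h1.1 h1.2 (Or.inr h2)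
  · exact hdis 1 3 (by decide)
  · exact Set.disjoint_left.2 fun v h1 h2 => hocc2 ((ar5_srcL_col _ h1).symm.trans (ar5_tgtL_col _ h2))
  · exact Set.disjoint_left.2 fun v h1 h2 => hdl 2 3 v (by decide) h2.1 (Or.inl h1) h2.2
  · exact Set.disjoint_left.2 fun v h1 h2 => hdl 2 3 v (by decide) h2.1 (Or.inr h1) h2.2
  · refine ar5_blk_of_pot hu1 (hlay 1) s1.1 ?_
    rintro x (hx | (hx | hx) | hx) hxG
    · exact s1.2 x hx hxG
    · exact t12 x (Or.inl hx)
    · exact t12 x (Or.inr hx)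
    · exact t13 x hx.2
  · refine ar5_blk_of_pot hu2 (Or.inl rfl) ?_ ?_
    · rintro a (ha | ha) haG
      · exact s2a.1 a ha haG
      · exact t21 a ha.2
    · rintro x (hx | hx | hx) hxG
      · exact s2a.2 x hx hxG
      · exact t2.2.2.2 x hx
      · exact t23 x hx.2
  · refine ar5_blk_of_pot hu2 (Or.inr rfl) ?_ ?_
    · rintro a (ha | ha | ha) haG
      · exact s2b.1 a ha haG
      · exact t21 a ha.2
      · exact t2.2.2.1 a ha
    · rintro x (hx | hx) hxG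
      · exact s2b.2 x hx hxG
      · exact t23 x hx.2
  · refine ar5_blk_of_pot hu3 (hlay 3) ?_ s3.2
    rintro a (ha | (ha | ha) | ha) haG
    · exact s3.1 a ha haG
    · exact t31 a ha.2
    · exact t32 a (Or.inl ha)
    · exact t32 a (Or.inr ha)

/-- **PART II**: four crossing strands with pairwise disjoint layers of one colour give six arms (`ar5_x_first`, `Tuple.sort`) -/
theorem ar5_six (hT : T.IsSph) (h : c'.Inside c) (b : Bool) (σ : Fin 4 → T.XStr s c' c) (hdis : ∀ i j, i ≠ j → Disjoint ((σ i).lay b) ((σ j).lay b)) :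
    T.SixArm s c' c := by
  classical
  have hfirst : ∀ i, ∃ p, p < c'.n ∧ (σ i).e = c'.e p := fun i => ar5_x_first hT h (σ i)
  choose p hpn hp using hfirst
  -- a vertex of colour `b` of the first dart
  have hmem : ∀ i, ∃ v, (v = T.src (σ i).e ∨ v = T.tgt (σ i).e) ∧ v ∈ (σ i).lay b := by
    intro i
    have hocc : s (T.src (σ i).e) ≠ s (T.tgt (σ i).e) := (σ i).occ
    by_cases hb : s (T.src (σ i).e) = b
    · exact ⟨_, Or.inl rfl, hb, Or.inl ⟨0, Nat.zero_le _, rfl⟩⟩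
    · refine ⟨_, Or.inr rfl, ?_, Or.inr ⟨0, Nat.zero_le _, rfl⟩⟩
      revert hb hocc
      cases s (T.src (σ i).e) <;> cases s (T.tgt (σ i).e) <;> cases b <;> simp
  have hinj : Function.Injective p := by
    intro i j hij
    by_contra hne
    have he : (σ i).e = (σ j).e := by rw [hp, hp, hij]
    obtain ⟨v, hv, hvi⟩ := hmem i
    have hvj : v ∈ (σ j).lay b := by
      refine ⟨hvi.1, ?_⟩
      rcases hv with hv | hv
      · exact Or.inl ⟨0, Nat.zero_le _, by rw [hv, he]; rfl⟩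
      · exact Or.inr ⟨0, Nat.zero_le _, by rw [hv, he]; rfl⟩
    exact Set.disjoint_left.1 (hdis i j hne) hvi hvj
  have hmono : StrictMono (p ∘ Tuple.sort p) :=
    (Tuple.monotone_sort p).strictMono_of_injective (hinj.comp (Tuple.sort p).injective)
  exact ar5_six_sorted hT h b (σ ∘ Tuple.sort p) (fun i j hij => hdis _ _ (fun h' => hij ((Tuple.sort p).injective h')))
    (p ∘ Tuple.sort p) (fun i => hp _) (fun i => hpn _) hmono

/-! ## 3b. CONTACT LEMMA: where the layers of two crossing strands can meet; choice of the triple of `CONFIG5` -/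

/-- strands with disjoint layers of one colour start at different darts (the end of colour `b` of the first dart lies in `lay b`) -/
theorem ar5_x_e_ne {σ σ' : T.XStr s c' c} {b : Bool} (hdis : Disjoint (σ.lay b) (σ'.lay b)) : σ.e ≠ σ'.e := by
  intro he
  have hocc : s (T.src σ.e) ≠ s (T.tgt σ.e) := σ.occ
  by_cases hb : s (T.src σ.e) = b
  · exact Set.disjoint_left.1 hdis ⟨hb, Or.inl ⟨0, Nat.zero_le _, rfl⟩⟩ ⟨hb, Or.inl ⟨0, Nat.zero_le _, by rw [he]; rfl⟩⟩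
  · have ht : s (T.tgt σ.e) = b := by
      revert hb hocc
      cases s (T.src σ.e) <;> cases s (T.tgt σ.e) <;> cases b <;> simp
    exact Set.disjoint_left.1 hdis ⟨ht, Or.inr ⟨0, Nat.zero_le _, rfl⟩⟩ ⟨ht, Or.inr ⟨0, Nat.zero_le _, by rw [he]; rfl⟩⟩

/-- **CONTACT LEMMA**, three crossing strands in the cyclic order `σ, σ₁, σ₂` on the inner cycle: `σ` and `σ₁` can meet only in (target layer of `σ`) `∩` (source layer of `σ₁`).
`u₂` = potential of `(σ, σ₂)`: `0` on `σ₁.L` (`ar5_pot_third`), `1` on `σ.srcL` (`ar5_pot_self`): `v ∈ σ.tgtL`;   `u₁` = potential of `(σ, σ₁)`: `0` on `σ.tgtL`, `1` on `σ₁.tgtL`: `v ∈ σ₁.srcL`. -/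
theorem ar5_contact_ord (hT : T.IsSph) (h : c'.Inside c) (σ σ₁ σ₂ : T.XStr s c' c) {q q₁ q₂ : ℕ} (hq : σ.e = c'.e q) (hq₁ : σ₁.e = c'.e q₁) (hq₂ : σ₂.e = c'.e q₂)
    (h1 : q < q₁) (h2 : q₁ < q₂) (h3 : q₂ < q + c'.n) {v : V} (hv : v ∈ σ.L) (hv₁ : v ∈ σ₁.L) : v ∈ σ.tgtL ∧ v ∈ σ₁.srcL := by
  obtain ⟨u2, hu2⟩ := ar5_pair_pot hT h σ σ₂
  obtain ⟨u1, hu1⟩ := ar5_pair_pot hT h σ σ₁
  have t2 := ar5_pot_self hT h hu2 hq hq₂ (by omega) h3
  have t1 := ar5_pot_self hT h hu1 hq hq₁ h1 (by omega)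
  have e2 := ar5_pot_third hT h hu2 hq hq₂ hq₁ (by omega) h3 h1 (by omega) (by omega) v hv₁
  rw [ar5_I_false (by omega)] at e2
  have hvt : v ∈ σ.tgtL := by
    rcases hv with hv | hv
    · exact absurd ((t2.2.1 v hv).symm.trans e2) one_ne_zero
    · exact hv
  refine ⟨hvt, ?_⟩
  rcases hv₁ with hv₁ | hv₁
  · exact hv₁
  · exact absurd ((t1.2.2.2 v hv₁).symm.trans (t1.1 v hvt)) one_ne_zero

/-- (215) the three contact statements of a cyclically ordered triple -/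
theorem ar5_contact_cyc (hT : T.IsSph) (h : c'.Inside c) (σ σ₁ σ₂ : T.XStr s c' c) {q q₁ q₂ : ℕ} (hq : σ.e = c'.e q) (hq₁ : σ₁.e = c'.e q₁) (hq₂ : σ₂.e = c'.e q₂)
    (h1 : q < q₁) (h2 : q₁ < q₂) (h3 : q₂ < q + c'.n) :
    (∀ v, v ∈ σ.L → v ∈ σ₁.L → v ∈ σ.tgtL ∧ v ∈ σ₁.srcL) ∧ (∀ v, v ∈ σ₁.L → v ∈ σ₂.L → v ∈ σ₁.tgtL ∧ v ∈ σ₂.srcL) ∧ (∀ v, v ∈ σ₂.L → v ∈ σ.L → v ∈ σ₂.tgtL ∧ v ∈ σ.srcL) :=
  ⟨fun _ a b => ar5_contact_ord hT h σ σ₁ σ₂ hq hq₁ hq₂ h1 h2 h3 a b,
   fun _ a b => ar5_contact_ord hT h σ₁ σ₂ σ hq₁ hq₂ (q₂ := q + c'.n) (by rw [c'.per]; exact hq) h2 h3 (by omega) a b,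
   fun _ a b => ar5_contact_ord hT h σ₂ σ σ₁ hq₂ (q₁ := q + c'.n) (q₂ := q₁ + c'.n) (by rw [c'.per]; exact hq) (by rw [c'.per]; exact hq₁) h3 (by omega) (by omega) a b⟩

/-- three crossing strands are in the cyclic order `σ, σ₁, σ₂` or `σ, σ₂, σ₁` (`ar5_x_first`; six orders of the three positions `< c'.n`; lifts by `c'.n`, `c'.per`; `ar5_contact_ord` three times) -/
theorem ar5_contact3 (hT : T.IsSph) (h : c'.Inside c) (σ σ₁ σ₂ : T.XStr s c' c) (h01 : σ.e ≠ σ₁.e) (h02 : σ.e ≠ σ₂.e) (h12 : σ₁.e ≠ σ₂.e) :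
    ((∀ v, v ∈ σ.L → v ∈ σ₁.L → v ∈ σ.tgtL ∧ v ∈ σ₁.srcL) ∧ (∀ v, v ∈ σ₁.L → v ∈ σ₂.L → v ∈ σ₁.tgtL ∧ v ∈ σ₂.srcL) ∧ (∀ v, v ∈ σ₂.L → v ∈ σ.L → v ∈ σ₂.tgtL ∧ v ∈ σ.srcL)) ∨
    ((∀ v, v ∈ σ.L → v ∈ σ₂.L → v ∈ σ.tgtL ∧ v ∈ σ₂.srcL) ∧ (∀ v, v ∈ σ₂.L → v ∈ σ₁.L → v ∈ σ₂.tgtL ∧ v ∈ σ₁.srcL) ∧ (∀ v, v ∈ σ₁.L → v ∈ σ.L → v ∈ σ₁.tgtL ∧ v ∈ σ.srcL)) := by
  obtain ⟨p, hpn, hp⟩ := ar5_x_first hT h σ
  obtain ⟨p₁, hpn₁, hp₁⟩ := ar5_x_first hT h σ₁
  obtain ⟨p₂, hpn₂, hp₂⟩ := ar5_x_first hT h σ₂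
  have n01 : p ≠ p₁ := fun e => h01 (by rw [hp, hp₁, e])
  have n02 : p ≠ p₂ := fun e => h02 (by rw [hp, hp₂, e])
  have n12 : p₁ ≠ p₂ := fun e => h12 (by rw [hp₁, hp₂, e])
  rcases Nat.lt_or_gt_of_ne n01 with a01 | a01 <;> rcases Nat.lt_or_gt_of_ne n02 with a02 | a02 <;> rcases Nat.lt_or_gt_of_ne n12 with a12 | a12
  · exact Or.inl (ar5_contact_cyc hT h σ σ₁ σ₂ hp hp₁ hp₂ a01 a12 (by omega))
  · exact Or.inr (ar5_contact_cyc hT h σ σ₂ σ₁ hp hp₂ hp₁ a02 a12 (by omega))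
  · omega
  · have r := ar5_contact_cyc hT h σ₂ σ σ₁ hp₂ hp hp₁ a02 a01 (by omega)
    exact Or.inl ⟨r.2.1, r.2.2, r.1⟩
  · have r := ar5_contact_cyc hT h σ₁ σ σ₂ hp₁ hp hp₂ a01 a02 (by omega)
    exact Or.inr ⟨r.2.1, r.2.2, r.1⟩
  · omega
  · have r := ar5_contact_cyc hT h σ₁ σ₂ σ hp₁ hp₂ hp a12 a02 (by omega)
    exact Or.inl ⟨r.2.2, r.1, r.2.1⟩
  · have r := ar5_contact_cyc hT h σ₂ σ₁ σ hp₂ hp₁ hp a12 a01 (by omega)
    exact Or.inr ⟨r.2.2, r.1, r.2.1⟩

/-- two crossing strands of the same type (colour of the sources) have disjoint layers, as soon as there is a third crossing strand: a common vertex would be a target of one and a source of the other one -/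
theorem ar5_same_type_disj (hT : T.IsSph) (h : c'.Inside c) (σ σ₁ σ₂ : T.XStr s c' c) (h01 : σ.e ≠ σ₁.e) (h02 : σ.e ≠ σ₂.e) (h12 : σ₁.e ≠ σ₂.e)
    (hty : s (T.src σ.e) = s (T.src σ₁.e)) : Disjoint σ.L σ₁.L := by
  have hocc : s (T.src σ.e) ≠ s (T.tgt σ.e) := σ.occ
  have hocc₁ : s (T.src σ₁.e) ≠ s (T.tgt σ₁.e) := σ₁.occ
  refine Set.disjoint_left.2 fun v hv hv₁ => ?_
  rcases ar5_contact3 hT h σ σ₁ σ₂ h01 h02 h12 with ⟨r, -, -⟩ | ⟨-, -, r⟩
  · obtain ⟨a, b⟩ := r v hv hv₁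
    exact hocc (hty.trans ((ar5_srcL_col σ₁ b).symm.trans (ar5_tgtL_col σ a)))
  · obtain ⟨a, b⟩ := r v hv₁ hv
    exact hocc₁ (hty.symm.trans ((ar5_srcL_col σ b).symm.trans (ar5_tgtL_col σ₁ a)))

/-- `Z` touches at most one of two strands `A`, `B` of the other type: one contact is in `Z.tgtL`, the other one in `Z.srcL` (`ar5_contact3`), one of them has the colour `b` -/
theorem ar5_touch_one (hT : T.IsSph) (h : c'.Inside c) (b : Bool) (Z A B : T.XStr s c' c) (hAB : A.e ≠ B.e)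
    (hdA : Disjoint (Z.lay b) (A.lay b)) (hdB : Disjoint (Z.lay b) (B.lay b)) : Disjoint Z.L A.L ∨ Disjoint Z.L B.L := by
  have hZA := ar5_x_e_ne hdA
  have hZB := ar5_x_e_ne hdB
  have hocc : s (T.src Z.e) ≠ s (T.tgt Z.e) := Z.occ
  have noA : ∀ v, v ∈ Z.L → v ∈ A.L → s v ≠ b := fun v h1 h2 hb => Set.disjoint_left.1 hdA ⟨hb, h1⟩ ⟨hb, h2⟩
  have noB : ∀ v, v ∈ Z.L → v ∈ B.L → s v ≠ b := fun v h1 h2 hb => Set.disjoint_left.1 hdB ⟨hb, h1⟩ ⟨hb, h2⟩
  by_cases hb : s (T.tgt Z.e) = b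
  · rcases ar5_contact3 hT h Z A B hZA hZB hAB with ⟨r1, -, -⟩ | ⟨r1, -, -⟩
    · exact Or.inl (Set.disjoint_left.2 fun v h1 h2 => noA v h1 h2 ((ar5_tgtL_col Z (r1 v h1 h2).1).trans hb))
    · exact Or.inr (Set.disjoint_left.2 fun v h1 h2 => noB v h1 h2 ((ar5_tgtL_col Z (r1 v h1 h2).1).trans hb))
  · have hb' : s (T.src Z.e) = b := by
      revert hb hocc
      cases s (T.src Z.e) <;> cases s (T.tgt Z.e) <;> cases b <;> simp
    rcases ar5_contact3 hT h Z A B hZA hZB hAB with ⟨-, -, r3⟩ | ⟨-, -, r3⟩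
    · exact Or.inr (Set.disjoint_left.2 fun v h1 h2 => noB v h1 h2 ((ar5_srcL_col Z (r3 v h2 h1).2).trans hb'))
    · exact Or.inl (Set.disjoint_left.2 fun v h1 h2 => noA v h1 h2 ((ar5_srcL_col Z (r3 v h2 h1).2).trans hb'))

/-- each layer of a crossing strand joins the inner cycle to the outer cycle in the closed annulus (induction along the strand, `ar5_wnx_step`; the last dart is an edge of `c`) -/
theorem ar5_x_lay_join (hT : T.IsSph) (h : c'.Inside c) (σ : T.XStr s c' c) (b : Bool) : ∃ u ∈ c'.verts, ∃ w ∈ c.verts, T.Join (c'.Ann c) (σ.lay b) u w := by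
  have hA := ar5_ann_face c' c
  have hN := ar5_x_N_pos hT h σ
  obtain ⟨p, -, hp⟩ := ar5_x_first hT h σ
  -- the two ends of the first dart lie on `c'`, the two ends of the last dart lie on `c`
  have hu1 : T.src σ.e ∈ c'.verts := ⟨p, by rw [hp]⟩
  have hu2 : T.tgt σ.e ∈ c'.verts := ⟨p + 1, by rw [hp, c'.chain]⟩
  have hlast : T.Edg c.darts (σ.d σ.N) := by
    refine pl_left_bd_sub c fun hb => ?_
    have h1 : σ.d σ.N ∈ c.Left := (ar5_x_mem_ann σ hN le_rfl).1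
    have h2 : T.opp (σ.d σ.N) ∈ c.Right := σ.hN
    rw [(pl_jordan hT c).1] at h2
    exact h2 (hb.1 h1)
  have hw1 : T.src (σ.d σ.N) ∈ c.verts := pl_cyc_edg_src c hlast
  have hw2 : T.tgt (σ.d σ.N) ∈ c.verts := by
    rw [← T.src_opp']
    exact pl_cyc_edg_src c (T.edg_opp.2 hlast)
  have key : ∀ k, k ≤ σ.N → T.Join (c'.Ann c) σ.srcL (T.src σ.e) (T.src (σ.d k)) ∧ T.Join (c'.Ann c) σ.tgtL (T.tgt σ.e) (T.tgt (σ.d k)) := by
    intro k
    induction k with
    | zero => intro _; exact ⟨⟨⟨0, Nat.zero_le _, rfl⟩, ReflTransGen.refl⟩, ⟨⟨0, Nat.zero_le _, rfl⟩, ReflTransGen.refl⟩⟩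
    | succ k ih =>
      intro hk
      obtain ⟨i1, i2⟩ := ih (by omega)
      have hin : T.opp (σ.d k) ∈ c'.Ann c := σ.hin k (by omega)
      have m1 : T.src (σ.d (k + 1)) ∈ σ.srcL := ⟨k + 1, hk, rfl⟩
      have m2 : T.tgt (σ.d (k + 1)) ∈ σ.tgtL := ⟨k + 1, hk, rfl⟩
      rw [ar5_x_succ] at m1 m2 ⊢
      rcases ar5_wnx_step s (ar5_x_occ σ k) with ⟨h1, x, hx, -, hx1, hx2⟩ | ⟨h1, x, hx, -, hx1, hx2⟩
      · have hxA : x ∈ c'.Ann c := (hA.sf T hx).2 hin
        refine ⟨by rw [h1]; exact i1, i2.1, i2.2.tail ⟨⟨T.opp x, Or.inr (by rw [T.opp_opp]; exact hxA), ?_, ?_⟩, m2⟩⟩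
        · rw [T.src_opp', hx2]
        · rw [T.tgt_opp, hx1]
      · have hxA : x ∈ c'.Ann c := (hA.sf T hx).2 hin
        exact ⟨⟨i1.1, i1.2.tail ⟨⟨x, Or.inl hxA, hx1, hx2⟩, m1⟩⟩, by rw [h1]; exact i2⟩
  obtain ⟨k1, k2⟩ := key σ.N le_rfl
  rcases ar5_x_lay_eq σ b with ⟨-, -, e, -⟩ | ⟨-, -, e, -⟩
  · rw [e]; exact ⟨_, hu1, _, hw1, k1⟩
  · rw [e]; exact ⟨_, hu2, _, hw2, k2⟩

end strands

/-! ## 4. PART I: the wall of a rim -/

section rim

variable {s : V → Bool} {P : T.Cyc}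

theorem ar5_y_tgt (P : T.Cyc) (i : ℕ) : T.tgt (P.yd i) = T.src (P.e (i + 1)) := by
  unfold PvMap.Cyc.yd
  rw [T.tgt_nxt2, T.src_opp', P.chain]

theorem ar5_y_src (P : T.Cyc) (i : ℕ) : T.src (P.yd i) = T.apex (T.opp (P.e i)) := rfl

theorem ar5_y_sf (P : T.Cyc) (i : ℕ) : T.SF (T.opp (P.e i)) (P.yd i) := T.sf_nxt2 _

theorem ar5_rim_col (hP : T.ArRim s P) (i : ℕ) : s (T.src (P.e i)) = s (T.src (P.e 0)) := by
  induction i with
  | zero => rfl
  | succ i ih =>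
    have h := (hP.tag i).1
    rw [T.src_opp', T.tgt_opp, P.chain] at h
    rw [h, ih]

theorem ar5_y_occ (hP : T.ArRim s P) (i : ℕ) : T.Occ s (P.yd i) :=
  ((pl_w_tag_iff s _).1 (hP.tag i)).2.2

theorem ar5_y_src_col (hP : T.ArRim s P) (i : ℕ) : s (T.src (P.yd i)) = !s (T.src (P.e 0)) := by
  have h := (hP.tag i).2
  rw [T.src_opp', P.chain, ar5_rim_col hP (i + 1)] at h
  rw [ar5_y_src]
  revert h
  generalize s (T.apex (T.opp (P.e i))) = a
  generalize s (T.src (P.e 0)) = b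
  revert a b
  decide

theorem ar5_y_inj (P : T.Cyc) {i j : ℕ} (h : P.yd i = P.yd j) : i % P.n = j % P.n := by
  have h1 : P.e i = P.e j := T.opp_injective (T.nxt_injective (T.nxt_injective h))
  exact pl_cyc_src_inj P (by rw [h1])

/-- the wall enters the right face of the `i`-th edge through the dart `facing vertex → tail of the edge` -/
theorem ar5_y_pv (hP : T.ArRim s P) (i : ℕ) : T.tgt (T.wpv s (P.yd i)) = T.src (P.e i) := by
  have h := ((pl_w_tag_iff s _).1 (hP.tag i)).1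
  unfold PvMap.wpv PvMap.Cyc.yd
  rw [T.nxt3, if_neg h, T.tgt_opp, T.src_nxt, T.tgt_opp]

/-- a shifted rim is a rim -/
theorem ar5_rim_shift (hP : T.ArRim s P) (k : ℕ) : T.ArRim s (P.shift k) := by
  refine ⟨fun i => hP.tag (i + k), fun i => pl_w_trans (pl_w_symm (hP.wall (0 + k))) (hP.wall (i + k)), ?_⟩
  refine hP.fin.subset fun d hd => ?_
  exact pl_w_trans (hP.wall (0 + k)) hd

/-- the wall of a rim as a dual circuit (`pl_w_circuit` at `P.yd 0`; positions of the tags: `pl_w_exit_unique`) -/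
theorem ar5_rim_w (hP : T.ArRim s P) : Nonempty (T.RimW s P) := by
  have hfin : {d | T.Wall s (P.yd 0) d}.Finite := by
    refine hP.fin.subset fun d hd => ?_
    exact pl_w_trans (pl_w_sf s (ar5_y_sf P 0)) hd
  obtain ⟨w, h0, hnx, hocc, hcol, hw⟩ := pl_w_circuit s (ar5_y_occ hP 0) hfin
  refine ⟨⟨w, h0, hnx, hocc, hcol, fun i => ?_⟩⟩
  have h1 : T.Wall s (P.yd 0) (P.yd i) :=
    pl_w_trans (pl_w_sf s (T.sf_symm (ar5_y_sf P 0))) (pl_w_trans (hP.wall i) (pl_w_sf s (ar5_y_sf P i)))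
  obtain ⟨p, hp⟩ := (hw _).1 h1
  refine ⟨p, ?_⟩
  have := pl_w_exit_unique s hp (hocc p) (ar5_y_occ hP i) (by rw [hcol p, ar5_y_src_col hP, ar5_y_src_col hP])
  exact this.symm

theorem ar5_w_mod (w : T.DCyc) (l : ℕ) : w.e (l % w.n) = w.e l := by
  have key : ∀ i k : ℕ, w.e (i + k * w.n) = w.e i := by
    intro i k
    induction k with
    | zero => simp
    | succ k ih => rw [Nat.succ_mul, ← Nat.add_assoc, w.per, ih]
  conv_rhs => rw [← Nat.mod_add_div l w.n, Nat.mul_comm, key]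

theorem ar5_w_inj (w : T.DCyc) {l l' : ℕ} (h : T.SF (w.e l) (w.e l')) : l % w.n = l' % w.n := by
  refine w.inj _ _ (Nat.mod_lt _ w.pos) (Nat.mod_lt _ w.pos) ?_
  rw [ar5_w_mod, ar5_w_mod]
  exact h

theorem ar5_W_tgt_col (hP : T.ArRim s P) (W : T.RimW s P) (l : ℕ) : s (T.tgt (W.w.e l)) = s (T.src (P.e 0)) := by
  have h1 : s (T.src (W.w.e l)) ≠ s (T.tgt (W.w.e l)) := W.occ l
  rw [W.col l, ar5_y_src_col hP 0] at h1
  revert h1
  generalize s (T.tgt (W.w.e l)) = a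
  generalize s (T.src (P.e 0)) = b
  revert a b
  decide

theorem ar5_W_pv (W : T.RimW s P) (l : ℕ) : T.wpv s (W.w.e (l + 1)) = W.w.e l := by
  rw [W.nx, pl_w_pv_nx s (W.occ l)]

/-- the piece of the wall strictly between the positions `l < l'` is a chain from the face behind `w.e l` to the face of `w.e l'` -/
theorem ar5_W_chain (W : T.RimW s P) {l l' : ℕ} (h : l < l') :
    T.DCh (fun d => ∑ k ∈ Finset.Ioo l l', T.eCh (W.w.e k) d) (T.opp (W.w.e l)) (W.w.e l') := by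
  induction l', h using Nat.le_induction with
  | base =>
    have e : (fun d => ∑ k ∈ Finset.Ioo l (l + 1), T.eCh (W.w.e k) d) = 0 := by
      funext d
      have : Finset.Ioo l (l + 1) = ∅ := by
        ext k; simp only [Finset.mem_Ioo, Finset.notMem_empty, iff_false]; omega
      rw [this]; rfl
    rw [e]
    exact ar5_dch_sf_right (W.w.chain l).1 (ar5_dch_refl _)
  | succ m hm ih =>
    have e : (fun d => ∑ k ∈ Finset.Ioo l (m + 1), T.eCh (W.w.e k) d) = (fun d => ∑ k ∈ Finset.Ioo l m, T.eCh (W.w.e k) d) + T.eCh (W.w.e m) := by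
      funext d
      have : Finset.Ioo l (m + 1) = insert m (Finset.Ioo l m) := by
        ext k; simp only [Finset.mem_Ioo, Finset.mem_insert]
        have : l + 1 ≤ m := hm
        omega
      rw [this, Finset.sum_insert (by simp), Pi.add_apply, add_comm]
    rw [e]
    exact ar5_dch_trans ih (ar5_dch_sf_right (W.w.chain m).1 (ar5_dch_edge _))

/-- value of the chain of a piece of the wall on a dart of the wall, inside one period -/
theorem ar5_W_chain_val (W : T.RimW s P) {l l' p : ℕ} (h1 : l < p) (h2 : p < l + W.w.n) (h3 : l' ≤ l + W.w.n) :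
    ∑ k ∈ Finset.Ioo l l', T.eCh (W.w.e k) (W.w.e p) = ar5I (p < l') := by
  have key : ∀ k ∈ Finset.Ioo l l', T.eCh (W.w.e k) (W.w.e p) = if k = p then 1 else 0 := by
    intro k hk
    rw [Finset.mem_Ioo] at hk
    unfold PvMap.eCh
    by_cases hkp : k = p
    · subst hkp
      rw [if_pos rfl]
      exact ar5_I_true (Or.inl rfl)
    · rw [if_neg hkp]
      refine ar5_I_false ?_
      rintro (h | h)
      · have h4 := ar5_w_inj W.w (l := p) (l' := k) (by rw [h]; exact T.sf_refl _)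
        apply hkp
        have e1 : p = l + (p - l) := by omega
        have e2 : k = l + (k - l) := by omega
        have h5 : (p - l) % W.w.n = (k - l) % W.w.n := by
          rw [e1, e2] at h4
          exact Nat.ModEq.add_left_cancel' l h4
        rw [Nat.mod_eq_of_lt (by omega), Nat.mod_eq_of_lt (by omega)] at h5
        omega
      · have h4 : s (T.src (W.w.e p)) = s (T.tgt (W.w.e k)) := by rw [h, T.src_opp']
        rw [W.col p, ← W.col k] at h4
        exact W.occ k h4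
  rw [Finset.sum_congr rfl key, Finset.sum_ite_eq']
  by_cases hp : p < l'
  · rw [if_pos (Finset.mem_Ioo.2 ⟨h1, hp⟩), ar5_I_true hp]
  · rw [if_neg (fun h => hp (Finset.mem_Ioo.1 h).2), ar5_I_false hp]

theorem ar5_W_chain_unocc (W : T.RimW s P) (l l' : ℕ) {d : D} (h : ¬ T.Occ s d) : ∑ k ∈ Finset.Ioo l l', T.eCh (W.w.e k) d = 0 := by
  refine Finset.sum_eq_zero fun k _ => ?_
  unfold PvMap.eCh
  refine ar5_I_false ?_
  rintro (rfl | rfl)
  · exact h (W.occ k)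
  · exact h ((pl_w_occ_opp s _).2 (W.occ k))

/-- **potential of a pinch**: close the piece of the wall by a fan at `x` (`ar5_W_chain`, `ar5_dch_fan` from `nxt (w.e l')` to `opp (w.e l)`, `ar5_dch_pot`) -/
theorem ar5_pinch_pot (hT : T.IsSph) (W : T.RimW s P) {l l' : ℕ} (h : l < l') (hx : T.tgt (W.w.e l) = T.tgt (W.w.e l')) :
    ∃ u : V → ZMod 2, ∀ d, T.src d ≠ T.tgt (W.w.e l) → T.tgt d ≠ T.tgt (W.w.e l) → u (T.src d) + u (T.tgt d) = ∑ k ∈ Finset.Ioo l l', T.eCh (W.w.e k) d := by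
  have h1 := ar5_W_chain W h
  have hs : T.src (T.nxt (W.w.e l')) = T.src (T.opp (W.w.e l)) := by
    rw [T.src_opp']; exact hx.symm
  obtain ⟨g2, hg2, hsupp⟩ := ar5_dch_fan hT hs
  have h2 : T.DCh g2 (W.w.e l') (T.opp (W.w.e l)) := ar5_dch_sf_left (T.sf_symm (T.sf_nxt _)) hg2
  obtain ⟨u, hu⟩ := ar5_dch_pot hT (ar5_dch_trans h1 h2)
  refine ⟨u, fun d hd1 hd2 => ?_⟩
  have h0 : g2 d = 0 := by
    by_contra hne
    have hxx : T.src (T.nxt (W.w.e l')) = T.tgt (W.w.e l) := hx.symm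
    rcases hsupp d hne with h3 | h3
    · exact hd1 (h3.trans hxx)
    · exact hd2 (h3.trans hxx)
  have := hu d
  simp only [Pi.add_apply, h0, add_zero] at this
  exact this.symm

theorem ar5_cyc_ne_of_lt (P : T.Cyc) (q t : ℕ) (ht : t + 1 < P.n) : T.src (P.e (q + 1 + t)) ≠ T.src (P.e q) := by
  intro h
  have h1 := pl_cyc_src_inj P h
  have h2 : (q + (1 + t)) ≡ q + 0 [MOD P.n] := by
    show (q + (1 + t)) % P.n = (q + 0) % P.n
    rw [← Nat.add_assoc, Nat.add_zero]; exact h1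
  have h3 : (1 + t) % P.n = 0 % P.n := Nat.ModEq.add_left_cancel' q h2
  rw [Nat.mod_eq_of_lt (by omega), Nat.zero_mod] at h3
  omega

/-- a cycle minus one vertex is connected -/
theorem ar5_cyc_const (P : T.Cyc) (x : V) (u : V → ZMod 2)
    (hu : ∀ i, T.src (P.e i) ≠ x → T.src (P.e (i + 1)) ≠ x → u (T.src (P.e i)) = u (T.src (P.e (i + 1)))) {i j : ℕ} (hi : T.src (P.e i) ≠ x) (hj : T.src (P.e j) ≠ x) :
    u (T.src (P.e i)) = u (T.src (P.e j)) := by
  have hn := pl_cyc_pos P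
  by_cases hx : ∃ q, T.src (P.e q) = x
  · obtain ⟨q, rfl⟩ := hx
    have key : ∀ t, t + 1 < P.n → u (T.src (P.e (q + 1 + t))) = u (T.src (P.e (q + 1))) := by
      intro t
      induction t with
      | zero => intro _; rfl
      | succ t ih =>
        intro ht
        rw [← ih (by omega)]
        exact (hu (q + 1 + t) (ar5_cyc_ne_of_lt P q t (by omega)) (ar5_cyc_ne_of_lt P q (t + 1) ht)).symm
    have red : ∀ i, T.src (P.e i) ≠ T.src (P.e q) → u (T.src (P.e i)) = u (T.src (P.e (q + 1))) := by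
      intro i hi
      set t := (i + (q + 1) * (P.n - 1)) % P.n with ht
      have htn : t < P.n := Nat.mod_lt _ hn
      have hmod : (q + 1 + t) % P.n = i % P.n := by
        rw [ht, Nat.add_mod_mod]
        have : q + 1 + (i + (q + 1) * (P.n - 1)) = i + (q + 1) * P.n := by
          obtain ⟨m, hm⟩ : ∃ m, P.n = m + 1 := ⟨P.n - 1, by omega⟩
          rw [hm]; simp only [Nat.add_sub_cancel]; ring
        rw [this, Nat.add_mul_mod_self_right]
      have he : P.e (q + 1 + t) = P.e i := pl_cyc_eq_of_mod P hmod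
      have ht2 : t + 1 < P.n := by
        by_contra hc
        have : t = P.n - 1 := by omega
        apply hi
        rw [← he, this]
        have : q + 1 + (P.n - 1) = q + P.n := by omega
        rw [this, P.per]
      rw [← he]
      exact key t ht2
    rw [red i hi, red j hj]
  · have hx' : ∀ q, T.src (P.e q) ≠ x := fun q hq => hx ⟨q, hq⟩
    have key : ∀ t, u (T.src (P.e t)) = u (T.src (P.e 0)) := by
      intro t
      induction t with
      | zero => rfl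
      | succ t ih => rw [← ih]; exact (hu t (hx' _) (hx' _)).symm
    rw [key i, key j]

/-- a function which does not change along the unoccupied darts off `x` is constant on a monochromatic connection of the colour opposite to `x` -/
theorem ar5_mono_const {s : V → Bool} {x : V} (u : V → ZMod 2) (hu : ∀ d, T.src d ≠ x → T.tgt d ≠ x → ¬ T.Occ s d → u (T.src d) = u (T.tgt d)) {a b : V} (ha : s a ≠ s x)
    (hab : T.Mono s a b) : u a = u b := by
  have key : s b = s a ∧ u a = u b := by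
    induction hab with
    | refl => exact ⟨rfl, rfl⟩
    | tail _ hbc ih =>
      obtain ⟨⟨d, rfl, rfl⟩, hs⟩ := hbc
      refine ⟨by rw [← hs, ih.1], ?_⟩
      rw [ih.2]
      refine hu d ?_ ?_ ?_
      · intro h; apply ha; rw [← ih.1, h]
      · intro h; apply ha; rw [← ih.1, hs, h]
      · intro h; exact h hs
  exact key.2

theorem ar5_W_wall (W : T.RimW s P) (l m : ℕ) : T.Wall s (W.w.e l) (W.w.e (l + m)) := by
  induction m with
  | zero => exact pl_w_refl s _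
  | succ m ih =>
    refine pl_w_trans ih ?_
    rw [← add_assoc, W.nx]
    exact pl_w_nx_wall s (W.occ _)

theorem ar5_z2_eq {a b : ZMod 2} (h : a + b = 0) : a = b := by
  revert a b; decide

/-- **PINCH LEMMA**: a vertex `x` of the bank seen at the positions `l < l' < l + n` of the wall; the two arcs cannot both carry a tag of the rim whose head is not `x` -/
theorem ar5_pinch (hT : T.IsSph) (hP : T.ArRim s P) (W : T.RimW s P) {l l' p p' i k : ℕ} (h1 : l < p) (h2 : p < l') (h3 : l' < p') (h4 : p' < l + W.w.n)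
    (hx : T.tgt (W.w.e l) = T.tgt (W.w.e l')) (hp : W.w.e p = P.yd i) (hp' : W.w.e p' = P.yd k)
    (hi : T.src (P.e (i + 1)) ≠ T.tgt (W.w.e l)) (hk : T.src (P.e (k + 1)) ≠ T.tgt (W.w.e l)) : False := by
  obtain ⟨u, hu⟩ := ar5_pinch_pot hT W (lt_trans h1 h2) hx
  set x := T.tgt (W.w.e l) with hxdef
  have hxcol : s x = s (T.src (P.e 0)) := ar5_W_tgt_col hP W l
  -- unoccupied darts off `x`
  have hun : ∀ d, T.src d ≠ x → T.tgt d ≠ x → ¬ T.Occ s d → u (T.src d) = u (T.tgt d) := by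
    intro d hd1 hd2 hd3
    have := hu d hd1 hd2
    rw [ar5_W_chain_unocc W l l' hd3] at this
    exact ar5_z2_eq this
  -- the rim minus `x`
  have hrim : u (T.src (P.e (i + 1))) = u (T.src (P.e (k + 1))) := by
    refine ar5_cyc_const P x u (fun j hj1 hj2 => ?_) hi hk
    have h5 := hun (P.e j) hj1 (by rw [P.chain]; exact hj2) (fun hocc => hocc (by
      have := (hP.tag j).1
      rw [T.src_opp', T.tgt_opp] at this
      exact this.symm))
    rw [P.chain] at h5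
    exact h5
  -- the facing vertices
  have hsrc : ∀ j, s (T.src (P.yd j)) ≠ s x := by
    intro j
    rw [ar5_y_src_col hP j, hxcol]
    cases s (T.src (P.e 0)) <;> simp
  have hface : u (T.src (P.yd i)) = u (T.src (P.yd k)) := by
    refine ar5_mono_const u hun (hsrc i) ?_
    have hw : T.Wall s (W.w.e p) (W.w.e p') := by
      have := ar5_W_wall W p (p' - p)
      rwa [Nat.add_sub_cancel' (by omega)] at this
    rw [hp, hp'] at hw
    exact pl_w_bank hw (by rw [ar5_y_src_col hP i, ar5_y_src_col hP k])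
  -- the two values
  have e1 : u (T.src (P.yd i)) + u (T.tgt (P.yd i)) = 1 := by
    have := hu (P.yd i) (fun h => hsrc i (by rw [h])) (by rw [ar5_y_tgt]; exact hi)
    rw [this, ← hp, ar5_W_chain_val W h1 (by omega) (by omega), ar5_I_true h2]
  have e2 : u (T.src (P.yd k)) + u (T.tgt (P.yd k)) = 0 := by
    have := hu (P.yd k) (fun h => hsrc k (by rw [h])) (by rw [ar5_y_tgt]; exact hk)
    rw [this, ← hp', ar5_W_chain_val W (by omega) h4 (by omega), ar5_I_false (by omega)]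
  rw [ar5_y_tgt] at e1 e2
  rw [hface, hrim, e2] at e1
  exact zero_ne_one e1

theorem ar5_mod_lt {m p t : ℕ} (h1 : p < t) (h2 : t < p + m) : t % m ≠ p % m := by
  intro h
  obtain ⟨j, rfl⟩ : ∃ j, t = p + j := ⟨t - p, by omega⟩
  have h3 : (p + j) ≡ p + 0 [MOD m] := by
    show (p + j) % m = (p + 0) % m
    rw [Nat.add_zero]; exact h
  have h4 : j % m = 0 % m := Nat.ModEq.add_left_cancel' p h3
  rw [Nat.mod_eq_of_lt (by omega), Nat.zero_mod] at h4
  omega

theorem ar5_w_eq_of_mod (w : T.DCyc) {l l' : ℕ} (h : l % w.n = l' % w.n) : w.e l = w.e l' := by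
  rw [← ar5_w_mod w l, ← ar5_w_mod w l', h]

theorem ar5_y_eq_of_mod (P : T.Cyc) {i j : ℕ} (h : i % P.n = j % P.n) : P.yd i = P.yd j := by
  unfold PvMap.Cyc.yd
  rw [pl_cyc_eq_of_mod P h]

/-- **the next tag**: after the tag number `i` the wall meets the tag number `i + 1` before any other tag.
`p'` := the position of `yd (i+1)` in `(p, p + n)`; `l = p`, `l' = p' - 1` have the same target `src (P.e (i+1))` (`ar5_y_tgt`, `ar5_y_pv`, `ar5_W_pv`); `ar5_pinch` with the tag `p'` on the second arc. -/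
theorem ar5_next (hT : T.IsSph) (hP : T.ArRim s P) (W : T.RimW s P) {p i : ℕ} (hp : W.w.e p = P.yd i) :
    ∃ r, 0 < r ∧ r < W.w.n ∧ W.w.e (p + r) = P.yd (i + 1) ∧ ∀ t, p < t → t < p + r → ∀ k, W.w.e t ≠ P.yd k := by
  have hm : 0 < W.w.n := W.w.pos
  obtain ⟨q, hq⟩ := W.pos (i + 1)
  set r := (q + p * (W.w.n - 1)) % W.w.n with hr
  have hrm : r < W.w.n := Nat.mod_lt _ hm
  have hmod : (p + r) % W.w.n = q % W.w.n := by
    rw [hr, Nat.add_mod_mod]
    have : p + (q + p * (W.w.n - 1)) = q + p * W.w.n := by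
      obtain ⟨m, hm'⟩ : ∃ m, W.w.n = m + 1 := ⟨W.w.n - 1, by omega⟩
      rw [hm']; simp only [Nat.add_sub_cancel]; ring
    rw [this, Nat.add_mul_mod_self_right]
  have hpr : W.w.e (p + r) = P.yd (i + 1) := by rw [ar5_w_eq_of_mod W.w hmod, hq]
  have hn3 := P.three
  have hr0 : 0 < r := by
    rcases Nat.eq_zero_or_pos r with h0 | h0
    · exfalso
      rw [h0, Nat.add_zero, hp] at hpr
      have := ar5_y_inj P hpr
      exact ar5_mod_lt (Nat.lt_succ_self i) (by omega) this.symm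
    · exact h0
  refine ⟨r, hr0, hrm, hpr, ?_⟩
  have hxl : T.tgt (W.w.e p) = T.src (P.e (i + 1)) := by rw [hp, ar5_y_tgt]
  have hxl' : T.tgt (W.w.e (p + r - 1)) = T.src (P.e (i + 1)) := by
    have h1 : W.w.e (p + r - 1) = T.wpv s (W.w.e (p + r - 1 + 1)) := (ar5_W_pv W _).symm
    have h2 : p + r - 1 + 1 = p + r := by omega
    rw [h1, h2, hpr, ar5_y_pv hP]
  intro t ht1 ht2 k hk
  by_cases hhead : T.src (P.e (k + 1)) = T.src (P.e (i + 1))
  · have h1 : (k + 1) % P.n = (i + 1) % P.n := pl_cyc_src_inj P hhead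
    have h2 : k % P.n = i % P.n := Nat.ModEq.add_right_cancel' 1 h1
    have h3 : W.w.e t = W.w.e p := by rw [hk, hp, ar5_y_eq_of_mod P h2]
    have h4 := ar5_w_inj W.w (show T.SF (W.w.e t) (W.w.e p) by rw [h3]; exact T.sf_refl _)
    exact ar5_mod_lt ht1 (by omega) h4
  · rcases Nat.lt_or_ge t (p + r - 1) with hlt | hge
    · refine ar5_pinch hT hP W (l := p) (l' := p + r - 1) (p := t) (p' := p + r) (i := k) (k := i + 1) ht1 hlt (by omega) (by omega) (by rw [hxl, hxl']) hk hpr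
        (by rw [hxl]; exact hhead) ?_
      rw [hxl, ← P.chain (i + 1)]
      exact T.tgt_ne_src _
    · have : t = p + r - 1 := by omega
      apply hhead
      rw [← ar5_y_tgt, ← hk, this, hxl']

/-- **the wall visits the tags in the order of the rim, one turn of the wall for one turn of the rim** -/
theorem ar5_enum (hT : T.IsSph) (hP : T.ArRim s P) (W : T.RimW s P) :
    ∃ Q : ℕ → ℕ, Q 0 = 0 ∧ StrictMono Q ∧ (∀ i, W.w.e (Q i) = P.yd i) ∧ Q P.n = W.w.n := by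
  classical
  have hnext : ∀ x : {q : ℕ × ℕ // W.w.e q.1 = P.yd q.2}, ∃ r, 0 < r ∧ r < W.w.n ∧ W.w.e (x.1.1 + r) = P.yd (x.1.2 + 1) ∧
      ∀ t, x.1.1 < t → t < x.1.1 + r → ∀ k, W.w.e t ≠ P.yd k := fun x => ar5_next hT hP W x.2
  choose r hr0 hrn hre hrt using hnext
  let F : ℕ → {q : ℕ × ℕ // W.w.e q.1 = P.yd q.2} := fun i =>
    Nat.rec ⟨(0, 0), W.h0⟩ (fun _ x => ⟨(x.1.1 + r x, x.1.2 + 1), hre x⟩) i
  have hF0 : F 0 = ⟨(0, 0), W.h0⟩ := rfl
  have hFs : ∀ i, F (i + 1) = ⟨((F i).1.1 + r (F i), (F i).1.2 + 1), hre (F i)⟩ := fun i => rfl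
  have hF2 : ∀ i, (F i).1.2 = i := by
    intro i
    induction i with
    | zero => rfl
    | succ i ih => rw [hFs]; simp only [ih]
  let Q : ℕ → ℕ := fun i => (F i).1.1
  have hQs : ∀ i, Q (i + 1) = Q i + r (F i) := fun i => by simp only [Q, hFs]
  have hQe : ∀ i, W.w.e (Q i) = P.yd i := fun i => by
    have := (F i).2
    rwa [hF2] at this
  have hmono : StrictMono Q := strictMono_nat_of_lt_succ (fun i => by rw [hQs]; have := hr0 (F i); omega)
  have hgap : ∀ i t, Q i < t → t < Q (i + 1) → ∀ k, W.w.e t ≠ P.yd k := fun i t h1 h2 => hrt (F i) t h1 (by rw [hQs] at h2; exact h2)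
  refine ⟨Q, rfl, hmono, hQe, ?_⟩
  have hn3 := P.three
  have hwn := W.w.pos
  have hyd : P.yd P.n = P.yd 0 := by
    unfold PvMap.Cyc.yd
    have := P.per 0
    rw [zero_add] at this
    rw [this]
  -- `Q n` is a positive multiple of the period of the wall
  have hmod : Q P.n % W.w.n = 0 := by
    have h1 : W.w.e (Q P.n) = W.w.e 0 := by rw [hQe, hyd, W.h0]
    have := ar5_w_inj W.w (show T.SF (W.w.e (Q P.n)) (W.w.e 0) by rw [h1]; exact T.sf_refl _)
    rwa [Nat.zero_mod] at this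
  have hpos : 0 < Q P.n := by
    have : Q 0 < Q P.n := hmono (show 0 < P.n by omega)
    omega
  have hle : W.w.n ≤ Q P.n := Nat.le_of_dvd hpos (Nat.dvd_of_mod_eq_zero hmod)
  by_contra hne
  have hlt : W.w.n < Q P.n := lt_of_le_of_ne hle (Ne.symm hne)
  have hwe : W.w.e W.w.n = P.yd 0 := by
    have := W.w.per 0
    rw [zero_add] at this
    rw [this, W.h0]
  -- the last index with `Q i < w.n`
  have hex : ∃ i, W.w.n ≤ Q (i + 1) := ⟨P.n, le_trans hle (hmono (Nat.lt_succ_self _)).le⟩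
  obtain ⟨hi1, hi2⟩ : W.w.n ≤ Q (Nat.find hex + 1) ∧ Q (Nat.find hex) < W.w.n := by
    refine ⟨Nat.find_spec hex, ?_⟩
    rcases Nat.eq_zero_or_pos (Nat.find hex) with h0 | h0
    · rw [h0]; exact hwn
    · have := Nat.find_min hex (m := Nat.find hex - 1) (by omega)
      rw [Nat.sub_add_cancel h0] at this
      omega
  set i := Nat.find hex with hidef
  have hin : i + 1 < P.n + 1 := by
    by_contra hcon
    have : Q P.n ≤ Q i := hmono.monotone (by omega)
    omega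
  rcases eq_or_lt_of_le hi1 with heq | hlt2
  · -- `w.n = Q (i+1)`
    have h1 : P.yd (i + 1) = P.yd 0 := by rw [← hQe, ← heq, hwe]
    have h2 := ar5_y_inj P h1
    rw [Nat.zero_mod] at h2
    have h3 : i + 1 ≠ P.n := by
      intro h4
      rw [h4] at heq
      omega
    have h4 : i + 1 < P.n := by omega
    rw [Nat.mod_eq_of_lt h4] at h2
    omega
  · exact hgap i W.w.n hi2 hlt2 0 hwe

variable {c' c : T.Cyc}

/-- reversal of a wall: `wnx s (opp e) = opp (wpv s e)` -/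
theorem ar5_wnx_opp (s : V → Bool) (e : D) : T.wnx s (T.opp e) = T.opp (T.wpv s e) := by
  unfold PvMap.wnx PvMap.wpv
  rw [T.opp_opp]
  split_ifs
  · rw [T.opp_opp]
  · rw [T.opp_opp]

theorem ar5_seq_iter (e : ℕ → D) (hnx : ∀ l, e (l + 1) = T.wnx s (e l)) (a k : ℕ) : (T.wnx s)^[k] (e a) = e (a + k) := by
  induction k with
  | zero => rfl
  | succ k ih => rw [Function.iterate_succ_apply', ih, ← hnx]; rfl

theorem ar5_seq_iter_rev (e : ℕ → D) (hnx : ∀ l, e (l + 1) = T.wnx s (e l)) (hocc : ∀ l, T.Occ s (e l)) (m k : ℕ) (hk : k ≤ m) :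
    (T.wnx s)^[k] (T.opp (e m)) = T.opp (e (m - k)) := by
  induction k with
  | zero => rfl
  | succ k ih =>
    rw [Function.iterate_succ_apply', ih (by omega), ar5_wnx_opp]
    have h1 : e (m - k) = T.wnx s (e (m - (k + 1))) := by
      rw [← hnx]; congr 1; omega
    rw [h1, pl_w_pv_nx s (hocc _)]

/-- window between the last visit of `X` and the first later visit of `Y` -/
theorem ar5_window (X Y : ℕ → Prop) {A B : ℕ} (hAB : A < B) (hA : X A) (hB : Y B) :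
    ∃ a b, A ≤ a ∧ a < b ∧ b ≤ B ∧ X a ∧ Y b ∧ ∀ l, a < l → l < b → ¬ X l ∧ ¬ Y l := by
  classical
  have hex : ∃ b, A < b ∧ Y b := ⟨B, hAB, hB⟩
  obtain ⟨hb1, hb2⟩ := Nat.find_spec hex
  have hbmin : ∀ l, A < l → l < Nat.find hex → ¬ Y l := fun l h1 h2 h3 => Nat.find_min hex h2 ⟨h1, h3⟩
  have hbB : Nat.find hex ≤ B := Nat.find_min' hex ⟨hAB, hB⟩
  generalize Nat.find hex = b at hb1 hb2 hbmin hbB
  have hs := Nat.findGreatest_spec (P := fun l => A ≤ l ∧ X l) (m := A) (n := b - 1) (by omega) ⟨le_rfl, hA⟩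
  have hle := Nat.findGreatest_le (P := fun l => A ≤ l ∧ X l) (b - 1)
  have hgr : ∀ k, Nat.findGreatest (fun l => A ≤ l ∧ X l) (b - 1) < k → k ≤ b - 1 → ¬ (A ≤ k ∧ X k) :=
    fun k h1 h2 => Nat.findGreatest_is_greatest h1 h2
  generalize Nat.findGreatest (fun l => A ≤ l ∧ X l) (b - 1) = a at hs hle hgr
  refine ⟨a, b, hs.1, by omega, hbB, hs.2, hb2, fun l h1 h2 => ⟨fun h3 => hgr l h1 (by omega) ⟨by omega, h3⟩, hbmin l (by omega) h2⟩⟩

/-- a piece of a wall from the inner disc to the outer region contains a crossing strand: `a` = last position in `c'.Left`, then the first position in `c.Right` -/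
theorem ar5_extract_out (hT : T.IsSph) (h : c'.Inside c) (e : ℕ → D) (hnx : ∀ l, e (l + 1) = T.wnx s (e l)) (hocc : ∀ l, T.Occ s (e l)) {A B : ℕ} (hAB : A < B)
    (hA : e A ∈ c'.Left) (hB : e B ∈ c.Right) :
    ∃ (σ : T.XStr s c' c) (a : ℕ), A ≤ a ∧ a + σ.N < B ∧ ∀ k, k ≤ σ.N → σ.d k = e (a + k) := by
  obtain ⟨a, b, hAa, hab, hbB, ha, hb, hmid⟩ := ar5_window (fun l => e l ∈ c'.Left) (fun l => e l ∈ c.Right) hAB hA hB
  have hR := (pl_jordan hT c).1
  have hsf : ∀ l, T.SF (T.opp (e l)) (e (l + 1)) := fun l => by rw [hnx]; exact (pl_w_nx_chain s (e l)).1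
  refine ⟨⟨e a, b - a - 1, hocc a, ha, fun k hk => ?_, ?_⟩, a, hAa, by show a + (b - a - 1) < B; omega, fun k _ => ar5_seq_iter e hnx a k⟩
  · rw [ar5_seq_iter e hnx]
    obtain ⟨h1, h2⟩ := hmid (a + k + 1) (by omega) (by omega)
    refine ⟨?_, ?_⟩
    · rw [← (pl_left_face c).sf T (hsf (a + k))]
      by_contra h3
      exact h2 (by rw [hR]; exact h3)
    · rw [← (pl_left_face c').sf T (hsf (a + k))]
      exact h1
  · rw [ar5_seq_iter e hnx, ← (pl_right_face c).sf T (hsf _)]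
    have : a + (b - a - 1) + 1 = b := by omega
    rw [this]
    exact hb

/-- a piece of a wall from the outer region to the inner disc contains a crossing strand, read backwards -/
theorem ar5_extract_in (hT : T.IsSph) (h : c'.Inside c) (e : ℕ → D) (hnx : ∀ l, e (l + 1) = T.wnx s (e l)) (hocc : ∀ l, T.Occ s (e l)) {A B : ℕ} (hAB : A < B)
    (hA : e A ∈ c.Right) (hB : e B ∈ c'.Left) :
    ∃ (σ : T.XStr s c' c) (a : ℕ), A ≤ a ∧ a + σ.N < B ∧ ∀ k, k ≤ σ.N → σ.d k = T.opp (e (a + σ.N - k)) := by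
  obtain ⟨a, b, hAa, hab, hbB, ha, hb, hmid⟩ := ar5_window (fun l => e l ∈ c.Right) (fun l => e l ∈ c'.Left) hAB hA hB
  have hR := (pl_jordan hT c).1
  have hsf : ∀ l, T.SF (T.opp (e l)) (e (l + 1)) := fun l => by rw [hnx]; exact (pl_w_nx_chain s (e l)).1
  have hb1 : b - 1 + 1 = b := by omega
  refine ⟨⟨T.opp (e (b - 1)), b - a - 1, (pl_w_occ_opp s _).2 (hocc _), ?_, fun k hk => ?_, ?_⟩, a, hAa, by show a + (b - a - 1) < B; omega, fun k hk => ?_⟩
  · rw [← (pl_left_face c').sf T (hsf (b - 1)), hb1]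
    exact hb
  · rw [ar5_seq_iter_rev e hnx hocc _ _ (by omega), T.opp_opp]
    obtain ⟨h1, h2⟩ := hmid (b - 1 - k) (by omega) (by omega)
    refine ⟨?_, h2⟩
    by_contra h3
    exact h1 (by rw [hR]; exact h3)
  · rw [ar5_seq_iter_rev e hnx hocc _ _ (by omega), T.opp_opp]
    have : b - 1 - (b - a - 1) = a := by omega
    rw [this]
    exact ha
  · have hk' : k ≤ b - a - 1 := hk
    show (T.wnx s)^[k] (T.opp (e (b - 1))) = T.opp (e (a + (b - a - 1) - k))
    rw [ar5_seq_iter_rev e hnx hocc _ _ (by omega)]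
    congr 2
    omega

/-- the colours of the two banks are constant along a piece of a wall -/
theorem ar5_piece_col (e : ℕ → D) (hnx : ∀ l, e (l + 1) = T.wnx s (e l)) (hocc : ∀ l, T.Occ s (e l)) (l : ℕ) :
    s (T.src (e l)) = s (T.src (e 0)) ∧ s (T.tgt (e l)) = s (T.tgt (e 0)) := by
  induction l with
  | zero => exact ⟨rfl, rfl⟩
  | succ l ih => rw [hnx, (pl_w_nx_src s (hocc l)).1, (pl_w_nx_tgt s (hocc l)).1]; exact ih

/-- outwards piece: the sources of the strand are sources of the piece; the layer of the colour of the targets consists of targets of the piece (`ar5_extract_out`, `ar5_x_lay_eq`) -/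
theorem ar5_extract_o (hT : T.IsSph) (h : c'.Inside c) (e : ℕ → D) (hnx : ∀ l, e (l + 1) = T.wnx s (e l)) (hocc : ∀ l, T.Occ s (e l)) {A B : ℕ} (hAB : A < B)
    (hA : e A ∈ c'.Left) (hB : e B ∈ c.Right) :
    ∃ σ : T.XStr s c' c, s (T.src σ.e) = s (T.src (e 0)) ∧ ∀ v ∈ σ.lay (s (T.tgt (e 0))), ∃ l, A ≤ l ∧ l < B ∧ T.tgt (e l) = v := by
  obtain ⟨σ, a, h1, h2, h3⟩ := ar5_extract_out hT h e hnx hocc hAB hA hB
  obtain ⟨cs, ct⟩ := ar5_piece_col e hnx hocc a
  have he : σ.e = e a := h3 0 (Nat.zero_le _)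
  refine ⟨σ, by rw [he, cs], fun v hv => ?_⟩
  rcases ar5_x_lay_eq σ (s (T.tgt (e 0))) with ⟨g1, -, -, -⟩ | ⟨-, -, g, -⟩
  · exfalso
    have := σ.occ
    apply this
    rw [g1, he, ct]
  · rw [g] at hv
    obtain ⟨k, hk, rfl⟩ := hv
    exact ⟨a + k, by omega, by omega, by rw [h3 k hk]⟩

/-- inwards piece, read backwards: the sources of the strand are targets of the piece (`ar5_extract_in`, `ar5_x_lay_eq`) -/
theorem ar5_extract_i (hT : T.IsSph) (h : c'.Inside c) (e : ℕ → D) (hnx : ∀ l, e (l + 1) = T.wnx s (e l)) (hocc : ∀ l, T.Occ s (e l)) {A B : ℕ} (hAB : A < B)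
    (hA : e A ∈ c.Right) (hB : e B ∈ c'.Left) :
    ∃ σ : T.XStr s c' c, s (T.src σ.e) = s (T.tgt (e 0)) ∧ ∀ v ∈ σ.lay (s (T.tgt (e 0))), ∃ l, A ≤ l ∧ l < B ∧ T.tgt (e l) = v := by
  obtain ⟨σ, a, h1, h2, h3⟩ := ar5_extract_in hT h e hnx hocc hAB hA hB
  have he : σ.e = T.opp (e (a + σ.N)) := h3 0 (Nat.zero_le _)
  have hs : s (T.src σ.e) = s (T.tgt (e 0)) := by rw [he, T.src_opp', (ar5_piece_col e hnx hocc _).2]
  refine ⟨σ, hs, fun v hv => ?_⟩
  rcases ar5_x_lay_eq σ (s (T.tgt (e 0))) with ⟨-, -, g, -⟩ | ⟨g1, -, -, -⟩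
  · rw [g] at hv
    obtain ⟨k, hk, rfl⟩ := hv
    exact ⟨a + σ.N - k, by omega, by omega, by rw [h3 k hk, T.src_opp']⟩
  · exfalso
    have := σ.occ
    apply this
    rw [g1, hs]

/-- a dart whose head lies in the interior of a set of faces belongs to it -/
theorem ar5_int_tgt {A : Set D} (hA : T.FaceSet A) {d : D} (h : T.tgt d ∈ T.Int A) : d ∈ A :=
  (hA d).1 (h _ (T.src_nxt d))

/-- a vertex of the closed annulus is neither in the open inner disc nor in the open outer region -/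
theorem ar5_VOf_not_int (hT : T.IsSph) {v : V} (hv : v ∈ T.VOf (c'.Ann c)) : v ∉ T.Int c'.Left ∧ v ∉ T.Int c.Right := by
  obtain ⟨d, hd, rfl⟩ := hv
  refine ⟨fun h1 => hd.2 (h1 d rfl), fun h1 => ?_⟩
  have h2 := h1 d rfl
  rw [(pl_jordan hT c).1] at h2
  exact h2 hd.1

/-- two pieces of the wall between marked tags have no common bank vertex, except the heads of the marked tags -/
theorem ar5_pieces_disj (hT : T.IsSph) (hP : T.ArRim s P) (W : T.RimW s P) {Q : ℕ → ℕ} (hQm : StrictMono Q) (hQe : ∀ i, W.w.e (Q i) = P.yd i) (hQn : Q P.n = W.w.n)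
    {a b a' b' l l' : ℕ} {v : V} (hba : b ≤ a') (hbn : b' ≤ P.n)
    (ha : T.src (P.e (a + 1)) ≠ v) (hb : T.src (P.e (b + 1)) ≠ v) (ha' : T.src (P.e (a' + 1)) ≠ v) (hb' : T.src (P.e (b' + 1)) ≠ v)
    (h1 : Q a ≤ l) (h2 : l < Q b) (h3 : Q a' ≤ l') (h4 : l' < Q b') (hl : T.tgt (W.w.e l) = v) (hl' : T.tgt (W.w.e l') = v) : False := by
  have g1 : Q a < l := by
    refine lt_of_le_of_ne h1 fun h => ha ?_
    rw [← ar5_y_tgt, ← hQe, h, hl]
  have g3 : Q a' < l' := by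
    refine lt_of_le_of_ne h3 fun h => ha' ?_
    rw [← ar5_y_tgt, ← hQe, h, hl']
  have g5 : Q b ≤ Q a' := hQm.monotone hba
  have g6 : Q b' ≤ Q P.n := hQm.monotone hbn
  exact ar5_pinch hT hP W (l := l) (l' := l') (p := Q b) (p' := Q b') (i := b) (k := b') h2 (by omega) h4 (by omega) (by rw [hl, hl']) (hQe b) (hQe b')
    (by rw [hl]; exact hb) (by rw [hl]; exact hb')

/-- **PART I**, normalised indices: the heads of the edges number `0 < j₁ < j₂ < j₃ < n` lie in the inner disc, outside, in the inner disc, outside.   TYPES: the pieces number 0, 2 go outwards (sources = facing vertices), the pieces number 1, 3 go inwards and are read backwards (sources = bank of the rim).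
`W` from `ar5_rim_w`, `Q` from `ar5_enum`; pieces `[Q 0, Q j₁], [Q j₁, Q j₂], [Q j₂, Q j₃], [Q j₃, Q n = w.n]` (`ar5_extract_o`, `ar5_extract_i`); a common vertex `v` of two layers lies in `VOf Ann` (`ar5_x_lay_VOf`), so it is not the head of one of the four marked tags: `ar5_pinch` with the marked tags at the ends of the pieces. -/
theorem ar5_rim_strands_norm (hT : T.IsSph) (h : c'.Inside c) (hP : T.ArRim s P) {j₁ j₂ j₃ : ℕ} (h01 : 0 < j₁) (h12 : j₁ < j₂) (h23 : j₂ < j₃) (h3n : j₃ < P.n)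
    (v0 : T.src (P.e 1) ∈ T.Int c'.Left) (v1 : T.src (P.e (j₁ + 1)) ∈ T.Int c.Right) (v2 : T.src (P.e (j₂ + 1)) ∈ T.Int c'.Left) (v3 : T.src (P.e (j₃ + 1)) ∈ T.Int c.Right) :
    ∃ σ : Fin 4 → T.XStr s c' c, (∀ i j, i ≠ j → Disjoint ((σ i).lay (s (T.src (P.e 0)))) ((σ j).lay (s (T.src (P.e 0))))) ∧
      s (T.src (σ 0).e) = !s (T.src (P.e 0)) ∧ s (T.src (σ 1).e) = s (T.src (P.e 0)) ∧ s (T.src (σ 2).e) = !s (T.src (P.e 0)) ∧ s (T.src (σ 3).e) = s (T.src (P.e 0)) := by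
  obtain ⟨W⟩ := ar5_rim_w hP
  obtain ⟨Q, hQ0, hQm, hQe, hQn⟩ := ar5_enum hT hP W
  have hb : s (T.tgt (W.w.e 0)) = s (T.src (P.e 0)) := ar5_W_tgt_col hP W 0
  have hsb : s (T.src (W.w.e 0)) = !s (T.src (P.e 0)) := by rw [W.h0, ar5_y_src_col hP 0]
  have inL : ∀ i, T.src (P.e (i + 1)) ∈ T.Int c'.Left → W.w.e (Q i) ∈ c'.Left := fun i hi =>
    ar5_int_tgt (pl_left_face c') (by rw [hQe, ar5_y_tgt]; exact hi)
  have inR : ∀ i, T.src (P.e (i + 1)) ∈ T.Int c.Right → W.w.e (Q i) ∈ c.Right := fun i hi =>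
    ar5_int_tgt (pl_right_face c) (by rw [hQe, ar5_y_tgt]; exact hi)
  have v4 : T.src (P.e (P.n + 1)) ∈ T.Int c'.Left := by rw [add_comm, P.per]; exact v0
  obtain ⟨σ0, t0, l0⟩ := ar5_extract_o hT h W.w.e W.nx W.occ (hQm h01) (inL 0 v0) (inR j₁ v1)
  obtain ⟨σ1, t1, l1⟩ := ar5_extract_i hT h W.w.e W.nx W.occ (hQm h12) (inR j₁ v1) (inL j₂ v2)
  obtain ⟨σ2, t2, l2⟩ := ar5_extract_o hT h W.w.e W.nx W.occ (hQm h23) (inL j₂ v2) (inR j₃ v3)
  obtain ⟨σ3, t3, l3⟩ := ar5_extract_i hT h W.w.e W.nx W.occ (hQm h3n) (inR j₃ v3) (inL P.n v4)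
  rw [hb] at l0 l1 l2 l3 t1 t3
  rw [hsb] at t0 t2
  -- the heads of the marked tags are not in the layers
  have hne : ∀ (σ : T.XStr s c' c) (v : V), v ∈ σ.lay (s (T.src (P.e 0))) →
      T.src (P.e (0 + 1)) ≠ v ∧ T.src (P.e (j₁ + 1)) ≠ v ∧ T.src (P.e (j₂ + 1)) ≠ v ∧ T.src (P.e (j₃ + 1)) ≠ v ∧ T.src (P.e (P.n + 1)) ≠ v := by
    intro σ v hv
    obtain ⟨n1, n2⟩ := ar5_VOf_not_int (c' := c') (c := c) hT (ar5_x_lay_VOf hT h σ hv.2)
    refine ⟨?_, ?_, ?_, ?_, ?_⟩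
    · rintro rfl; exact n1 v0
    · rintro rfl; exact n2 v1
    · rintro rfl; exact n1 v2
    · rintro rfl; exact n2 v3
    · rintro rfl; exact n1 v4
  have key : ∀ (σ σ' : T.XStr s c' c) (a b a' b' : ℕ), b ≤ a' → b' ≤ P.n →
      (∀ v, v ∈ σ.lay (s (T.src (P.e 0))) → T.src (P.e (a + 1)) ≠ v ∧ T.src (P.e (b + 1)) ≠ v ∧ T.src (P.e (a' + 1)) ≠ v ∧ T.src (P.e (b' + 1)) ≠ v) →
      (∀ v ∈ σ.lay (s (T.src (P.e 0))), ∃ l, Q a ≤ l ∧ l < Q b ∧ T.tgt (W.w.e l) = v) →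
      (∀ v ∈ σ'.lay (s (T.src (P.e 0))), ∃ l, Q a' ≤ l ∧ l < Q b' ∧ T.tgt (W.w.e l) = v) →
      Disjoint (σ.lay (s (T.src (P.e 0)))) (σ'.lay (s (T.src (P.e 0)))) := by
    intro σ σ' a b a' b' hba hbn hn hl hl'
    rw [Set.disjoint_left]
    intro v hv hv'
    obtain ⟨l, g1, g2, g3⟩ := hl v hv
    obtain ⟨l', g1', g2', g3'⟩ := hl' v hv'
    obtain ⟨n1, n2, n3, n4⟩ := hn v hv
    exact ar5_pieces_disj hT hP W hQm hQe hQn hba hbn n1 n2 n3 n4 g1 g2 g1' g2' g3 g3'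
  have d01 : Disjoint (σ0.lay (s (T.src (P.e 0)))) (σ1.lay (s (T.src (P.e 0)))) :=
    key σ0 σ1 0 j₁ j₁ j₂ le_rfl (by omega) (fun v hv => by obtain ⟨n0, n1, n2, n3, n4⟩ := hne σ0 v hv; exact ⟨n0, n1, n1, n2⟩) l0 l1
  have d02 : Disjoint (σ0.lay (s (T.src (P.e 0)))) (σ2.lay (s (T.src (P.e 0)))) :=
    key σ0 σ2 0 j₁ j₂ j₃ (by omega) (by omega) (fun v hv => by obtain ⟨n0, n1, n2, n3, n4⟩ := hne σ0 v hv; exact ⟨n0, n1, n2, n3⟩) l0 l2
  have d03 : Disjoint (σ0.lay (s (T.src (P.e 0)))) (σ3.lay (s (T.src (P.e 0)))) :=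
    key σ0 σ3 0 j₁ j₃ P.n (by omega) le_rfl (fun v hv => by obtain ⟨n0, n1, n2, n3, n4⟩ := hne σ0 v hv; exact ⟨n0, n1, n3, n4⟩) l0 l3
  have d12 : Disjoint (σ1.lay (s (T.src (P.e 0)))) (σ2.lay (s (T.src (P.e 0)))) :=
    key σ1 σ2 j₁ j₂ j₂ j₃ le_rfl (by omega) (fun v hv => by obtain ⟨n0, n1, n2, n3, n4⟩ := hne σ1 v hv; exact ⟨n1, n2, n2, n3⟩) l1 l2
  have d13 : Disjoint (σ1.lay (s (T.src (P.e 0)))) (σ3.lay (s (T.src (P.e 0)))) :=
    key σ1 σ3 j₁ j₂ j₃ P.n (by omega) le_rfl (fun v hv => by obtain ⟨n0, n1, n2, n3, n4⟩ := hne σ1 v hv; exact ⟨n1, n2, n3, n4⟩) l1 l3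
  have d23 : Disjoint (σ2.lay (s (T.src (P.e 0)))) (σ3.lay (s (T.src (P.e 0)))) :=
    key σ2 σ3 j₂ j₃ j₃ P.n le_rfl le_rfl (fun v hv => by obtain ⟨n0, n1, n2, n3, n4⟩ := hne σ2 v hv; exact ⟨n2, n3, n3, n4⟩) l2 l3
  refine ⟨![σ0, σ1, σ2, σ3], ?_, t0, t1, t2, t3⟩
  intro i j hij
  fin_cases i <;> fin_cases j
  · exact absurd rfl hij
  · exact d01
  · exact d02
  · exact d03
  · exact d01.symm
  · exact absurd rfl hij
  · exact d12
  · exact d13
  · exact d02.symm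
  · exact d12.symm
  · exact absurd rfl hij
  · exact d23
  · exact d03.symm
  · exact d13.symm
  · exact d23.symm
  · exact absurd rfl hij

/-- **PART I**: near return ⟹ four crossing strands with pairwise disjoint layers of the colour of the rim (shift the rim by `i₀ + n - 1`) -/
theorem ar5_rim_strands (hT : T.IsSph) (h : c'.Inside c) (hNR : T.NearRet s c' c) :
    ∃ (b : Bool) (σ : Fin 4 → T.XStr s c' c), (∀ i j, i ≠ j → Disjoint ((σ i).lay b) ((σ j).lay b)) ∧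
      s (T.src (σ 0).e) = !b ∧ s (T.src (σ 1).e) = b ∧ s (T.src (σ 2).e) = !b ∧ s (T.src (σ 3).e) = b := by
  obtain ⟨P, hP, i₀, i₁, i₂, i₃, h01, h12, h23, h30, v0, v1, v2, v3⟩ := hNR
  have hn := P.three
  have e : ∀ i, i₀ ≤ i → (P.shift (i₀ + P.n - 1)).e (i - i₀ + 1) = P.e i := by
    intro i hi
    show P.e (i - i₀ + 1 + (i₀ + P.n - 1)) = P.e i
    have : i - i₀ + 1 + (i₀ + P.n - 1) = i + P.n := by omega
    rw [this, P.per]
  obtain ⟨σ, hσ⟩ := ar5_rim_strands_norm hT h (ar5_rim_shift hP (i₀ + P.n - 1)) (j₁ := i₁ - i₀) (j₂ := i₂ - i₀) (j₃ := i₃ - i₀) (by omega) (by omega) (by omega)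
    (by show i₃ - i₀ < P.n; omega)
    (by have := e i₀ le_rfl; rw [Nat.sub_self, Nat.zero_add] at this; rw [this]; exact v0)
    (by rw [e i₁ (by omega)]; exact v1) (by rw [e i₂ (by omega)]; exact v2) (by rw [e i₃ (by omega)]; exact v3)
  exact ⟨_, σ, hσ⟩

/-! ## 5. Main theorem -/

/-- **NEAR RETURN ⟹ SIX ARMS** (deterministic half of Lemma 2.7) -/
theorem ar5_main (hT : T.IsSph) (h : c'.Inside c) (hNR : T.NearRet s c' c) : T.SixArm s c' c := by
  obtain ⟨b, σ, hσ, -⟩ := ar5_rim_strands hT h hNR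
  exact ar5_six hT h b σ hσ

/-- (215) the choice of the quadruple, two strands of each type -/
theorem ar5_quad_aux (hT : T.IsSph) (h : c'.Inside c) (b : Bool) (Z Y A B : T.XStr s c' c) (dZY : Disjoint (Z.lay b) (Y.lay b)) (dZA : Disjoint (Z.lay b) (A.lay b))
    (dZB : Disjoint (Z.lay b) (B.lay b)) (dYA : Disjoint (Y.lay b) (A.lay b)) (dYB : Disjoint (Y.lay b) (B.lay b)) (dAB : Disjoint (A.lay b) (B.lay b))
    (hZ : s (T.src Z.e) = false) (hY : s (T.src Y.e) = false) (hA : s (T.src A.e) = true) (hB : s (T.src B.e) = true) :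
    ∃ (b : Bool) (X Y Z R : T.XStr s c' c), s (T.src X.e) = true ∧ s (T.src Y.e) = false ∧ s (T.src Z.e) = false ∧
      Disjoint Z.L X.L ∧ Disjoint Z.L Y.L ∧ Disjoint (R.lay b) (X.L ∪ Y.L ∪ Z.L) := by
  have dl : ∀ R X : T.XStr s c' c, Disjoint (R.lay b) (X.lay b) → Disjoint (R.lay b) X.L :=
    fun R X hd => Set.disjoint_left.2 fun v h1 h2 => Set.disjoint_left.1 hd h1 ⟨h1.1, h2⟩
  have hZY : Disjoint Z.L Y.L := ar5_same_type_disj hT h Z Y A (ar5_x_e_ne dZY) (ar5_x_e_ne dZA) (ar5_x_e_ne dYA) (hZ.trans hY.symm)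
  rcases ar5_touch_one hT h b Z A B (ar5_x_e_ne dAB) dZA dZB with hd | hd
  · exact ⟨b, A, Y, Z, B, hA, hY, hZ, hd, hZY,
      Set.disjoint_union_right.2 ⟨Set.disjoint_union_right.2 ⟨dl B A dAB.symm, dl B Y dYB.symm⟩, dl B Z dZB.symm⟩⟩
  · exact ⟨b, B, Y, Z, A, hB, hY, hZ, hd, hZY,
      Set.disjoint_union_right.2 ⟨Set.disjoint_union_right.2 ⟨dl A B dAB, dl A Y dYA.symm⟩, dl A Z dZA.symm⟩⟩

/-- **NEAR RETURN ⟹ THE QUADRUPLE OF `CONFIG6`** (format of A4, helper249: `Arm/Trap`): `X` = forward run, `Y`, `Z` = backward runs, `Z` sees neither `X` nor `Y`, the layer of the colour of the rim of `R` = the fresh arm.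
`ar5_rim_strands`; `b = true`: `Z, Y = σ 0, σ 2`, `{X, R} = {σ 1, σ 3}`; `b = false`: `Z, Y = σ 1, σ 3`, `{X, R} = {σ 0, σ 2}`; `ar5_touch_one` chooses `X`; `ar5_same_type_disj` for `Z, Y`; the last clause: a vertex of colour `b` of `X.L` lies in `X.lay b`. -/
theorem ar5_quad (hT : T.IsSph) (h : c'.Inside c) (hNR : T.NearRet s c' c) :
    ∃ (b : Bool) (X Y Z R : T.XStr s c' c), s (T.src X.e) = true ∧ s (T.src Y.e) = false ∧ s (T.src Z.e) = false ∧
      Disjoint Z.L X.L ∧ Disjoint Z.L Y.L ∧ Disjoint (R.lay b) (X.L ∪ Y.L ∪ Z.L) := by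
  obtain ⟨b, σ, hσ, h0, h1, h2, h3⟩ := ar5_rim_strands hT h hNR
  cases b with
  | true =>
    exact ar5_quad_aux hT h true (σ 0) (σ 2) (σ 1) (σ 3) (hσ 0 2 (by decide)) (hσ 0 1 (by decide)) (hσ 0 3 (by decide)) (hσ 2 1 (by decide)) (hσ 2 3 (by decide))
      (hσ 1 3 (by decide)) h0 h2 h1 h3
  | false =>
    exact ar5_quad_aux hT h false (σ 1) (σ 3) (σ 0) (σ 2) (hσ 1 3 (by decide)) (hσ 1 0 (by decide)) (hσ 1 2 (by decide)) (hσ 3 0 (by decide)) (hσ 3 2 (by decide))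
      (hσ 0 2 (by decide)) h1 h3 h0 h2

end rim

end Claimed.Agent.R289
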