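-- KEEP
import Claimed.Agent.R289.Arm.Strand
import Claimed.Agent.R289.Arm.Side
import Claimed.Agent.R289.Pl.Jordan

/-!
# Row 289 (S0537), box ARM, block A4, file Arm/Trap : THE TRAP = deterministic core of the five-arm count, in POTENTIAL form      (helper249; prefix `pvat_`, defs `pvat…` / `Pvat…`)

Blueprint: `origin/helper249:notes/R289/A4_249.md` (variant of 241's (S2), of 237's repair (C)).   No arcs, no sectors, no discs, no leftmost paths, no cyclic order of three strands.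
Vocabulary: `Arm/Strand` (`pvasBW pvasIt pvasLayB pvasLayW pvasIn pvasNot`: a strand has BLACK = `true` on its left; a strand followed BACKWARDS = a strand of `pvasNot s`), `Pl/Jordan` (`Cyc Left Inside`).

* sec.1  CHAINS: cochains `f : D → ZMod 2` with prescribed parity at the faces: one edge `pvatE`, the crossed edges of a strand `pvatF`, a toggle path inside a `DJoin` class `pvat_toggle`
* sec.2  RUNS `PvatRun T B A s x n`: the strand of the entrance `x` of `B` reaches `A` at the time `n`; no return, a forward and a backward run have no common edge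
* sec.3  **RULE COLOURING** `pvat_rule`: for a forward run `σ` and a backward run `σ'` from `c0` to `c` there is a colouring `r`, equal to `s` on the two explored strands, whose only occupied edges in the annulus are the edges crossed by `σ`, `σ'`
         (`r` = potential of the closed dual chain `σ` + toggle inside `c` + `σ'` + toggle outside `c0`; `IsSph.h1`).   `r` = the SECTOR FUNCTION.
* sec.4  **L1 closing up** `pvat_close`: a cycle between `c1` and `c2` which carries the colours of `r12` forces the strand of `x` to close up with the backward run of `x2`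
* sec.5  **L2 touch** `pvat_touch`: a cycle between `c2` and `c3` which carries the colours of `r14` off the two first strands forces the third strand to touch them inside that cycle
* sec.6  **L3 marker** `pvat_marker`: the first touch of the (whole) strand of `x4` with the (whole) strand of `x` lies in `c3.Left`
-/

set_option autoImplicit false
set_option linter.unusedSectionVars false
set_option linter.unusedVariables false

namespace Claimed.Agent.R289

open Relation

variable {V D : Type} (T : PvMap V D)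

/-! ## 0. definitions -/

/-- the vertices seen by the positions `0..n` -/
def pvatLay (s : V → Bool) (x : D) (n : ℕ) : Set V := pvasLayB T s x n ∪ pvasLayW T s x n

/-- the edge of `d` is crossed by one of the positions `0..n` of the strand of `x` -/
def pvatCr (s : V → Bool) (x : D) (n : ℕ) (d : D) : Prop := ∃ k, k ≤ n ∧ (d = pvasIt T s x k ∨ d = T.opp (pvasIt T s x k))

/-- RUN: the strand enters `B` at `x`, the positions `0..n-1` are in `B \ A`, the position `n` is in `A` -/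
structure PvatRun (B A : Set D) (s : V → Bool) (x : D) (n : ℕ) : Prop where
  ent : pvasIn T B s x
  mid : ∀ k, k < n → pvasIt T s x k ∈ B ∧ pvasIt T s x k ∉ A
  hit : pvasIt T s x n ∈ A

/-- RULE COLOURING of a forward run `(x, n)` and a backward run `(x', n')` -/
def PvatRule (B A : Set D) (s : V → Bool) (x : D) (n : ℕ) (x' : D) (n' : ℕ) (r : V → Bool) : Prop :=
  (∀ v ∈ pvatLay T s x n, r v = s v) ∧ (∀ v ∈ pvatLay T (pvasNot s) x' n', r v = s v) ∧
    ∀ d, d ∈ B → d ∉ A → (T.Occ r d ↔ pvatCr T s x n d ∨ pvatCr T (pvasNot s) x' n' d)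

/-- parity of a cochain at the face of `d` -/
def pvatPar (f : D → ZMod 2) (d : D) : ZMod 2 := f d + f (T.nxt d) + f (T.nxt (T.nxt d))

open Classical in
/-- indicator of the face of `a` -/
noncomputable def pvatInd (a d : D) : ZMod 2 := if T.SF a d then 1 else 0

open Classical in
/-- indicator of the edge of `x` -/
noncomputable def pvatE (x d : D) : ZMod 2 := if d = x ∨ d = T.opp x then 1 else 0

/-- the edges crossed by the positions `0..n`, mod 2 -/
noncomputable def pvatF (s : V → Bool) (x : D) (n : ℕ) (d : D) : ZMod 2 := ∑ k ∈ Finset.range (n + 1), pvatE T (pvasIt T s x k) d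

/-- the face of the position `d` has a vertex in `X` -/
def pvatTouch (X : Set V) (d : D) : Prop := T.src d ∈ X ∨ T.tgt d ∈ X ∨ T.apex d ∈ X

/-- the vertices of the faces crossed by the WHOLE strand of `x` in `B` -/
def pvatFull (B : Set D) (s : V → Bool) (x : D) : Set V :=
  {v | ∃ k, (∀ i, i ≤ k → pvasIt T s x i ∈ B) ∧ (v = T.src (pvasIt T s x k) ∨ v = T.tgt (pvasIt T s x k) ∨ v = T.apex (pvasIt T s x k))}

/-- MARKER: the first time at which the backward strand of `x4` crosses a face with a vertex of the whole strand of `x`.   It does not depend on the box. -/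
noncomputable def pvatMk (B : Set D) (s : V → Bool) (x x4 : D) : ℕ := sInf {t | pvatTouch T (pvatFull T B s x) (pvasIt T (pvasNot s) x4 t)}

/-- CONFIG5: a forward run and a backward run to `c1`, a backward run to `c2` which does not see the two first ones -/
structure PvatCfg (c0 c1 c2 : T.Cyc) (s : V → Bool) (x x2 x4 : D) (n1 n2 n4 : ℕ) : Prop where
  r1 : PvatRun T c0.Left c1.Left s x n1
  r2 : PvatRun T c0.Left c1.Left (pvasNot s) x2 n2
  r4 : PvatRun T c0.Left c2.Left (pvasNot s) x4 n4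
  dis1 : Disjoint (pvatLay T (pvasNot s) x4 n4) (pvatLay T s x n1)
  dis2 : Disjoint (pvatLay T (pvasNot s) x4 n4) (pvatLay T (pvasNot s) x2 n2)

/-- RULE CIRCUIT: a cycle strictly between `c'` and `c''` which carries the colours of `r` off `S` -/
def PvatRC (c' c'' : T.Cyc) (S : Set V) (r s : V → Bool) : Prop := ∃ k : T.Cyc, c'.Inside k ∧ k.Inside c'' ∧ ∀ v ∈ k.verts, v ∉ S → s v = r v

theorem pvat_trap_eqns_cite : True := by
  have := @pvatLay.eq_1; have := @pvatCr.eq_1; have := @PvatRule.eq_1; have := @pvatPar.eq_1; have := @pvatInd.eq_1; have := @pvatE.eq_1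
  have := @pvatF.eq_1; have := @pvatTouch.eq_1; have := @pvatFull.eq_1; have := @pvatMk.eq_1; have := @PvatRC.eq_1
  trivial

variable {T}

/-! ## 1. chains -/

theorem pvat_E_sym (x : D) : T.Sym (pvatE T x) := by
  classical
  intro d
  unfold pvatE
  have h : (T.opp d = x ∨ T.opp d = T.opp x) ↔ (d = x ∨ d = T.opp x) := by
    constructor
    · rintro (h | h)
      · exact Or.inr (by rw [← h, T.opp_opp])
      · exact Or.inl (T.opp_injective h)
    · rintro (h | h)
      · exact Or.inr (by rw [h])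
      · exact Or.inl (by rw [h, T.opp_opp])
  exact if_congr h rfl rfl

/-- Plan: `pvad_ind_edge`, `pvad_ind_face` (Arm/Side), `sf_symm`; or 9 cases. -/
theorem pvat_E_par (x d : D) : pvatPar T (pvatE T x) d = pvatInd T x d + pvatInd T (T.opp x) d := by
  classical
  have key : ∀ a y : D, (if y = a then (1 : ZMod 2) else 0) + (if T.nxt y = a then 1 else 0) + (if T.nxt (T.nxt y) = a then 1 else 0) = if T.SF a y then 1 else 0 := by
    intro a y
    by_cases h1 : y = a
    · subst h1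
      rw [if_pos rfl, if_neg (T.nxt_ne_self y), if_neg (T.nxt2_ne_self y), if_pos (T.sf_refl y)]
      simp
    · by_cases h2 : T.nxt y = a
      · subst h2
        rw [if_neg h1, if_pos rfl, if_neg (T.nxt_ne_self (T.nxt y)), if_pos (T.sf_symm (T.sf_nxt y))]
        simp
      · by_cases h3 : T.nxt (T.nxt y) = a
        · subst h3
          rw [if_neg h1, if_neg h2, if_pos rfl, if_pos (T.sf_symm (T.sf_nxt2 y))]
          simp
        · have h4 : ¬ T.SF a y := by
            intro h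
            rcases T.sf_symm h with h | h | h
            · exact h1 h.symm
            · exact h2 h.symm
            · exact h3 h.symm
          rw [if_neg h1, if_neg h2, if_neg h3, if_neg h4]
          simp
  have hE : ∀ y : D, pvatE T x y = (if y = x then (1 : ZMod 2) else 0) + (if y = T.opp x then 1 else 0) := by
    intro y
    unfold pvatE
    by_cases h1 : y = x
    · subst h1
      rw [if_pos (Or.inl rfl), if_pos rfl, if_neg (T.opp_ne_self y).symm]
      simp
    · by_cases h2 : y = T.opp x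
      · rw [if_pos (Or.inr h2), if_neg h1, if_pos h2]
        simp
      · rw [if_neg (by tauto), if_neg h1, if_neg h2]
        simp
  unfold pvatPar pvatInd
  rw [hE, hE, hE, ← key x d, ← key (T.opp x) d]
  ring

theorem pvat_ind_sf {a b : D} (h : T.SF a b) (d : D) : pvatInd T b d = pvatInd T a d := by
  classical
  unfold pvatInd
  have h1 : T.SF b d ↔ T.SF a d := ⟨fun h2 => T.sf_trans h h2, fun h2 => T.sf_trans (T.sf_symm h) h2⟩
  exact if_congr h1 rfl rfl

theorem pvat_par_add (f g : D → ZMod 2) (d : D) : pvatPar T (fun y => f y + g y) d = pvatPar T f d + pvatPar T g d := by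
  unfold pvatPar; ring

theorem pvat_F_sym (s : V → Bool) (x : D) (n : ℕ) : T.Sym (pvatF T s x n) := by
  intro d
  unfold pvatF
  exact Finset.sum_congr rfl fun k _ => pvat_E_sym _ d

/-- telescoping.   Plan: induction on `n`; `pvat_E_par`; `pvas_step_sf : SF d (opp (pvasStep T s d))` + `pvat_ind_sf`: `Ind (opp (It (n+1))) = Ind (It n)`; `x + x = 0` in `ZMod 2`. -/
theorem pvat_F_par (s : V → Bool) (x : D) (n : ℕ) (d : D) : pvatPar T (pvatF T s x n) d = pvatInd T (T.opp x) d + pvatInd T (pvasIt T s x n) d := by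
  induction n with
  | zero =>
    have e : pvatF T s x 0 = pvatE T x := by
      funext y
      simp [pvatF, pvas_it_zero]
    rw [e, pvat_E_par, pvas_it_zero, add_comm]
  | succ n ih =>
    have e : pvatF T s x (n + 1) = fun y => pvatF T s x n y + pvatE T (pvasIt T s x (n + 1)) y := by
      funext y
      unfold pvatF
      rw [Finset.sum_range_succ]
    have e2 : pvatInd T (T.opp (pvasIt T s x (n + 1))) d = pvatInd T (pvasIt T s x n) d := by
      rw [pvas_it_succ]
      exact pvat_ind_sf (pvas_step_sf s _) d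
    rw [e, pvat_par_add, ih, pvat_E_par, e2]
    generalize pvatInd T (T.opp x) d = u
    generalize pvatInd T (pvasIt T s x n) d = v
    generalize pvatInd T (pvasIt T s x (n + 1)) d = w
    revert u v w
    decide

theorem pvat_F_supp {s : V → Bool} {x : D} {n : ℕ} {d : D} (h : pvatF T s x n d ≠ 0) : pvatCr T s x n d := by
  unfold pvatF at h
  obtain ⟨k, hk, hne⟩ := Finset.exists_ne_zero_of_sum_ne_zero h
  refine ⟨k, Nat.lt_succ_iff.1 (Finset.mem_range.1 hk), ?_⟩
  by_contra hn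
  exact hne (if_neg hn)

/-- **toggle path**.   Plan: induction on `ReflTransGen` (tail form).  Step `nxt`: same `g` (`pvat_ind_sf`).  Step `opp b`, `¬ Edg Z b`: `g + pvatE T b`. -/
theorem pvat_toggle {Z : Set D} {a b : D} (h : T.DJoin Z a b) :
    ∃ g : D → ZMod 2, T.Sym g ∧ (∀ d, pvatPar T g d = pvatInd T a d + pvatInd T b d) ∧ ∀ d, g d ≠ 0 → T.DJoin Z a d ∧ T.DJoin Z a (T.opp d) := by
  induction h with
  | refl =>
    exact ⟨fun _ => 0, fun _ => rfl, fun d => by
      rw [CharTwo.add_self_eq_zero]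
      show (0 : ZMod 2) + 0 + 0 = 0
      decide, fun d hd => absurd rfl hd⟩
  | @tail b c hab hstep ih =>
    obtain ⟨g, h1, h2, h3⟩ := ih
    rcases hstep with rfl | ⟨rfl, hZ⟩
    · exact ⟨g, h1, fun d => by rw [h2, pvat_ind_sf (T.sf_nxt b)], h3⟩
    · have hab' : T.DJoin Z a (T.opp b) := hab.tail (Or.inr ⟨rfl, hZ⟩)
      refine ⟨fun y => g y + pvatE T b y, fun d => ?_, fun d => ?_, fun d hd => ?_⟩
      · show g (T.opp d) + pvatE T b (T.opp d) = g d + pvatE T b d
        rw [h1 d, pvat_E_sym b d]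
      · rw [pvat_par_add, h2, pvat_E_par]
        generalize pvatInd T a d = u
        generalize pvatInd T b d = v
        generalize pvatInd T (T.opp b) d = w
        revert u v w
        decide
      · by_cases hg : g d = 0
        · have he : pvatE T b d ≠ 0 := by
            intro he
            apply hd
            show g d + pvatE T b d = 0
            rw [hg, he, add_zero]
          have hdb : d = b ∨ d = T.opp b := by
            by_contra hn
            exact he (if_neg hn)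
          rcases hdb with rfl | rfl
          · exact ⟨hab, hab'⟩
          · exact ⟨hab', by rw [T.opp_opp]; exact hab⟩
        · exact h3 d hg

/-! ## 2. runs -/

theorem pvat_cr_opp {s : V → Bool} {x : D} {n : ℕ} {d : D} : pvatCr T s x n (T.opp d) ↔ pvatCr T s x n d := by
  constructor
  · rintro ⟨k, hk, h | h⟩
    · exact ⟨k, hk, Or.inr (by rw [← h, T.opp_opp])⟩
    · exact ⟨k, hk, Or.inl (T.opp_injective h)⟩
  · rintro ⟨k, hk, h | h⟩
    · exact ⟨k, hk, Or.inr (by rw [h])⟩
    · exact ⟨k, hk, Or.inl (by rw [h, T.opp_opp])⟩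

/-- a crossed edge is occupied -/
theorem pvat_cr_occ {s : V → Bool} {x : D} {n : ℕ} {d : D} (hx : pvasBW T s x) (h : pvatCr T s x n d) : T.Occ s d := by
  obtain ⟨k, -, rfl | rfl⟩ := h
  · exact pvas_bw_occ (pvas_it_bw hx k)
  · have := pvas_bw_occ (pvas_it_bw hx k)
    unfold PvMap.Occ at this ⊢
    rw [T.src_opp', T.tgt_opp]
    exact this.symm

/-- the ends of a crossed edge are seen -/
theorem pvat_cr_lay {s : V → Bool} {x : D} {n : ℕ} {d : D} (h : pvatCr T s x n d) : T.src d ∈ pvatLay T s x n ∧ T.tgt d ∈ pvatLay T s x n := by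
  obtain ⟨k, hk, rfl | rfl⟩ := h
  · exact ⟨Or.inl ⟨k, hk, rfl⟩, Or.inr ⟨k, hk, rfl⟩⟩
  · rw [T.src_opp', T.tgt_opp]
    exact ⟨Or.inr ⟨k, hk, rfl⟩, Or.inl ⟨k, hk, rfl⟩⟩

theorem pvat_lay_mono (s : V → Bool) (x : D) {m n : ℕ} (h : m ≤ n) : pvatLay T s x m ⊆ pvatLay T s x n := by
  exact Set.union_subset_union (pvas_layB_mono s x h) (pvas_layW_mono s x h)

/-- the three vertices of the face of the position `k < n` are seen by the positions `0..n` -/
theorem pvat_face_lay (s : V → Bool) (x : D) {k n : ℕ} (h : k < n) :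
    T.src (pvasIt T s x k) ∈ pvatLay T s x n ∧ T.tgt (pvasIt T s x k) ∈ pvatLay T s x n ∧ T.apex (pvasIt T s x k) ∈ pvatLay T s x n := by
  refine ⟨Or.inl ⟨k, h.le, rfl⟩, Or.inr ⟨k, h.le, rfl⟩, ?_⟩
  rcases pvas_step_ends s (pvasIt T s x k) with ⟨_, e1, _⟩ | ⟨_, _, e2⟩
  · exact Or.inl ⟨k + 1, h, by rw [pvas_it_succ, e1]⟩
  · exact Or.inr ⟨k + 1, h, by rw [pvas_it_succ, e2]⟩

/-- **no return**: as long as the strand stays in `B` its positions are pairwise different.   Plan: `pvas_it_return`, `pvas_in_first`. -/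
theorem pvat_no_return {B : Set D} (hB : T.FaceSet B) {s : V → Bool} {x : D} (h : pvasIn T B s x) {k t : ℕ} (hkt : k < t) (hin : ∀ i, i < t → pvasIt T s x i ∈ B) :
    pvasIt T s x t ≠ pvasIt T s x k := by
  intro e
  have e1 := pvas_it_return h.2.2 hkt.le e.symm
  have := pvas_in_first hB h e1 (fun i hi => hin i (by omega))
  omega

/-- all the positions of a run are in `B` -/
theorem PvatRun.mem {B A : Set D} {s : V → Bool} {x : D} {n : ℕ} (h : PvatRun T B A s x n) (hAB : A ⊆ B) {k : ℕ} (hk : k ≤ n) : pvasIt T s x k ∈ B := by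
  rcases Nat.lt_or_ge k n with h1 | h1
  · exact (h.mid k h1).1
  · rw [Nat.le_antisymm hk h1]; exact hAB h.hit

/-- the run to a larger target.   Plan: `Nat.find` of `fun k => pvasIt T s x k ∈ A'`. -/
theorem PvatRun.shorten {B A A' : Set D} {s : V → Bool} {x : D} {n : ℕ} (h : PvatRun T B A s x n) (hA : A ⊆ A') (hAB : A ⊆ B) : ∃ m, m ≤ n ∧ PvatRun T B A' s x m := by
  classical
  have hex : ∃ k, pvasIt T s x k ∈ A' := ⟨n, hA h.hit⟩
  have hle : Nat.find hex ≤ n := Nat.find_min' hex (hA h.hit)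
  exact ⟨Nat.find hex, hle, h.ent, fun k hk => ⟨(h.mid k (lt_of_lt_of_le hk hle)).1, Nat.find_min hex hk⟩, Nat.find_spec hex⟩

/-- **a forward run and a backward run have no common edge**.
Plan: `It s x k = It (Not s) x' l` contradicts `pvasBW` (`pvas_it_bw`, `pvas_bw_not'`, `pvas_bw_not_opp`).   If `It s x k = opp (It (Not s) x' l)`: by `pvas_it_rev` (for `pvasNot s`; `pvas_not_not`) and `pvas_it_add`: `It s x (k + i) = opp (It (Not s) x' (l - i))` for `i ≤ l`.
`k + l ≤ n`: `It s x (k + l) = opp x' ∉ B`, against `PvatRun.mem`.   `n < k + l`: `i = n - k < l`, `It s x n = opp (It (Not s) x' (m + 1))`, `m < n'`, which is in `A` iff `It (Not s) x' m ∈ A` (`pvas_step_opp_mem`): against `h'.mid`. -/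
theorem pvat_run_disj {B A : Set D} (hA : T.FaceSet A) (hAB : A ⊆ B) {s : V → Bool} {x x' : D} {n n' : ℕ} (h : PvatRun T B A s x n) (h' : PvatRun T B A (pvasNot s) x' n')
    {d : D} (h1 : pvatCr T s x n d) (h2 : pvatCr T (pvasNot s) x' n' d) : False := by
  obtain ⟨k, hk, hd⟩ := h1
  obtain ⟨l, hl, hd'⟩ := h2
  have bk : pvasBW T s (pvasIt T s x k) := pvas_it_bw h.ent.2.2 k
  have bl : pvasBW T s (T.opp (pvasIt T (pvasNot s) x' l)) := pvas_bw_not'.1 (pvas_it_bw h'.ent.2.2 l)
  have same : pvasIt T s x k ≠ pvasIt T (pvasNot s) x' l := by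
    intro e
    rw [← e] at bl
    exact pvas_bw_not_opp bk bl
  have main : pvasIt T s x k = T.opp (pvasIt T (pvasNot s) x' l) → False := by
    intro e
    have key : ∀ i, i ≤ l → pvasIt T s x (k + i) = T.opp (pvasIt T (pvasNot s) x' (l - i)) := by
      intro i hi
      have := pvas_it_rev (T := T) (s := pvasNot s) (d := x') h'.ent.2.2 hi
      rw [pvas_not_not] at this
      rw [pvas_it_add, e, this]
    rcases Nat.lt_or_ge n (k + l) with hc | hc
    · obtain ⟨m, hm⟩ : ∃ m, l - (n - k) = m + 1 := ⟨l - (n - k) - 1, by omega⟩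
      have e2 := key (n - k) (by omega)
      rw [show k + (n - k) = n by omega, hm, pvas_it_succ] at e2
      have h3 := h.hit
      rw [e2, pvas_step_opp_mem hA] at h3
      exact (h'.mid m (by omega)).2 h3
    · have e2 := key l le_rfl
      rw [Nat.sub_self, pvas_it_zero] at e2
      have := h.mem hAB hc
      rw [e2] at this
      exact h'.ent.2.1 this
  rcases hd with rfl | rfl
  · rcases hd' with e | e
    · exact same e
    · exact main e
  · rcases hd' with e | e
    · exact main (by rw [← e, T.opp_opp])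
    · exact same (T.opp_injective e)

/-- the value of `pvatF` on a run.   Plan: `←`: `pvat_F_supp`.   `→`: exactly one term of the sum is `1`: `d = It k = It l` gives `k = l` (`pvat_no_return`), `It k = opp (It l)` contradicts `pvas_bw_not_opp`; `Finset.sum_eq_single`. -/
theorem pvat_F_run {B A : Set D} (hB : T.FaceSet B) (hAB : A ⊆ B) {s : V → Bool} {x : D} {n : ℕ} (h : PvatRun T B A s x n) (d : D) : pvatCr T s x n d ↔ pvatF T s x n d = 1 := by
  constructor
  · rintro ⟨k, hk, hd⟩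
    have bw : ∀ j, pvasBW T s (pvasIt T s x j) := fun j => pvas_it_bw h.ent.2.2 j
    have inj : ∀ i j, i ≤ n → j ≤ n → pvasIt T s x i = pvasIt T s x j → i = j := by
      intro i j hi hj e
      rcases Nat.lt_trichotomy i j with hij | hij | hij
      · exact absurd e.symm (pvat_no_return hB h.ent hij (fun a ha => h.mem hAB (by omega)))
      · exact hij
      · exact absurd e (pvat_no_return hB h.ent hij (fun a ha => h.mem hAB (by omega)))
    have nopp : ∀ i j, pvasIt T s x i ≠ T.opp (pvasIt T s x j) := by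
      intro i j e
      have := bw i
      rw [e] at this
      exact pvas_bw_not_opp (bw j) this
    unfold pvatF
    rw [Finset.sum_eq_single k]
    · unfold pvatE
      rw [if_pos hd]
    · intro j hj hjk
      have hj' : j ≤ n := by
        have := Finset.mem_range.1 hj
        omega
      unfold pvatE
      rw [if_neg]
      rintro (e | e)
      · rcases hd with e' | e'
        · exact hjk (inj j k hj' hk (by rw [← e, ← e']))
        · exact nopp j k (by rw [← e, ← e'])
      · rcases hd with e' | e'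
        · exact nopp k j (by rw [← e, ← e'])
        · exact hjk (inj j k hj' hk (T.opp_injective (by rw [← e, ← e'])))
    · intro hk'
      exact absurd (Finset.mem_range.2 (by omega)) hk'
  · intro e
    exact pvat_F_supp (by rw [e]; exact one_ne_zero)

/-! ## 3. the rule colouring -/

/-- the closed dual chain through the two runs.
Plan: `g₁` = `pvat_toggle` inside `c.Left` (a `DJoin c.darts` class: `djoin_symm`, transitivity) from `It s x n` to `It (Not s) x' n'`; `g₂` = `pvat_toggle` inside `c0.Right` from `opp x'` to `opp x` (`pl_jordan`: `Right = Leftᶜ`).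
`f = pvatF s x n + g₁ + pvatF (Not s) x' n' + g₂` is `Sym`, has parity `0` at every face (`pvat_F_par`; every indicator appears twice) so it is `Coc`; `hT.h1`.   On `c0.Left \ c.Left` the two toggles vanish (their supports are in `c.Left`, `c0.Right`). -/
theorem pvat_pot (hT : T.IsSph) {c0 c : T.Cyc} {s : V → Bool} {x x' : D} {n n' : ℕ} (h : PvatRun T c0.Left c.Left s x n) (h' : PvatRun T c0.Left c.Left (pvasNot s) x' n') :
    ∃ τ : V → ZMod 2, ∀ d, d ∈ c0.Left → d ∉ c.Left → τ (T.src d) + τ (T.tgt d) = pvatF T s x n d + pvatF T (pvasNot s) x' n' d := by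
  have hj0 := pl_jordan hT c0
  have e1 : T.DJoin c.darts (pvasIt T s x n) (pvasIt T (pvasNot s) x' n') := (T.djoin_symm h.hit).trans h'.hit
  have hx : T.opp x ∈ c0.Right := by rw [hj0.1]; exact h.ent.2.1
  have hx' : T.opp x' ∈ c0.Right := by rw [hj0.1]; exact h'.ent.2.1
  have e2 : T.DJoin c0.darts (T.opp x') (T.opp x) := (T.djoin_symm hx').trans hx
  obtain ⟨g1, s1, p1, u1⟩ := pvat_toggle e1
  obtain ⟨g2, s2, p2, u2⟩ := pvat_toggle e2
  have hsym : T.Sym (fun d => pvatF T s x n d + g1 d + pvatF T (pvasNot s) x' n' d + g2 d) := by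
    intro d
    simp only [pvat_F_sym (T := T) s x n d, pvat_F_sym (T := T) (pvasNot s) x' n' d, s1 d, s2 d]
  have hcoc : T.Coc (fun d => pvatF T s x n d + g1 d + pvatF T (pvasNot s) x' n' d + g2 d) := by
    intro d
    have a1 := pvat_F_par (T := T) s x n d
    have a2 := pvat_F_par (T := T) (pvasNot s) x' n' d
    have a3 := p1 d
    have a4 := p2 d
    have key : ∀ a b c e : ZMod 2, (a + b) + (b + c) + (e + c) + (e + a) = 0 := by decide
    have := key (pvatInd T (T.opp x) d) (pvatInd T (pvasIt T s x n) d) (pvatInd T (pvasIt T (pvasNot s) x' n') d) (pvatInd T (T.opp x') d)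
    rw [← a1, ← a2, ← a3, ← a4] at this
    unfold pvatPar at this
    rw [← this]
    ring
  obtain ⟨τ, hτ⟩ := hT.h1 _ hsym hcoc
  refine ⟨τ, fun d hd hd' => ?_⟩
  have z1 : g1 d = 0 := by
    by_contra hne
    exact hd' ((show T.DJoin c.darts (c.e 0) _ from h.hit).trans (u1 d hne).1)
  have z2 : g2 d = 0 := by
    by_contra hne
    have h3 : d ∈ c0.Right := (show T.DJoin c0.darts (T.opp (c0.e 0)) _ from hx').trans (u2 d hne).1
    rw [hj0.1] at h3
    exact h3 hd
  have h4 := hτ d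
  simp only [z1, z2, add_zero] at h4
  exact h4.symm

/-- a colouring whose occupied edges in `B \ A` are the crossed edges, normalised at `src x` -/
theorem pvat_rule_aux (hT : T.IsSph) {c0 c : T.Cyc} (hc : c.Inside c0) {s : V → Bool} {x x' : D} {n n' : ℕ} (h : PvatRun T c0.Left c.Left s x n) (h' : PvatRun T c0.Left c.Left (pvasNot s) x' n') :
    ∃ r : V → Bool, r (T.src x) = true ∧ ∀ d, d ∈ c0.Left → d ∉ c.Left → (T.Occ r d ↔ pvatCr T s x n d ∨ pvatCr T (pvasNot s) x' n' d) := by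
  classical
  obtain ⟨τ, hτ⟩ := pvat_pot hT h h'
  refine ⟨fun v => decide (τ v = τ (T.src x)), by simp, fun d hd hd' => ?_⟩
  have h1 := pvat_F_run (pl_left_face c0) hc.2 h d
  have h2 := pvat_F_run (pl_left_face c0) hc.2 h' d
  have h3 := hτ d hd hd'
  have h4 : ¬ (pvatCr T s x n d ∧ pvatCr T (pvasNot s) x' n' d) := fun ⟨a, b⟩ => pvat_run_disj (pl_left_face c) hc.2 h h' a b
  rw [h1, h2] at h4 ⊢
  unfold PvMap.Occ
  have key : ∀ a b c f f' : ZMod 2, a + b = f + f' → ¬ (f = 1 ∧ f' = 1) → (decide (a = c) ≠ decide (b = c) ↔ f = 1 ∨ f' = 1) := by decide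
  exact key _ _ _ _ _ h3 h4

/-- an entrance of `c0.Left` is not in `c.Left` -/
theorem pvat_ent_not {c0 c : T.Cyc} (hT : T.IsSph) (hc : c.Inside c0) {d : D} (h1 : d ∈ c0.Left) (h2 : T.opp d ∉ c0.Left) : d ∉ c.Left := by
  intro h3
  have hb : T.Bd c0.Left d := fun h => h2 (h.1 h1)
  have hv : T.src d ∈ c0.verts := pl_cyc_edg_src c0 (pl_left_bd_sub c0 hb)
  have hV : T.src d ∈ T.VOf c.Left := ⟨d, h3, rfl⟩
  rw [pl_VOf_left hT c] at hV
  have hI : T.src d ∈ T.Int c0.Left := by
    rcases hV with h | h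
    · exact hc.1 h
    · exact (pl_nested_vert hT c0 c hc.2).2 h
  exact Set.disjoint_left.1 (pl_jordan_vert_disj hT c0).1 hv hI

/-- propagation along a run: if `r` has no other occupied edges than crossed (hence `s`-occupied) ones in `B \ A` and agrees with `s` at the two ends of `x`, it agrees with `s` on the layers.
Plan: induction on `k ≤ n`: `r = s` at `src`, `tgt` of `It k`.  Step (`k < n`, the face of `It k` is in `B \ A`): `pvas_step_cases` / `pvas_step_ends`; the new vertex is `apex (It k)`; the dart of the face joining it to the old vertex of ITS colour is not `s`-occupied, so not `r`-occupied. -/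
theorem pvat_rule_prop {B A : Set D} (hB : T.FaceSet B) (hA : T.FaceSet A) {s r : V → Bool} {x : D} {n : ℕ} (h : PvatRun T B A s x n)
    (hr : ∀ d, d ∈ B → d ∉ A → T.Occ r d → T.Occ s d) (h1 : r (T.src x) = s (T.src x)) (h2 : r (T.tgt x) = s (T.tgt x)) : ∀ v ∈ pvatLay T s x n, r v = s v := by
  have key : ∀ k, k ≤ n → r (T.src (pvasIt T s x k)) = s (T.src (pvasIt T s x k)) ∧ r (T.tgt (pvasIt T s x k)) = s (T.tgt (pvasIt T s x k)) := by
    intro k
    induction k with
    | zero => intro _; exact ⟨h1, h2⟩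
    | succ k ih =>
      intro hk
      obtain ⟨i1, i2⟩ := ih (by omega)
      obtain ⟨m1, m2⟩ := h.mid k (by omega)
      obtain ⟨b1, b2⟩ := pvas_it_bw h.ent.2.2 k
      rw [pvas_it_succ]
      generalize pvasIt T s x k = e at i1 i2 m1 m2 b1 b2
      cases ha : s (T.apex e) with
      | true =>
        rw [pvas_step_black ha, T.src_opp', T.tgt_opp, T.tgt_nxt, T.src_nxt]
        refine ⟨?_, i2⟩
        have hn : ¬ T.Occ r (T.nxt (T.nxt e)) := by
          intro ho
          have := hr _ ((hB.nxt2 T e).2 m1) (fun h' => m2 ((hA.nxt2 T e).1 h')) ho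
          unfold PvMap.Occ at this
          rw [T.src_nxt2, T.tgt_nxt2, ha, b1] at this
          exact this rfl
        unfold PvMap.Occ at hn
        rw [T.src_nxt2, T.tgt_nxt2, not_not] at hn
        rw [hn, i1, b1, ha]
      | false =>
        rw [pvas_step_white ha, T.src_opp', T.tgt_opp, T.tgt_nxt2, T.src_nxt2]
        refine ⟨i1, ?_⟩
        have hn : ¬ T.Occ r (T.nxt e) := by
          intro ho
          have := hr _ ((hB e).2 m1) (fun h' => m2 ((hA e).1 h')) ho
          unfold PvMap.Occ at this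
          rw [T.src_nxt, T.tgt_nxt, ha, b2] at this
          exact this rfl
        unfold PvMap.Occ at hn
        rw [T.src_nxt, T.tgt_nxt, not_not] at hn
        rw [← hn, i2, b2, ha]
  rintro v (⟨i, hi, rfl⟩ | ⟨i, hi, rfl⟩)
  · exact (key i hi).1
  · exact (key i hi).2

/-- **RULE COLOURING**.
Plan: `r` of `pvat_rule_aux`.  `x`, `x'` are darts of `c0` (`pl_jordan`: `Bd c0.Left ↔ Edg c0.darts`, `c0.e i ∈ Left`), say `x = c0.e i`, `x' = c0.e j`, `i, j < c0.n`, `i ≠ j` (`pvat_run_disj`, or the colours).  A dart `c0.e k` is crossed only by the position `0` of a run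
(the positions `≥ 1` have both faces in `c0.Left`), so on `c0.toCW` the `r`-occupied darts are exactly `i`, `j`: `pvad_two_ne` gives `r (src x') = r (tgt x)` (or the symmetric statement).   `r (src x) = true`, `Occ r x`: `r = s` at the ends of `x`, hence at the ends of `x'`.  `pvat_rule_prop` twice
(for the second run: `r' = pvasNot r`, or restate with `pvasNot`: `pvas_occ_not`). -/
theorem pvat_rule (hT : T.IsSph) {c0 c : T.Cyc} (hc : c.Inside c0) {s : V → Bool} {x x' : D} {n n' : ℕ} (h : PvatRun T c0.Left c.Left s x n) (h' : PvatRun T c0.Left c.Left (pvasNot s) x' n') :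
    ∃ r : V → Bool, PvatRule T c0.Left c.Left s x n x' n' r := by
  obtain ⟨r, hr0, hr⟩ := pvat_rule_aux hT hc h h'
  have hj := pl_jordan hT c0
  have hF0 := pl_left_face c0
  have hF := pl_left_face c
  have hk1 : ∀ k, c0.e k ∈ c0.Left := hj.2.1
  have hk2 : ∀ k, T.opp (c0.e k) ∉ c0.Left := fun k => by have := hj.2.2.1 k; rw [hj.1] at this; exact this
  have hdart : ∀ y, y ∈ c0.Left → T.opp y ∉ c0.Left → ∃ i, i < c0.n ∧ c0.e i = y := by
    intro y h1 h2
    have hb : T.Bd c0.Left y := fun hh => h2 (hh.1 h1)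
    rcases (hj.2.2.2 y).1 hb with ⟨i, hi⟩ | ⟨i, hi⟩
    · exact ⟨i % c0.n, Nat.mod_lt _ (pl_cyc_pos c0), by rw [pl_cyc_mod, hi]⟩
    · exact absurd (hi ▸ hk1 i) h2
  obtain ⟨i, hi, hxi⟩ := hdart x h.ent.1 h.ent.2.1
  obtain ⟨j, hj', hxj⟩ := hdart x' h'.ent.1 h'.ent.2.1
  have hcr : ∀ (s' : V → Bool) (y : D) (m : ℕ), PvatRun T c0.Left c.Left s' y m → ∀ k, pvatCr T s' y m (c0.e k) → c0.e k = y := by
    rintro s' y m hy k ⟨l, hl, hh⟩
    cases l with
    | zero =>
      rcases hh with hh | hh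
      · exact hh
      · exact absurd (hh ▸ hk1 k) hy.ent.2.1
    | succ l =>
      have m1 : pvasIt T s' y (l + 1) ∈ c0.Left := hy.mem hc.2 hl
      have m2 : T.opp (pvasIt T s' y (l + 1)) ∈ c0.Left := by
        rw [pvas_it_succ, pvas_step_opp_mem hF0]
        exact hy.mem hc.2 (by omega)
      rcases hh with hh | hh
      · exact absurd (hh ▸ m2) (hk2 k)
      · have := hk2 k
        rw [hh, T.opp_opp] at this
        exact absurd m1 this
  have hocc : ∀ k < c0.toCW.n, T.Occ r (c0.toCW.e k) ↔ k = i ∨ k = j := by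
    intro k hk
    change T.Occ r (c0.e k) ↔ _
    rw [hr _ (hk1 k) (pvat_ent_not hT hc (hk1 k) (hk2 k))]
    constructor
    · rintro (h1 | h1)
      · left
        exact c0.inj k i hk hi (by rw [hcr _ _ _ h k h1, hxi])
      · right
        exact c0.inj k j hk hj' (by rw [hcr _ _ _ h' k h1, hxj])
    · rintro (rfl | rfl)
      · exact Or.inl ⟨0, Nat.zero_le _, Or.inl hxi⟩
      · exact Or.inr ⟨0, Nat.zero_le _, Or.inl hxj⟩
  have bx := h.ent.2.2
  have bx' := h'.ent.2.2
  have ox : T.Occ r x := by rw [← hxi]; exact (hocc i hi).2 (Or.inl rfl)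
  have ox' : T.Occ r x' := by rw [← hxj]; exact (hocc j hj').2 (Or.inr rfl)
  have e1 : r (T.tgt x) = false := by
    unfold PvMap.Occ at ox
    rw [hr0] at ox
    cases hh : r (T.tgt x) with
    | true => exact absurd hh.symm ox
    | false => rfl
  have e2 : r (T.src x') = false ∧ r (T.tgt x') = true := by
    unfold PvMap.Occ at ox'
    rcases Nat.lt_trichotomy i j with hij | hij | hij
    · have := pvad_two_ne c0.toCW r hj' hij hocc
      change r (T.src (c0.e j)) = r (T.tgt (c0.e i)) at this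
      rw [hxi, hxj, e1] at this
      refine ⟨this, ?_⟩
      rw [this] at ox'
      cases hh : r (T.tgt x') with
      | true => rfl
      | false => exact absurd hh.symm ox'
    · exfalso
      subst hij
      rw [hxi] at hxj
      subst hxj
      have := bx'.1
      unfold pvasNot at this
      rw [bx.1] at this
      exact absurd this (by decide)
    · have := pvad_two_ne c0.toCW r hi hij (fun k hk => (hocc k hk).trans or_comm)
      change r (T.src (c0.e i)) = r (T.tgt (c0.e j)) at this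
      rw [hxi, hxj, hr0] at this
      refine ⟨?_, this.symm⟩
      rw [← this] at ox'
      cases hh : r (T.src x') with
      | true => exact absurd hh ox'
      | false => rfl
  have hrs : ∀ d, d ∈ c0.Left → d ∉ c.Left → T.Occ r d → T.Occ s d := by
    intro d h1 h2 h3
    rcases (hr d h1 h2).1 h3 with h4 | h4
    · exact pvat_cr_occ bx h4
    · exact pvas_occ_not.1 (pvat_cr_occ bx' h4)
  refine ⟨r, pvat_rule_prop hF0 hF h hrs (by rw [hr0, bx.1]) (by rw [e1, bx.2]), ?_, hr⟩
  have h5 := pvat_rule_prop (r := pvasNot r) hF0 hF h' (fun d h1 h2 h3 => pvas_occ_not.2 (hrs d h1 h2 (pvas_occ_not.1 h3)))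
    (by rw [bx'.1]; unfold pvasNot; rw [e2.1]; rfl) (by rw [bx'.2]; unfold pvasNot; rw [e2.2]; rfl)
  intro v hv
  have := h5 v hv
  unfold pvasNot at this
  simpa using this

/-- the rule depends on the explored data only.   Plan: `pvas_it_congr` for `s` and for `pvasNot s`: the positions, hence `pvatLay`, `pvatCr`, are the same. -/
theorem pvat_rule_congr {B A : Set D} {s s' : V → Bool} {x x' : D} {n n' : ℕ} (h1 : ∀ v ∈ pvatLay T s x n, s' v = s v) (h2 : ∀ v ∈ pvatLay T (pvasNot s) x' n', s' v = s v) (r : V → Bool) :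
    PvatRule T B A s' x n x' n' r ↔ PvatRule T B A s x n x' n' r := by
  have key : ∀ (σ σ' : V → Bool) (y : D) (k : ℕ), (∀ v ∈ pvatLay T σ y k, σ' v = σ v) →
      pvatLay T σ' y k = pvatLay T σ y k ∧ ∀ d, pvatCr T σ' y k d ↔ pvatCr T σ y k d := by
    intro σ σ' y k h
    have e := pvas_it_congr (T := T) (s := σ) (s' := σ') (d := y) (n := k) (fun v hv => h v hv)
    constructor
    · ext v
      constructor
      · rintro (⟨i, hi, rfl⟩ | ⟨i, hi, rfl⟩)
        · exact Or.inl ⟨i, hi, by rw [e i hi]⟩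
        · exact Or.inr ⟨i, hi, by rw [e i hi]⟩
      · rintro (⟨i, hi, rfl⟩ | ⟨i, hi, rfl⟩)
        · exact Or.inl ⟨i, hi, by rw [e i hi]⟩
        · exact Or.inr ⟨i, hi, by rw [e i hi]⟩
    · intro d
      constructor
      · rintro ⟨i, hi, h3⟩
        exact ⟨i, hi, by rwa [e i hi] at h3⟩
      · rintro ⟨i, hi, h3⟩
        exact ⟨i, hi, by rwa [e i hi]⟩
  obtain ⟨a1, a2⟩ := key s s' x n h1
  obtain ⟨b1, b2⟩ := key (pvasNot s) (pvasNot s') x' n' (fun v hv => by unfold pvasNot; rw [h2 v hv])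
  unfold PvatRule
  rw [a1, b1]
  simp only [a2, b2]
  constructor
  · rintro ⟨c1, c2, c3⟩
    exact ⟨fun v hv => (c1 v hv).trans (h1 v hv), fun v hv => (c2 v hv).trans (h2 v hv), c3⟩
  · rintro ⟨c1, c2, c3⟩
    exact ⟨fun v hv => (c1 v hv).trans (h1 v hv).symm, fun v hv => (c2 v hv).trans (h2 v hv).symm, c3⟩

/-! ## 4. geometry of nested cycles -/

theorem pvat_inside_trans (hT : T.IsSph) {a b c : T.Cyc} (h1 : a.Inside b) (h2 : b.Inside c) : a.Inside c := by
  exact ⟨fun v hv => (pl_nested_vert hT c b h2.2).2 (h1.1 hv), h1.2.trans h2.2⟩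

/-- the vertices of the closed inner disc are strictly inside -/
theorem pvat_VOf_int (hT : T.IsSph) {a b : T.Cyc} (h : a.Inside b) : T.VOf a.Left ⊆ T.Int b.Left := by
  intro v hv
  rw [pl_VOf_left hT a] at hv
  rcases hv with hv | hv
  · exact h.1 hv
  · exact (pl_nested_vert hT b a h.2).2 hv

/-- a face with a vertex on the outer cycle is not a face of the inner disc -/
theorem pvat_not_inner (hT : T.IsSph) {a b : T.Cyc} (h : a.Inside b) {d : D} (hv : T.src d ∈ b.verts ∨ T.tgt d ∈ b.verts ∨ T.apex d ∈ b.verts) : d ∉ a.Left := by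
  intro hd
  have hF := pl_left_face a
  have key : ∀ v, v ∈ T.VOf a.Left → v ∉ b.verts := fun v hv hb =>
    Set.disjoint_left.1 (pl_jordan_vert_disj hT b).1 hb (pvat_VOf_int hT h hv)
  rcases hv with hv | hv | hv
  · exact key _ ⟨d, hd, rfl⟩ hv
  · exact key _ ⟨T.nxt d, (hF d).2 hd, rfl⟩ hv
  · exact key _ ⟨T.nxt (T.nxt d), (PvMap.FaceSet.nxt2 T hF d).2 hd, rfl⟩ hv

/-- a face outside the disc has no vertex strictly inside -/
theorem pvat_out_int {A : Set D} (hA : T.FaceSet A) {d : D} (h : d ∉ A) : T.src d ∉ T.Int A ∧ T.tgt d ∉ T.Int A ∧ T.apex d ∉ T.Int A := by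
  refine ⟨fun h1 => h (h1 d rfl), fun h1 => h ((hA d).1 (h1 (T.nxt d) rfl)), fun h1 => h ((PvMap.FaceSet.nxt2 T hA d).1 (h1 (T.nxt (T.nxt d)) rfl))⟩

/-- **leaving a finite disc**: a strand which is in the finite face set `K ⊆ B` at the time `m`, and has been in `B` since its entrance, leaves `K` at a first time `t > m`.
Plan: if it stayed in `K` for ever, two positions would coincide (`K` finite, pigeonhole `Set.Finite`/`Set.infinite_of_injective_forall_mem`), against `pvat_no_return`.  `Nat.find`. -/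
theorem pvat_leave {B K : Set D} (hB : T.FaceSet B) (hKB : K ⊆ B) (hK : K.Finite) {s : V → Bool} {x : D} (h : pvasIn T B s x) {m : ℕ} (hin : ∀ i, i ≤ m → pvasIt T s x i ∈ B) (hm : pvasIt T s x m ∈ K) :
    ∃ t, m < t ∧ (∀ i, m ≤ i → i < t → pvasIt T s x i ∈ K) ∧ pvasIt T s x t ∉ K := by
  classical
  have hex : ∃ t, m < t ∧ pvasIt T s x t ∉ K := by
    by_contra hno
    push Not at hno
    have hall : ∀ i, pvasIt T s x i ∈ B := by
      intro i
      rcases Nat.lt_or_ge m i with h1 | h1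
      · exact hKB (hno i h1)
      · exact hin i h1
    have hinj : Function.Injective (fun i : ℕ => pvasIt T s x (m + i)) := by
      intro i j hij
      by_contra hne
      rcases lt_or_gt_of_ne hne with h1 | h1
      · exact pvat_no_return hB h (k := m + i) (t := m + j) (by omega) (fun l _ => hall l) hij.symm
      · exact pvat_no_return hB h (k := m + j) (t := m + i) (by omega) (fun l _ => hall l) hij
    refine Set.infinite_of_injective_forall_mem hinj (s := K) (fun i => ?_) hK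
    rcases Nat.eq_zero_or_pos i with rfl | h1
    · exact hm
    · exact hno (m + i) (by omega)
  refine ⟨Nat.find hex, (Nat.find_spec hex).1, fun i h1 h2 => ?_, (Nat.find_spec hex).2⟩
  rcases Nat.eq_or_lt_of_le h1 with rfl | h3
  · exact hm
  · by_contra h4
    exact Nat.find_min hex h2 ⟨h3, h4⟩

/-- the ends of the next position are vertices of the face -/
theorem pvat_step_verts (s : V → Bool) (d : D) :
    (T.src (pvasStep T s d) = T.src d ∨ T.src (pvasStep T s d) = T.apex d) ∧ (T.tgt (pvasStep T s d) = T.tgt d ∨ T.tgt (pvasStep T s d) = T.apex d) := by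
  rcases pvas_step_ends s d with ⟨-, e1, e2⟩ | ⟨-, e1, e2⟩
  · exact ⟨Or.inr e1, Or.inl e2⟩
  · exact ⟨Or.inl e1, Or.inr e2⟩

/-- the vertices of a dart of the same face -/
theorem pvat_sf_verts {d d' : D} (h : T.SF d d') {P : V → Prop} (h1 : P (T.src d)) (h2 : P (T.tgt d)) (h3 : P (T.apex d)) :
    P (T.src d') ∧ P (T.tgt d') ∧ P (T.apex d') := by
  rcases h with rfl | rfl | rfl
  · exact ⟨h1, h2, h3⟩
  · exact ⟨by rwa [T.src_nxt], by rwa [T.tgt_nxt], by rwa [T.apex_nxt]⟩
  · exact ⟨by rwa [T.src_nxt2], by rwa [T.tgt_nxt2], by rwa [T.apex_nxt2]⟩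

/-- the edge through which a strand leaves the disc of a cycle is an edge of the cycle, seen from a face of the disc -/
theorem pvat_leave_edge (hT : T.IsSph) (k : T.Cyc) {s : V → Bool} {x : D} {t : ℕ} (h1 : pvasIt T s x t ∈ k.Left) (h2 : pvasIt T s x (t + 1) ∉ k.Left) :
    T.opp (pvasIt T s x (t + 1)) ∈ k.Left ∧ T.src (pvasIt T s x (t + 1)) ∈ k.verts ∧ T.tgt (pvasIt T s x (t + 1)) ∈ k.verts := by
  have h3 : T.opp (pvasIt T s x (t + 1)) ∈ k.Left := by
    rw [pvas_it_succ]
    exact (pvas_step_opp_mem (pl_left_face k) s).2 h1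
  have hbd : T.Bd k.Left (pvasIt T s x (t + 1)) := fun h => h2 (h.2 h3)
  have hedg := pl_left_bd_sub k hbd
  refine ⟨h3, pl_cyc_edg_src k hedg, ?_⟩
  have := pl_cyc_edg_src k (T.edg_opp.2 hedg)
  rwa [T.src_opp'] at this

/-! ## 5. L1: closing up -/

/-- the three vertices of a face of a face set -/
theorem pvat_VOf_face {A : Set D} (hA : T.FaceSet A) {d : D} (h : d ∈ A) : T.src d ∈ T.VOf A ∧ T.tgt d ∈ T.VOf A ∧ T.apex d ∈ T.VOf A :=
  ⟨⟨d, h, rfl⟩, ⟨T.nxt d, (hA d).2 h, rfl⟩, ⟨T.nxt (T.nxt d), (hA.nxt2 T d).2 h, rfl⟩⟩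

/-- **L1**.   `k` between `c1` and `c2`, all its vertices carry the colour of the rule `r` of the two runs to `c1`.  Then the strand of `x` leaves `k.Left` (after the time `n1`) through an edge of the backward run, follows it backwards, and leaves `c0.Left` through `x2`.
Plan: `t` = first exit from `k.Left` after `n1` (`pvat_leave`; `It n1 ∈ c1.Left ⊆ k.Left`).  `y = It t` is `s`-occupied with both ends on `k` (`pvat_leave_edge`) so `r`-occupied; `opp y ∈ c0.Left \ c1.Left` (`pvat_not_inner`): rule: `opp y` is crossed by one of the runs.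
First run: `y = It j`, `j ≤ n1 < t`, against `pvat_no_return` (`y = opp (It j)` against `pvas_bw_not_opp`).   Second run: `y = opp (It' l)` (`y = It' l` against the colours), then `pvas_it_rev`: `It (t + i) = opp (It' (l - i))`, `i ≤ l`.
Faces: `i < n1`: first run; `n1 ≤ i < t`: in `k.Left`; `t ≤ i < t + l`: the face of `opp (It' (l - j))` is the face of `It' (l - j - 1)` (`pvas_step_sf`); `It (t + l) = opp x2 ∉ c0.Left`. -/
theorem pvat_close (hT : T.IsSph) {c0 c1 k : T.Cyc} (hfin : c0.Left.Finite) (h1k : c1.Inside k) (hk0 : k.Inside c0) {s r : V → Bool} {x x2 : D} {n1 n2 : ℕ}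
    (r1 : PvatRun T c0.Left c1.Left s x n1) (r2 : PvatRun T c0.Left c1.Left (pvasNot s) x2 n2) (hr : PvatRule T c0.Left c1.Left s x n1 x2 n2 r) (hcol : ∀ v ∈ k.verts, s v = r v) :
    pvatFull T c0.Left s x ⊆ pvatLay T s x n1 ∪ pvatLay T (pvasNot s) x2 n2 ∪ T.VOf k.Left ∧ pvasExit T c0.Left s x = T.opp x2 := by
  have h10 : c1.Left ⊆ c0.Left := h1k.2.trans hk0.2
  obtain ⟨t', ht', hmid, hout⟩ := pvat_leave (pl_left_face c0) hk0.2 (hfin.subset hk0.2) r1.ent (fun i hi => r1.mem h10 hi) (h1k.2 r1.hit)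
  obtain ⟨t, rfl⟩ : ∃ t, t' = t + 1 := ⟨t' - 1, by omega⟩
  have hnt : n1 ≤ t := by omega
  obtain ⟨ho, hs, htg⟩ := pvat_leave_edge hT k (hmid t hnt (Nat.lt_succ_self t)) hout
  have hbw := pvas_it_bw r1.ent.2.2 (t + 1)
  have hinB : ∀ i, i < t + 1 → pvasIt T s x i ∈ c0.Left := by
    intro i hi
    rcases Nat.lt_or_ge i n1 with h | h
    · exact r1.mem h10 h.le
    · exact hk0.2 (hmid i h hi)
  have hoccr : T.Occ r (T.opp (pvasIt T s x (t + 1))) := by
    rw [pvad_occ_opp]
    have hocc := pvas_bw_occ hbw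
    unfold PvMap.Occ at hocc ⊢
    rwa [← hcol _ hs, ← hcol _ htg]
  have hnot : T.opp (pvasIt T s x (t + 1)) ∉ c1.Left :=
    pvat_not_inner hT h1k (Or.inl (by rw [T.src_opp']; exact htg))
  -- the exit edge is crossed by the backward run
  obtain ⟨l, hl, hy⟩ : ∃ l, l ≤ n2 ∧ T.opp (pvasIt T s x (t + 1)) = pvasIt T (pvasNot s) x2 l := by
    rcases (hr.2.2 _ (hk0.2 ho) hnot).1 hoccr with ⟨j, hj, e | e⟩ | ⟨l, hl, e | e⟩
    · exfalso
      have := pvas_it_bw r1.ent.2.2 j
      rw [← e] at this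
      exact pvas_bw_not_opp hbw this
    · exfalso
      exact pvat_no_return (pl_left_face c0) r1.ent (k := j) (t := t + 1) (by omega) hinB (T.opp_injective e)
    · exact ⟨l, hl, e⟩
    · exfalso
      have h1 := pvas_it_bw r2.ent.2.2 l
      rw [← T.opp_injective e] at h1
      exact pvas_bw_not_opp hbw (pvas_bw_not'.1 h1)
  have hy' : pvasIt T s x (t + 1) = T.opp (pvasIt T (pvasNot s) x2 l) := by rw [← hy, T.opp_opp]
  have hrev : ∀ i, i ≤ l → pvasIt T s x (t + 1 + i) = T.opp (pvasIt T (pvasNot s) x2 (l - i)) := by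
    intro i hi
    rw [pvas_it_add, hy']
    have := pvas_it_rev r2.ent.2.2 hi
    rwa [pvas_not_not] at this
  have hlast : pvasIt T s x (t + 1 + l) = T.opp x2 := by
    rw [hrev l le_rfl, Nat.sub_self, pvas_it_zero]
  -- the positions `t + 1 + i`, `i < l`
  have hback : ∀ i, i < l → ∃ j, j < n2 ∧ T.SF (pvasIt T (pvasNot s) x2 j) (pvasIt T s x (t + 1 + i)) := by
    intro i hi
    refine ⟨l - i - 1, by omega, ?_⟩
    rw [hrev i hi.le]
    have e : l - i = (l - i - 1) + 1 := by omega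
    rw [e, pvas_it_succ]
    have e2 : l - i - 1 + 1 - 1 = l - i - 1 := by omega
    rw [e2]
    exact pvas_step_sf _ _
  have hinB2 : ∀ i, i < t + 1 + l → pvasIt T s x i ∈ c0.Left := by
    intro i hi
    rcases Nat.lt_or_ge i (t + 1) with h | h
    · exact hinB i h
    · obtain ⟨i', rfl⟩ : ∃ i', i = t + 1 + i' := ⟨i - (t + 1), by omega⟩
      obtain ⟨j, hj, hsf⟩ := hback i' (by omega)
      exact ((pl_left_face c0).sf T hsf).2 (r2.mem h10 hj.le)
  have hnotB : pvasIt T s x (t + 1 + l) ∉ c0.Left := by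
    rw [hlast]; exact r2.ent.2.1
  refine ⟨?_, ?_⟩
  · rintro v ⟨κ, hκ, hv⟩
    have hκlt : κ < t + 1 + l := by
      by_contra hcon
      exact hnotB (hκ _ (not_lt.1 hcon))
    have goal3 : (T.src (pvasIt T s x κ) ∈ pvatLay T s x n1 ∪ pvatLay T (pvasNot s) x2 n2 ∪ T.VOf k.Left) ∧
        (T.tgt (pvasIt T s x κ) ∈ pvatLay T s x n1 ∪ pvatLay T (pvasNot s) x2 n2 ∪ T.VOf k.Left) ∧
        (T.apex (pvasIt T s x κ) ∈ pvatLay T s x n1 ∪ pvatLay T (pvasNot s) x2 n2 ∪ T.VOf k.Left) := by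
      rcases Nat.lt_or_ge κ n1 with h | h
      · obtain ⟨a1, a2, a3⟩ := pvat_face_lay s x h
        exact ⟨Or.inl (Or.inl a1), Or.inl (Or.inl a2), Or.inl (Or.inl a3)⟩
      · rcases Nat.lt_or_ge κ (t + 1) with h' | h'
        · obtain ⟨a1, a2, a3⟩ := pvat_VOf_face (pl_left_face k) (hmid κ h h')
          exact ⟨Or.inr a1, Or.inr a2, Or.inr a3⟩
        · obtain ⟨i', rfl⟩ : ∃ i', κ = t + 1 + i' := ⟨κ - (t + 1), by omega⟩
          obtain ⟨j, hj, hsf⟩ := hback i' (by omega)
          obtain ⟨a1, a2, a3⟩ := pvat_face_lay (pvasNot s) x2 hj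
          exact pvat_sf_verts hsf (P := fun v => v ∈ pvatLay T s x n1 ∪ pvatLay T (pvasNot s) x2 n2 ∪ T.VOf k.Left)
            (Or.inl (Or.inr a1)) (Or.inl (Or.inr a2)) (Or.inl (Or.inr a3))
    rcases hv with rfl | rfl | rfl
    · exact goal3.1
    · exact goal3.2.1
    · exact goal3.2.2
  · rw [(pvas_exit_eq hinB2 hnotB).2, hlast]

/-! ## 6. L2: touch -/

/-- **L2**.   `k` between `c2` and `c3`; off `X` its vertices carry the colour of the rule `r` of the run of `x` to `c2` and of the backward run of `x4` to `c2`; `X` contains what the run of `x` sees.  Then after the time `n4` the strand of `x4` crosses a face with a vertex in `X` before it leaves `k.Left`.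
Plan: `t + 1` = first exit from `k.Left` after `n4`; `y = It' (t + 1)`; if no end of `y` is in `X` both ends carry the colour of `r`: `r`-occupied; `opp y ∈ c0.Left \ c2.Left`; rule: crossed by the run of `x` (then its ends are in `X`: `pvat_cr_lay`) or by the run of `x4`: against `pvat_no_return`.
The ends of `y` are vertices of the face of `It' t` (`pvas_step_sf`). -/
theorem pvat_touch (hT : T.IsSph) {c0 c2 k : T.Cyc} (hfin : c0.Left.Finite) (h2k : c2.Inside k) (hk0 : k.Inside c0) {s r : V → Bool} {x x4 : D} {m1 n4 : ℕ}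
    (r1 : PvatRun T c0.Left c2.Left s x m1) (r4 : PvatRun T c0.Left c2.Left (pvasNot s) x4 n4) (hr : PvatRule T c0.Left c2.Left s x m1 x4 n4 r) {X : Set V} (hX : pvatLay T s x m1 ⊆ X)
    (hcol : ∀ v ∈ k.verts, v ∉ X → s v = r v) :
    ∃ t, n4 ≤ t ∧ (∀ i, n4 ≤ i → i ≤ t → pvasIt T (pvasNot s) x4 i ∈ k.Left) ∧ pvatTouch T X (pvasIt T (pvasNot s) x4 t) := by
  have h20 : c2.Left ⊆ c0.Left := h2k.2.trans hk0.2
  obtain ⟨t', ht', hmid, hout⟩ := pvat_leave (pl_left_face c0) hk0.2 (hfin.subset hk0.2) r4.ent (fun i hi => r4.mem h20 hi) (h2k.2 r4.hit)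
  obtain ⟨t, rfl⟩ : ∃ t, t' = t + 1 := ⟨t' - 1, by omega⟩
  have hnt : n4 ≤ t := by omega
  obtain ⟨ho, hs, htg⟩ := pvat_leave_edge hT k (hmid t hnt (Nat.lt_succ_self t)) hout
  have hbw := pvas_it_bw r4.ent.2.2 (t + 1)
  refine ⟨t, hnt, fun i h1 h2 => hmid i h1 (Nat.lt_succ_of_le h2), ?_⟩
  have hXy : T.src (pvasIt T (pvasNot s) x4 (t + 1)) ∈ X ∨ T.tgt (pvasIt T (pvasNot s) x4 (t + 1)) ∈ X := by
    by_contra hcon
    rw [not_or] at hcon
    have e1 := hcol _ hs hcon.1
    have e2 := hcol _ htg hcon.2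
    have hocc : T.Occ s (pvasIt T (pvasNot s) x4 (t + 1)) := pvas_occ_not.1 (pvas_bw_occ hbw)
    have hoccr : T.Occ r (T.opp (pvasIt T (pvasNot s) x4 (t + 1))) := by
      rw [pvad_occ_opp]
      unfold PvMap.Occ at hocc ⊢
      rwa [← e1, ← e2]
    have hnot : T.opp (pvasIt T (pvasNot s) x4 (t + 1)) ∉ c2.Left :=
      pvat_not_inner hT h2k (Or.inl (by rw [T.src_opp']; exact htg))
    rcases (hr.2.2 _ (hk0.2 ho) hnot).1 hoccr with hc | ⟨j, hj, e | e⟩
    · have := (pvat_cr_lay hc).1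
      rw [T.src_opp'] at this
      exact hcon.2 (hX this)
    · have := pvas_it_bw r4.ent.2.2 j
      rw [← e] at this
      exact pvas_bw_not_opp hbw this
    · have e' := T.opp_injective e
      refine pvat_no_return (pl_left_face c0) r4.ent (k := j) (t := t + 1) (by omega) (fun i hi => ?_) e'
      rcases Nat.lt_or_ge i n4 with h | h
      · exact r4.mem h20 h.le
      · exact hk0.2 (hmid i h hi)
  rw [pvas_it_succ] at hXy
  obtain ⟨a1, a2⟩ := pvat_step_verts (pvasNot s) (pvasIt T (pvasNot s) x4 t)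
  rcases hXy with h | h
  · rcases a1 with e | e
    · exact Or.inl (e ▸ h)
    · exact Or.inr (Or.inr (e ▸ h))
  · rcases a2 with e | e
    · exact Or.inr (Or.inl (e ▸ h))
    · exact Or.inr (Or.inr (e ▸ h))

/-! ## 7. L3: the marker -/

/-- what a run sees belongs to the whole strand -/
theorem pvat_lay_full {B A : Set D} (hAB : A ⊆ B) {s : V → Bool} {x : D} {n : ℕ} (h : PvatRun T B A s x n) : pvatLay T s x n ⊆ pvatFull T B s x := by
  rintro v (⟨i, hi, rfl⟩ | ⟨i, hi, rfl⟩)
  · exact ⟨i, fun j hj => h.mem hAB (hj.trans hi), Or.inl rfl⟩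
  · exact ⟨i, fun j hj => h.mem hAB (hj.trans hi), Or.inr (Or.inl rfl)⟩

/-- on L1: what the backward run of `x2` sees belongs to the whole strand of `x`.   Plan: `pvas_exit_rev` / `pvas_it_rev` from `pvasExit T B s x = opp x2`. -/
theorem pvat_lay_full' {B A : Set D} (hB : T.FaceSet B) (hfin : B.Finite) (hAB : A ⊆ B) {s : V → Bool} {x x2 : D} {n2 : ℕ} (hx : pvasIn T B s x) (h : PvatRun T B A (pvasNot s) x2 n2)
    (he : pvasExit T B s x = T.opp x2) : pvatLay T (pvasNot s) x2 n2 ⊆ pvatFull T B s x := by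
  obtain ⟨hN1, hNin, -⟩ := pvas_exit_spec hB hfin hx
  have hx2 : x2 = T.opp (pvasIt T s x (pvasHit T s x Bᶜ)) := by
    have : pvasIt T s x (pvasHit T s x Bᶜ) = T.opp x2 := he
    rw [this, T.opp_opp]
  have hrev : ∀ i, i ≤ pvasHit T s x Bᶜ → pvasIt T (pvasNot s) x2 i = T.opp (pvasIt T s x (pvasHit T s x Bᶜ - i)) := by
    intro i hi
    rw [hx2]
    exact pvas_it_rev hx.2.2 hi
  have hlt : n2 < pvasHit T s x Bᶜ := by
    by_contra hcon
    have h1 := h.mem hAB (not_lt.1 hcon)
    rw [hrev _ le_rfl, Nat.sub_self, pvas_it_zero] at h1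
    exact hx.2.1 h1
  have key : ∀ i, i ≤ n2 → T.src (pvasIt T (pvasNot s) x2 i) ∈ pvatFull T B s x ∧ T.tgt (pvasIt T (pvasNot s) x2 i) ∈ pvatFull T B s x := by
    intro i hi
    have hiN : i < pvasHit T s x Bᶜ := lt_of_le_of_lt hi hlt
    obtain ⟨κ, hκ⟩ : ∃ κ, pvasHit T s x Bᶜ - i = κ + 1 := ⟨pvasHit T s x Bᶜ - i - 1, by omega⟩
    rw [hrev i hiN.le, hκ, T.src_opp', T.tgt_opp, pvas_it_succ]
    have hin : ∀ j, j ≤ κ → pvasIt T s x j ∈ B := fun j hj => hNin j (by omega)
    obtain ⟨a1, a2⟩ := pvat_step_verts s (pvasIt T s x κ)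
    constructor
    · rcases a2 with e | e
      · exact ⟨κ, hin, Or.inr (Or.inl e)⟩
      · exact ⟨κ, hin, Or.inr (Or.inr e)⟩
    · rcases a1 with e | e
      · exact ⟨κ, hin, Or.inl e⟩
      · exact ⟨κ, hin, Or.inr (Or.inr e)⟩
  rintro v (⟨i, hi, rfl⟩ | ⟨i, hi, rfl⟩)
  · exact (key i hi).1
  · exact (key i hi).2

/-- what a run to `A` sees is not strictly inside `A` -/
theorem pvat_lay_not_int {B A : Set D} (hA : T.FaceSet A) (hAB : A ⊆ B) {s : V → Bool} {x : D} {n : ℕ} (h : PvatRun T B A s x n) : ∀ v ∈ pvatLay T s x n, v ∉ T.Int A := by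
  have key : ∀ i, i ≤ n → T.opp (pvasIt T s x i) ∉ A := by
    intro i hi
    cases i with
    | zero =>
      rw [pvas_it_zero]
      exact fun h' => h.ent.2.1 (hAB h')
    | succ j =>
      rw [pvas_it_succ, pvas_step_opp_mem hA s]
      exact (h.mid j hi).2
  rintro v (⟨i, hi, rfl⟩ | ⟨i, hi, rfl⟩)
  · have := (pvat_out_int hA (key i hi)).2.1
    rwa [T.tgt_opp] at this
  · have := (pvat_out_int hA (key i hi)).1
    rwa [T.src_opp'] at this

/-- **L3 = THE TRAP**.   On CONFIG5 and the two rule circuits the marker of `(x, x4)` lies in `c3.Left`, and `x2` is determined by `x`.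
`S` = the explored vertices.   Plan: `k1`, `k2` the two cycles.  `hcol` of `pvat_close`: a vertex of `k1` is fresh (rule circuit), or seen by the two first runs (`hr12.1`, `hr12.2.1`), or seen by the run of `x4`: impossible (`k1.verts ⊆ Int c2.Left`; `pvat_out_int`, the faces of that run are outside `c2.Left`; its vertices are vertices of these faces: `pvas_fc_verts`).
`hcol` of `pvat_touch` with `X = Lay1 ∪ Lay2`: a vertex of `k2` off `X` is fresh or seen by the run of `x4` (`hr14.2.1`).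
No touch before `n4`: the vertices of the faces `i < n4` are in `Lay4` (`pvat_face_lay`), which is disjoint from `Lay1 ∪ Lay2` (config) and from `VOf k1.Left ⊆ Int c2.Left`; `pvat_close` bounds `pvatFull`.
Touch at some `t ≥ n4` inside `k2.Left` (`pvat_touch`, `pvat_lay_full`, `pvat_lay_full'`).  So `n4 ≤ pvatMk ≤ t` (`Nat.sInf_mem`, `Nat.sInf_le`) and the position is in `k2.Left ⊆ c3.Left`. -/
theorem pvat_marker (hT : T.IsSph) {c0 c1 c2 c3 : T.Cyc} (hfin : c0.Left.Finite) (h12 : c1.Inside c2) (h23 : c2.Inside c3) (h30 : c3.Inside c0) {s r12 r14 : V → Bool} {x x2 x4 : D} {n1 n2 n4 m1 : ℕ}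
    (hc : PvatCfg T c0 c1 c2 s x x2 x4 n1 n2 n4) (hm : PvatRun T c0.Left c2.Left s x m1) (hm1 : m1 ≤ n1)
    (hr12 : PvatRule T c0.Left c1.Left s x n1 x2 n2 r12) (hr14 : PvatRule T c0.Left c2.Left s x m1 x4 n4 r14)
    (hk1 : PvatRC T c1 c2 (pvatLay T s x n1 ∪ pvatLay T (pvasNot s) x2 n2 ∪ pvatLay T (pvasNot s) x4 n4) r12 s)
    (hk2 : PvatRC T c2 c3 (pvatLay T s x n1 ∪ pvatLay T (pvasNot s) x2 n2 ∪ pvatLay T (pvasNot s) x4 n4) r14 s) :
    pvasIt T (pvasNot s) x4 (pvatMk T c0.Left s x x4) ∈ c3.Left ∧ pvasExit T c0.Left s x = T.opp x2 := by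
  obtain ⟨k1, h1k1, hk12, col1⟩ := hk1
  obtain ⟨k2, h2k2, hk23, col2⟩ := hk2
  have h20 : c2.Inside c0 := pvat_inside_trans hT h23 h30
  have h10 : c1.Inside c0 := pvat_inside_trans hT h12 h20
  have hk10 : k1.Inside c0 := pvat_inside_trans hT hk12 h20
  have hk20 : k2.Inside c0 := pvat_inside_trans hT hk23 h30
  have hL4 := pvat_lay_not_int (pl_left_face c2) h20.2 hc.r4
  -- L1
  have hcolA : ∀ v ∈ k1.verts, s v = r12 v := by
    intro v hv
    by_cases hS : v ∈ pvatLay T s x n1 ∪ pvatLay T (pvasNot s) x2 n2 ∪ pvatLay T (pvasNot s) x4 n4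
    · rcases hS with (h | h) | h
      · exact (hr12.1 v h).symm
      · exact (hr12.2.1 v h).symm
      · exact absurd (hk12.1 hv) (hL4 v h)
    · exact col1 v hv hS
  obtain ⟨hfull, hexit⟩ := pvat_close hT hfin h1k1 hk10 hc.r1 hc.r2 hr12 hcolA
  refine ⟨?_, hexit⟩
  -- L2
  have hcolB : ∀ v ∈ k2.verts, v ∉ pvatLay T s x n1 ∪ pvatLay T (pvasNot s) x2 n2 → s v = r14 v := by
    intro v hv hX
    by_cases hS : v ∈ pvatLay T s x n1 ∪ pvatLay T (pvasNot s) x2 n2 ∪ pvatLay T (pvasNot s) x4 n4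
    · rcases hS with h | h
      · exact absurd h hX
      · exact (hr14.2.1 v h).symm
    · exact col2 v hv hS
  obtain ⟨t, hnt, hin, htouch⟩ := pvat_touch hT hfin h2k2 hk20 hm hc.r4 hr14
    (X := pvatLay T s x n1 ∪ pvatLay T (pvasNot s) x2 n2) ((pvat_lay_mono s x hm1).trans Set.subset_union_left) hcolB
  have hXfull : pvatLay T s x n1 ∪ pvatLay T (pvasNot s) x2 n2 ⊆ pvatFull T c0.Left s x :=
    Set.union_subset (pvat_lay_full h10.2 hc.r1) (pvat_lay_full' (pl_left_face c0) hfin h10.2 hc.r1.ent hc.r2 hexit)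
  have htouch' : pvatTouch T (pvatFull T c0.Left s x) (pvasIt T (pvasNot s) x4 t) :=
    htouch.imp (fun h => hXfull h) (Or.imp (fun h => hXfull h) (fun h => hXfull h))
  have hmem : pvatMk T c0.Left s x x4 ∈ {t | pvatTouch T (pvatFull T c0.Left s x) (pvasIt T (pvasNot s) x4 t)} := Nat.sInf_mem ⟨t, htouch'⟩
  have hle : pvatMk T c0.Left s x x4 ≤ t := Nat.sInf_le htouch'
  have hge : n4 ≤ pvatMk T c0.Left s x x4 := by
    by_contra hcon
    obtain ⟨a1, a2, a3⟩ := pvat_face_lay (pvasNot s) x4 (not_le.1 hcon)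
    have hno : ∀ v ∈ pvatLay T (pvasNot s) x4 n4, v ∉ pvatFull T c0.Left s x := by
      intro v hv hvF
      rcases hfull hvF with (h | h) | h
      · exact Set.disjoint_left.1 hc.dis1 hv h
      · exact Set.disjoint_left.1 hc.dis2 hv h
      · exact hL4 v hv (pvat_VOf_int hT hk12 h)
    rcases hmem with h | h | h
    · exact hno _ a1 h
    · exact hno _ a2 h
    · exact hno _ a3 h
  exact hk23.2 (hin _ hge hle)

/-! ## 8. the choice of the triple: CONFIG5 from three runs (no arcs, no cyclic order) -/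

/-- on the outer cycle a rule changes exactly at the two entrances.   Plan: copy `hk1 hk2 hcr hocc` of the proof of `pvat_rule` (only `hr.2.2` is used). -/
theorem pvat_rule_c0 (hT : T.IsSph) {c0 c : T.Cyc} (hc : c.Inside c0) {s r : V → Bool} {x x' : D} {n n' : ℕ} (h : PvatRun T c0.Left c.Left s x n) (h' : PvatRun T c0.Left c.Left (pvasNot s) x' n')
    (hr : PvatRule T c0.Left c.Left s x n x' n' r) (k : ℕ) : T.Occ r (c0.e k) ↔ c0.e k = x ∨ c0.e k = x' := by
  have hj := pl_jordan hT c0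
  have hF0 := pl_left_face c0
  have hk1 : ∀ k, c0.e k ∈ c0.Left := hj.2.1
  have hk2 : ∀ k, T.opp (c0.e k) ∉ c0.Left := fun k => by have := hj.2.2.1 k; rw [hj.1] at this; exact this
  have hcr : ∀ (s' : V → Bool) (y : D) (m : ℕ), PvatRun T c0.Left c.Left s' y m → ∀ k, pvatCr T s' y m (c0.e k) → c0.e k = y := by
    rintro s' y m hy k ⟨l, hl, hh⟩
    cases l with
    | zero =>
      rcases hh with hh | hh
      · exact hh
      · exact absurd (hh ▸ hk1 k) hy.ent.2.1
    | succ l =>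
      have m1 : pvasIt T s' y (l + 1) ∈ c0.Left := hy.mem hc.2 hl
      have m2 : T.opp (pvasIt T s' y (l + 1)) ∈ c0.Left := by
        rw [pvas_it_succ, pvas_step_opp_mem hF0]
        exact hy.mem hc.2 (by omega)
      rcases hh with hh | hh
      · exact absurd (hh ▸ m2) (hk2 k)
      · have := hk2 k
        rw [hh, T.opp_opp] at this
        exact absurd m1 this
  rw [hr.2.2 _ (hk1 k) (pvat_ent_not hT hc (hk1 k) (hk2 k))]
  constructor
  · rintro (h1 | h1)
    · exact Or.inl (hcr _ _ _ h k h1)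
    · exact Or.inr (hcr _ _ _ h' k h1)
  · rintro (h1 | h1)
    · exact Or.inl ⟨0, Nat.zero_le _, Or.inl h1⟩
    · exact Or.inr ⟨0, Nat.zero_le _, Or.inl h1⟩

/-- an entrance of the disc of a cycle is a dart of the cycle.   Plan: `hdart` of the proof of `pvat_rule`. -/
theorem pvat_ent_dart (hT : T.IsSph) (c0 : T.Cyc) {y : D} (h1 : y ∈ c0.Left) (h2 : T.opp y ∉ c0.Left) : ∃ i, i < c0.n ∧ c0.e i = y := by
  have hj := pl_jordan hT c0
  have hb : T.Bd c0.Left y := fun hh => h2 (hh.1 h1)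
  rcases (hj.2.2.2 y).1 hb with ⟨i, hi⟩ | ⟨i, hi⟩
  · exact ⟨i % c0.n, Nat.mod_lt _ (pl_cyc_pos c0), by rw [pl_cyc_mod, hi]⟩
  · exact absurd (hi ▸ hj.2.1 i) h2

/-- **two different runs of the same hand have no common edge**.   Plan: `It x k = opp (It y l)` contradicts `pvas_bw_not_opp`; `It x k = It y l`: `pvas_disjoint` (`T.sf_refl`) gives `x = y`. -/
theorem pvat_run_disj' {B A A' : Set D} (hB : T.FaceSet B) {s : V → Bool} {x y : D} {n m : ℕ} (h : PvatRun T B A s x n) (h' : PvatRun T B A' s y m) (hxy : x ≠ y)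
    {d : D} (h1 : pvatCr T s x n d) (h2 : pvatCr T s y m d) : False := by
  obtain ⟨k, hk, e1⟩ := h1
  obtain ⟨l, hl, e2⟩ := h2
  have bk := pvas_it_bw h.ent.2.2 k
  have bl := pvas_it_bw h'.ent.2.2 l
  have same : pvasIt T s x k = pvasIt T s y l → False := by
    intro e
    have := pvas_disjoint hB h.ent h'.ent (i := k) (j := l) (fun i hi => (h.mid i (by omega)).1) (fun i hi => (h'.mid i (by omega)).1)
      (by rw [e]; exact T.sf_refl _)
    exact hxy this.1
  rcases e1 with e1 | e1 <;> rcases e2 with e2 | e2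
  · exact same (e1.symm.trans e2)
  · exact pvas_bw_not_opp bl (by rw [← e2, e1]; exact bk)
  · exact pvas_bw_not_opp bk (by rw [← e1, e2]; exact bl)
  · exact same (T.opp_injective (e1.symm.trans e2))

/-- **a rule is constant on a third run**.
Plan: induction on `k ≤ n4`: `r (src (It' k)) = r (src x4)` and `r (tgt (It' k)) = r (src x4)`.   An edge crossed by the third run is not crossed by the two first ones (`pvat_run_disj` for `x`, `pvat_run_disj'` for `x2`), so if it lies in `c0.Left \ c.Left` it is not `r`-occupied (`hr.2.2`).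
`k = 0`: the dart `x4` (`pvat_ent_not`).   `k → k + 1`, `k < n4`: the dart `opp (It' (k+1))` is a side of the face of `It' k` (`pvas_step_cases`), which is in `c0.Left \ c.Left`; it joins `apex (It' k)` to an old vertex; the ends of `It' (k+1)` are the apex and an old vertex (`pvas_step_ends`). -/
theorem pvat_rule_const (hT : T.IsSph) {c0 c : T.Cyc} (hc : c.Inside c0) {s r : V → Bool} {x x2 x4 : D} {n1 n2 n4 : ℕ} (r1 : PvatRun T c0.Left c.Left s x n1)
    (r2 : PvatRun T c0.Left c.Left (pvasNot s) x2 n2) (r4 : PvatRun T c0.Left c.Left (pvasNot s) x4 n4) (hne : x2 ≠ x4) (hr : PvatRule T c0.Left c.Left s x n1 x2 n2 r) :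
    ∀ v ∈ pvatLay T (pvasNot s) x4 n4, r v = r (T.src x4) := by
  have hF0 := pl_left_face c0
  have hF := pl_left_face c
  have hN : ∀ d, d ∈ c0.Left → d ∉ c.Left → pvatCr T (pvasNot s) x4 n4 d → r (T.src d) = r (T.tgt d) := by
    intro d h1 h2 h3
    by_contra hne'
    rcases (hr.2.2 d h1 h2).1 hne' with h4 | h4
    · exact pvat_run_disj hF hc.2 r1 r4 h4 h3
    · exact pvat_run_disj' hF0 r2 r4 hne h4 h3
  have key : ∀ k, k ≤ n4 → r (T.src (pvasIt T (pvasNot s) x4 k)) = r (T.src x4) ∧ r (T.tgt (pvasIt T (pvasNot s) x4 k)) = r (T.src x4) := by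
    intro k
    induction k with
    | zero =>
      intro _
      refine ⟨rfl, ?_⟩
      exact (hN x4 r4.ent.1 (pvat_ent_not hT hc r4.ent.1 r4.ent.2.1) ⟨0, Nat.zero_le _, Or.inl rfl⟩).symm
    | succ k ih =>
      intro hk
      obtain ⟨i1, i2⟩ := ih (by omega)
      obtain ⟨m1, m2⟩ := r4.mid k (by omega)
      have hcr : pvatCr T (pvasNot s) x4 n4 (T.opp (pvasIt T (pvasNot s) x4 (k + 1))) := ⟨k + 1, hk, Or.inr rfl⟩
      rw [pvas_it_succ] at hcr ⊢
      generalize pvasIt T (pvasNot s) x4 k = e at i1 i2 m1 m2 hcr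
      rcases pvas_step_cases (pvasNot s) e with ⟨-, he⟩ | ⟨-, he⟩
      · rw [he, T.opp_opp] at hcr
        have h5 := hN _ ((hF0 e).2 m1) (fun h' => m2 ((hF e).1 h')) hcr
        rw [T.src_nxt, T.tgt_nxt] at h5
        rw [he, T.src_opp', T.tgt_opp, T.tgt_nxt, T.src_nxt]
        exact ⟨by rw [← h5, i2], i2⟩
      · rw [he, T.opp_opp] at hcr
        have h5 := hN _ ((hF0.nxt2 T e).2 m1) (fun h' => m2 ((hF.nxt2 T e).1 h')) hcr
        rw [T.src_nxt2, T.tgt_nxt2] at h5
        rw [he, T.src_opp', T.tgt_opp, T.tgt_nxt2, T.src_nxt2]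
        exact ⟨i1, by rw [h5, i1]⟩
  rintro v (⟨i, hi, rfl⟩ | ⟨i, hi, rfl⟩)
  · exact (key i hi).1
  · exact (key i hi).2

/-- **SELECTION**: of the two rules `r12`, `r14` one is black and the other one white on the third run.
Plan: `x = c0.e i`, `x2 = c0.e j2`, `x4 = c0.e j4` (`pvat_ent_dart`), `j2 ≠ j4`, `i ≠ j2`, `i ≠ j4` (colours).  `σ v := xor (r12 v) (r14 v)`: `Occ σ (c0.e k) ↔ k = j2 ∨ k = j4` for `k < c0.n` (`pvat_rule_c0` twice; `c0.inj`).
`j2 < j4`: `pvad_two_ne c0.toCW σ`: `σ (src x4) = σ (tgt x2)`; `r14 (src x4) = s (src x4) = false`, `r12 (tgt x2) = s (tgt x2) = true` (the rules agree with `s` on their runs), `r14 (tgt x2) = r14 (src x2)` (`pvat_rule_const`).   `j4 < j2`: symmetric. -/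
theorem pvat_select (hT : T.IsSph) {c0 c : T.Cyc} (hc : c.Inside c0) {s r12 r14 : V → Bool} {x x2 x4 : D} {n1 n2 n4 : ℕ} (r1 : PvatRun T c0.Left c.Left s x n1)
    (r2 : PvatRun T c0.Left c.Left (pvasNot s) x2 n2) (r4 : PvatRun T c0.Left c.Left (pvasNot s) x4 n4) (hne : x2 ≠ x4)
    (hr12 : PvatRule T c0.Left c.Left s x n1 x2 n2 r12) (hr14 : PvatRule T c0.Left c.Left s x n1 x4 n4 r14) : r12 (T.src x4) ≠ r14 (T.src x2) := by
  have prop : ∀ A B C : Prop, (A → ¬ B) → (A → ¬ C) → (B → ¬ C) → (((A ∨ B) ↔ ¬ (A ∨ C)) ↔ (B ∨ C)) := by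
    clear hr12 hr14 hne r1 r2 r4 hc hT
    intro A B C h1 h2 h3
    by_cases hA : A <;> by_cases hB : B <;> by_cases hC : C <;> simp_all
  obtain ⟨j2, hj2, e2⟩ := pvat_ent_dart hT c0 r2.ent.1 r2.ent.2.1
  obtain ⟨j4, hj4, e4⟩ := pvat_ent_dart hT c0 r4.ent.1 r4.ent.2.1
  have bx := r1.ent.2.2
  have bx2 := r2.ent.2.2
  have bx4 := r4.ent.2.2
  have s2 : s (T.src x2) = false := by
    have := bx2.1
    unfold pvasNot at this
    simpa using this
  have t2 : s (T.tgt x2) = true := by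
    have := bx2.2
    unfold pvasNot at this
    simpa using this
  have s4 : s (T.src x4) = false := by
    have := bx4.1
    unfold pvasNot at this
    simpa using this
  have t4 : s (T.tgt x4) = true := by
    have := bx4.2
    unfold pvasNot at this
    simpa using this
  have hx2 : x ≠ x2 := by
    rintro rfl
    rw [bx.1] at s2
    exact absurd s2 (by decide)
  have hx4 : x ≠ x4 := by
    rintro rfl
    rw [bx.1] at s4
    exact absurd s4 (by decide)
  have lS2 : T.src x2 ∈ pvatLay T (pvasNot s) x2 n2 := Or.inl ⟨0, Nat.zero_le _, rfl⟩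
  have lT2 : T.tgt x2 ∈ pvatLay T (pvasNot s) x2 n2 := Or.inr ⟨0, Nat.zero_le _, rfl⟩
  have lS4 : T.src x4 ∈ pvatLay T (pvasNot s) x4 n4 := Or.inl ⟨0, Nat.zero_le _, rfl⟩
  have lT4 : T.tgt x4 ∈ pvatLay T (pvasNot s) x4 n4 := Or.inr ⟨0, Nat.zero_le _, rfl⟩
  have bool1 : ∀ a a' b b' : Bool, (xor a b ≠ xor a' b') ↔ ((a ≠ a') ↔ ¬ (b ≠ b')) := by decide
  have hocc : ∀ k < c0.toCW.n, T.Occ (fun v => xor (r12 v) (r14 v)) (c0.toCW.e k) ↔ k = j2 ∨ k = j4 := by
    intro k hk
    change T.Occ (fun v => xor (r12 v) (r14 v)) (c0.e k) ↔ _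
    have o1 := pvat_rule_c0 hT hc r1 r2 hr12 k
    have o2 := pvat_rule_c0 hT hc r1 r4 hr14 k
    have h1 : T.Occ (fun v => xor (r12 v) (r14 v)) (c0.e k) ↔ (T.Occ r12 (c0.e k) ↔ ¬ T.Occ r14 (c0.e k)) := bool1 _ _ _ _
    rw [h1, o1, o2]
    have k2 : c0.e k = x2 ↔ k = j2 := ⟨fun h => c0.inj k j2 hk hj2 (by rw [h, e2]), fun h => by rw [h, e2]⟩
    have k4 : c0.e k = x4 ↔ k = j4 := ⟨fun h => c0.inj k j4 hk hj4 (by rw [h, e4]), fun h => by rw [h, e4]⟩
    rw [← k2, ← k4]
    have a1 : c0.e k = x → c0.e k ≠ x2 := fun h h' => hx2 (h.symm.trans h')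
    have a2 : c0.e k = x → c0.e k ≠ x4 := fun h h' => hx4 (h.symm.trans h')
    have a3 : c0.e k = x2 → c0.e k ≠ x4 := fun h h' => hne (h.symm.trans h')
    exact prop _ _ _ a1 a2 a3
  have bool2 : ∀ a b : Bool, xor a false = xor true b → a ≠ b := by decide
  have bool3 : ∀ a b : Bool, xor false b = xor a true → a ≠ b := by decide
  rcases Nat.lt_trichotomy j2 j4 with hlt | heq | hlt
  · have h1 := pvad_two_ne c0.toCW (fun v => xor (r12 v) (r14 v)) hj4 hlt hocc
    change xor (r12 (T.src (c0.e j4))) (r14 (T.src (c0.e j4))) = xor (r12 (T.tgt (c0.e j2))) (r14 (T.tgt (c0.e j2))) at h1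
    rw [e2, e4, hr14.2.1 _ lS4, s4, hr12.2.1 _ lT2, t2, pvat_rule_const hT hc r1 r4 r2 hne.symm hr14 _ lT2] at h1
    exact bool2 _ _ h1
  · exact absurd (by rw [← e2, ← e4, heq]) hne
  · have h1 := pvad_two_ne c0.toCW (fun v => xor (r12 v) (r14 v)) hj2 hlt (fun k hk => (hocc k hk).trans or_comm)
    change xor (r12 (T.src (c0.e j2))) (r14 (T.src (c0.e j2))) = xor (r12 (T.tgt (c0.e j4))) (r14 (T.tgt (c0.e j4))) at h1
    rw [e2, e4, hr12.2.1 _ lS2, s2, hr14.2.1 _ lT4, t4, pvat_rule_const hT hc r1 r2 r4 hne hr12 _ lT4] at h1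
    exact bool3 _ _ h1

/-- **CONFIG5 FROM THREE RUNS**: one forward run, two backward runs, all to `c1`; the common vertices of two of them never have the colour `b` (`b` = the colour of the rim).  Then one of the two backward runs, stopped at `c2`, does not see the two other runs.
Plan: `pvat_rule` twice (`pvat_inside_trans`), `pvat_select`: `r12 (src x4) = b` or `r14 (src x2) = b`.   First case: a common vertex `v` of the run of `x4` and of the run of `x` (or `x2`) has `s v = r12 v` (rule) `= r12 (src x4) = b` (`pvat_rule_const`): against `d14` (`d24`).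
`PvatRun.shorten` (`h12.2`), `pvat_lay_mono`.   Second case: symmetric with `d12`, `d24`. -/
theorem pvat_cfg3 (hT : T.IsSph) {c0 c1 c2 : T.Cyc} (h12 : c1.Inside c2) (h20 : c2.Inside c0) {s : V → Bool} {x x2 x4 : D} {n1 n2 n4 : ℕ} (r1 : PvatRun T c0.Left c1.Left s x n1)
    (r2 : PvatRun T c0.Left c1.Left (pvasNot s) x2 n2) (r4 : PvatRun T c0.Left c1.Left (pvasNot s) x4 n4) (hne : x2 ≠ x4) (b : Bool)
    (d12 : ∀ v ∈ pvatLay T s x n1, v ∈ pvatLay T (pvasNot s) x2 n2 → s v ≠ b) (d14 : ∀ v ∈ pvatLay T s x n1, v ∈ pvatLay T (pvasNot s) x4 n4 → s v ≠ b)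
    (d24 : ∀ v ∈ pvatLay T (pvasNot s) x2 n2, v ∈ pvatLay T (pvasNot s) x4 n4 → s v ≠ b) :
    (∃ m, m ≤ n4 ∧ PvatCfg T c0 c1 c2 s x x2 x4 n1 n2 m) ∨ (∃ m, m ≤ n2 ∧ PvatCfg T c0 c1 c2 s x x4 x2 n1 n4 m) := by
  have hc10 : c1.Inside c0 := pvat_inside_trans hT h12 h20
  obtain ⟨r12, hr12⟩ := pvat_rule hT hc10 r1 r2
  obtain ⟨r14, hr14⟩ := pvat_rule hT hc10 r1 r4
  have hsel := pvat_select hT hc10 r1 r2 r4 hne hr12 hr14
  have bool1 : ∀ a a' b : Bool, a ≠ a' → a = b ∨ a' = b := by decide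
  rcases bool1 _ _ b hsel with hb | hb
  · left
    have hconst := pvat_rule_const hT hc10 r1 r2 r4 hne hr12
    obtain ⟨m, hm, hrun⟩ := r4.shorten h12.2 hc10.2
    refine ⟨m, hm, r1, r2, hrun, ?_, ?_⟩
    · rw [Set.disjoint_left]
      intro v hv4 hv1
      have hv4' := pvat_lay_mono (pvasNot s) x4 hm hv4
      exact d14 v hv1 hv4' (by rw [← hr12.1 v hv1, hconst v hv4', hb])
    · rw [Set.disjoint_left]
      intro v hv4 hv2
      have hv4' := pvat_lay_mono (pvasNot s) x4 hm hv4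
      exact d24 v hv2 hv4' (by rw [← hr12.2.1 v hv2, hconst v hv4', hb])
  · right
    have hconst := pvat_rule_const hT hc10 r1 r4 r2 hne.symm hr14
    obtain ⟨m, hm, hrun⟩ := r2.shorten h12.2 hc10.2
    refine ⟨m, hm, r1, r4, hrun, ?_, ?_⟩
    · rw [Set.disjoint_left]
      intro v hv2 hv1
      have hv2' := pvat_lay_mono (pvasNot s) x2 hm hv2
      exact d12 v hv1 hv2' (by rw [← hr14.1 v hv1, hconst v hv2', hb])
    · rw [Set.disjoint_left]
      intro v hv2 hv4
      have hv2' := pvat_lay_mono (pvasNot s) x2 hm hv2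
      exact d24 v hv2' hv4 (by rw [← hr14.2.1 v hv4, hconst v hv2', hb])

/-! ## 9. the sixth arm -/

variable (T) in
/-- FRESH ARM of colour `b` from the outer cycle to the closed disc of `c3`, off `S` -/
def PvatArm (c0 c3 : T.Cyc) (S : Set V) (b : Bool) (s : V → Bool) : Prop := ∃ a ∈ c0.verts, ∃ z ∈ T.VOf c3.Left, T.Join c0.Left {v | s v = b ∧ v ∉ S} a z

theorem pvat_trap_eqns_cite2 : True := by
  have := @PvatArm.eq_1
  trivial

theorem pvat_arm_not {c0 c3 : T.Cyc} {S : Set V} {b : Bool} {s : V → Bool} : PvatArm T c0 c3 S b (pvasNot s) ↔ PvatArm T c0 c3 S (!b) s := by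
  have e : {v | pvasNot s v = b ∧ v ∉ S} = {v | s v = (!b) ∧ v ∉ S} := by
    ext v
    simp only [Set.mem_ofPred_eq, pvasNot]
    cases s v <;> cases b <;> simp
  unfold PvatArm
  rw [e]

theorem pvat_arm_mono {c0 c3 c3' : T.Cyc} {S S' : Set V} {b : Bool} {s : V → Bool} (hc : c3.Left ⊆ c3'.Left) (hS : S' ⊆ S) (h : PvatArm T c0 c3 S b s) : PvatArm T c0 c3' S' b s := by
  obtain ⟨a, ha, z, ⟨d, hd, hz⟩, h1, h2⟩ := h
  exact ⟨a, ha, z, ⟨d, hc hd, hz⟩, ⟨h1.1, fun h => h1.2 (hS h)⟩,
    ReflTransGen.mono (fun u v huv => ⟨huv.1, huv.2.1, fun h => huv.2.2 (hS h)⟩) a z h2⟩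

/-- the arm depends on the colours off `S` only -/
theorem pvat_arm_congr {c0 c3 : T.Cyc} {S : Set V} {b : Bool} {s s' : V → Bool} (h : ∀ v, v ∉ S → s' v = s v) : PvatArm T c0 c3 S b s' ↔ PvatArm T c0 c3 S b s := by
  have e : {v | s' v = b ∧ v ∉ S} = {v | s v = b ∧ v ∉ S} := by
    ext v
    simp only [Set.mem_ofPred_eq]
    constructor
    · rintro ⟨h1, h2⟩
      exact ⟨by rw [← h v h2]; exact h1, h2⟩
    · rintro ⟨h1, h2⟩
      exact ⟨by rw [h v h2]; exact h1, h2⟩
  unfold PvatArm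
  rw [e]

/-- the source bank of a run is an arm.   Plan: `pvas_layB_join` (`i = n = m`) from `src y` (a vertex of `c0`: `pvat_ent_dart`) to `src (It m) ∈ VOf c.Left`; `pvasFc ⊆ c0.Left` (`pvas_fc_sub`); `pvas_layB_black`; monotonicity of `Join` by hand (`ReflTransGen.mono`). -/
theorem pvat_arm_B (hT : T.IsSph) {c0 c : T.Cyc} {s : V → Bool} {y : D} {m : ℕ} (h : PvatRun T c0.Left c.Left s y m) {S : Set V} (hS : Disjoint (pvasLayB T s y m) S) : PvatArm T c0 c S true s := by
  obtain ⟨i, -, hi⟩ := pvat_ent_dart hT c0 h.ent.1 h.ent.2.1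
  have hfc : pvasFc T s y m ⊆ c0.Left := pvas_fc_sub (pl_left_face c0) (fun i hi => (h.mid i hi).1)
  have hX : ∀ v ∈ pvasLayB T s y m, s v = true ∧ v ∉ S := fun v hv => ⟨pvas_layB_black h.ent.2.2 hv, Set.disjoint_left.1 hS hv⟩
  obtain ⟨j1, j2⟩ := pvas_layB_join s y (le_refl m)
  refine ⟨T.src y, ⟨i, by rw [hi]⟩, T.src (pvasIt T s y m), ⟨_, h.hit, rfl⟩, hX _ j1, ?_⟩
  refine ReflTransGen.mono (fun u v huv => ⟨?_, hX v huv.2⟩) _ _ j2
  obtain ⟨d, hd, e1, e2⟩ := huv.1
  exact ⟨d, hd.imp (fun h => hfc h) (fun h => hfc h), e1, e2⟩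

/-- the target bank of a run is an arm.   Plan: as `pvat_arm_B` with `pvas_layW_join`, `pvas_layW_white`; `tgt y` is a vertex of `c0` (`c0.chain`). -/
theorem pvat_arm_W (hT : T.IsSph) {c0 c : T.Cyc} {s : V → Bool} {y : D} {m : ℕ} (h : PvatRun T c0.Left c.Left s y m) {S : Set V} (hS : Disjoint (pvasLayW T s y m) S) : PvatArm T c0 c S false s := by
  obtain ⟨i, -, hi⟩ := pvat_ent_dart hT c0 h.ent.1 h.ent.2.1
  have hfc : pvasFc T s y m ⊆ c0.Left := pvas_fc_sub (pl_left_face c0) (fun i hi => (h.mid i hi).1)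
  have hX : ∀ v ∈ pvasLayW T s y m, s v = false ∧ v ∉ S := fun v hv => ⟨pvas_layW_white h.ent.2.2 hv, Set.disjoint_left.1 hS hv⟩
  obtain ⟨j1, j2⟩ := pvas_layW_join s y (le_refl m)
  refine ⟨T.tgt y, ⟨i + 1, by rw [← c0.chain i, hi]⟩, T.tgt (pvasIt T s y m), ⟨T.nxt (pvasIt T s y m), ((pl_left_face c) _).2 h.hit, rfl⟩, hX _ j1, ?_⟩
  refine ReflTransGen.mono (fun u v huv => ⟨?_, hX v huv.2⟩) _ _ j2
  obtain ⟨d, hd, e1, e2⟩ := huv.1
  exact ⟨d, hd.imp (fun h => hfc h) (fun h => hfc h), e1, e2⟩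

/-- **a circuit of the other colour (off `S`) blocks the arm**.   Plan: reverse the path (`EdgeIn` is symmetric: `opp`; the reversed path from `z` to `a` has all its vertices in the set, induction on `ReflTransGen`), `EdgeIn → Adj`; `z ∈ VOf c3.Left ⊆ VOf k.Left` (`pl_nested_vert`);
`pl_ann_cross hT hk0` gives a vertex of `k` of colour `b` off `S`. -/
theorem pvat_arm_block (hT : T.IsSph) {c0 c3 k : T.Cyc} (h3k : c3.Inside k) (hk0 : k.Inside c0) {S : Set V} {b : Bool} {s : V → Bool} (hk : ∀ v ∈ k.verts, v ∉ S → s v ≠ b) : ¬ PvatArm T c0 c3 S b s := by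
  rintro ⟨a, ha, z, hz, haX, hp⟩
  have key : z ∈ {v | s v = b ∧ v ∉ S} ∧ ReflTransGen (fun u v => T.Adj u v ∧ v ∈ {v | s v = b ∧ v ∉ S}) z a := by
    clear hz
    induction hp with
    | refl => exact ⟨haX, ReflTransGen.refl⟩
    | @tail y z _ hyz ih =>
      obtain ⟨⟨d, -, hd1, hd2⟩, hzX⟩ := hyz
      exact ⟨hzX, ReflTransGen.head ⟨T.adj_symm ⟨d, hd1, hd2⟩, ih.1⟩ ih.2⟩
  obtain ⟨v, hvX, hvk⟩ := pl_ann_cross hT hk0 ((pl_nested_vert hT k c3 h3k.2).1 hz) ha key.1 key.2
  exact hk v hvk hvX.2 hvX.1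

/-! ## 10. everything is a function of the explored data -/

/-- Plan: `pvas_it_congr`. -/
theorem pvat_it_congr {s s' : V → Bool} {x : D} {n : ℕ} (h : ∀ v ∈ pvatLay T s x n, s' v = s v) {k : ℕ} (hk : k ≤ n) : pvasIt T s' x k = pvasIt T s x k := by
  exact pvas_it_congr (fun v hv => h v hv) k hk

theorem pvat_lay_congr {s s' : V → Bool} {x : D} {n : ℕ} (h : ∀ v ∈ pvatLay T s x n, s' v = s v) : pvatLay T s' x n = pvatLay T s x n := by
  have e : ∀ k, k ≤ n → pvasIt T s' x k = pvasIt T s x k := pvas_it_congr (fun v hv => h v hv)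
  ext v
  constructor
  · rintro (⟨i, hi, rfl⟩ | ⟨i, hi, rfl⟩)
    · exact Or.inl ⟨i, hi, by rw [e i hi]⟩
    · exact Or.inr ⟨i, hi, by rw [e i hi]⟩
  · rintro (⟨i, hi, rfl⟩ | ⟨i, hi, rfl⟩)
    · exact Or.inl ⟨i, hi, by rw [e i hi]⟩
    · exact Or.inr ⟨i, hi, by rw [e i hi]⟩

theorem pvat_run_congr {B A : Set D} {s s' : V → Bool} {x : D} {n : ℕ} (h : ∀ v ∈ pvatLay T s x n, s' v = s v) : PvatRun T B A s' x n ↔ PvatRun T B A s x n := by
  have e : ∀ k, k ≤ n → pvasIt T s' x k = pvasIt T s x k := pvas_it_congr (fun v hv => h v hv)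
  have h0 : s' (T.src x) = s (T.src x) := h _ (Or.inl ⟨0, Nat.zero_le _, rfl⟩)
  have h1 : s' (T.tgt x) = s (T.tgt x) := h _ (Or.inr ⟨0, Nat.zero_le _, rfl⟩)
  constructor
  · rintro ⟨⟨a1, a2, a3, a4⟩, b, c⟩
    exact ⟨⟨a1, a2, by rw [← h0]; exact a3, by rw [← h1]; exact a4⟩, fun k hk => by rw [← e k hk.le]; exact b k hk, by rw [← e n le_rfl]; exact c⟩
  · rintro ⟨⟨a1, a2, a3, a4⟩, b, c⟩
    exact ⟨⟨a1, a2, by rw [h0]; exact a3, by rw [h1]; exact a4⟩, fun k hk => by rw [e k hk.le]; exact b k hk, by rw [e n le_rfl]; exact c⟩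

/-- the same for a backward run -/
theorem pvat_lay_congr_not {s s' : V → Bool} {x : D} {n : ℕ} (h : ∀ v ∈ pvatLay T (pvasNot s) x n, s' v = s v) : pvatLay T (pvasNot s') x n = pvatLay T (pvasNot s) x n := by
  exact pvat_lay_congr (s := pvasNot s) (s' := pvasNot s') (fun v hv => by show (!s' v) = !s v; rw [h v hv])

theorem pvat_run_congr_not {B A : Set D} {s s' : V → Bool} {x : D} {n : ℕ} (h : ∀ v ∈ pvatLay T (pvasNot s) x n, s' v = s v) : PvatRun T B A (pvasNot s') x n ↔ PvatRun T B A (pvasNot s) x n := by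
  exact pvat_run_congr (s := pvasNot s) (s' := pvasNot s') (fun v hv => by show (!s' v) = !s v; rw [h v hv])

/-- CONFIG5 is a function of the explored data -/
theorem pvat_cfg_congr {c0 c1 c2 : T.Cyc} {s s' : V → Bool} {x x2 x4 : D} {n1 n2 n4 : ℕ}
    (h : ∀ v ∈ pvatLay T s x n1 ∪ pvatLay T (pvasNot s) x2 n2 ∪ pvatLay T (pvasNot s) x4 n4, s' v = s v) : PvatCfg T c0 c1 c2 s' x x2 x4 n1 n2 n4 ↔ PvatCfg T c0 c1 c2 s x x2 x4 n1 n2 n4 := by
  have h1 : ∀ v ∈ pvatLay T s x n1, s' v = s v := fun v hv => h v (Or.inl (Or.inl hv))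
  have h2 : ∀ v ∈ pvatLay T (pvasNot s) x2 n2, s' v = s v := fun v hv => h v (Or.inl (Or.inr hv))
  have h4 : ∀ v ∈ pvatLay T (pvasNot s) x4 n4, s' v = s v := fun v hv => h v (Or.inr hv)
  have e1 := pvat_lay_congr h1
  have e2 := pvat_lay_congr_not h2
  have e4 := pvat_lay_congr_not h4
  constructor
  · rintro ⟨a, b, c, d, e⟩
    exact ⟨(pvat_run_congr h1).1 a, (pvat_run_congr_not h2).1 b, (pvat_run_congr_not h4).1 c, by rw [← e4, ← e1]; exact d, by rw [← e4, ← e2]; exact e⟩
  · rintro ⟨a, b, c, d, e⟩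
    exact ⟨(pvat_run_congr h1).2 a, (pvat_run_congr_not h2).2 b, (pvat_run_congr_not h4).2 c, by rw [e4, e1]; exact d, by rw [e4, e2]; exact e⟩

/-- the times of a run are determined -/
theorem PvatRun.time_eq {B A : Set D} {s : V → Bool} {x : D} {n n' : ℕ} (h : PvatRun T B A s x n) (h' : PvatRun T B A s x n') : n = n' := by
  rcases Nat.lt_trichotomy n n' with h1 | h1 | h1
  · exact absurd h.hit (h'.mid n h1).2
  · exact h1
  · exact absurd h'.hit (h.mid n' h1).2

/-- the layers of a run are finite -/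
theorem pvat_lay_finite (s : V → Bool) (x : D) (n : ℕ) : (pvatLay T s x n).Finite := by
  refine Set.Finite.union ?_ ?_
  · exact ((Set.finite_le_nat n).image (fun i => T.src (pvasIt T s x i))).subset (fun v ⟨i, hi, e⟩ => ⟨i, hi, e⟩)
  · exact ((Set.finite_le_nat n).image (fun i => T.tgt (pvasIt T s x i))).subset (fun v ⟨i, hi, e⟩ => ⟨i, hi, e⟩)

/-- the layers of a run lie in the closed outer disc -/
theorem pvat_lay_sub {B A : Set D} (hB : T.FaceSet B) (hAB : A ⊆ B) {s : V → Bool} {x : D} {n : ℕ} (h : PvatRun T B A s x n) : pvatLay T s x n ⊆ T.VOf B := by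
  rintro v (⟨i, hi, rfl⟩ | ⟨i, hi, rfl⟩)
  · exact ⟨_, h.mem hAB hi, rfl⟩
  · exact ⟨T.nxt (pvasIt T s x i), (hB _).2 (h.mem hAB hi), rfl⟩

/-! ## 11. SIX-DET (helper75): CONFIG6 from four runs / three excursions of ANY walls (no rim, no cyclic order)      consumers: WALL R-G of 208 (three strands through a pinch), A6 -/

/-- **two different backward runs have disjoint layers** (in the presence of a forward run). -/
theorem pvat_same_disj (hT : T.IsSph) {c0 c : T.Cyc} (hc : c.Inside c0) {s : V → Bool} {x x2 x4 : D} {n1 n2 n4 : ℕ} (r1 : PvatRun T c0.Left c.Left s x n1)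
    (r2 : PvatRun T c0.Left c.Left (pvasNot s) x2 n2) (r4 : PvatRun T c0.Left c.Left (pvasNot s) x4 n4) (hne : x2 ≠ x4) :
    Disjoint (pvatLay T (pvasNot s) x2 n2) (pvatLay T (pvasNot s) x4 n4) := by
  obtain ⟨r12, hr12⟩ := pvat_rule hT hc r1 r2
  obtain ⟨r14, hr14⟩ := pvat_rule hT hc r1 r4
  rw [Set.disjoint_left]
  intro v h2 h4
  have a1 : r12 v = r12 (T.src x4) := pvat_rule_const hT hc r1 r2 r4 hne hr12 v h4
  have a2 : r14 v = r14 (T.src x2) := pvat_rule_const hT hc r1 r4 r2 hne.symm hr14 v h2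
  have b1 : r12 v = s v := hr12.2.1 v h2
  have b2 : r14 v = s v := hr14.2.1 v h4
  exact pvat_select hT hc r1 r2 r4 hne hr12 hr14 (by rw [← a1, ← a2, b1, b2])

/-- core of `pvat_cfg4`: the backward runs `yi → ym → yk` -/
theorem pvat_cfg4_aux (hT : T.IsSph) {c0 c1 c2 : T.Cyc} (h12 : c1.Inside c2) (h20 : c2.Inside c0) {s ri rm rk : V → Bool} {x yi ym yk : D} {n ni nm nk : ℕ}
    (r : PvatRun T c0.Left c1.Left s x n) (qi : PvatRun T c0.Left c1.Left (pvasNot s) yi ni) (qm : PvatRun T c0.Left c1.Left (pvasNot s) ym nm)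
    (qk : PvatRun T c0.Left c1.Left (pvasNot s) yk nk) (him : yi ≠ ym) (hik : yi ≠ yk) (hmk : ym ≠ yk)
    (hri : PvatRule T c0.Left c1.Left s x n yi ni ri) (hrm : PvatRule T c0.Left c1.Left s x n ym nm rm) (hrk : PvatRule T c0.Left c1.Left s x n yk nk rk)
    (e1 : ri (T.src ym) = true) (e2 : rm (T.src yk) = true) :
    ∃ (x2 x4 : D) (n2 n4 : ℕ) (b : Bool), PvatCfg T c0 c1 c2 s x x2 x4 n n2 n4 ∧
      PvatArm T c0 c1 (pvatLay T s x n ∪ pvatLay T (pvasNot s) x2 n2 ∪ pvatLay T (pvasNot s) x4 n4) b s := by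
  have hc : c1.Inside c0 := pvat_inside_trans hT h12 h20
  have e3 : rk (T.src ym) = false := by
    have := pvat_select hT hc r qm qk hmk hrm hrk
    rw [e2] at this
    cases h : rk (T.src ym)
    · rfl
    · exact absurd h.symm this
  have e4 : rm (T.src yi) = false := by
    have := pvat_select hT hc r qi qm him hri hrm
    rw [e1] at this
    cases h : rm (T.src yi)
    · rfl
    · exact absurd h.symm this
  -- the middle run does not see `x`
  have dmx : Disjoint (pvatLay T (pvasNot s) ym nm) (pvatLay T s x n) := by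
    rw [Set.disjoint_left]
    intro v hm hx
    have a1 : ri v = true := (pvat_rule_const hT hc r qi qm him hri v hm).trans e1
    have a2 : rk v = false := (pvat_rule_const hT hc r qk qm hmk.symm hrk v hm).trans e3
    have b1 : ri v = s v := hri.1 v hx
    have b2 : rk v = s v := hrk.1 v hx
    rw [b1] at a1
    rw [b2, a1] at a2
    exact Bool.noConfusion a2
  have dmk : Disjoint (pvatLay T (pvasNot s) ym nm) (pvatLay T (pvasNot s) yk nk) := pvat_same_disj hT hc r qm qk hmk
  have dim : Disjoint (pvatLay T (pvasNot s) yi ni) (pvatLay T (pvasNot s) ym nm) := pvat_same_disj hT hc r qi qm him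
  have dik : Disjoint (pvatLay T (pvasNot s) yi ni) (pvatLay T (pvasNot s) yk nk) := pvat_same_disj hT hc r qi qk hik
  obtain ⟨m, hm, qm'⟩ := qm.shorten h12.2 hc.2
  have hsub : pvatLay T (pvasNot s) ym m ⊆ pvatLay T (pvasNot s) ym nm := pvat_lay_mono _ _ hm
  refine ⟨yk, ym, nk, m, true, ⟨r, qk, qm', dmx.mono_left hsub, dmk.mono_left hsub⟩, ?_⟩
  -- the black bank of `yi` = the target bank for `pvasNot s`
  have hW : Disjoint (pvasLayW T (pvasNot s) yi ni) (pvatLay T s x n ∪ pvatLay T (pvasNot s) yk nk ∪ pvatLay T (pvasNot s) ym m) := by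
    rw [Set.disjoint_left]
    rintro v hv ((hx | hk) | hm')
    · have a1 : rm v = false := (pvat_rule_const hT hc r qm qi him.symm hrm v (Or.inr hv)).trans e4
      have b1 : rm v = s v := hrm.1 v hx
      have c1' : pvasNot s v = false := pvas_layW_white qi.ent.2.2 hv
      have : s v = true := by
        have : (!s v) = false := c1'
        simpa using this
      rw [b1, this] at a1
      exact Bool.noConfusion a1
    · exact Set.disjoint_left.1 dik (Or.inr hv) hk
    · exact Set.disjoint_left.1 dim (Or.inr hv) (hsub hm')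
  have := pvat_arm_W hT qi hW
  rw [pvat_arm_not] at this
  simpa using this

/-- **SIX-DET = CONFIG6 FROM FOUR RUNS, ANY WALLS**: one forward run and three different backward runs to `c1`.   No rim, no cyclic order.
The three rules `r_j` of `(x, y_j)` define a tournament (`j → l` iff `r_j (src y_l) = true`, `pvat_select`); a tournament on three points has a point `m` with `i → m → k`: the run of `y_m` sees `x` neither in white nor in black. -/
theorem pvat_cfg4 (hT : T.IsSph) {c0 c1 c2 : T.Cyc} (h12 : c1.Inside c2) (h20 : c2.Inside c0) {s : V → Bool} {x y1 y2 y3 : D} {n m1 m2 m3 : ℕ}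
    (r : PvatRun T c0.Left c1.Left s x n) (q1 : PvatRun T c0.Left c1.Left (pvasNot s) y1 m1) (q2 : PvatRun T c0.Left c1.Left (pvasNot s) y2 m2)
    (q3 : PvatRun T c0.Left c1.Left (pvasNot s) y3 m3) (d12 : y1 ≠ y2) (d13 : y1 ≠ y3) (d23 : y2 ≠ y3) :
    ∃ (x2 x4 : D) (n2 n4 : ℕ) (b : Bool), PvatCfg T c0 c1 c2 s x x2 x4 n n2 n4 ∧
      PvatArm T c0 c1 (pvatLay T s x n ∪ pvatLay T (pvasNot s) x2 n2 ∪ pvatLay T (pvasNot s) x4 n4) b s := by
  have hc : c1.Inside c0 := pvat_inside_trans hT h12 h20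
  obtain ⟨r1, hr1⟩ := pvat_rule hT hc r q1
  obtain ⟨r2, hr2⟩ := pvat_rule hT hc r q2
  obtain ⟨r3, hr3⟩ := pvat_rule hT hc r q3
  have s12 := pvat_select hT hc r q1 q2 d12 hr1 hr2
  have s13 := pvat_select hT hc r q1 q3 d13 hr1 hr3
  have s23 := pvat_select hT hc r q2 q3 d23 hr2 hr3
  cases a12 : r1 (T.src y2) <;> cases a21 : r2 (T.src y1) <;> cases a13 : r1 (T.src y3) <;> cases a31 : r3 (T.src y1) <;>
    cases a23 : r2 (T.src y3) <;> cases a32 : r3 (T.src y2) <;> simp only [a12, a21, a13, a31, a23, a32, ne_eq, not_true_eq_false, reduceCtorEq, not_false_eq_true] at s12 s13 s23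
  -- 2→1, 3→1, 3→2 : 3 → 2 → 1
  · exact pvat_cfg4_aux hT h12 h20 r q3 q2 q1 d23.symm d13.symm d12.symm hr3 hr2 hr1 a32 a21
  -- 2→1, 3→1, 2→3 : 2 → 3 → 1
  · exact pvat_cfg4_aux hT h12 h20 r q2 q3 q1 d23 d12.symm d13.symm hr2 hr3 hr1 a23 a31
  -- 2→1, 1→3
  · exact pvat_cfg4_aux hT h12 h20 r q2 q1 q3 d12.symm d23 d13 hr2 hr1 hr3 a21 a13
  · exact pvat_cfg4_aux hT h12 h20 r q2 q1 q3 d12.symm d23 d13 hr2 hr1 hr3 a21 a13
  -- 1→2, 3→1 : 3 → 1 → 2
  · exact pvat_cfg4_aux hT h12 h20 r q3 q1 q2 d13.symm d23.symm d12 hr3 hr1 hr2 a31 a12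
  · exact pvat_cfg4_aux hT h12 h20 r q3 q1 q2 d13.symm d23.symm d12 hr3 hr1 hr2 a31 a12
  -- 1→2, 1→3, 3→2 : 1 → 3 → 2
  · exact pvat_cfg4_aux hT h12 h20 r q1 q3 q2 d13 d12 d23.symm hr1 hr3 hr2 a13 a32
  -- 1→2, 2→3
  · exact pvat_cfg4_aux hT h12 h20 r q1 q2 q3 d12 d13 d23 hr1 hr2 hr3 a12 a23

/-- **the way back**: a forward run to `A` comes with the backward run from the exit of its strand -/
theorem pvat_back_run {B A : Set D} (hB : T.FaceSet B) (hA : T.FaceSet A) (hfin : B.Finite) (hAB : A ⊆ B) {s : V → Bool} {x : D} {n : ℕ} (h : PvatRun T B A s x n) :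
    ∃ n', PvatRun T B A (pvasNot s) (T.opp (pvasExit T B s x)) n' := by
  classical
  obtain ⟨h1, h2, h3⟩ := pvas_exit_spec hB hfin h.ent
  obtain ⟨hin, hN, -⟩ := pvas_exit_rev hB hfin h.ent
  have hrev : ∀ i, i ≤ pvasHit T s x Bᶜ → pvasIt T (pvasNot s) (T.opp (pvasExit T B s x)) i = T.opp (pvasIt T s x (pvasHit T s x Bᶜ - i)) :=
    fun i hi => pvas_it_rev h.ent.2.2 hi
  have hlt : n < pvasHit T s x Bᶜ := by
    by_contra hcon
    exact h3.1 (h.mem hAB (not_lt.1 hcon))
  have hex : ∃ k, pvasIt T (pvasNot s) (T.opp (pvasExit T B s x)) k ∈ A := by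
    refine ⟨pvasHit T s x Bᶜ - (n + 1), ?_⟩
    rw [hrev _ (Nat.sub_le _ _)]
    have : pvasHit T s x Bᶜ - (pvasHit T s x Bᶜ - (n + 1)) = n + 1 := by omega
    rw [this, pvas_it_succ, pvas_step_opp_mem hA]
    exact h.hit
  have hle : Nat.find hex ≤ pvasHit T s x Bᶜ - (n + 1) := by
    refine Nat.find_min' hex ?_
    rw [hrev _ (Nat.sub_le _ _)]
    have : pvasHit T s x Bᶜ - (pvasHit T s x Bᶜ - (n + 1)) = n + 1 := by omega
    rw [this, pvas_it_succ, pvas_step_opp_mem hA]
    exact h.hit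
  refine ⟨Nat.find hex, hin, fun k hk => ⟨?_, Nat.find_min hex hk⟩, Nat.find_spec hex⟩
  have hkN : k < pvasHit T s x Bᶜ := by omega
  rw [hrev k hkN.le]
  obtain ⟨κ, hκ⟩ : ∃ κ, pvasHit T s x Bᶜ - k = κ + 1 := ⟨pvasHit T s x Bᶜ - k - 1, by omega⟩
  rw [hκ, pvas_it_succ, pvas_step_opp_mem hB]
  exact h2 κ (by omega)

/-- **THREE EXCURSIONS ⟹ CONFIG6** (any walls): three different strands of the big disc which reach the small one. -/
theorem pvat_cfg6_three (hT : T.IsSph) {c0 c1 c2 : T.Cyc} (hfin : c0.Left.Finite) (h12 : c1.Inside c2) (h20 : c2.Inside c0) {s : V → Bool} {x1 x2 x3 : D} {n1 n2 n3 : ℕ}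
    (r1 : PvatRun T c0.Left c1.Left s x1 n1) (r2 : PvatRun T c0.Left c1.Left s x2 n2) (r3 : PvatRun T c0.Left c1.Left s x3 n3) (d12 : x1 ≠ x2) (d13 : x1 ≠ x3) (d23 : x2 ≠ x3) :
    ∃ (y2 y4 : D) (m2 m4 : ℕ) (b : Bool), PvatCfg T c0 c1 c2 s x1 y2 y4 n1 m2 m4 ∧
      PvatArm T c0 c1 (pvatLay T s x1 n1 ∪ pvatLay T (pvasNot s) y2 m2 ∪ pvatLay T (pvasNot s) y4 m4) b s := by
  have hc : c1.Inside c0 := pvat_inside_trans hT h12 h20
  have hB := pl_left_face c0
  have hA := pl_left_face c1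
  obtain ⟨m1, q1⟩ := pvat_back_run hB hA hfin hc.2 r1
  obtain ⟨m2, q2⟩ := pvat_back_run hB hA hfin hc.2 r2
  obtain ⟨m3, q3⟩ := pvat_back_run hB hA hfin hc.2 r3
  have hinj := (pvas_exit_bij hB hfin s).injOn
  have ne : ∀ {a b : D}, pvasIn T c0.Left s a → pvasIn T c0.Left s b → a ≠ b → T.opp (pvasExit T c0.Left s a) ≠ T.opp (pvasExit T c0.Left s b) :=
    fun ha hb hab e => hab (hinj ha hb (T.opp_injective e))
  exact pvat_cfg4 hT h12 h20 r1 q1 q2 q3 (ne r1.ent r2.ent d12) (ne r1.ent r3.ent d13) (ne r2.ent r3.ent d23)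

end Claimed.Agent.R289
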