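-- KEEP
import Claimed.Agent.R289.Arm.Ret
import Claimed.Agent.R289.Arm.Trap

/-!
# Row 289 (S0537), box ARM, file Arm/Cover : COVERING = near return of a rim ⟹ the configurations of the five/six-arm count      (helper84; prefix `pvcv_`)

Blueprint: `origin/helper241:notes/R289/ARM_241.md` v3 sec.7.   BB, (N) FROM A RIM and the extraction of the four stopped strands are in `Arm/Ret` (`ar5_pinch`, `ar5_enum`, `ar5_rim_strands`, `ar5_quad`), in the vocabulary `wnx / XStr` of `Pl/Wall`.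
This file is the ADAPTOR to the vocabulary of `Arm/Strand` (158) and `Arm/Trap` (249):

* sec.1  `pvasStep T s' = T.wpv s` on the darts which are black-white for `s' = s` or `s' = pvasNot s`;   a crossing strand `σ : T.XStr s c' c` read backwards from its last dart `σ.d σ.N` (an ENTRANCE of `c.Left`, a dart of `c`) is a strand of 158: `pvasIt T s' (σ.d σ.N) j = σ.d (σ.N - j)`.
* sec.2  RUNS: for every face set `A ⊇ c'.Left` the strand stopped at `A` is a `PvatRun T c.Left A s' (σ.d σ.N) n`, `n ≤ σ.N`, its layers are parts of the layers of `σ`.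
* sec.3  **`pvcv_four`** (form of ARM_241 v3: E6_b): near return of a BLACK rim ⟹ two entrances of type BW and two entrances of type WB reaching `c'.Left`, the four black layers pairwise disjoint.
         **`pvcv_cfg`** (form of `PvatCfg`, both colours): near return ⟹ `PvatCfg` + a fresh monochromatic arm.
-/

set_option autoImplicit false

namespace Claimed.Agent.R289

open Relation

variable {V D : Type} {T : PvMap V D} {s : V → Bool}

/-! ## 1. The two vocabularies of strands -/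

theorem pvcv_step_eq {d : D} (h : pvasBW T s d) : pvasStep T s d = T.wpv s d := by
  classical
  obtain ⟨h1, h2⟩ := h
  unfold pvasStep PvMap.wpv
  have e : T.Occ s (T.nxt d) ↔ s (T.apex d) = true := by
    unfold PvMap.Occ PvMap.tgt PvMap.apex
    have h2' : s (T.src (T.nxt d)) = false := h2
    rw [h2']
    cases s (T.src (T.nxt (T.nxt d))) <;> simp
  by_cases ha : s (T.apex d) = true
  · rw [if_pos ha, if_pos (e.2 ha)]
  · rw [if_neg ha, if_neg (fun h' => ha (e.1 h'))]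

theorem pvcv_occ_not (s : V → Bool) (e : D) : T.Occ (pvasNot s) e ↔ T.Occ s e := by
  unfold PvMap.Occ pvasNot
  cases s (T.src e) <;> cases s (T.tgt e) <;> simp

theorem pvcv_wpv_not (s : V → Bool) (e : D) : T.wpv (pvasNot s) e = T.wpv s e := by
  classical
  unfold PvMap.wpv
  by_cases h : T.Occ s (T.nxt e)
  · rw [if_pos h, if_pos ((pvcv_occ_not s _).2 h)]
  · rw [if_neg h, if_neg (fun h' => h ((pvcv_occ_not s _).1 h'))]

theorem pvcv_wnx_not (s : V → Bool) (e : D) : T.wnx (pvasNot s) e = T.wnx s e := by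
  classical
  unfold PvMap.wnx
  by_cases h : T.Occ s (T.nxt (T.opp e))
  · rw [if_pos h, if_pos ((pvcv_occ_not s _).2 h)]
  · rw [if_neg h, if_neg (fun h' => h ((pvcv_occ_not s _).1 h'))]

/-- `s'` is `s` or `pvasNot s` -/
def PvcvTw (s s' : V → Bool) : Prop := s' = s ∨ s' = pvasNot s

theorem pvcv_eqns_cite : True := by
  have := @PvcvTw.eq_1
  trivial

theorem pvcv_step_tw {s' : V → Bool} (hs : PvcvTw s s') {d : D} (h : pvasBW T s' d) : pvasStep T s' d = T.wpv s d := by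
  rcases hs with rfl | rfl
  · exact pvcv_step_eq h
  · rw [pvcv_step_eq h, pvcv_wpv_not]

variable {c' c : T.Cyc}

/-- the darts of a crossing strand are black-white for `s` (black sources) or for `pvasNot s` (white sources) -/
theorem pvcv_x_bw (σ : T.XStr s c' c) (k : ℕ) : (s (T.src σ.e) = true → pvasBW T s (σ.d k)) ∧ (s (T.src σ.e) = false → pvasBW T (pvasNot s) (σ.d k)) := by
  have ho := ar5_x_occ σ k
  have hc := ar5_x_src_col σ k
  unfold PvMap.Occ at ho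
  constructor
  · intro h
    rw [h] at hc
    refine ⟨hc, ?_⟩
    rw [hc] at ho
    cases ht : s (T.tgt (σ.d k))
    · rfl
    · exact absurd ht.symm ho
  · intro h
    rw [h] at hc
    rw [hc] at ho
    refine ⟨by simp [pvasNot, hc], ?_⟩
    cases ht : s (T.tgt (σ.d k))
    · exact absurd ht.symm ho
    · simp [pvasNot, ht]

/-- a crossing strand read backwards from its last dart is a strand of `Arm/Strand` (`ar5_x_succ`, `pl_w_pv_nx`, `pvcv_step_tw`) -/
theorem pvcv_it (σ : T.XStr s c' c) {s' : V → Bool} (hs : PvcvTw s s') (hbw : ∀ k, pvasBW T s' (σ.d k)) {j : ℕ} (hj : j ≤ σ.N) :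
    pvasIt T s' (σ.d σ.N) j = σ.d (σ.N - j) := by
  induction j with
  | zero => rfl
  | succ j ih =>
    rw [pvas_it_succ, ih (by omega), pvcv_step_tw hs (hbw _)]
    have e : σ.N - j = (σ.N - (j + 1)) + 1 := by omega
    rw [e, ar5_x_succ, pl_w_pv_nx s (ar5_x_occ σ _)]

/-- the last dart is a dart of the outer cycle -/
theorem pvcv_x_last (hT : T.IsSph) (h : c'.Inside c) (σ : T.XStr s c' c) : ∃ i, i < c.n ∧ σ.d σ.N = c.e i := by
  have hN := ar5_x_N_pos hT h σ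
  have h1 : σ.d σ.N ∈ c.Left := (ar5_x_mem_ann σ hN le_rfl).1
  have h2 : T.opp (σ.d σ.N) ∉ c.Left := by
    have := σ.hN
    rw [(pl_jordan hT c).1] at this
    exact this
  rcases pl_left_bd_sub c (fun hb => h2 (hb.1 h1)) with ⟨i, hi⟩ | ⟨i, hi⟩
  · exact ⟨i % c.n, Nat.mod_lt _ (pl_cyc_pos c), by rw [pl_cyc_mod, hi]⟩
  · exact absurd (hi ▸ (pl_jordan hT c).2.1 i) h2

/-! ## 2. Runs -/

/-- the last dart of a crossing strand is an entrance of `c.Left` -/
theorem pvcv_ent (hT : T.IsSph) (h : c'.Inside c) (σ : T.XStr s c' c) {s' : V → Bool} (hbw : pvasBW T s' (σ.d σ.N)) : pvasIn T c.Left s' (σ.d σ.N) := by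
  refine ⟨(ar5_x_mem_ann σ (ar5_x_N_pos hT h σ) le_rfl).1, ?_, hbw⟩
  have := σ.hN
  rw [(pl_jordan hT c).1] at this
  exact this

/-- **the strand stopped at `A ⊇ c'.Left`** (`n` = the first `j` with `σ.d (N - j) ∈ A`, `Nat.find`) -/
theorem pvcv_run (hT : T.IsSph) (h : c'.Inside c) (σ : T.XStr s c' c) {s' : V → Bool} (hs : PvcvTw s s') (hbw : ∀ k, pvasBW T s' (σ.d k)) {A : Set D} (hA : c'.Left ⊆ A) :
    ∃ n, n ≤ σ.N ∧ PvatRun T c.Left A s' (σ.d σ.N) n ∧ pvasLayB T s' (σ.d σ.N) n ⊆ σ.srcL ∧ pvasLayW T s' (σ.d σ.N) n ⊆ σ.tgtL := by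
  classical
  have hN := ar5_x_N_pos hT h σ
  have hex : ∃ j, σ.d (σ.N - j) ∈ A := ⟨σ.N, by rw [Nat.sub_self]; exact hA σ.h0⟩
  have hn : Nat.find hex ≤ σ.N := Nat.find_min' hex (by rw [Nat.sub_self]; exact hA σ.h0)
  refine ⟨Nat.find hex, hn, ⟨pvcv_ent hT h σ (hbw _), fun k hk => ?_, ?_⟩, ?_, ?_⟩
  · rw [pvcv_it σ hs hbw (by omega)]
    exact ⟨(ar5_x_mem_ann σ (by omega) (Nat.sub_le _ _)).1, Nat.find_min hex hk⟩
  · rw [pvcv_it σ hs hbw hn]
    exact Nat.find_spec hex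
  · rintro v ⟨i, hi, rfl⟩
    rw [pvcv_it σ hs hbw (by omega)]
    exact ⟨_, Nat.sub_le _ _, rfl⟩
  · rintro v ⟨i, hi, rfl⟩
    rw [pvcv_it σ hs hbw (by omega)]
    exact ⟨_, Nat.sub_le _ _, rfl⟩

/-- the run to `c'.Left` itself sees the whole strand -/
theorem pvcv_run_full (hT : T.IsSph) (h : c'.Inside c) (σ : T.XStr s c' c) {s' : V → Bool} (hs : PvcvTw s s') (hbw : ∀ k, pvasBW T s' (σ.d k)) :
    PvatRun T c.Left c'.Left s' (σ.d σ.N) σ.N ∧ pvasLayB T s' (σ.d σ.N) σ.N = σ.srcL ∧ pvasLayW T s' (σ.d σ.N) σ.N = σ.tgtL := by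
  refine ⟨⟨pvcv_ent hT h σ (hbw _), fun k hk => ?_, ?_⟩, ?_, ?_⟩
  · rw [pvcv_it σ hs hbw hk.le]
    exact ar5_x_mem_ann σ (by omega) (Nat.sub_le _ _)
  · rw [pvcv_it σ hs hbw le_rfl, Nat.sub_self]
    exact σ.h0
  · ext v
    constructor
    · rintro ⟨i, hi, rfl⟩
      rw [pvcv_it σ hs hbw hi]
      exact ⟨_, Nat.sub_le _ _, rfl⟩
    · rintro ⟨k, hk, rfl⟩
      exact ⟨σ.N - k, Nat.sub_le _ _, by rw [pvcv_it σ hs hbw (Nat.sub_le _ _), Nat.sub_sub_self hk]⟩
  · ext v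
    constructor
    · rintro ⟨i, hi, rfl⟩
      rw [pvcv_it σ hs hbw hi]
      exact ⟨_, Nat.sub_le _ _, rfl⟩
    · rintro ⟨k, hk, rfl⟩
      exact ⟨σ.N - k, Nat.sub_le _ _, by rw [pvcv_it σ hs hbw (Nat.sub_le _ _), Nat.sub_sub_self hk]⟩

/-! ## 3. Covering -/

/-- **COVERING, form of ARM_241 v3**: four entrances `x₁ x₂` (type BW: strands of `s`) and `y₁ y₂` (type WB: strands of `pvasNot s`) of `c.Left` reaching `c'.Left`; the layers of the colour `b` of the rim are pairwise disjoint.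
For `b = true` (black rim) they are `LayB` of `x₁ x₂` and `LayW` (for `pvasNot s`) of `y₁ y₂`.   The stopped strands `sig(e, D)`, `D ⊇ c'.Left`, are initial pieces (`pvcv_run`). -/
theorem pvcv_four (hT : T.IsSph) (h : c'.Inside c) (hNR : T.NearRet s c' c) :
    ∃ (b : Bool) (X₁ X₂ Y₁ Y₂ : T.XStr s c' c), s (T.src X₁.e) = true ∧ s (T.src X₂.e) = true ∧ s (T.src Y₁.e) = false ∧ s (T.src Y₂.e) = false ∧
      Disjoint (X₁.lay b) (X₂.lay b) ∧ Disjoint (X₁.lay b) (Y₁.lay b) ∧ Disjoint (X₁.lay b) (Y₂.lay b) ∧ Disjoint (X₂.lay b) (Y₁.lay b) ∧ Disjoint (X₂.lay b) (Y₂.lay b) ∧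
      Disjoint (Y₁.lay b) (Y₂.lay b) := by
  obtain ⟨b, σ, hσ, h0, h1, h2, h3⟩ := ar5_rim_strands hT h hNR
  cases b with
  | true =>
    exact ⟨true, σ 1, σ 3, σ 0, σ 2, h1, h3, h0, h2, hσ 1 3 (by decide), hσ 1 0 (by decide), hσ 1 2 (by decide), hσ 3 0 (by decide), hσ 3 2 (by decide),
      hσ 0 2 (by decide)⟩
  | false =>
    exact ⟨false, σ 0, σ 2, σ 1, σ 3, h0, h2, h1, h3, hσ 0 2 (by decide), hσ 0 1 (by decide), hσ 0 3 (by decide), hσ 2 1 (by decide), hσ 2 3 (by decide),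
      hσ 1 3 (by decide)⟩

/-- **COVERING, form of `PvatCfg`** (both colours) + the fresh arm `a`: monochromatic, joins the two cycles in the closed annulus, avoids the three explored strands -/
theorem pvcv_cfg (hT : T.IsSph) {c0 c1 c2 : T.Cyc} (h10 : c1.Inside c0) (h12 : c1.Left ⊆ c2.Left) (hNR : T.NearRet s c1 c0) :
    ∃ (x x2 x4 : D) (n1 n2 n4 : ℕ), PvatCfg T c0 c1 c2 s x x2 x4 n1 n2 n4 ∧
      ∃ (b : Bool) (a : Set V), (∀ v ∈ a, s v = b) ∧ (∃ u ∈ c1.verts, ∃ w ∈ c0.verts, T.Join (c1.Ann c0) a u w) ∧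
        Disjoint a (pvatLay T s x n1 ∪ pvatLay T (pvasNot s) x2 n2 ∪ pvatLay T (pvasNot s) x4 n4) := by
  obtain ⟨b, X, Y, Z, R, hX, hY, hZ, dZX, dZY, dR⟩ := ar5_quad hT h10 hNR
  have bX : ∀ k, pvasBW T s (X.d k) := fun k => (pvcv_x_bw X k).1 hX
  have bY : ∀ k, pvasBW T (pvasNot s) (Y.d k) := fun k => (pvcv_x_bw Y k).2 hY
  have bZ : ∀ k, pvasBW T (pvasNot s) (Z.d k) := fun k => (pvcv_x_bw Z k).2 hZ
  obtain ⟨r1, x1, x2⟩ := pvcv_run_full hT h10 X (Or.inl rfl) bX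
  obtain ⟨r2, y1, y2⟩ := pvcv_run_full hT h10 Y (Or.inr rfl) bY
  obtain ⟨n4, -, r4, z1, z2⟩ := pvcv_run hT h10 Z (Or.inr rfl) bZ h12
  have eX : pvatLay T s (X.d X.N) X.N = X.L := by unfold pvatLay PvMap.XStr.L; rw [x1, x2]
  have eY : pvatLay T (pvasNot s) (Y.d Y.N) Y.N = Y.L := by unfold pvatLay PvMap.XStr.L; rw [y1, y2]
  have eZ : pvatLay T (pvasNot s) (Z.d Z.N) n4 ⊆ Z.L := Set.union_subset_union z1 z2
  refine ⟨X.d X.N, Y.d Y.N, Z.d Z.N, X.N, Y.N, n4, ⟨r1, r2, r4, ?_, ?_⟩, b, R.lay b, fun v hv => hv.1, ar5_x_lay_join hT h10 R b, ?_⟩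
  · rw [eX]; exact dZX.mono_left eZ
  · rw [eY]; exact dZY.mono_left eZ
  · rw [eX, eY]
    exact dR.mono_right (Set.union_subset_union_right _ eZ)

end Claimed.Agent.R289
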