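import Claimed.Agent.R289.Arm.Stop

/-!
# Row 289 (S0537, Cardy for Poisson-Voronoi), box ARM, block A2, file Arm/Cut : SUCCESSIVE EXTREMAL ARMS IN SET FORM      (owner helper89; architect of ARM helper241; prefix `pvac_`, defs `pvac…` / `Pvac…`)

Paper: Lemma 2.5 (ordered colours in a rectangle), the special BK of L2.6 / S5 / S6 / S7, (S1) of `origin/helper241:notes/R289/S2_241.md` v2.      NO planarity, NO leftmost PATH, no "the part on the right is again a disc".
`R : PvacRec V` = a bare finite graph `(adj, X)` with two sets `Lf`, `Rt` (the two long sides of the rectangle / the two banks of the slit of an annulus).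
STAGE with explored set `S` and colour `c`:
* `pvacU R S c ω` = `S` + the vertices of `X \ S` of colour `!c` joined to `Lf ∪ S` through such vertices;
* `pvacB R S c ω` = the vertices of `X \ U` which lie in `Lf` or are adjacent to `U`: all of colour `c`: THE ARM, as a cut set;      `pvacN = U ∪ B` = the next explored set (a stopping set).
* `PvacOk R (c :: σ) S ω := Disjoint U Rt ∧ PvacOk R σ (U ∪ B) ω`.
RESULTS
* **`pvac_switch`**   (L2.5) if the vertices of `X \ S` are fresh, `pvaP A ξ (PvacOk R σ S)` depends only on the length of `σ`;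
* **`pvac_submult`**  `P(Ok (σ ++ τ)) ≤ P(Ok τ) · P(Ok σ)` (ordered BK, ANY colours);      `pvac_ok_one`: `Ok [c] ∅` = no path of colour `!c` from `Lf` to `Rt`;      **`pvac_pow`**: `P(Ok σ) ≤ (1 - q) ^ |σ|`;
* **`pvac_ok_iff`**   `Ok σ S ω ↔` there is a family of monochromatic sets `Γ₁, …, Γ_k` of colours `σ`, SEPARATION-ORDERED (`PvacFam`);      `pvac_fam_of_flat`: the flat form of the order (`PvacFlat`):
                      the vertices reached from `Lf ∪ S ∪ Γ_{<j}` off `Γ_j` miss `Rt` and `Γ_{>j}`.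
-/

set_option autoImplicit false
set_option linter.unusedSectionVars false
set_option linter.unusedVariables false

namespace Claimed.Agent.R289

open Finset Relation

variable {V : Type} [DecidableEq V]

/-! ## 0. definitions -/

/-- a bare finite rectangle: graph `(adj, X)`, left side, right side -/
structure PvacRec (V : Type) where
  adj : V → V → Prop
  X : Finset V
  Lf : Finset V
  Rt : Finset V

variable (R : PvacRec V)

/-- seed: a vertex of `X` with `P`, on the left side or adjacent to `S` -/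
def PvacSd (S : Finset V) (P : V → Prop) (u : V) : Prop := u ∈ R.X ∧ P u ∧ (u ∈ R.Lf ∨ ∃ s ∈ S, R.adj s u)

/-- step to a vertex of `X` with `P` -/
def PvacSt (P : V → Prop) (a b : V) : Prop := R.adj a b ∧ b ∈ R.X ∧ P b

open Classical in
/-- closure: `S` + the vertices joined to `Lf ∪ S` through vertices of `X` with `P` -/
noncomputable def pvacCl (S : Finset V) (P : V → Prop) : Finset V :=
  S ∪ R.X.filter (fun v => ∃ u, PvacSd R S P u ∧ ReflTransGen (PvacSt R P) u v)

open Classical in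
/-- outer boundary of `U` (the left side counts as adjacent to `U`) -/
noncomputable def pvacBd (U : Finset V) : Finset V := R.X.filter (fun v => v ∉ U ∧ (v ∈ R.Lf ∨ ∃ u ∈ U, R.adj u v))

/-- explored set + cluster of colour `!c` -/
noncomputable def pvacU (S : Finset V) (c : Bool) (ω : V → Bool) : Finset V := pvacCl R S (fun v => v ∉ S ∧ ω v = !c)

/-- the arm of colour `c`, as a cut set -/
noncomputable def pvacB (S : Finset V) (c : Bool) (ω : V → Bool) : Finset V := pvacBd R (pvacU R S c ω)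

/-- the next explored set -/
noncomputable def pvacN (S : Finset V) (c : Bool) (ω : V → Bool) : Finset V := pvacU R S c ω ∪ pvacB R S c ω

/-- the explored set after the stages `σ` -/
noncomputable def pvacRun : List Bool → Finset V → (V → Bool) → Finset V
  | [], S, _ => S
  | c :: σ, S, ω => pvacRun σ (pvacN R S c ω) ω

/-- the stages `σ` succeed: successive arms of colours `σ`, from the left to the right -/
def PvacOk : List Bool → Finset V → (V → Bool) → Prop
  | [], _, _ => True
  | c :: σ, S, ω => Disjoint (pvacU R S c ω) R.Rt ∧ PvacOk σ (pvacN R S c ω) ω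

/-- the arms found by the stages -/
noncomputable def pvacArms : List Bool → Finset V → (V → Bool) → List (Bool × Finset V)
  | [], _, _ => []
  | c :: σ, S, ω => (c, pvacB R S c ω) :: pvacArms σ (pvacN R S c ω) ω

/-- separation-ordered family of monochromatic sets, recursive form -/
def PvacFam (ω : V → Bool) : List (Bool × Finset V) → Finset V → Prop
  | [], _ => True
  | p :: l, S => (∀ v ∈ p.2, ω v = p.1) ∧ Disjoint p.2 S ∧ Disjoint (pvacCl R S (fun v => v ∉ p.2)) R.Rt ∧
      PvacFam ω l (pvacCl R S (fun v => v ∉ p.2) ∪ p.2)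

/-- separation-ordered family, flat form: `Q` = explored set + the earlier arms -/
def PvacFlat (ω : V → Bool) : List (Bool × Finset V) → Finset V → Prop
  | [], _ => True
  | p :: l, Q => (∀ v ∈ p.2, ω v = p.1) ∧ Disjoint p.2 Q ∧ Disjoint (pvacCl R Q (fun v => v ∉ p.2)) R.Rt ∧
      (∀ r ∈ l, Disjoint (pvacCl R Q (fun v => v ∉ p.2)) r.2) ∧ PvacFlat ω l (Q ∪ p.2)

/-- a path of colour `c` from the left side to the right side -/
def PvacCross (c : Bool) (ω : V → Bool) : Prop :=
  ∃ u ∈ R.Lf, ∃ v ∈ R.Rt, u ∈ R.X ∧ ω u = c ∧ ReflTransGen (fun a b => R.adj a b ∧ b ∈ R.X ∧ ω b = c) u v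

theorem pvac_eqns_cite : True := by
  have := @PvacSd.eq_1
  have := @PvacSt.eq_1
  have := @pvacCl.eq_1
  have := @pvacBd.eq_1
  have := @pvacU.eq_1
  have := @pvacB.eq_1
  have := @pvacN.eq_1
  have := @pvacRun.eq_1
  have := @PvacOk.eq_1
  have := @pvacArms.eq_1
  have := @PvacFam.eq_1
  have := @PvacFlat.eq_1
  have := @PvacCross.eq_1
  trivial

variable {R}

/-! ## 1. the closure -/

theorem pvac_sub_cl (S : Finset V) (P : V → Prop) : S ⊆ pvacCl R S P := subset_union_left

theorem pvac_cl_seed {S : Finset V} {P : V → Prop} {u : V} (h : PvacSd R S P u) : u ∈ pvacCl R S P := by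
  classical
  exact mem_union_right _ (mem_filter.2 ⟨h.1, u, h, ReflTransGen.refl⟩)

theorem pvac_cl_step {S : Finset V} {P : V → Prop} {a b : V} (ha : a ∈ pvacCl R S P) (hab : R.adj a b) (hb : b ∈ R.X) (hP : P b) :
    b ∈ pvacCl R S P := by
  classical
  rcases mem_union.1 ha with ha | ha
  · exact pvac_cl_seed ⟨hb, hP, Or.inr ⟨a, ha, hab⟩⟩
  · obtain ⟨_, u, hu, hr⟩ := mem_filter.1 ha
    exact mem_union_right _ (mem_filter.2 ⟨hb, u, hu, hr.tail ⟨hab, hb, hP⟩⟩)

/-- induction principle -/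
theorem pvac_cl_sub {S Y : Finset V} {P : V → Prop} (h0 : S ⊆ Y) (h1 : ∀ u, PvacSd R S P u → u ∈ Y)
    (h2 : ∀ a ∈ Y, ∀ b, R.adj a b → b ∈ R.X → P b → b ∈ Y) : pvacCl R S P ⊆ Y := by
  classical
  intro v hv
  rcases mem_union.1 hv with hv | hv
  · exact h0 hv
  · obtain ⟨_, u, hu, hr⟩ := mem_filter.1 hv
    have key : ∀ w, ReflTransGen (PvacSt R P) u w → w ∈ Y := by
      intro w hw
      induction hw with
      | refl => exact h1 u hu
      | tail _ hs ih => exact h2 _ ih _ hs.1 hs.2.1 hs.2.2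
    exact key v hr

/-- a vertex of the closure is explored or has `P` -/
theorem pvac_cl_cases {S : Finset V} {P : V → Prop} {v : V} (hv : v ∈ pvacCl R S P) : v ∈ S ∨ (v ∈ R.X ∧ P v) := by
  classical
  rcases mem_union.1 hv with hv | hv
  · exact Or.inl hv
  · obtain ⟨hX, u, hu, hr⟩ := mem_filter.1 hv
    refine Or.inr ⟨hX, ?_⟩
    cases hr with
    | refl => exact hu.2.1
    | tail _ hs => exact hs.2.2

/-- monotonicity of the closure -/
theorem pvac_cl_mono {T T' : Finset V} {P P' : V → Prop} (hT : T ⊆ T') (hP : ∀ v ∈ R.X, P v → v ∈ T' ∨ P' v) :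
    pvacCl R T P ⊆ pvacCl R T' P' := by
  refine pvac_cl_sub (hT.trans (pvac_sub_cl _ _)) ?_ ?_
  · rintro u ⟨hX, hPu, hs⟩
    rcases hP u hX hPu with h | h
    · exact pvac_sub_cl _ _ h
    · refine pvac_cl_seed ⟨hX, h, ?_⟩
      rcases hs with hs | ⟨s, hs, hsu⟩
      · exact Or.inl hs
      · exact Or.inr ⟨s, hT hs, hsu⟩
  · intro a ha b hab hX hPb
    rcases hP b hX hPb with h | h
    · exact pvac_sub_cl _ _ h
    · exact pvac_cl_step ha hab hX h

/-- the closure is idempotent -/
theorem pvac_cl_idem {S T : Finset V} {P : V → Prop} (hT : T ⊆ pvacCl R S P) : pvacCl R T P ⊆ pvacCl R S P := by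
  refine pvac_cl_sub hT ?_ ?_
  · rintro u ⟨hX, hPu, hs⟩
    rcases hs with hs | ⟨s, hs, hsu⟩
    · exact pvac_cl_seed ⟨hX, hPu, Or.inl hs⟩
    · exact pvac_cl_step (hT hs) hsu hX hPu
  · intro a ha b hab hX hPb
    exact pvac_cl_step ha hab hX hPb

theorem pvac_mem_bd {U : Finset V} {v : V} : v ∈ pvacBd R U ↔ v ∈ R.X ∧ v ∉ U ∧ (v ∈ R.Lf ∨ ∃ u ∈ U, R.adj u v) := by
  classical
  unfold pvacBd
  exact mem_filter

/-- a boundary vertex of a closure fails `P` -/
theorem pvac_bd_not {S : Finset V} {P : V → Prop} {v : V} (hv : v ∈ pvacBd R (pvacCl R S P)) : ¬ P v := by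
  obtain ⟨hX, hU, h⟩ := pvac_mem_bd.1 hv
  intro hP
  rcases h with h | ⟨u, hu, huv⟩
  · exact hU (pvac_cl_seed ⟨hX, hP, Or.inl h⟩)
  · exact hU (pvac_cl_step hu huv hX hP)

/-- a vertex of `X`, in `Lf` or adjacent to `U`, lies in `U` or in its boundary -/
theorem pvac_mem_or_bd {U : Finset V} {v : V} (hX : v ∈ R.X) (h : v ∈ R.Lf ∨ ∃ u ∈ U, R.adj u v) : v ∈ U ∨ v ∈ pvacBd R U := by
  by_cases hU : v ∈ U
  · exact Or.inl hU
  · exact Or.inr (pvac_mem_bd.2 ⟨hX, hU, h⟩)

/-! ## 2. one stage -/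

theorem pvac_sub_U (S : Finset V) (c : Bool) (ω : V → Bool) : S ⊆ pvacU R S c ω := pvac_sub_cl _ _

theorem pvac_U_sub_N (S : Finset V) (c : Bool) (ω : V → Bool) : pvacU R S c ω ⊆ pvacN R S c ω := subset_union_left

theorem pvac_B_sub_N (S : Finset V) (c : Bool) (ω : V → Bool) : pvacB R S c ω ⊆ pvacN R S c ω := subset_union_right

theorem pvac_sub_N (S : Finset V) (c : Bool) (ω : V → Bool) : S ⊆ pvacN R S c ω := (pvac_sub_U S c ω).trans (pvac_U_sub_N S c ω)

theorem pvac_B_disj_U (S : Finset V) (c : Bool) (ω : V → Bool) : Disjoint (pvacB R S c ω) (pvacU R S c ω) :=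
  disjoint_left.2 fun _ hv => (pvac_mem_bd.1 hv).2.1

theorem pvac_B_sub_X (S : Finset V) (c : Bool) (ω : V → Bool) : pvacB R S c ω ⊆ R.X := fun _ hv => (pvac_mem_bd.1 hv).1

/-- the cluster has the colour `!c` -/
theorem pvac_U_col {S : Finset V} {c : Bool} {ω : V → Bool} {v : V} (hv : v ∈ pvacU R S c ω) (hS : v ∉ S) : v ∈ R.X ∧ ω v = !c := by
  rcases pvac_cl_cases hv with h | h
  · exact absurd h hS
  · exact ⟨h.1, h.2.2⟩

/-- **the arm has the colour `c`** -/
theorem pvac_B_col {S : Finset V} {c : Bool} {ω : V → Bool} {v : V} (hv : v ∈ pvacB R S c ω) : ω v = c := by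
  have h1 := pvac_bd_not hv
  have h2 : v ∉ S := fun h => (pvac_mem_bd.1 hv).2.1 (pvac_sub_U S c ω h)
  by_contra h3
  refine h1 ⟨h2, ?_⟩
  cases hω : ω v <;> cases c <;> simp_all

/-- monotonicity of the cluster in the explored set -/
theorem pvac_U_mono {T T' : Finset V} {ω ω' : V → Bool} (hT : T ⊆ T') (hω : ∀ v ∈ R.X, v ∉ T' → ω' v = ω v) (c : Bool) :
    pvacU R T c ω ⊆ pvacU R T' c ω' := by
  refine pvac_cl_mono hT fun v hX hv => ?_
  by_cases h : v ∈ T'
  · exact Or.inl h
  · exact Or.inr ⟨h, by rw [hω v hX h]; exact hv.2⟩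

theorem pvac_N_mono {T T' : Finset V} {ω ω' : V → Bool} (hT : T ⊆ T') (hω : ∀ v ∈ R.X, v ∉ T' → ω' v = ω v) (c : Bool) :
    pvacN R T c ω ⊆ pvacN R T' c ω' := by
  have hU := pvac_U_mono hT hω c
  intro v hv
  rcases mem_union.1 hv with hv | hv
  · exact mem_union_left _ (hU hv)
  · obtain ⟨hX, _, h⟩ := pvac_mem_bd.1 hv
    have h' : v ∈ R.Lf ∨ ∃ u ∈ pvacU R T' c ω', R.adj u v := by
      rcases h with h | ⟨u, hu, huv⟩
      · exact Or.inl h
      · exact Or.inr ⟨u, hU hu, huv⟩
    exact mem_union.2 (pvac_mem_or_bd hX h')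

/-- the stage reads the colours of `X \ S` only -/
theorem pvac_U_congr {S : Finset V} {ω ω' : V → Bool} (hω : ∀ v ∈ R.X, v ∉ S → ω' v = ω v) (c : Bool) :
    pvacU R S c ω' = pvacU R S c ω :=
  (pvac_U_mono subset_rfl (fun v hX hS => (hω v hX hS).symm) c).antisymm (pvac_U_mono subset_rfl hω c)

/-- **the stage is an exploration**: it reads the colours of `N` only -/
theorem pvac_U_stop {S : Finset V} {c : Bool} {ω ω' : V → Bool} (h : ∀ v ∈ pvacN R S c ω, ω' v = ω v) :
    pvacU R S c ω' = pvacU R S c ω := by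
  apply Subset.antisymm
  · -- a cluster of `ω'` cannot leave `U ω`: its first vertex outside would lie in `B ω`
    have key : ∀ b, b ∈ R.X → (b ∉ S ∧ ω' b = !c) → (b ∈ R.Lf ∨ ∃ u ∈ pvacU R S c ω, R.adj u b) → b ∈ pvacU R S c ω := by
      intro b hX hb hadj
      rcases pvac_mem_or_bd hX hadj with h1 | h1
      · exact h1
      · exfalso
        have h2 : ω b = c := pvac_B_col h1
        have h3 := h b (pvac_B_sub_N S c ω h1)
        rw [h3, h2] at hb
        cases c <;> simp at hb
    refine pvac_cl_sub (pvac_sub_U S c ω) ?_ ?_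
    · rintro u ⟨hX, hP, hs⟩
      refine key u hX hP ?_
      rcases hs with hs | ⟨s, hs, hsu⟩
      · exact Or.inl hs
      · exact Or.inr ⟨s, pvac_sub_U S c ω hs, hsu⟩
    · intro a ha b hab hX hP
      exact key b hX hP (Or.inr ⟨a, ha, hab⟩)
  · -- the cluster of `ω` has the same colours in `ω'`
    have key : pvacU R S c ω ⊆ pvacU R S c ω ∩ pvacU R S c ω' := by
      refine pvac_cl_sub (fun v hv => mem_inter.2 ⟨pvac_sub_U S c ω hv, pvac_sub_U S c ω' hv⟩) ?_ ?_
      · intro u hu
        have h1 : u ∈ pvacU R S c ω := pvac_cl_seed hu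
        refine mem_inter.2 ⟨h1, pvac_cl_seed ⟨hu.1, ⟨hu.2.1.1, ?_⟩, hu.2.2⟩⟩
        rw [h u (pvac_U_sub_N S c ω h1)]; exact hu.2.1.2
      · intro a ha b hab hX hP
        obtain ⟨ha1, ha2⟩ := mem_inter.1 ha
        have h1 : b ∈ pvacU R S c ω := pvac_cl_step ha1 hab hX hP
        refine mem_inter.2 ⟨h1, pvac_cl_step ha2 hab hX ⟨hP.1, ?_⟩⟩
        rw [h b (pvac_U_sub_N S c ω h1)]; exact hP.2
    exact fun v hv => (mem_inter.1 (key hv)).2

theorem pvac_N_stop {S : Finset V} {c : Bool} {ω ω' : V → Bool} (h : ∀ v ∈ pvacN R S c ω, ω' v = ω v) :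
    pvacN R S c ω' = pvacN R S c ω := by
  unfold pvacN pvacB
  rw [pvac_U_stop h]

/-- colour flip -/
theorem pvac_U_not (S : Finset V) (c : Bool) (ω : V → Bool) : pvacU R S c (fun v => !ω v) = pvacU R S (!c) ω := by
  unfold pvacU
  congr 1
  funext v
  cases hv : ω v <;> cases c <;> simp [hv]

theorem pvac_N_not (S : Finset V) (c : Bool) (ω : V → Bool) : pvacN R S c (fun v => !ω v) = pvacN R S (!c) ω := by
  unfold pvacN pvacB
  rw [pvac_U_not]

/-! ## 3. the successive stages -/

theorem pvac_sub_run (σ : List Bool) (S : Finset V) (ω : V → Bool) : S ⊆ pvacRun R σ S ω := by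
  induction σ generalizing S with
  | nil => exact subset_rfl
  | cons c σ ih => exact (pvac_sub_N S c ω).trans (ih _)

/-- **the successive stages are an exploration** -/
theorem pvac_run_stop (σ : List Bool) (S : Finset V) : PvaStop (pvacRun R σ S) := by
  induction σ generalizing S with
  | nil => exact fun _ _ _ => rfl
  | cons c σ ih =>
    intro ω ω' h
    have h1 : pvacN R S c ω' = pvacN R S c ω := pvac_N_stop fun v hv => h v (pvac_sub_run σ _ ω hv)
    show pvacRun R σ (pvacN R S c ω') ω' = pvacRun R σ (pvacN R S c ω) ω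
    rw [h1]
    exact ih _ ω ω' h

/-- success is read off the exploration -/
theorem pvac_ok_meas (σ : List Bool) (S : Finset V) : PvaMeas (pvacRun R σ S) (PvacOk R σ S) := by
  induction σ generalizing S with
  | nil => exact fun _ _ _ => rfl
  | cons c σ ih =>
    intro ω ω' h
    have h0 : ∀ v ∈ pvacN R S c ω, ω' v = ω v := fun v hv => h v (pvac_sub_run σ _ ω hv)
    show (Disjoint (pvacU R S c ω') R.Rt ∧ PvacOk R σ (pvacN R S c ω') ω') = (Disjoint (pvacU R S c ω) R.Rt ∧ PvacOk R σ (pvacN R S c ω) ω)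
    rw [pvac_N_stop h0, pvac_U_stop h0, ih _ ω ω' h]

theorem pvac_arms_meas (σ : List Bool) (S : Finset V) : PvaMeas (pvacRun R σ S) (pvacArms R σ S) := by
  induction σ generalizing S with
  | nil => exact fun _ _ _ => rfl
  | cons c σ ih =>
    intro ω ω' h
    have h0 : ∀ v ∈ pvacN R S c ω, ω' v = ω v := fun v hv => h v (pvac_sub_run σ _ ω hv)
    show (c, pvacB R S c ω') :: pvacArms R σ (pvacN R S c ω') ω' = (c, pvacB R S c ω) :: pvacArms R σ (pvacN R S c ω) ω
    rw [pvac_N_stop h0, ih _ ω ω' h]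
    unfold pvacB
    rw [pvac_U_stop h0]

theorem pvac_run_append (σ τ : List Bool) (S : Finset V) (ω : V → Bool) :
    pvacRun R (σ ++ τ) S ω = pvacRun R τ (pvacRun R σ S ω) ω := by
  induction σ generalizing S with
  | nil => rfl
  | cons c σ ih => exact ih _

theorem pvac_ok_append (σ τ : List Bool) (S : Finset V) (ω : V → Bool) :
    PvacOk R (σ ++ τ) S ω ↔ PvacOk R σ S ω ∧ PvacOk R τ (pvacRun R σ S ω) ω := by
  induction σ generalizing S with
  | nil => exact ⟨fun h => ⟨trivial, h⟩, fun h => h.2⟩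
  | cons c σ ih =>
    show (Disjoint (pvacU R S c ω) R.Rt ∧ PvacOk R (σ ++ τ) (pvacN R S c ω) ω) ↔
      (Disjoint (pvacU R S c ω) R.Rt ∧ PvacOk R σ (pvacN R S c ω) ω) ∧ PvacOk R τ (pvacRun R σ (pvacN R S c ω) ω) ω
    rw [ih, and_assoc]

/-- **monotonicity**: less explored, same colours off the larger explored set: success is easier -/
theorem pvac_ok_mono (σ : List Bool) {T T' : Finset V} {ω ω' : V → Bool} (hT : T ⊆ T') (hω : ∀ v ∈ R.X, v ∉ T' → ω' v = ω v)
    (h : PvacOk R σ T' ω') : PvacOk R σ T ω := by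
  induction σ generalizing T T' with
  | nil => trivial
  | cons c σ ih =>
    refine ⟨disjoint_of_subset_left (pvac_U_mono hT hω c) h.1, ?_⟩
    exact ih (pvac_N_mono hT hω c) (fun v hX hv => hω v hX fun hv' => hv (pvac_sub_N T' c ω' hv')) h.2

theorem pvac_run_mono (σ : List Bool) {T T' : Finset V} {ω ω' : V → Bool} (hT : T ⊆ T') (hω : ∀ v ∈ R.X, v ∉ T' → ω' v = ω v) :
    pvacRun R σ T ω ⊆ pvacRun R σ T' ω' := by
  induction σ generalizing T T' with
  | nil => exact hT
  | cons c σ ih =>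
    exact ih (pvac_N_mono hT hω c) (fun v hX hv => hω v hX fun hv' => hv (pvac_sub_N T' c ω' hv'))

/-- the stages read the colours of `X \ S` only -/
theorem pvac_ok_congr (σ : List Bool) {S : Finset V} {ω ω' : V → Bool} (hω : ∀ v ∈ R.X, v ∉ S → ω' v = ω v) :
    PvacOk R σ S ω' ↔ PvacOk R σ S ω :=
  ⟨pvac_ok_mono σ subset_rfl hω, pvac_ok_mono σ subset_rfl fun v hX hS => (hω v hX hS).symm⟩

/-- a prefix succeeds -/
theorem pvac_ok_prefix {σ τ : List Bool} {S : Finset V} {ω : V → Bool} (h : PvacOk R (σ ++ τ) S ω) : PvacOk R σ S ω :=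
  ((pvac_ok_append σ τ S ω).1 h).1

/-- a suffix succeeds -/
theorem pvac_ok_suffix {σ τ : List Bool} {S : Finset V} {ω : V → Bool} (h : PvacOk R (σ ++ τ) S ω) : PvacOk R τ S ω :=
  pvac_ok_mono τ (pvac_sub_run σ S ω) (fun _ _ _ => rfl) ((pvac_ok_append σ τ S ω).1 h).2

/-- global colour flip -/
theorem pvac_ok_not (σ : List Bool) (S : Finset V) (ω : V → Bool) : PvacOk R σ S (fun v => !ω v) ↔ PvacOk R (σ.map not) S ω := by
  induction σ generalizing S with
  | nil => exact Iff.rfl
  | cons c σ ih =>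
    show (Disjoint (pvacU R S c fun v => !ω v) R.Rt ∧ PvacOk R σ (pvacN R S c fun v => !ω v) fun v => !ω v) ↔
      (Disjoint (pvacU R S (!c) ω) R.Rt ∧ PvacOk R (σ.map not) (pvacN R S (!c) ω) ω)
    rw [pvac_U_not, pvac_N_not, ih]

/-- flip of the unexplored part of `X` -/
theorem pvac_ok_fl (σ : List Bool) (S : Finset V) (ω : V → Bool) : PvacOk R σ S (pvaFl (R.X \ S) ω) ↔ PvacOk R (σ.map not) S ω := by
  rw [← pvac_ok_not]
  refine pvac_ok_congr σ fun v hX hS => ?_
  exact pva_fl_in (mem_sdiff.2 ⟨hX, hS⟩)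

/-- one stage from nothing: no crossing of the opposite colour -/
theorem pvac_ok_one (c : Bool) (ω : V → Bool) : PvacOk R [c] ∅ ω ↔ ¬ PvacCross R (!c) ω := by
  classical
  show (Disjoint (pvacU R ∅ c ω) R.Rt ∧ True) ↔ _
  rw [and_true]
  constructor
  · rintro h ⟨u, hu, v, hv, hX, hc, hr⟩
    have key : ∀ w, ReflTransGen (fun a b => R.adj a b ∧ b ∈ R.X ∧ ω b = !c) u w → w ∈ pvacU R ∅ c ω := by
      intro w hw
      induction hw with
      | refl => exact pvac_cl_seed ⟨hX, ⟨notMem_empty _, hc⟩, Or.inl hu⟩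
      | tail _ hs ih => exact pvac_cl_step ih hs.1 hs.2.1 ⟨notMem_empty _, hs.2.2⟩
    exact disjoint_left.1 h (key v hr) hv
  · intro h
    rw [disjoint_left]
    intro v hv hvR
    rcases mem_union.1 hv with hv | hv
    · exact absurd hv (notMem_empty _)
    · obtain ⟨_, u, hu, hr⟩ := mem_filter.1 hv
      refine h ⟨u, ?_, v, hvR, hu.1, hu.2.1.2, ReflTransGen.mono (fun a b hs => ⟨hs.1, hs.2.1, hs.2.2.2⟩) _ _ hr⟩
      rcases hu.2.2 with h1 | ⟨s, hs, _⟩
      · exact h1
      · exact absurd hs (notMem_empty _)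

/-! ## 4. probability -/

/-- conditional form of the stages: given the exploration `σ`, the law of the stages `τ` -/
theorem pvac_split (σ τ : List Bool) (S : Finset V) (A : Finset V) (ξ : V → Bool) :
    pvaP A ξ (PvacOk R (σ ++ τ) S) =
      pvaE A ξ (fun ω => (open Classical in if PvacOk R σ S ω then 1 else 0) * pvaP (A \ pvacRun R σ S ω) ω (PvacOk R τ (pvacRun R σ S ω))) := by
  classical
  have h1 : pvaP A ξ (PvacOk R (σ ++ τ) S) = pvaP A ξ (fun ω => PvacOk R σ S ω ∧ PvacOk R τ (pvacRun R σ S ω) ω) :=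
    pva_P_congr fun ω _ => pvac_ok_append σ τ S ω
  rw [h1, pva_smarkov_P (pvac_run_stop σ S) (pvac_ok_meas σ S)]
  refine pva_E_congr fun ω _ => ?_
  congr 1
  refine pva_P_congr fun ω₂ h2 => ?_
  have h3 : pvacRun R σ S ω₂ = pvacRun R σ S ω :=
    pvac_run_stop σ S ω ω₂ fun v hv => h2 v fun hv' => (mem_sdiff.1 hv').2 hv
  rw [h3]

/-- **ORDERED BK, ANY COLOURS** -/
theorem pvac_submult (σ τ : List Bool) (S : Finset V) (A : Finset V) (ξ : V → Bool) :
    pvaP A ξ (PvacOk R (σ ++ τ) S) ≤ pvaP A ξ (PvacOk R τ S) * pvaP A ξ (PvacOk R σ S) := by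
  have h1 : pvaP A ξ (PvacOk R (σ ++ τ) S) = pvaP A ξ (fun ω => PvacOk R σ S ω ∧ PvacOk R τ (pvacRun R σ S ω) ω) :=
    pva_P_congr fun ω _ => pvac_ok_append σ τ S ω
  rw [h1]
  refine pva_smarkov_le (pvac_run_stop σ S) (pvac_ok_meas σ S) A ξ fun ω hω _ => ?_
  refine pva_P_fresh_le (pvacRun R σ S ω) hω fun ω₂ _ h => ?_
  have h3 : pvacRun R σ S (pvaMix (pvacRun R σ S ω) ω ω₂) = pvacRun R σ S ω :=
    pvac_run_stop σ S ω _ fun v hv => pva_mix_in hv
  rw [h3] at h
  exact pvac_ok_mono τ (pvac_sub_run σ S ω) (fun v _ hv => pva_mix_out hv) h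

/-- the same first colour: the later colours do not matter -/
theorem pvac_switch_aux (n : ℕ) : ∀ (σ σ' : List Bool), σ.length = n → σ'.length = n → ∀ (S A : Finset V) (ξ : V → Bool), R.X \ S ⊆ A →
    pvaP A ξ (PvacOk R σ S) = pvaP A ξ (PvacOk R σ' S) := by
  induction n with
  | zero =>
    intro σ σ' h h' S A ξ _
    rw [List.length_eq_zero_iff.1 h, List.length_eq_zero_iff.1 h']
  | succ n ih =>
    -- same head
    have same : ∀ (c : Bool) (τ τ' : List Bool), τ.length = n → τ'.length = n → ∀ (S A : Finset V) (ξ : V → Bool), R.X \ S ⊆ A →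
        pvaP A ξ (PvacOk R (c :: τ) S) = pvaP A ξ (PvacOk R (c :: τ') S) := by
      intro c τ τ' h h' S A ξ hA
      have e1 := pvac_split (R := R) [c] τ S A ξ
      have e2 := pvac_split (R := R) [c] τ' S A ξ
      rw [List.singleton_append] at e1 e2
      rw [e1, e2]
      refine pva_E_congr fun ω _ => ?_
      congr 1
      refine ih τ τ' h h' _ _ _ ?_
      intro v hv
      obtain ⟨hX, hv⟩ := mem_sdiff.1 hv
      exact mem_sdiff.2 ⟨hA (mem_sdiff.2 ⟨hX, fun hS => hv (pvac_sub_run [c] S ω hS)⟩), hv⟩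
    intro σ σ' h h' S A ξ hA
    obtain ⟨c, τ, rfl⟩ : ∃ c τ, σ = c :: τ := by
      cases σ with
      | nil => simp at h
      | cons c τ => exact ⟨c, τ, rfl⟩
    obtain ⟨c', τ', rfl⟩ : ∃ c τ, σ' = c :: τ := by
      cases σ' with
      | nil => simp at h'
      | cons c τ => exact ⟨c, τ, rfl⟩
    have hl : τ.length = n := by simpa using h
    have hl' : τ'.length = n := by simpa using h'
    by_cases hc : c' = c
    · rw [hc]
      exact same c τ τ' hl hl' S A ξ hA
    · have hc' : c' = !c := by cases c <;> cases c' <;> simp_all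
      rw [hc']
      have e : pvaP A ξ (PvacOk R (c :: τ) S) = pvaP A ξ (PvacOk R ((c :: τ).map not) S) := by
        rw [← pva_P_fl hA ξ (PvacOk R (c :: τ) S)]
        exact pva_P_congr fun ω _ => pvac_ok_fl (c :: τ) S ω
      rw [e, List.map_cons]
      exact same (!c) _ τ' (by rw [List.length_map]; exact hl) hl' S A ξ hA

/-- **COLOUR SWITCHING** (Lemma 2.5): when the unexplored vertices are fresh, the probability of `k` successive arms does not depend on their colours -/
theorem pvac_switch {σ σ' : List Bool} (h : σ.length = σ'.length) {S A : Finset V} (hA : R.X \ S ⊆ A) (ξ : V → Bool) :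
    pvaP A ξ (PvacOk R σ S) = pvaP A ξ (PvacOk R σ' S) :=
  pvac_switch_aux σ'.length σ σ' h rfl S A ξ hA

/-- `k` successive arms cost `p ^ k` -/
theorem pvac_pow (σ : List Bool) (S A : Finset V) (ξ : V → Bool) {p : ℝ} (hp : ∀ c, pvaP A ξ (PvacOk R [c] S) ≤ p) :
    pvaP A ξ (PvacOk R σ S) ≤ p ^ σ.length := by
  have hp0 : 0 ≤ p := (pva_P_nonneg _ _ _).trans (hp true)
  induction σ with
  | nil => rw [List.length_nil, pow_zero]; exact pva_P_le_one _ _ _
  | cons c σ ih =>
    have h1 := pvac_submult (R := R) [c] σ S A ξ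
    rw [List.singleton_append] at h1
    rw [List.length_cons, pow_succ]
    exact h1.trans (mul_le_mul ih (hp c) (pva_P_nonneg _ _ _) (pow_nonneg hp0 _))

/-- `k` successive arms when both colours cross from the left to the right with probability at least `q` -/
theorem pvac_pow_cross (σ : List Bool) (A : Finset V) (ξ : V → Bool) {q : ℝ} (hq : ∀ c, q ≤ pvaP A ξ (PvacCross R c)) :
    pvaP A ξ (PvacOk R σ ∅) ≤ (1 - q) ^ σ.length := by
  refine pvac_pow σ ∅ A ξ fun c => ?_
  have h1 : pvaP A ξ (PvacOk R [c] ∅) = pvaP A ξ (fun ω => ¬ PvacCross R (!c) ω) := pva_P_congr fun ω _ => pvac_ok_one c ω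
  rw [h1, pva_P_not]
  linarith [hq (!c)]

/-! ## 5. separation-ordered families -/

/-- more explored: a family stays a family as long as the new explored set is reached off the arms: not needed; the basic monotonicity is on `PvacOk` -/
theorem pvac_ok_of_fam {ω : V → Bool} (l : List (Bool × Finset V)) (S : Finset V) (h : PvacFam R ω l S) : PvacOk R (l.map Prod.fst) S ω := by
  induction l generalizing S with
  | nil => trivial
  | cons p l ih =>
    obtain ⟨hcol, _, hRt, hl⟩ := h
    have hU : pvacU R S p.1 ω ⊆ pvacCl R S (fun v => v ∉ p.2) := by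
      refine pvac_cl_mono subset_rfl fun v _ hv => Or.inr fun hvp => ?_
      have := hcol v hvp
      rw [hv.2] at this
      cases hp : p.1 <;> simp [hp] at this
    refine ⟨disjoint_of_subset_left hU hRt, ?_⟩
    refine pvac_ok_mono _ ?_ (fun _ _ _ => rfl) (ih _ hl)
    intro v hv
    rcases mem_union.1 hv with hv | hv
    · exact mem_union_left _ (hU hv)
    · obtain ⟨hX, _, h⟩ := pvac_mem_bd.1 hv
      by_cases hvp : v ∈ p.2
      · exact mem_union_right _ hvp
      · refine mem_union_left _ ?_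
        rcases h with h | ⟨u, hu, huv⟩
        · exact pvac_cl_seed ⟨hX, hvp, Or.inl h⟩
        · exact pvac_cl_step (hU hu) huv hX hvp

/-- the closure off the arm is the cluster -/
theorem pvac_cl_B (S : Finset V) (c : Bool) (ω : V → Bool) : pvacCl R S (fun v => v ∉ pvacB R S c ω) = pvacU R S c ω := by
  apply Subset.antisymm
  · refine pvac_cl_sub (pvac_sub_U S c ω) ?_ ?_
    · rintro u ⟨hX, hP, hs⟩
      have h' : u ∈ R.Lf ∨ ∃ s ∈ pvacU R S c ω, R.adj s u := by
        rcases hs with hs | ⟨s, hs, hsu⟩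
        · exact Or.inl hs
        · exact Or.inr ⟨s, pvac_sub_U S c ω hs, hsu⟩
      rcases pvac_mem_or_bd hX h' with h1 | h1
      · exact h1
      · exact absurd h1 hP
    · intro a ha b hab hX hP
      rcases pvac_mem_or_bd hX (Or.inr ⟨a, ha, hab⟩) with h1 | h1
      · exact h1
      · exact absurd h1 hP
  · refine pvac_cl_mono subset_rfl fun v _ hv => Or.inr fun hvB => ?_
    have := pvac_B_col hvB
    rw [hv.2] at this
    cases c <;> simp at this

/-- the arms found by the stages form a separation-ordered family -/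
theorem pvac_fam_of_ok {ω : V → Bool} (σ : List Bool) (S : Finset V) (h : PvacOk R σ S ω) : PvacFam R ω (pvacArms R σ S ω) S := by
  induction σ generalizing S with
  | nil => trivial
  | cons c σ ih =>
    refine ⟨fun v hv => pvac_B_col hv, ?_, ?_, ?_⟩
    · exact disjoint_of_subset_right (pvac_sub_U S c ω) (pvac_B_disj_U S c ω)
    · show Disjoint (pvacCl R S (fun v => v ∉ pvacB R S c ω)) R.Rt
      rw [pvac_cl_B]; exact h.1
    · show PvacFam R ω (pvacArms R σ (pvacN R S c ω) ω) (pvacCl R S (fun v => v ∉ pvacB R S c ω) ∪ pvacB R S c ω)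
      rw [pvac_cl_B]; exact ih _ h.2

theorem pvac_arms_fst (σ : List Bool) (S : Finset V) (ω : V → Bool) : (pvacArms R σ S ω).map Prod.fst = σ := by
  induction σ generalizing S with
  | nil => rfl
  | cons c σ ih =>
    show c :: (pvacArms R σ (pvacN R S c ω) ω).map Prod.fst = c :: σ
    rw [ih]

/-- **CHARACTERISATION**: the stages succeed iff there is a separation-ordered family of monochromatic sets with these colours -/
theorem pvac_ok_iff (σ : List Bool) (S : Finset V) (ω : V → Bool) : PvacOk R σ S ω ↔ ∃ l, l.map Prod.fst = σ ∧ PvacFam R ω l S :=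
  ⟨fun h => ⟨_, pvac_arms_fst σ S ω, pvac_fam_of_ok σ S h⟩, fun ⟨l, h1, h2⟩ => h1 ▸ pvac_ok_of_fam l S h2⟩

/-- from the flat form to the recursive form -/
theorem pvac_fam_of_flat_aux {ω : V → Bool} (l : List (Bool × Finset V)) : ∀ (Q Q' : Finset V), PvacFlat R ω l Q → Q ⊆ Q' →
    Q' ⊆ pvacCl R Q (fun v => ∀ r ∈ l, v ∉ r.2) → PvacFam R ω l Q' := by
  induction l with
  | nil => intro _ _ _ _ _; trivial
  | cons p l ih =>
    intro Q Q' hF hQ hQ'
    obtain ⟨hcol, hdQ, hRt, hlater, hl⟩ := hF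
    -- the closure from `Q'` is inside the closure from `Q`
    have h1 : pvacCl R Q' (fun v => v ∉ p.2) ⊆ pvacCl R Q (fun v => v ∉ p.2) := by
      refine pvac_cl_idem (hQ'.trans ?_)
      exact pvac_cl_mono subset_rfl fun v _ hv => Or.inr (hv p (List.mem_cons_self))
    refine ⟨hcol, ?_, disjoint_of_subset_left h1 hRt, ?_⟩
    · rw [disjoint_left]
      intro v hvp hvQ'
      rcases pvac_cl_cases (hQ' hvQ') with h | h
      · exact disjoint_left.1 hdQ hvp h
      · exact h.2 p (List.mem_cons_self) hvp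
    · refine ih (Q ∪ p.2) _ hl ?_ ?_
      · exact union_subset_union_left (hQ.trans (pvac_sub_cl _ _))
      · refine union_subset ?_ ((subset_union_right).trans (pvac_sub_cl _ _))
        refine h1.trans ?_
        -- `Z = Cl Q (∉ Γ)` misses the later arms, hence is reached off them
        have key : pvacCl R Q (fun v => v ∉ p.2) ⊆
            pvacCl R Q (fun v => v ∉ p.2) ∩ pvacCl R (Q ∪ p.2) (fun v => ∀ r ∈ l, v ∉ r.2) := by
          refine pvac_cl_sub (fun v hv => mem_inter.2 ⟨pvac_sub_cl _ _ hv, pvac_sub_cl _ _ (mem_union_left _ hv)⟩) ?_ ?_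
          · intro u hu
            have hz : u ∈ pvacCl R Q (fun v => v ∉ p.2) := pvac_cl_seed hu
            refine mem_inter.2 ⟨hz, pvac_cl_seed ⟨hu.1, fun r hr hur => disjoint_left.1 (hlater r hr) hz hur, ?_⟩⟩
            rcases hu.2.2 with h | ⟨s, hs, hsu⟩
            · exact Or.inl h
            · exact Or.inr ⟨s, mem_union_left _ hs, hsu⟩
          · intro a ha b hab hX hP
            obtain ⟨ha1, ha2⟩ := mem_inter.1 ha
            have hz : b ∈ pvacCl R Q (fun v => v ∉ p.2) := pvac_cl_step ha1 hab hX hP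
            exact mem_inter.2 ⟨hz, pvac_cl_step ha2 hab hX fun r hr hbr => disjoint_left.1 (hlater r hr) hz hbr⟩
        exact fun v hv => (mem_inter.1 (key hv)).2

/-- **the flat form of the order suffices** -/
theorem pvac_fam_of_flat {ω : V → Bool} {l : List (Bool × Finset V)} {S : Finset V} (h : PvacFlat R ω l S) : PvacFam R ω l S :=
  pvac_fam_of_flat_aux l S S h subset_rfl (pvac_sub_cl _ _)

/-- ordered arms give success of the stages -/
theorem pvac_ok_of_flat {ω : V → Bool} {l : List (Bool × Finset V)} {S : Finset V} (h : PvacFlat R ω l S) : PvacOk R (l.map Prod.fst) S ω :=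
  pvac_ok_of_fam l S (pvac_fam_of_flat h)

end Claimed.Agent.R289
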