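-- KEEP
import Claimed.Agent.R289.Arm.Trap
import Claimed.Agent.R289.Arm.Bxp
import Claimed.Agent.R289.Del.Bulk
import Claimed.Agent.R289.Del.Seam
import Claimed.Agent.R289.Cr.Inst

/-!
# Row 289 (S0537), box ARM, block DICT, file Arm/Dict : THE DICTIONARY  bulk family  <->  Delaunay plane  FOR THE STRAND CALCULUS      (owner helper33; ruling E1 of helper146; prefix `pvdq_`, record `PvdqIso`)

A rim of a bulk family `𝔅` is a cycle of `𝔅.T Y` (a finite sphere completion): it is NOT a cycle of the Delaunay plane `delMap h`.   The quenched count (COUNT, FRAME, ANNEAL) lives on `delMap h`.   The two maps agree on the faces with a vertex in `K` (`𝔅.Ok Y K`; local dictionary `DelbRel` of helper219, `Del/Bulk.lean`).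
ROUTE:   (IN) the frame cycles of `delMap h` are transferred to `𝔅.T Y`, a `PvbNearRet` of the encoded rim gives the input record of NRDET (helper228) IN `𝔅.T Y`;   (NRDET, model free);   (OUT) its output (`PvatCfg`, sixth arm `PvaxCr`) is transferred BACK to `delMap h`.

## Part A (model free): LOCAL ISOMORPHISMS
* `PvdqIso T T' G G' r rv`   a partial isomorphism of dart maps: `r` relates darts, `rv` vertices; compatible with `src`, `opp` everywhere and with `nxt` on the face set `G` (`G'`); total on `G`, onto `G'`.      `PvdqIso.symm`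
* `pvdq_step pvdq_it`        strands commute with a local isomorphism as long as they stay in `G`
* `PvdqCor r A A'`           corresponding dart sets;      `pvdq_run pvdq_lay pvdq_lay' pvdq_lay_disj` **`pvdq_cfg`**   transfer of `PvatRun`, `pvatLay`, `PvatCfg`
* **`pvdq_cyc`**             transfer of a cycle;      **`pvdq_left`** its left side corresponds;   `pvdq_left_sub pvdq_left_fin pvdq_left_mono pvdq_verts pvdq_vof` **`pvdq_int`** **`pvdq_inside`** `pvdq_ann`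
* `pvdq_edgeIn pvdq_join` **`pvdq_cr`**   transfer of paths and of a crossing `PvaxCr`;   `pvdq_lay_compl`;   **`pvdq_cfg6`** transfer of CONFIG6 (body of `ArmtGeo.Cfg6` of `Arm/Top`)
## Part B: the instance `pvdq_bulk : PvdqIso (𝔅.T Y) (delMap h) (pvdqG 𝔅 h K) (delbStar h K) (DelbRel 𝔅 h) (pvdqRv 𝔅)`, colours `pvdq_col`
(the instance for the local models `ArmtLoc` of `Arm/Top` and the exit `armt_nr_cfg`: next file)
-/

set_option autoImplicit false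
set_option linter.unusedSectionVars false
set_option linter.unusedVariables false

namespace Claimed.Agent.R289

open Relation Set

/-! ## Part A. Local isomorphisms -/

/-- a LOCAL ISOMORPHISM of dart maps -/
structure PvdqIso {V V' D D' : Type} (T : PvMap V D) (T' : PvMap V' D') (G : Set D) (G' : Set D') (r : D → D' → Prop) (rv : V → V' → Prop) : Prop where
  fn : ∀ {d e e'}, r d e → r d e' → e = e'
  inj : ∀ {d d' e}, r d e → r d' e → d = d'
  vfn : ∀ {v w w'}, rv v w → rv v w' → w = w'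
  vinj : ∀ {v v' w}, rv v w → rv v' w → v = v'
  src : ∀ {d e}, r d e → rv (T.src d) (T'.src e)
  opp : ∀ {d e}, r d e → r (T.opp d) (T'.opp e)
  nxt : ∀ {d e}, r d e → d ∈ G → r (T.nxt d) (T'.nxt e)
  mem : ∀ {d e}, r d e → (d ∈ G ↔ e ∈ G')
  tot : ∀ {d}, d ∈ G → ∃ e, r d e
  tot' : ∀ {e}, e ∈ G' → ∃ d, r d e
  fs : T.FaceSet G
  fs' : T'.FaceSet G'

/-- corresponding dart sets -/
def PvdqCor {D D' : Type} (r : D → D' → Prop) (A : Set D) (A' : Set D') : Prop := ∀ d e, r d e → (d ∈ A ↔ e ∈ A')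

theorem pvdq_eqns_cite : True := by
  have := @PvdqCor.eq_1
  trivial

section iso

variable {V V' D D' : Type} {T : PvMap V D} {T' : PvMap V' D'} {G : Set D} {G' : Set D'} {r : D → D' → Prop} {rv : V → V' → Prop}

theorem PvdqIso.symm (I : PvdqIso T T' G G' r rv) : PvdqIso T' T G' G (fun e d => r d e) (fun w v => rv v w) where
  fn := fun h1 h2 => I.inj h1 h2
  inj := fun h1 h2 => I.fn h1 h2
  vfn := fun h1 h2 => I.vinj h1 h2
  vinj := fun h1 h2 => I.vfn h1 h2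
  src := fun h => I.src h
  opp := fun h => I.opp h
  nxt := fun h hG => I.nxt h ((I.mem h).2 hG)
  mem := fun h => (I.mem h).symm
  tot := fun h => I.tot' h
  tot' := fun h => I.tot h
  fs := I.fs'
  fs' := I.fs

theorem PvdqIso.tgt (I : PvdqIso T T' G G' r rv) {d : D} {e : D'} (h : r d e) : rv (T.tgt d) (T'.tgt e) := by
  have := I.src (I.opp h)
  rwa [T.src_opp', T'.src_opp'] at this

theorem PvdqIso.nxt2 (I : PvdqIso T T' G G' r rv) {d : D} {e : D'} (h : r d e) (hd : d ∈ G) : r (T.nxt (T.nxt d)) (T'.nxt (T'.nxt e)) :=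
  I.nxt (I.nxt h hd) ((I.fs d).2 hd)

theorem PvdqIso.apex (I : PvdqIso T T' G G' r rv) {d : D} {e : D'} (h : r d e) (hd : d ∈ G) : rv (T.apex d) (T'.apex e) := I.src (I.nxt2 h hd)

theorem PvdqIso.rot (I : PvdqIso T T' G G' r rv) {d : D} {e : D'} (h : r d e) (hd : d ∈ G) : r (T.rot d) (T'.rot e) := I.opp (I.nxt2 h hd)

/-- a dart whose opposite is in `G` has an image too -/
theorem PvdqIso.tot_opp (I : PvdqIso T T' G G' r rv) {d : D} (hd : d ∈ G ∨ T.opp d ∈ G) : ∃ e, r d e := by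
  rcases hd with hd | hd
  · exact I.tot hd
  · obtain ⟨e, he⟩ := I.tot hd
    refine ⟨T'.opp e, ?_⟩
    have := I.opp he
    rwa [T.opp_opp] at this

theorem PvdqCor.symm {A : Set D} {A' : Set D'} (h : PvdqCor r A A') : PvdqCor (fun e d => r d e) A' A := fun e d hr => (h d e hr).symm

theorem PvdqCor.diff {A B : Set D} {A' B' : Set D'} (hA : PvdqCor r A A') (hB : PvdqCor r B B') : PvdqCor r (A \ B) (A' \ B') := fun d e hr => by
  simp only [mem_sdiff, hA d e hr, hB d e hr]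

/-! ### strands -/

variable {s : V → Bool} {s' : V' → Bool}

theorem pvdq_not (hc : ∀ v w, rv v w → s v = s' w) : ∀ v w, rv v w → pvasNot s v = pvasNot s' w := fun v w h => by
  unfold pvasNot
  rw [hc v w h]

theorem pvdq_step (I : PvdqIso T T' G G' r rv) (hc : ∀ v w, rv v w → s v = s' w) {d : D} {e : D'} (h : r d e) (hd : d ∈ G) :
    r (pvasStep T s d) (pvasStep T' s' e) := by
  have ha := hc _ _ (I.apex h hd)
  unfold pvasStep
  rw [← ha]
  by_cases hb : s (T.apex d) = true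
  · rw [if_pos hb, if_pos hb]
    exact I.opp (I.nxt h hd)
  · rw [if_neg hb, if_neg hb]
    exact I.opp (I.nxt2 h hd)

theorem pvdq_it (I : PvdqIso T T' G G' r rv) (hc : ∀ v w, rv v w → s v = s' w) {d : D} {e : D'} (h : r d e) (n : ℕ)
    (hG : ∀ i, i < n → pvasIt T s d i ∈ G) : r (pvasIt T s d n) (pvasIt T' s' e n) := by
  induction n with
  | zero => exact h
  | succ n ih =>
    rw [pvas_it_succ, pvas_it_succ]
    exact pvdq_step I hc (ih fun i hi => hG i (by omega)) (hG n (by omega))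

theorem pvdq_bw (I : PvdqIso T T' G G' r rv) (hc : ∀ v w, rv v w → s v = s' w) {d : D} {e : D'} (h : r d e) (hb : pvasBW T s d) : pvasBW T' s' e :=
  ⟨by rw [← hc _ _ (I.src h)]; exact hb.1, by rw [← hc _ _ (I.tgt h)]; exact hb.2⟩

theorem pvdq_in (I : PvdqIso T T' G G' r rv) (hc : ∀ v w, rv v w → s v = s' w) {B : Set D} {B' : Set D'} (hB : PvdqCor r B B') {d : D} {e : D'} (h : r d e)
    (hi : pvasIn T B s d) : pvasIn T' B' s' e :=
  ⟨(hB d e h).1 hi.1, fun ho => hi.2.1 ((hB _ _ (I.opp h)).2 ho), pvdq_bw I hc h hi.2.2⟩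

/-- transfer of a run -/
theorem pvdq_run (I : PvdqIso T T' G G' r rv) (hc : ∀ v w, rv v w → s v = s' w) {B A : Set D} {B' A' : Set D'} (hBG : B ⊆ G) (hB : PvdqCor r B B') (hA : PvdqCor r A A')
    {x : D} {x' : D'} (h : r x x') {n : ℕ} (hr : PvatRun T B A s x n) : PvatRun T' B' A' s' x' n ∧ ∀ i, i ≤ n → r (pvasIt T s x i) (pvasIt T' s' x' i) := by
  have hit : ∀ i, i ≤ n → r (pvasIt T s x i) (pvasIt T' s' x' i) := fun i hi => pvdq_it I hc h i fun j hj => hBG (hr.mid j (by omega)).1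
  refine ⟨⟨pvdq_in I hc hB h hr.ent, fun k hk => ?_, (hA _ _ (hit n le_rfl)).1 hr.hit⟩, hit⟩
  have h1 := hit k hk.le
  exact ⟨(hB _ _ h1).1 (hr.mid k hk).1, fun h2 => (hr.mid k hk).2 ((hA _ _ h1).2 h2)⟩

/-- the layers correspond -/
theorem pvdq_lay (I : PvdqIso T T' G G' r rv) {x : D} {x' : D'} {n : ℕ} (hit : ∀ i, i ≤ n → r (pvasIt T s x i) (pvasIt T' s' x' i)) {w : V'}
    (hw : w ∈ pvatLay T' s' x' n) : ∃ v ∈ pvatLay T s x n, rv v w := by
  rcases hw with ⟨i, hi, rfl⟩ | ⟨i, hi, rfl⟩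
  · exact ⟨_, Or.inl ⟨i, hi, rfl⟩, I.src (hit i hi)⟩
  · exact ⟨_, Or.inr ⟨i, hi, rfl⟩, I.tgt (hit i hi)⟩

theorem pvdq_lay' (I : PvdqIso T T' G G' r rv) {x : D} {x' : D'} {n : ℕ} (hit : ∀ i, i ≤ n → r (pvasIt T s x i) (pvasIt T' s' x' i)) {v : V}
    (hv : v ∈ pvatLay T s x n) : ∃ w ∈ pvatLay T' s' x' n, rv v w := by
  rcases hv with ⟨i, hi, rfl⟩ | ⟨i, hi, rfl⟩
  · exact ⟨_, Or.inl ⟨i, hi, rfl⟩, I.src (hit i hi)⟩
  · exact ⟨_, Or.inr ⟨i, hi, rfl⟩, I.tgt (hit i hi)⟩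

theorem pvdq_lay_disj (I : PvdqIso T T' G G' r rv) {t : V → Bool} {t' : V' → Bool} {x y : D} {x' y' : D'} {n m : ℕ}
    (hx : ∀ i, i ≤ n → r (pvasIt T s x i) (pvasIt T' s' x' i)) (hy : ∀ i, i ≤ m → r (pvasIt T t y i) (pvasIt T' t' y' i))
    (hd : Disjoint (pvatLay T s x n) (pvatLay T t y m)) : Disjoint (pvatLay T' s' x' n) (pvatLay T' t' y' m) := by
  rw [Set.disjoint_left] at hd ⊢
  intro w h1 h2
  obtain ⟨v, hv, hvw⟩ := pvdq_lay I hx h1
  obtain ⟨v', hv', hvw'⟩ := pvdq_lay I hy h2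
  rw [I.vinj hvw hvw'] at hv
  exact hd hv hv'

/-! ### cycles -/

/-- related cycles -/
def PvdqCyc (r : D → D' → Prop) (c : T.Cyc) (c' : T'.Cyc) : Prop := c'.n = c.n ∧ ∀ i, r (c.e i) (c'.e i)

/-- **transfer of a cycle** all of whose darts have an image -/
theorem pvdq_cyc (I : PvdqIso T T' G G' r rv) (c : T.Cyc) (hc : ∀ i, c.e i ∈ G ∨ T.opp (c.e i) ∈ G) : ∃ c' : T'.Cyc, PvdqCyc r c c' := by
  choose e he using fun i => I.tot_opp (hc i)
  refine ⟨⟨c.n, e, c.three, fun i => ?_, fun i => ?_, fun i j hi hj hij => ?_⟩, rfl, he⟩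
  · have h1 := he (i + c.n)
    rw [c.per] at h1
    exact I.fn h1 (he i)
  · have h1 := I.tgt (he i)
    rw [c.chain] at h1
    exact I.vfn h1 (I.src (he (i + 1)))
  · have h1 := I.src (he i)
    rw [hij] at h1
    exact c.inj i j hi hj (I.vinj h1 (I.src (he j)))

theorem PvdqCyc.symm {c : T.Cyc} {c' : T'.Cyc} (h : PvdqCyc r c c') : PvdqCyc (fun e d => r d e) c' c := ⟨h.1.symm, h.2⟩

theorem pvdq_edg (I : PvdqIso T T' G G' r rv) {c : T.Cyc} {c' : T'.Cyc} (hcc : PvdqCyc r c c') {d : D} {e : D'} (h : r d e) (he : T'.Edg c'.darts e) : T.Edg c.darts d := by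
  rcases he with ⟨i, hi⟩ | ⟨i, hi⟩
  · left
    refine ⟨i, ?_⟩
    have h1 := hcc.2 i
    rw [hi] at h1
    exact I.inj h1 h
  · right
    refine ⟨i, ?_⟩
    have h1 := hcc.2 i
    rw [hi] at h1
    exact I.inj h1 (I.opp h)

/-- one half of the correspondence of the left sides -/
theorem pvdq_left_aux (I : PvdqIso T T' G G' r rv) {c : T.Cyc} {c' : T'.Cyc} (hcc : PvdqCyc r c c') (hG : c.Left ⊆ G) {d : D} (hd : d ∈ c.Left) :
    ∃ e, r d e ∧ e ∈ c'.Left := by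
  have hd' : T.DJoin c.darts (c.e 0) d := hd
  induction hd' with
  | refl => exact ⟨_, hcc.2 0, ReflTransGen.refl⟩
  | @tail a b hab hstep ih =>
    obtain ⟨ea, h1, h2⟩ := ih hab
    have haG : a ∈ G := hG hab
    rcases hstep with rfl | ⟨rfl, hne⟩
    · exact ⟨_, I.nxt h1 haG, ReflTransGen.tail h2 (Or.inl rfl)⟩
    · exact ⟨_, I.opp h1, ReflTransGen.tail h2 (Or.inr ⟨rfl, fun he => hne (pvdq_edg I hcc h1 he)⟩)⟩

/-- the other half -/
theorem pvdq_left_aux' (I : PvdqIso T T' G G' r rv) {c : T.Cyc} {c' : T'.Cyc} (hcc : PvdqCyc r c c') (hG : c.Left ⊆ G) {e : D'} (he : e ∈ c'.Left) :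
    ∃ d, r d e ∧ d ∈ c.Left := by
  have he' : T'.DJoin c'.darts (c'.e 0) e := he
  induction he' with
  | refl => exact ⟨_, hcc.2 0, ReflTransGen.refl⟩
  | @tail a b hab hstep ih =>
    obtain ⟨da, h1, h2⟩ := ih hab
    have haG : da ∈ G := hG h2
    rcases hstep with rfl | ⟨rfl, hne⟩
    · exact ⟨_, I.nxt h1 haG, ReflTransGen.tail h2 (Or.inl rfl)⟩
    · exact ⟨_, I.opp h1, ReflTransGen.tail h2 (Or.inr ⟨rfl, fun hd => hne (pvdq_edg I.symm hcc.symm h1 hd)⟩)⟩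

/-- **the left sides of related cycles correspond** -/
theorem pvdq_left (I : PvdqIso T T' G G' r rv) {c : T.Cyc} {c' : T'.Cyc} (hcc : PvdqCyc r c c') (hG : c.Left ⊆ G) : PvdqCor r c.Left c'.Left := by
  intro d e h
  constructor
  · intro hd
    obtain ⟨e', h1, h2⟩ := pvdq_left_aux I hcc hG hd
    rwa [I.fn h h1]
  · intro he
    obtain ⟨d', h1, h2⟩ := pvdq_left_aux' I hcc hG he
    rwa [I.inj h h1]

theorem pvdq_left_sub (I : PvdqIso T T' G G' r rv) {c : T.Cyc} {c' : T'.Cyc} (hcc : PvdqCyc r c c') (hG : c.Left ⊆ G) : c'.Left ⊆ G' := by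
  intro e he
  obtain ⟨d, h1, h2⟩ := pvdq_left_aux' I hcc hG he
  exact (I.mem h1).1 (hG h2)

theorem pvdq_left_fin (I : PvdqIso T T' G G' r rv) {c : T.Cyc} {c' : T'.Cyc} (hcc : PvdqCyc r c c') (hG : c.Left ⊆ G) (hfin : c.Left.Finite) : c'.Left.Finite := by
  classical
  by_cases hne : Nonempty D'
  · obtain ⟨e0⟩ := hne
    refine (hfin.image fun d => if h : ∃ e, r d e then h.choose else e0).subset ?_
    intro e he
    obtain ⟨d, h1, h2⟩ := pvdq_left_aux' I hcc hG he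
    refine ⟨d, h2, ?_⟩
    have hex : ∃ e, r d e := ⟨e, h1⟩
    simp only [dif_pos hex]
    exact I.fn hex.choose_spec h1
  · have := not_nonempty_iff.1 hne
    exact Set.toFinite _

/-- **transfer of a five-arm configuration** `PvatCfg`, with the correspondence of the three runs -/
theorem pvdq_cfg (I : PvdqIso T T' G G' r rv) (hc : ∀ v w, rv v w → s v = s' w) {c0 c1 c2 : T.Cyc} {c0' c1' c2' : T'.Cyc}
    (h0 : PvdqCyc r c0 c0') (h1 : PvdqCyc r c1 c1') (h2 : PvdqCyc r c2 c2') (hG : c0.Left ⊆ G) (hG1 : c1.Left ⊆ G) (hG2 : c2.Left ⊆ G)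
    {x x2 x4 : D} {n1 n2 n4 : ℕ} (hcfg : PvatCfg T c0 c1 c2 s x x2 x4 n1 n2 n4) :
    ∃ x' x2' x4' : D', PvatCfg T' c0' c1' c2' s' x' x2' x4' n1 n2 n4 ∧ (∀ i, i ≤ n1 → r (pvasIt T s x i) (pvasIt T' s' x' i)) ∧
      (∀ i, i ≤ n2 → r (pvasIt T (pvasNot s) x2 i) (pvasIt T' (pvasNot s') x2' i)) ∧ (∀ i, i ≤ n4 → r (pvasIt T (pvasNot s) x4 i) (pvasIt T' (pvasNot s') x4' i)) := by
  obtain ⟨x', hx⟩ := I.tot (hG hcfg.r1.ent.1)
  obtain ⟨x2', hx2⟩ := I.tot (hG hcfg.r2.ent.1)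
  obtain ⟨x4', hx4⟩ := I.tot (hG hcfg.r4.ent.1)
  have L0 := pvdq_left I h0 hG
  have L1 := pvdq_left I h1 hG1
  have L2 := pvdq_left I h2 hG2
  obtain ⟨R1, i1⟩ := pvdq_run I hc hG L0 L1 hx hcfg.r1
  obtain ⟨R2, i2⟩ := pvdq_run I (pvdq_not hc) hG L0 L1 hx2 hcfg.r2
  obtain ⟨R4, i4⟩ := pvdq_run I (pvdq_not hc) hG L0 L2 hx4 hcfg.r4
  exact ⟨x', x2', x4', ⟨R1, R2, R4, pvdq_lay_disj I i4 i1 hcfg.dis1, pvdq_lay_disj I i4 i2 hcfg.dis2⟩, i1, i2, i4⟩

/-! ### vertices, interiors, nesting -/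

theorem pvdq_rot_it (I : PvdqIso T T' G G' r rv) {d : D} {e : D'} (h : r d e) (n : ℕ) (hG : ∀ i, i < n → T.rot^[i] d ∈ G) : r (T.rot^[n] d) (T'.rot^[n] e) := by
  induction n with
  | zero => exact h
  | succ n ih =>
    rw [Function.iterate_succ_apply', Function.iterate_succ_apply']
    exact I.rot (ih fun i hi => hG i (by omega)) (hG n (by omega))

theorem pvdq_src_rot_it (T : PvMap V D) (d : D) (n : ℕ) : T.src (T.rot^[n] d) = T.src d := by
  induction n with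
  | zero => rfl
  | succ n ih => rw [Function.iterate_succ_apply', T.src_rot, ih]

/-- **interior vertices correspond** -/
theorem pvdq_int (I : PvdqIso T T' G G' r rv) (hT' : T'.IsSph) {A : Set D} {A' : Set D'} (hAG : A ⊆ G) (hA : PvdqCor r A A') {d : D} {e : D'} (h : r d e)
    (hv : T.src d ∈ T.Int A) : T'.src e ∈ T'.Int A' := by
  intro e' he'
  obtain ⟨n, rfl⟩ := hT'.link e e' he'.symm
  have hmem : ∀ i, T.rot^[i] d ∈ A := fun i => hv _ (pvdq_src_rot_it T d i)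
  exact (hA _ _ (pvdq_rot_it I h n fun i _ => hAG (hmem i))).1 (hmem n)

theorem pvdq_verts (I : PvdqIso T T' G G' r rv) {c : T.Cyc} {c' : T'.Cyc} (hcc : PvdqCyc r c c') {v : V} {w : V'} (h : rv v w) (hv : v ∈ c.verts) : w ∈ c'.verts := by
  obtain ⟨i, rfl⟩ := hv
  exact ⟨i, I.vfn (I.src (hcc.2 i)) h⟩

/-- monotonicity of the left sides is transferred -/
theorem pvdq_left_mono (I : PvdqIso T T' G G' r rv) {c d : T.Cyc} {c' d' : T'.Cyc} (hc : PvdqCyc r c c') (hd : PvdqCyc r d d') (hG : d.Left ⊆ G) (h : c.Left ⊆ d.Left) :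
    c'.Left ⊆ d'.Left := by
  intro e he
  obtain ⟨a, h1, h2⟩ := pvdq_left_aux' I hc (h.trans hG) he
  exact (pvdq_left I hd hG _ _ h1).1 (h h2)

/-- **nesting is transferred** -/
theorem pvdq_inside (I : PvdqIso T T' G G' r rv) (hT' : T'.IsSph) {c d : T.Cyc} {c' d' : T'.Cyc} (hc : PvdqCyc r c c') (hd : PvdqCyc r d d') (hG : d.Left ⊆ G)
    (h : c.Inside d) : c'.Inside d' := by
  refine ⟨?_, pvdq_left_mono I hc hd hG h.2⟩
  rintro w ⟨i, rfl⟩
  exact pvdq_int I hT' hG (pvdq_left I hd hG) (hc.2 i) (h.1 ⟨i, rfl⟩)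

theorem pvdq_ann (I : PvdqIso T T' G G' r rv) {c d : T.Cyc} {c' d' : T'.Cyc} (hc : PvdqCyc r c c') (hd : PvdqCyc r d d') (hGc : c.Left ⊆ G) (hGd : d.Left ⊆ G) :
    PvdqCor r (c.Ann d) (c'.Ann d') := (pvdq_left I hd hGd).diff (pvdq_left I hc hGc)

/-- a vertex of a face of `A'` comes from a vertex of a face of `A` -/
theorem pvdq_vof (I : PvdqIso T T' G G' r rv) {c : T.Cyc} {c' : T'.Cyc} (hcc : PvdqCyc r c c') (hG : c.Left ⊆ G) {w : V'} (hw : w ∈ T'.VOf c'.Left) :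
    ∃ v ∈ T.VOf c.Left, rv v w := by
  obtain ⟨e, he, rfl⟩ := hw
  obtain ⟨d, h1, h2⟩ := pvdq_left_aux' I hcc hG he
  exact ⟨_, ⟨d, h2, rfl⟩, I.src h1⟩

/-! ### paths, crossings -/

theorem pvdq_edgeIn (I : PvdqIso T T' G G' r rv) {A : Set D} {A' : Set D'} (hAG : A ⊆ G) (hA : PvdqCor r A A') {a b : V} {a' : V'} (ha : rv a a') (h : T.EdgeIn A a b) :
    ∃ b', rv b b' ∧ T'.EdgeIn A' a' b' := by
  obtain ⟨d, hd, rfl, rfl⟩ := h
  obtain ⟨e, he⟩ := I.tot_opp (hd.imp (fun h => hAG h) fun h => hAG h)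
  refine ⟨T'.tgt e, I.tgt he, e, hd.imp (hA _ _ he).1 (hA _ _ (I.opp he)).1, I.vfn (I.src he) ha, rfl⟩

/-- **transfer of a path** -/
theorem pvdq_join (I : PvdqIso T T' G G' r rv) {A : Set D} {A' : Set D'} (hAG : A ⊆ G) (hA : PvdqCor r A A') {Z : Set V} {Z' : Set V'} (hZ : ∀ v w, rv v w → v ∈ Z → w ∈ Z')
    {a b : V} {a' : V'} (ha : rv a a') (h : T.Join A Z a b) : ∃ b', rv b b' ∧ T'.Join A' Z' a' b' := by
  obtain ⟨h1, h2⟩ := h
  induction h2 with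
  | refl => exact ⟨a', ha, hZ _ _ ha h1, ReflTransGen.refl⟩
  | @tail x y _ hstep ih =>
    obtain ⟨x', hx, hj⟩ := ih
    obtain ⟨y', hy, he⟩ := pvdq_edgeIn I hAG hA hx hstep.1
    exact ⟨y', hy, hj.1, hj.2.tail ⟨he, hZ _ _ hy hstep.2⟩⟩

/-- **transfer of a crossing** -/
theorem pvdq_cr (I : PvdqIso T T' G G' r rv) (hc : ∀ v w, rv v w → s v = s' w) {c d : T.Cyc} {c' d' : T'.Cyc} (hcc : PvdqCyc r c c') (hdd : PvdqCyc r d d')
    (hGc : c.Left ⊆ G) (hGd : d.Left ⊆ G) {X : Set V} {X' : Set V'} (hX : ∀ v w, rv v w → v ∈ X → w ∈ X') {b : Bool} (h : PvaxCr T c d X b s) : PvaxCr T' c' d' X' b s' := by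
  obtain ⟨u, ⟨i, rfl⟩, w, hw, hj⟩ := h
  obtain ⟨w', hw', hj'⟩ := pvdq_join I (Z' := {v | v ∈ X' ∧ s' v = b}) (Set.sdiff_subset.trans hGd) (pvdq_ann I hcc hdd hGc hGd)
    (fun v w hvw hv => ⟨hX v w hvw hv.1, by rw [← hc v w hvw]; exact hv.2⟩) (I.src (hcc.2 i)) hj
  exact ⟨_, ⟨i, rfl⟩, w', pvdq_verts I hdd hw' hw, hj'⟩

/-- the complement of three layers -/
theorem pvdq_lay_compl (I : PvdqIso T T' G G' r rv) {t u : V → Bool} {t' u' : V' → Bool} {x y z : D} {x' y' z' : D'} {n m k : ℕ}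
    (hx : ∀ i, i ≤ n → r (pvasIt T s x i) (pvasIt T' s' x' i)) (hy : ∀ i, i ≤ m → r (pvasIt T t y i) (pvasIt T' t' y' i)) (hz : ∀ i, i ≤ k → r (pvasIt T u z i) (pvasIt T' u' z' i)) :
    ∀ v w, rv v w → v ∈ (pvatLay T s x n ∪ pvatLay T t y m ∪ pvatLay T u z k)ᶜ → w ∈ (pvatLay T' s' x' n ∪ pvatLay T' t' y' m ∪ pvatLay T' u' z' k)ᶜ := by
  intro v w hvw hv hw
  apply hv
  rcases hw with (hw | hw) | hw
  · obtain ⟨v', h1, h2⟩ := pvdq_lay I hx hw
    rw [I.vinj hvw h2]; exact Or.inl (Or.inl h1)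
  · obtain ⟨v', h1, h2⟩ := pvdq_lay I hy hw
    rw [I.vinj hvw h2]; exact Or.inl (Or.inr h1)
  · obtain ⟨v', h1, h2⟩ := pvdq_lay I hz hw
    rw [I.vinj hvw h2]; exact Or.inr h1

/-- **transfer of CONFIG6**: five-arm configuration + a sixth arm off the three explored strands -/
theorem pvdq_cfg6 (I : PvdqIso T T' G G' r rv) (hc : ∀ v w, rv v w → s v = s' w) {c0 cm c1 c2 c3 : T.Cyc} {c0' cm' c1' c2' c3' : T'.Cyc}
    (h0 : PvdqCyc r c0 c0') (hm : PvdqCyc r cm cm') (h1 : PvdqCyc r c1 c1') (h2 : PvdqCyc r c2 c2') (h3 : PvdqCyc r c3 c3')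
    (hG : c0.Left ⊆ G) (hGm : cm.Left ⊆ G) (hG1 : c1.Left ⊆ G) (hG2 : c2.Left ⊆ G) (hG3 : c3.Left ⊆ G) {b : Bool}
    (h : ∃ x x2 x4 n1 n2 n4, PvatCfg T c0 c1 c2 s x x2 x4 n1 n2 n4 ∧ PvaxCr T c3 cm (pvatLay T s x n1 ∪ pvatLay T (pvasNot s) x2 n2 ∪ pvatLay T (pvasNot s) x4 n4)ᶜ b s) :
    ∃ x x2 x4 n1 n2 n4, PvatCfg T' c0' c1' c2' s' x x2 x4 n1 n2 n4 ∧ PvaxCr T' c3' cm' (pvatLay T' s' x n1 ∪ pvatLay T' (pvasNot s') x2 n2 ∪ pvatLay T' (pvasNot s') x4 n4)ᶜ b s' := by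
  obtain ⟨x, x2, x4, n1, n2, n4, hcfg, harm⟩ := h
  obtain ⟨x', x2', x4', hcfg', i1, i2, i4⟩ := pvdq_cfg I hc h0 h1 h2 hG hG1 hG2 hcfg
  exact ⟨x', x2', x4', n1, n2, n4, hcfg', pvdq_cr I hc h3 hm hG3 hGm (pvdq_lay_compl I i1 i2 i4) harm⟩

end iso

/-! ## Part B. The instance: a bulk family and the Delaunay plane -/

section bulk

variable {X : Type} (𝔅 : PvBulk X) {Y K : Set ℂ} (h : DelGood Y)

/-- the bulk darts over the star of `K` -/
def pvdqG (K : Set ℂ) : Set (𝔅.D Y) := {d | ∃ e ∈ delbStar h K, DelbRel 𝔅 h d e}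

/-- a bulk vertex and the site which is its name -/
def pvdqRv (v : 𝔅.V Y) (w : Y) : Prop := 𝔅.lab Y v = Sum.inl (w : ℂ)

theorem pvdq_eqns_cite2 : True := by
  have := @pvdqG.eq_1
  have := @pvdqRv.eq_1
  have := @PvdqCyc.eq_1
  trivial

variable {𝔅 h}

theorem pvdq_G_nxt (hOk : 𝔅.Ok Y K) {d : 𝔅.D Y} (hd : d ∈ pvdqG 𝔅 h K) : (𝔅.T Y).nxt d ∈ pvdqG 𝔅 h K := by
  obtain ⟨e, he, hr⟩ := hd
  exact ⟨_, delb_star_nxt.2 he, delb_rel_nxt hOk hr (delb_emb_of_star hOk hr he)⟩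

/-- **the local isomorphism  bulk family → Delaunay plane** over the star of `K` -/
theorem pvdq_bulk (hOk : 𝔅.Ok Y K) : PvdqIso (𝔅.T Y) (delMap h) (pvdqG 𝔅 h K) (delbStar h K) (DelbRel 𝔅 h) (pvdqRv 𝔅) where
  fn := fun h1 h2 => delb_rel_fun h1 h2
  inj := fun h1 h2 => delb_rel_inj hOk h1 h2
  vfn := fun {v w w'} h1 h2 => Subtype.ext (Sum.inl_injective ((show 𝔅.lab Y v = Sum.inl (w : ℂ) from h1).symm.trans h2))
  vinj := fun {v v' w} h1 h2 => hOk.inj ((show 𝔅.lab Y v = Sum.inl (w : ℂ) from h1).trans (show 𝔅.lab Y v' = Sum.inl (w : ℂ) from h2).symm)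
  src := fun h1 => h1.1
  opp := fun h1 => delb_rel_opp h1
  nxt := fun {d e} h1 hd => by
    obtain ⟨e', he', hr⟩ := hd
    rw [delb_rel_fun hr h1] at he'
    exact delb_rel_nxt hOk h1 (delb_emb_of_star hOk h1 he')
  mem := fun {d e} h1 => ⟨fun ⟨e', he', hr⟩ => by rwa [delb_rel_fun hr h1] at he', fun he => ⟨e, he, h1⟩⟩
  tot := fun ⟨e, _, hr⟩ => ⟨e, hr⟩
  tot' := fun he => (delb_rel_of_star hOk he).imp fun _ hd => hd.1
  fs := fun d => ⟨fun hd => by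
    have := pvdq_G_nxt hOk (pvdq_G_nxt hOk hd)
    rwa [(𝔅.T Y).nxt3] at this, pvdq_G_nxt hOk⟩
  fs' := delb_star_faceSet

/-- a bulk dart with a vertex of its face in `K` is over the star -/
theorem pvdq_G_of_src (hOk : 𝔅.Ok Y K) {d : 𝔅.D Y} {a : ℂ} (ha : 𝔅.lab Y ((𝔅.T Y).src d) = Sum.inl a) (haK : a ∈ K) : d ∈ pvdqG 𝔅 h K := by
  obtain ⟨e, he⟩ := delb_rel_of_emb h hOk (delb_emb_of_src hOk ha haK)
  exact ⟨e, delb_star_of_src he ha haK, he⟩

theorem pvdq_G_of_tgt (hOk : 𝔅.Ok Y K) {d : 𝔅.D Y} {a : ℂ} (ha : 𝔅.lab Y ((𝔅.T Y).tgt d) = Sum.inl a) (haK : a ∈ K) : d ∈ pvdqG 𝔅 h K := by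
  obtain ⟨e, he⟩ := delb_rel_of_emb h hOk (delb_emb_of_tgt hOk ha haK)
  exact ⟨e, delb_star_of_tgt he ha haK, he⟩

end bulk

/-- the colours correspond -/
theorem pvdq_col {X : Type} (𝔅 : PvBulk X) (η : Conf PvPt) (ξ : X → Bool) : ∀ v w, pvdqRv 𝔅 (Y := cfSites η) v w → 𝔅.col η ξ v = dlsCol η w := by
  intro v w hvw
  rw [delb_col_inl 𝔅 η ξ hvw, dls_col_eq]

end Claimed.Agent.R289
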