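-- KEEP
import Claimed.Agent.R289.Arm.Trap
import Claimed.Agent.R289.Arm.KCount
import Claimed.Agent.R289.Arm.Bxp
import Claimed.Agent.R289.Pl.Rim
import Claimed.Agent.R289.Arm.Ret

/-!
# Row 289 (S0537), box ARM, block NR-DET, file Arm/NearRet : NEAR RETURN OF A RIM  ⟹  CONFIG5 + A FRESH SIXTH ARM      (helper228; prefix `pvnr_`, defs `Pvnr…`)

TeX: 02-probability.tex, Lemma 2.7 (near return), deterministic half.   The proof of the paper (Hex four times, crosscuts, no right bypass) is NOT followed.   Only potentials (`IsSph.h1`).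

INPUT   a rim `P` (`PvnrRim T s P`: the right faces `opp (P.e i)` are tags of ONE wall), indices `i₀ < i₁ < i₂ < i₃ < i₀ + P.n`, the right faces number `i₀`, `i₂` in `c1.Left`, the right faces number `i₁`, `i₃` outside `c0.Left`.
OUTPUT  `PvatCfg T c0 c1 c2 s x x2 x4 n1 n2 n4` (CONFIG5 of `Arm/Trap`) and a crossing `PvaxCr` of the annulus `(c3, c0)`, of the colour of the rim, which avoids the three explored strands.

PROOF.  (1) in the right face `f` number `i₀` there is one position of `s` and one position of `pvasNot s`; followed BACKWARDS they leave `c0.Left` (else the whole wall would stay inside): entrances `a1` (`s`), `a2` (`pvasNot s`); the same at `i₂`: `a3`, `a4`.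
(2) `u` = potential of the closed dual curve which crosses `P` at the edges `p`, `q`, runs in `P.Left` and along the wall (`pvnr_sep`): among the unoccupied edges not inside `P.Left` it jumps exactly at `P.e p`, `P.e q`.   So it is constant on the
    vertices of the colour of the rim of a piece of the wall which avoids the right faces number `p`, `q`.   Cut `(i₁, i₃)`: strands through `f` / strands through `f'`.   Cut `(i₀, i₁)`: `a1` / `a2`.   Cut `(i₂, i₁)`: `a3` / `a4`.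
(3) `τ` = `pvak_pair` for `a2`, `a4` (two entrances of the same type): it separates the layers of `a2` from the layers of `a4`, colour by colour, and is constant on each colour of the layers of `a1`: so `a1` misses one of them: `x4`.
(4) the sixth arm = the layer of the colour of the rim of the fourth strand `a3`, up to `c3.Left`.
-/

set_option autoImplicit false
set_option linter.unusedSectionVars false
set_option linter.unusedVariables false

namespace Claimed.Agent.R289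

open Relation

variable {V D : Type} {T : PvMap V D}

/-! ## 0. definitions -/

/-- rim data: the right faces are tags of one wall -/
structure PvnrRim (T : PvMap V D) (s : V → Bool) (P : T.Cyc) : Prop where
  tag : ∀ i, T.Tag s (T.opp (P.e i))
  wall : ∀ i j, T.Wall s (T.opp (P.e i)) (T.opp (P.e j))

/-- the strand of the entrance `x` of `B` stays in `B` up to the time `k`, at which it is in the face of `f` -/
structure PvnrThru (T : PvMap V D) (B : Set D) (t : V → Bool) (f x : D) (k : ℕ) : Prop where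
  ent : pvasIn T B t x
  mem : ∀ i, i ≤ k → pvasIt T t x i ∈ B
  face : T.SF f (pvasIt T t x k)

/-! ## 1. strands through a face of a wall which leaves `B` -/

theorem pvnr_wall_not {s : V → Bool} {a b : D} : T.Wall (pvasNot s) a b ↔ T.Wall s a b := by
  constructor
  · exact fun h => ReflTransGen.mono (fun x y hxy => hxy.imp id fun h2 => ⟨pvas_occ_not.1 h2.1, h2.2⟩) a b h
  · exact fun h => ReflTransGen.mono (fun x y hxy => hxy.imp id fun h2 => ⟨pvas_occ_not.2 h2.1, h2.2⟩) a b h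

theorem pvnr_tag_not {s : V → Bool} {d : D} : T.Tag (pvasNot s) d ↔ T.Tag s d := by
  unfold PvMap.Tag pvasNot
  generalize s (T.src d) = a
  generalize s (T.tgt d) = b
  generalize s (T.apex d) = c
  revert a b c
  decide

theorem pvnr_rim_not {s : V → Bool} {P : T.Cyc} (h : PvnrRim T s P) : PvnrRim T (pvasNot s) P :=
  ⟨fun i => pvnr_tag_not.2 (h.tag i), fun i j => pvnr_wall_not.2 (h.wall i j)⟩

/-- one step of a strand stays in the wall -/
theorem pvnr_step_wall {s : V → Bool} {d : D} (h : pvasBW T s d) : T.Wall s d (pvasStep T s d) := by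
  have h1 : T.Wall s d (T.opp (pvasStep T s d)) := pl_ra_wall_sf s (pvas_step_sf s d)
  have h2 : T.Occ s (T.opp (pvasStep T s d)) := pl_ra_occ_opp (pvas_bw_occ (pvas_step_bw h))
  have h3 := pl_ra_wall_opp (pl_ra_wall_refl s _) h2
  rw [T.opp_opp] at h3
  exact pl_ra_wall_trans h1 h3

theorem pvnr_it_wall {s : V → Bool} {d : D} (h : pvasBW T s d) (n : ℕ) : T.Wall s d (pvasIt T s d n) := by
  induction n with
  | zero => exact pl_ra_wall_refl s d
  | succ n ih =>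
    rw [pvas_it_succ]
    exact pl_ra_wall_trans ih (pvnr_step_wall (pvas_it_bw h n))

/-- the occupied darts of the face of a position: the position itself and the opposite of the next position -/
theorem pvnr_face_occ {s : V → Bool} {q a : D} (hq : pvasBW T s q) (hf : T.SF q a) (ha : T.Occ s a) : a = q ∨ T.opp a = pvasStep T s q := by
  rcases hf with rfl | rfl | rfl
  · exact Or.inl rfl
  · right
    have h1 : s (T.apex q) = true := by
      unfold PvMap.Occ at ha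
      rw [T.src_nxt, T.tgt_nxt, hq.2] at ha
      cases h : s (T.apex q)
      · exact absurd h.symm ha
      · rfl
    rw [pvas_step_black h1]
  · right
    have h1 : s (T.apex q) = false := by
      unfold PvMap.Occ at ha
      rw [T.src_nxt2, T.tgt_nxt2, hq.1] at ha
      cases h : s (T.apex q)
      · rfl
      · exact absurd h ha
    rw [pvas_step_white h1]

/-- a periodic strand visits all the faces of its wall -/
theorem pvnr_wall_orbit {s : V → Bool} {p : D} (hp : pvasBW T s p) {m : ℕ} (hm : 0 < m) (hper : pvasIt T s p m = p) {d : D} (h : T.Wall s p d) :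
    ∃ k, T.SF (pvasIt T s p k) d := by
  induction h with
  | refl => exact ⟨0, T.sf_refl p⟩
  | @tail a b _ hab ih =>
    obtain ⟨k, hk⟩ := ih
    rcases hab with hab | ⟨hocc, rfl⟩
    · exact ⟨k, T.sf_trans hk hab⟩
    · rcases pvnr_face_occ (pvas_it_bw hp k) hk hocc with rfl | h2
      · -- back to the previous face
        obtain ⟨j, hj⟩ : ∃ j, pvasIt T s p (j + 1) = pvasIt T s p k := by
          rcases Nat.eq_zero_or_pos k with rfl | hk0
          · exact ⟨m - 1, by rw [Nat.sub_add_cancel hm, hper]; rfl⟩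
          · exact ⟨k - 1, by rw [Nat.sub_add_cancel hk0]⟩
        refine ⟨j, ?_⟩
        rw [← hj, pvas_it_succ]
        exact pvas_step_sf s _
      · exact ⟨k + 1, by rw [pvas_it_succ, ← h2]; exact T.sf_refl _⟩

/-- a strand of a wall which has a face outside the finite face set `B` leaves `B` -/
theorem pvnr_leave {B : Set D} (hB : T.FaceSet B) (hfin : B.Finite) {s : V → Bool} {p g : D} (hp : pvasBW T s p) (hw : T.Wall s p g) (hg : g ∉ B) :
    ∃ n, pvasIt T s p n ∉ B := by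
  by_contra hn
  have hall : ∀ n, pvasIt T s p n ∈ B := fun n => by
    by_contra hc
    exact hn ⟨n, hc⟩
  have hni : ¬ Function.Injective (fun n => pvasIt T s p n) := fun hinj => (Set.infinite_of_injective_forall_mem hinj hall) hfin
  obtain ⟨m, n, hmn, hlt⟩ : ∃ m n, pvasIt T s p m = pvasIt T s p n ∧ m < n := by
    by_contra hc
    apply hni
    intro m n e
    rcases Nat.lt_trichotomy m n with hlt | heq | hlt
    · exact absurd ⟨m, n, e, hlt⟩ hc
    · exact heq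
    · exact absurd ⟨n, m, e.symm, hlt⟩ hc
  have hper := pvas_it_return hp hlt.le hmn
  obtain ⟨k, hk⟩ := pvnr_wall_orbit hp (Nat.sub_pos_of_lt hlt) hper hw
  exact hg ((hB.sf T hk).2 (hall k))

/-- **the entrance**: a position in `B` of a wall which has a face outside `B` lies on the strand of an entrance of `B` -/
theorem pvnr_enter {B : Set D} (hB : T.FaceSet B) (hfin : B.Finite) {s : V → Bool} {p g : D} (hp : pvasBW T s p) (hpB : p ∈ B) (hw : T.Wall s p g) (hg : g ∉ B) :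
    ∃ x k, pvasIn T B s x ∧ pvasIt T s x k = p ∧ ∀ i, i ≤ k → pvasIt T s x i ∈ B := by
  classical
  have hq : pvasBW T (pvasNot s) (T.opp p) := pvas_bw_not.2 hp
  have hw' : T.Wall (pvasNot s) (T.opp p) g := by
    rw [pvnr_wall_not]
    exact pl_ra_wall_trans (pl_ra_wall_symm (pl_ra_wall_opp (pl_ra_wall_refl s _) (pvas_bw_occ hp))) hw
  have hex := pvnr_leave hB hfin hq hw' hg
  have hm := Nat.find_spec hex
  have hmin : ∀ j, j < Nat.find hex → pvasIt T (pvasNot s) (T.opp p) j ∈ B := fun j hj => not_not.1 (Nat.find_min hex hj)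
  set m := Nat.find hex with hmdef
  have hopp : ∀ j, j ≤ m → T.opp (pvasIt T (pvasNot s) (T.opp p) j) ∈ B := by
    intro j hj
    rcases Nat.eq_zero_or_pos j with rfl | hj0
    · rw [pvas_it_zero, T.opp_opp]; exact hpB
    · obtain ⟨l, rfl⟩ : ∃ l, j = l + 1 := ⟨j - 1, by omega⟩
      rw [pvas_it_succ, pvas_step_opp_mem hB]
      exact hmin l (by omega)
  have hrev : ∀ i, i ≤ m → pvasIt T s (T.opp (pvasIt T (pvasNot s) (T.opp p) m)) i = T.opp (pvasIt T (pvasNot s) (T.opp p) (m - i)) := by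
    intro i hi
    have := pvas_it_rev hq hi
    rwa [pvas_not_not] at this
  refine ⟨T.opp (pvasIt T (pvasNot s) (T.opp p) m), m, ⟨hopp m le_rfl, by rw [T.opp_opp]; exact hm, pvas_bw_not'.1 (pvas_it_bw hq m)⟩, ?_, ?_⟩
  · rw [hrev m le_rfl, Nat.sub_self, pvas_it_zero, T.opp_opp]
  · intro i hi
    rw [hrev i hi]
    exact hopp _ (Nat.sub_le _ _)

/-- the position of the colouring `t` in a tagged face -/
theorem pvnr_tag_pos {t : V → Bool} {f : D} (hf : T.Tag t f) : ∃ p, T.SF f p ∧ pvasBW T t p := by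
  obtain ⟨h1, h2⟩ := hf
  cases h : t (T.src f)
  · refine ⟨T.nxt (T.nxt f), T.sf_nxt2 f, ?_, ?_⟩
    · rw [T.src_nxt2]
      rw [h] at h2
      cases h3 : t (T.apex f)
      · exact absurd h3 h2
      · rfl
    · rw [T.tgt_nxt2]; exact h
  · refine ⟨T.nxt f, T.sf_nxt f, ?_, ?_⟩
    · rw [T.src_nxt, ← h1]; exact h
    · rw [T.tgt_nxt]
      rw [h] at h2
      cases h3 : t (T.apex f)
      · rfl
      · exact absurd h3 h2

/-- **a strand through a tagged face** -/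
theorem pvnr_thru {B : Set D} (hB : T.FaceSet B) (hfin : B.Finite) {t : V → Bool} {f g : D} (hf : T.Tag t f) (hfB : f ∈ B) (hw : T.Wall t f g) (hg : g ∉ B) :
    ∃ x k, PvnrThru T B t f x k := by
  obtain ⟨p, hp1, hp2⟩ := pvnr_tag_pos hf
  obtain ⟨x, k, h1, h2, h3⟩ := pvnr_enter hB hfin hp2 ((hB.sf T hp1).2 hfB) (pl_ra_wall_trans (pl_ra_wall_symm (pl_ra_wall_sf t hp1)) hw) hg
  exact ⟨x, k, h1, h3, by rw [h2]; exact hp1⟩

/-- the run to a face set which contains the face `f` -/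
theorem pvnr_thru_run {B A : Set D} (hA : T.FaceSet A) {t : V → Bool} {f x : D} {k : ℕ} (h : PvnrThru T B t f x k) (hfA : f ∈ A) : ∃ n, n ≤ k ∧ PvatRun T B A t x n := by
  classical
  have hex : ∃ n, pvasIt T t x n ∈ A := ⟨k, (hA.sf T h.face).2 hfA⟩
  have hle : Nat.find hex ≤ k := Nat.find_min' hex ((hA.sf T h.face).2 hfA)
  exact ⟨Nat.find hex, hle, h.ent, fun j hj => ⟨h.mem j (by omega), Nat.find_min hex hj⟩, Nat.find_spec hex⟩

/-! ## 2. a potential without jump at the unoccupied edges of the crossed faces is constant on each colour of the layers -/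

theorem pvnr_bank {t : V → Bool} {x : D} {n : ℕ} {u : V → ZMod 2} (hx : pvasBW T t x)
    (hu : ∀ i, i < n → ∀ d, T.SF (pvasIt T t x i) d → ¬ T.Occ t d → u (T.src d) = u (T.tgt d)) :
    ∀ i, i ≤ n → u (T.src (pvasIt T t x i)) = u (T.src x) ∧ u (T.tgt (pvasIt T t x i)) = u (T.tgt x) := by
  intro i
  induction i with
  | zero => intro _; exact ⟨rfl, rfl⟩
  | succ i ih =>
    intro hi
    obtain ⟨h1, h2⟩ := ih (by omega)
    have hq := pvas_it_bw hx i
    rw [pvas_it_succ]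
    rcases pvas_step_ends t (pvasIt T t x i) with ⟨ha, e1, e2⟩ | ⟨ha, e1, e2⟩
    · rw [e1, e2]
      refine ⟨?_, h2⟩
      have := hu i (by omega) (T.nxt (T.nxt (pvasIt T t x i))) (T.sf_nxt2 _) (by
        unfold PvMap.Occ
        rw [T.src_nxt2, T.tgt_nxt2, ha, hq.1]
        exact fun h => h rfl)
      rw [T.src_nxt2, T.tgt_nxt2] at this
      rw [this, h1]
    · rw [e1, e2]
      refine ⟨h1, ?_⟩
      have := hu i (by omega) (T.nxt (pvasIt T t x i)) (T.sf_nxt _) (by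
        unfold PvMap.Occ
        rw [T.src_nxt, T.tgt_nxt, ha, hq.2]
        exact fun h => h rfl)
      rw [T.src_nxt, T.tgt_nxt] at this
      rw [← this, h2]

/-- two vertices of the same colour of the layers -/
theorem pvnr_bank_col {t : V → Bool} {x : D} {n : ℕ} {u : V → ZMod 2} (hx : pvasBW T t x)
    (hu : ∀ i, i < n → ∀ d, T.SF (pvasIt T t x i) d → ¬ T.Occ t d → u (T.src d) = u (T.tgt d))
    {v w : V} (hv : v ∈ pvatLay T t x n) (hw : w ∈ pvatLay T t x n) (hvw : t v = t w) : u v = u w := by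
  have key := pvnr_bank hx hu
  rcases hv with ⟨i, hi, rfl⟩ | ⟨i, hi, rfl⟩ <;> rcases hw with ⟨j, hj, rfl⟩ | ⟨j, hj, rfl⟩
  · rw [(key i hi).1, (key j hj).1]
  · rw [(pvas_it_bw hx i).1, (pvas_it_bw hx j).2] at hvw
    exact absurd hvw (by decide)
  · rw [(pvas_it_bw hx i).2, (pvas_it_bw hx j).1] at hvw
    exact absurd hvw (by decide)
  · rw [(key i hi).2, (key j hj).2]

theorem pvnr_lay_mono (t : V → Bool) (x : D) {m n : ℕ} (h : m ≤ n) : pvatLay T t x m ⊆ pvatLay T t x n :=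
  Set.union_subset_union (pvas_layB_mono t x h) (pvas_layW_mono t x h)

/-! ## 3. the potential of two edges of the rim -/

theorem pvnr_not_occ {s : V → Bool} {P : T.Cyc} (hP : PvnrRim T s P) (i : ℕ) : ¬ T.Occ s (P.e i) := by
  have h := (hP.tag i).1
  rw [T.src_opp', T.tgt_opp] at h
  exact fun ho => ho h.symm

/-- the faces of the wall are on the right of the rim -/
theorem pvnr_wall_right (hT : T.IsSph) {s : V → Bool} {P : T.Cyc} (hP : PvnrRim T s P) {i : ℕ} {d : D} (h : T.Wall s (T.opp (P.e i)) d) : d ∉ P.Left := by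
  have hJ := pl_jordan hT P
  have h0 : T.opp (P.e i) ∉ P.Left := by
    have := hJ.2.2.1 i
    rw [hJ.1] at this
    exact this
  have hZ : ∀ d, T.Bd P.Left d → T.Edg {z | ¬ T.Occ s z} d := by
    intro d hd
    rcases pl_left_bd_sub P hd with ⟨j, hj⟩ | ⟨j, hj⟩
    · exact Or.inl (hj ▸ pvnr_not_occ hP j)
    · exact Or.inr (hj ▸ pvnr_not_occ hP j)
  exact fun hd => h0 ((pl_side_dual (pl_left_face P) hZ (pl_ra_wall_djoin h)).2 hd)

/-- **SEPARATION BY TWO RIM EDGES** (= `pl_rim_sep` for `PvnrRim`) -/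
theorem pvnr_sep (hT : T.IsSph) {s : V → Bool} {P : T.Cyc} (hP : PvnrRim T s P) (i j : ℕ) :
    ∃ u : V → ZMod 2, ∀ x, ¬ T.Occ s x → (x ∉ P.Left ∨ T.opp x ∉ P.Left) → u (T.src x) + u (T.tgt x) = T.indE (P.e i) x + T.indE (P.e j) x := by
  have hJ := pl_jordan hT P
  have h₁ : T.DJoin P.Leftᶜ (P.e i) (P.e j) := (pl_djoin_in (pl_left_face P) (pl_left_dconn hT P _ (hJ.2.1 i) _ (hJ.2.1 j)) (hJ.2.1 i)).2
  have h₂ : T.DJoin {z | ¬ T.Occ s z} (T.opp (P.e i)) (T.opp (P.e j)) := pl_ra_wall_djoin (hP.wall i j)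
  obtain ⟨u, hu⟩ := pl_two_cross hT h₁ h₂
  exact ⟨u, fun x hx hx' => hu x hx' (Or.inl hx)⟩

theorem pvnr_indE_cyc (P : T.Cyc) {i k : ℕ} (h : i % P.n ≠ k % P.n) : T.indE (P.e k) (P.e i) = 0 :=
  pl_indE_eq_zero (fun he => h (pl_cyc_src_inj P (by rw [he]))) (pl_cyc_ne_opp P i k)

/-- no jump along an arc -/
theorem pvnr_arc_const (P : T.Cyc) (u : V → ZMod 2) {a b : ℕ} (hab : a ≤ b) (h : ∀ k, a ≤ k → k < b → u (T.src (P.e k)) + u (T.tgt (P.e k)) = 0) :
    u (T.src (P.e b)) = u (T.src (P.e a)) := by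
  induction b, hab using Nat.le_induction with
  | base => rfl
  | succ b hb ih =>
    rw [← ih (fun k h1 h2 => h k h1 (by omega)), ← P.chain]
    exact (pl_z2_eq_of_add (h b hb (by omega))).symm

/-- the values of the potential of the cut `(p, q)` along the rim -/
theorem pvnr_sep_step (hT : T.IsSph) {s : V → Bool} {P : T.Cyc} (hP : PvnrRim T s P) {p q : ℕ} {u : V → ZMod 2}
    (hu : ∀ x, ¬ T.Occ s x → (x ∉ P.Left ∨ T.opp x ∉ P.Left) → u (T.src x) + u (T.tgt x) = T.indE (P.e p) x + T.indE (P.e q) x) (k : ℕ) :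
    u (T.src (P.e k)) + u (T.tgt (P.e k)) = T.indE (P.e p) (P.e k) + T.indE (P.e q) (P.e k) := by
  have hJ := pl_jordan hT P
  refine hu _ (pvnr_not_occ hP k) (Or.inr ?_)
  have := hJ.2.2.1 k
  rw [hJ.1] at this
  exact this

/-- cut `(i₁, i₃)`: the edges number `i₀`, `i₂` are not jumps and lie on different sides -/
theorem pvnr_cut_far (hT : T.IsSph) {s : V → Bool} {P : T.Cyc} (hP : PvnrRim T s P) {i₀ i₁ i₂ i₃ : ℕ} (h01 : i₀ < i₁) (h12 : i₁ < i₂) (h23 : i₂ < i₃) (h30 : i₃ < i₀ + P.n)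
    {u : V → ZMod 2} (hu : ∀ x, ¬ T.Occ s x → (x ∉ P.Left ∨ T.opp x ∉ P.Left) → u (T.src x) + u (T.tgt x) = T.indE (P.e i₁) x + T.indE (P.e i₃) x) :
    u (T.tgt (P.e i₀)) = u (T.src (P.e i₀)) ∧ u (T.tgt (P.e i₂)) = u (T.src (P.e i₂)) ∧ u (T.src (P.e i₂)) ≠ u (T.src (P.e i₀)) := by
  have hs := pvnr_sep_step hT hP hu
  have z : ∀ k, i₀ ≤ k → k < i₃ → k ≠ i₁ → u (T.src (P.e k)) + u (T.tgt (P.e k)) = 0 := by
    intro k h1 h2 h3
    rw [hs k, pvnr_indE_cyc P, pvnr_indE_cyc P (pvak_mod_ne h2 (by omega)), add_zero]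
    rcases Nat.lt_or_gt_of_ne h3 with h | h
    · exact pvak_mod_ne h (by omega)
    · exact (pvak_mod_ne h (by omega)).symm
  have j1 : u (T.src (P.e i₁)) + u (T.tgt (P.e i₁)) = 1 := by
    rw [hs i₁, pl_indE_self, pvnr_indE_cyc P (pvak_mod_ne (h12.trans h23) (by omega)), add_zero]
  have a1 := pvnr_arc_const P u h01.le (fun k h1 h2 => z k h1 (by omega) (by omega))
  have a2 := pvnr_arc_const P u (a := i₁ + 1) (b := i₂) h12 (fun k h1 h2 => z k (by omega) (by omega) (by omega))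
  refine ⟨(pl_z2_eq_of_add (z i₀ le_rfl (by omega) (by omega))).symm, (pl_z2_eq_of_add (z i₂ (by omega) h23 (by omega))).symm, ?_⟩
  rw [a2, ← P.chain, ← a1]
  intro h
  rw [h, pl_z2_add_self] at j1
  exact zero_ne_one j1

/-- cut `(p, q)`: the edge number `p` is a jump -/
theorem pvnr_cut_near (hT : T.IsSph) {s : V → Bool} {P : T.Cyc} (hP : PvnrRim T s P) {p q : ℕ} (hpq : p % P.n ≠ q % P.n)
    {u : V → ZMod 2} (hu : ∀ x, ¬ T.Occ s x → (x ∉ P.Left ∨ T.opp x ∉ P.Left) → u (T.src x) + u (T.tgt x) = T.indE (P.e p) x + T.indE (P.e q) x) :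
    u (T.tgt (P.e p)) ≠ u (T.src (P.e p)) := by
  have j1 := pvnr_sep_step hT hP hu p
  rw [pl_indE_self, pvnr_indE_cyc P hpq, add_zero] at j1
  intro h
  rw [h, pl_z2_add_self] at j1
  exact zero_ne_one j1

/-! ## 4. the value of a cut potential on the rim-coloured vertices of a strand through a right face -/

/-- the position in a tagged face -/
theorem pvnr_pos_cases {t : V → Bool} {f p : D} (hf : T.Tag t f) (hp : pvasBW T t p) (h : T.SF f p) :
    (t (T.src f) = true ∧ p = T.nxt f) ∨ (t (T.src f) = false ∧ p = T.nxt (T.nxt f)) := by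
  rcases h with rfl | rfl | rfl
  · have := hf.1
    rw [hp.1, hp.2] at this
    exact absurd this (by decide)
  · left
    refine ⟨?_, rfl⟩
    have := hp.1
    rw [T.src_nxt] at this
    rw [hf.1, this]
  · right
    refine ⟨?_, rfl⟩
    have := hp.2
    rwa [T.tgt_nxt2] at this

theorem pvnr_col {s : V → Bool} {P : T.Cyc} (hP : PvnrRim T s P) (i : ℕ) : s (T.src (P.e i)) = s (T.src (P.e 0)) := by
  induction i with
  | zero => rfl
  | succ i ih =>
    rw [← ih, ← P.chain]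
    have h := (hP.tag i).1
    rwa [T.src_opp', T.tgt_opp] at h

theorem pvnr_col' {s : V → Bool} {P : T.Cyc} (hP : PvnrRim T s P) (i j : ℕ) : s (T.src (P.e i)) = s (T.src (P.e j)) := by
  rw [pvnr_col hP i, pvnr_col hP j]

/-- **value of a cut potential** on the vertices of the colour of the rim of a strand through the right face number `i` -/
theorem pvnr_val (hT : T.IsSph) {t : V → Bool} {P : T.Cyc} (hP : PvnrRim T t P) {B : Set D} (hB : T.FaceSet B) {i : ℕ} {x : D} {k : ℕ}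
    (h : PvnrThru T B t (T.opp (P.e i)) x k) {p q : ℕ} {u : V → ZMod 2}
    (hu : ∀ x, ¬ T.Occ t x → (x ∉ P.Left ∨ T.opp x ∉ P.Left) → u (T.src x) + u (T.tgt x) = T.indE (P.e p) x + T.indE (P.e q) x)
    (hp : T.opp (P.e p) ∉ B ∨ p = i) (hq : T.opp (P.e q) ∉ B ∨ q = i) {v : V} (hv : v ∈ pvatLay T t x k) (hc : t v = t (T.src (P.e i))) :
    u v = u (if t (T.src (P.e i)) = true then T.src (P.e i) else T.tgt (P.e i)) := by
  have hx := h.ent.2.2
  have hJ := pl_jordan hT P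
  -- the faces crossed before the time `k` are not the right faces of the cut
  have hoff : ∀ r, (T.opp (P.e r) ∉ B ∨ r = i) → ∀ j, j < k → ¬ T.SF (pvasIt T t x j) (T.opp (P.e r)) := by
    intro r hr j hj hsf
    rcases hr with hr | rfl
    · exact hr ((hB.sf T hsf).2 (h.mem j hj.le))
    · have := (pvas_disjoint hB h.ent h.ent (fun l hl => h.mem l (by omega)) (fun l hl => h.mem l (by omega)) (T.sf_trans hsf h.face)).2
      omega
  have hu' : ∀ j, j < k → ∀ d, T.SF (pvasIt T t x j) d → ¬ T.Occ t d → u (T.src d) = u (T.tgt d) := by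
    intro j hj d hd hocc
    have hw : T.Wall t (T.opp (P.e i)) d :=
      pl_ra_wall_trans (pl_ra_wall_trans (pl_ra_wall_trans (pl_ra_wall_sf t h.face) (pl_ra_wall_symm (pvnr_it_wall hx k))) (pvnr_it_wall hx j)) (pl_ra_wall_sf t hd)
    have hdL : d ∉ P.Left := pvnr_wall_right hT hP hw
    have z : ∀ r, (T.opp (P.e r) ∉ B ∨ r = i) → T.indE (P.e r) d = 0 := fun r hr =>
      pl_indE_eq_zero (fun he => hdL (he ▸ hJ.2.1 r)) (fun he => hoff r hr j hj (he ▸ hd))
    have := hu d hocc (Or.inl hdL)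
    rw [z p hp, z q hq, add_zero] at this
    exact pl_z2_eq_of_add this
  have hk : pvasBW T t (pvasIt T t x k) := pvas_it_bw hx k
  have hsrc : t (T.src (T.opp (P.e i))) = t (T.src (P.e i)) := by
    rw [(hP.tag i).1, T.tgt_opp]
  rcases pvnr_pos_cases (hP.tag i) hk h.face with ⟨h1, h2⟩ | ⟨h1, h2⟩
  · rw [hsrc] at h1
    rw [if_pos h1]
    refine pvnr_bank_col hx hu' hv (Or.inl ⟨k, le_rfl, ?_⟩) hc
    rw [h2, T.src_nxt, T.tgt_opp]
  · rw [hsrc] at h1
    rw [if_neg (by rw [h1]; decide)]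
    refine pvnr_bank_col hx hu' hv (Or.inr ⟨k, le_rfl, ?_⟩) ?_
    · rw [h2, T.tgt_nxt2, T.src_opp']
    · rw [hc, ← T.src_opp', hsrc]

/-- the two colourings of the strands -/
def PvnrCol (s t : V → Bool) : Prop := t = s ∨ t = pvasNot s

theorem pvnr_eqns_cite : True := by
  have := @PvnrCol.eq_1
  trivial

theorem pvnr_not_eq {s : V → Bool} {v w : V} : pvasNot s v = pvasNot s w ↔ s v = s w := by
  unfold pvasNot
  generalize s v = a
  generalize s w = b
  revert a b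
  decide

/-- the same in terms of the colouring `s` -/
theorem pvnr_val' (hT : T.IsSph) {s t : V → Bool} (ht : PvnrCol s t) {P : T.Cyc} (hP : PvnrRim T s P) {B : Set D} (hB : T.FaceSet B) {i : ℕ} {x : D} {k : ℕ}
    (h : PvnrThru T B t (T.opp (P.e i)) x k) {p q : ℕ} {u : V → ZMod 2}
    (hu : ∀ x, ¬ T.Occ s x → (x ∉ P.Left ∨ T.opp x ∉ P.Left) → u (T.src x) + u (T.tgt x) = T.indE (P.e p) x + T.indE (P.e q) x)
    (hp : T.opp (P.e p) ∉ B ∨ p = i) (hq : T.opp (P.e q) ∉ B ∨ q = i) {v : V} (hv : v ∈ pvatLay T t x k) (hc : s v = s (T.src (P.e i))) :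
    u v = u (if t (T.src (P.e i)) = true then T.src (P.e i) else T.tgt (P.e i)) := by
  rcases ht with rfl | rfl
  · exact pvnr_val hT hP hB h hu hp hq hv hc
  · exact pvnr_val hT (pvnr_rim_not hP) hB h (fun x hx => hu x (fun ho => hx (pvas_occ_not.2 ho))) hp hq hv (pvnr_not_eq.2 hc)

/-- **strands through two right faces separated by two right faces outside `B`** have no common vertex of the colour of the rim -/
theorem pvnr_far (hT : T.IsSph) {s t t' : V → Bool} (ht : PvnrCol s t) (ht' : PvnrCol s t') {P : T.Cyc} (hP : PvnrRim T s P) {B : Set D} (hB : T.FaceSet B)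
    {i₀ i₁ i₂ i₃ : ℕ} (h01 : i₀ < i₁) (h12 : i₁ < i₂) (h23 : i₂ < i₃) (h30 : i₃ < i₀ + P.n) (h1 : T.opp (P.e i₁) ∉ B) (h3 : T.opp (P.e i₃) ∉ B)
    {x x' : D} {k k' : ℕ} (h : PvnrThru T B t (T.opp (P.e i₀)) x k) (h' : PvnrThru T B t' (T.opp (P.e i₂)) x' k')
    {v : V} (hv : v ∈ pvatLay T t x k) (hv' : v ∈ pvatLay T t' x' k') : s v ≠ s (T.src (P.e 0)) := by
  intro hc
  obtain ⟨u, hu⟩ := pvnr_sep hT hP i₁ i₃
  obtain ⟨c1, c2, c3⟩ := pvnr_cut_far hT hP h01 h12 h23 h30 hu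
  have e1 := pvnr_val' hT ht hP hB h hu (Or.inl h1) (Or.inl h3) hv (hc.trans (pvnr_col hP i₀).symm)
  have e2 := pvnr_val' hT ht' hP hB h' hu (Or.inl h1) (Or.inl h3) hv' (hc.trans (pvnr_col hP i₂).symm)
  have f1 : u v = u (T.src (P.e i₀)) := by
    rw [e1]; split_ifs
    · rfl
    · exact c1
  have f2 : u v = u (T.src (P.e i₂)) := by
    rw [e2]; split_ifs
    · rfl
    · exact c2
  exact c3 (f2.symm.trans f1)

/-- **the two strands through one right face** have no common vertex of the colour of the rim -/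
theorem pvnr_near (hT : T.IsSph) {s : V → Bool} {P : T.Cyc} (hP : PvnrRim T s P) {B : Set D} (hB : T.FaceSet B)
    {i q : ℕ} (hiq : i % P.n ≠ q % P.n) (hq : T.opp (P.e q) ∉ B)
    {x x' : D} {k k' : ℕ} (h : PvnrThru T B s (T.opp (P.e i)) x k) (h' : PvnrThru T B (pvasNot s) (T.opp (P.e i)) x' k')
    {v : V} (hv : v ∈ pvatLay T s x k) (hv' : v ∈ pvatLay T (pvasNot s) x' k') : s v ≠ s (T.src (P.e 0)) := by
  intro hc
  obtain ⟨u, hu⟩ := pvnr_sep hT hP i q
  have c1 := pvnr_cut_near hT hP hiq hu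
  have e1 := pvnr_val' hT (Or.inl rfl) hP hB h hu (Or.inr rfl) (Or.inl hq) hv (hc.trans (pvnr_col hP i).symm)
  have e2 := pvnr_val' hT (Or.inr rfl) hP hB h' hu (Or.inr rfl) (Or.inl hq) hv' (hc.trans (pvnr_col hP i).symm)
  unfold pvasNot at e2
  cases hs : s (T.src (P.e i))
  · rw [hs] at e1 e2
    simp only [Bool.false_eq_true, if_false, Bool.not_false, if_true] at e1 e2
    exact c1 (e1.symm.trans e2)
  · rw [hs] at e1 e2
    simp only [Bool.not_true, Bool.false_eq_true, if_false, if_true] at e1 e2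
    exact c1 (e2.symm.trans e1)

/-! ## 5. two entrances of the same type -/

theorem pvnr_occ_col {s t : V → Bool} (ht : PvnrCol s t) {d : D} : T.Occ t d ↔ T.Occ s d := by
  rcases ht with rfl | rfl
  · exact Iff.rfl
  · exact pvas_occ_not

theorem pvnr_eq_col {s t : V → Bool} (ht : PvnrCol s t) {v w : V} : t v = t w ↔ s v = s w := by
  rcases ht with rfl | rfl
  · exact Iff.rfl
  · exact pvnr_not_eq

/-- a run is a dual path off the outer cycle and off the monochromatic edges -/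
theorem pvnr_run_djoin (hT : T.IsSph) {c' c : T.Cyc} (hsub : c'.Left ⊆ c.Left) {s t : V → Bool} (ht : PvnrCol s t) {x : D} {n : ℕ} (h : PvatRun T c.Left c'.Left t x n) :
    T.DJoin (pvakZ c' c s) x (pvasIt T t x n) := by
  have hx := h.ent.2.2
  have key : ∀ j, j ≤ n → T.DJoin (pvakZ c' c s) x (pvasIt T t x j) := by
    intro j
    induction j with
    | zero => intro _; exact ReflTransGen.refl
    | succ j ih =>
      intro hj
      have h1 := ih (by omega)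
      have hmem : pvasIt T t x (j + 1) ∈ c.Left := by
        rcases Nat.lt_or_ge (j + 1) n with hlt | hge
        · exact (h.mid _ hlt).1
        · have : j + 1 = n := le_antisymm hj hge
          rw [this]; exact hsub h.hit
      have hopp : T.opp (pvasIt T t x (j + 1)) ∈ c.Left := by
        rw [pvas_it_succ, pvas_step_opp_mem (pl_left_face c)]
        exact (h.mid j (by omega)).1
      have hocc : T.Occ s (pvasIt T t x (j + 1)) := (pvnr_occ_col ht).1 (pvas_bw_occ (pvas_it_bw hx _))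
      have hne : ¬ T.Edg (pvakZ c' c s) (pvasIt T t x (j + 1)) := pvak_not_edg hT hmem hopp (Or.inl hocc)
      have h2 : T.DJoin (pvakZ c' c s) (pvasIt T t x j) (T.opp (pvasIt T t x (j + 1))) := by
        rw [pvas_it_succ]
        exact T.djoin_sf (pvas_step_sf t _)
      refine (h1.trans h2).tail (Or.inr ⟨(T.opp_opp _).symm, fun he => hne (T.edg_opp.1 he)⟩)
  exact key n le_rfl

/-- **two entrances of the same type**: a potential without jump at the unoccupied edges of the annulus which separates the two sources and the two targets -/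
theorem pvnr_tau (hT : T.IsSph) {c' c : T.Cyc} (hin : c'.Inside c) {s t : V → Bool} (ht : PvnrCol s t) {x₁ x₂ : D} {n₁ n₂ : ℕ}
    (h₁ : PvatRun T c.Left c'.Left t x₁ n₁) (h₂ : PvatRun T c.Left c'.Left t x₂ n₂) (hne : x₁ ≠ x₂) :
    ∃ u : V → ZMod 2, (∀ d, d ∈ c'.Ann c → ¬ T.Occ s d → u (T.src d) = u (T.tgt d)) ∧ u (T.src x₂) ≠ u (T.src x₁) ∧ u (T.tgt x₂) ≠ u (T.tgt x₁) := by
  have ho₁ : T.Occ s x₁ := (pvnr_occ_col ht).1 (pvas_bw_occ h₁.ent.2.2)
  have ho₂ : T.Occ s x₂ := (pvnr_occ_col ht).1 (pvas_bw_occ h₂.ent.2.2)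
  obtain ⟨u, hu, hu2⟩ := pvak_pair (s := s) hT hin h₁.ent.1 h₁.ent.2.1 h₂.ent.1 h₂.ent.2.1 hne h₁.hit h₂.hit
    (pvnr_run_djoin hT hin.2 ht h₁) (pvnr_run_djoin hT hin.2 ht h₂)
  have hZ : ∀ a, a ∈ c.Left → T.opp a ∉ c.Left → T.Edg (pvakZ c' c s) a := by
    intro a h1 h2
    obtain ⟨k, hk⟩ := pvak_outer_dart hT h1 h2
    exact Or.inl (Or.inl ⟨k, hk⟩)
  have j1 := hu x₁ (hZ _ h₁.ent.1 h₁.ent.2.1)
  have j2 := hu x₂ (hZ _ h₂.ent.1 h₂.ent.2.1)
  rw [pvak_E_self, pvak_E_of_ne hne (fun he => h₂.ent.2.1 (he ▸ h₁.ent.1)), add_zero] at j1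
  rw [pvak_E_self, pvak_E_of_ne hne.symm (fun he => h₁.ent.2.1 (he ▸ h₂.ent.1)), zero_add] at j2
  refine ⟨u, fun d hd hocc => (pvak_mono_edge ho₁ ho₂ hu (Or.inl hd) (not_not.1 hocc)).symm, ?_, ?_⟩
  · rw [hu2]; exact pvak_z2_c _
  · rw [pvak_z2_a j1, pvak_z2_a j2, hu2]
    generalize u (T.src x₁) = a
    revert a; decide

/-- the potential is constant on each colour of the layers of a run -/
theorem pvnr_run_const {c' c : T.Cyc} {s t : V → Bool} (ht : PvnrCol s t) {x : D} {n : ℕ} (h : PvatRun T c.Left c'.Left t x n) {u : V → ZMod 2}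
    (hu : ∀ d, d ∈ c'.Ann c → ¬ T.Occ s d → u (T.src d) = u (T.tgt d)) {v w : V} (hv : v ∈ pvatLay T t x n) (hw : w ∈ pvatLay T t x n) (hvw : s v = s w) : u v = u w := by
  refine pvnr_bank_col h.ent.2.2 (fun j hj d hd hocc => hu d ?_ (fun ho => hocc ((pvnr_occ_col ht).2 ho))) hv hw ((pvnr_eq_col ht).2 hvw)
  exact ((pl_ann_face c' c).sf T hd).2 (h.mid j hj)

theorem pvnr_src_mem (t : V → Bool) (x : D) (n : ℕ) : T.src x ∈ pvatLay T t x n := Or.inl ⟨0, Nat.zero_le n, rfl⟩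

theorem pvnr_tgt_mem (t : V → Bool) (x : D) (n : ℕ) : T.tgt x ∈ pvatLay T t x n := Or.inr ⟨0, Nat.zero_le n, rfl⟩

/-- every vertex of the layers has the colour of the source or of the target of the entrance -/
theorem pvnr_lay_cases {t : V → Bool} {x : D} {n : ℕ} (hx : pvasBW T t x) {v : V} (hv : v ∈ pvatLay T t x n) : t v = t (T.src x) ∨ t v = t (T.tgt x) := by
  rcases hv with ⟨i, _, rfl⟩ | ⟨i, _, rfl⟩
  · exact Or.inl (by rw [(pvas_it_bw hx i).1, hx.1])
  · exact Or.inr (by rw [(pvas_it_bw hx i).2, hx.2])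

/-- **two runs of the same type have disjoint layers** -/
theorem pvnr_same_disj (hT : T.IsSph) {c' c : T.Cyc} (hin : c'.Inside c) {s t : V → Bool} (ht : PvnrCol s t) {x₁ x₂ : D} {n₁ n₂ : ℕ}
    (h₁ : PvatRun T c.Left c'.Left t x₁ n₁) (h₂ : PvatRun T c.Left c'.Left t x₂ n₂) (hne : x₁ ≠ x₂) : Disjoint (pvatLay T t x₁ n₁) (pvatLay T t x₂ n₂) := by
  obtain ⟨u, hu, hs, htg⟩ := pvnr_tau hT hin ht h₁ h₂ hne
  rw [Set.disjoint_left]
  intro v hv₁ hv₂
  have hx₁ := h₁.ent.2.2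
  have hx₂ := h₂.ent.2.2
  rcases pvnr_lay_cases hx₁ hv₁ with hc | hc
  · have e1 := pvnr_run_const ht h₁ hu hv₁ (pvnr_src_mem t x₁ n₁) ((pvnr_eq_col ht).1 hc)
    have e2 := pvnr_run_const ht h₂ hu hv₂ (pvnr_src_mem t x₂ n₂) ((pvnr_eq_col ht).1 (by rw [hc, hx₁.1, hx₂.1]))
    exact hs (e2.symm.trans e1)
  · have e1 := pvnr_run_const ht h₁ hu hv₁ (pvnr_tgt_mem t x₁ n₁) ((pvnr_eq_col ht).1 hc)
    have e2 := pvnr_run_const ht h₂ hu hv₂ (pvnr_tgt_mem t x₂ n₂) ((pvnr_eq_col ht).1 (by rw [hc, hx₁.2, hx₂.2]))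
    exact htg (e2.symm.trans e1)

/-- **a third run misses, colour by colour, one of two runs of the same type**: for every colour `κ` one of the two has no common vertex of colour `κ` with the third run -/
theorem pvnr_third (hT : T.IsSph) {c' c : T.Cyc} (hin : c'.Inside c) {s t t' : V → Bool} (ht : PvnrCol s t) (ht' : PvnrCol s t') {x₁ x₂ y : D} {n₁ n₂ m : ℕ}
    (h₁ : PvatRun T c.Left c'.Left t x₁ n₁) (h₂ : PvatRun T c.Left c'.Left t x₂ n₂) (hne : x₁ ≠ x₂) (hy : PvatRun T c.Left c'.Left t' y m) (κ : Bool) :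
    (∀ v, v ∈ pvatLay T t x₁ n₁ → v ∈ pvatLay T t' y m → s v ≠ κ) ∨ (∀ v, v ∈ pvatLay T t x₂ n₂ → v ∈ pvatLay T t' y m → s v ≠ κ) := by
  obtain ⟨u, hu, hs, htg⟩ := pvnr_tau hT hin ht h₁ h₂ hne
  by_contra hcon
  push Not at hcon
  obtain ⟨⟨v, hv1, hv2, hv3⟩, ⟨w, hw1, hw2, hw3⟩⟩ := hcon
  have hx₁ := h₁.ent.2.2
  have hx₂ := h₂.ent.2.2
  have e0 : u v = u w := pvnr_run_const ht' hy hu hv2 hw2 (hv3.trans hw3.symm)
  have hvw : t v = t w := (pvnr_eq_col ht).2 (hv3.trans hw3.symm)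
  rcases pvnr_lay_cases hx₁ hv1 with hc | hc
  · have e1 := pvnr_run_const ht h₁ hu hv1 (pvnr_src_mem t x₁ n₁) ((pvnr_eq_col ht).1 hc)
    have e2 := pvnr_run_const ht h₂ hu hw1 (pvnr_src_mem t x₂ n₂) ((pvnr_eq_col ht).1 (by rw [← hvw, hc, hx₁.1, hx₂.1]))
    exact hs (e2.symm.trans (e0.symm.trans e1))
  · have e1 := pvnr_run_const ht h₁ hu hv1 (pvnr_tgt_mem t x₁ n₁) ((pvnr_eq_col ht).1 hc)
    have e2 := pvnr_run_const ht h₂ hu hw1 (pvnr_tgt_mem t x₂ n₂) ((pvnr_eq_col ht).1 (by rw [← hvw, hc, hx₁.2, hx₂.2]))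
    exact htg (e2.symm.trans (e0.symm.trans e1))

/-! ## 6. the sixth arm -/

theorem pvnr_edgeIn_symm {A : Set D} {a b : V} (h : T.EdgeIn A a b) : T.EdgeIn A b a := by
  obtain ⟨d, hd, rfl, rfl⟩ := h
  exact ⟨T.opp d, by rw [T.opp_opp]; exact hd.symm, T.src_opp' d, T.tgt_opp d⟩

theorem pvnr_join_symm {A : Set D} {X : Set V} {a b : V} (h : T.Join A X a b) : T.Join A X b a := by
  obtain ⟨ha, hab⟩ := h
  have key : b ∈ X ∧ ReflTransGen (fun u v => T.EdgeIn A u v ∧ v ∈ X) b a := by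
    induction hab with
    | refl => exact ⟨ha, ReflTransGen.refl⟩
    | @tail y z _ hyz ih => exact ⟨hyz.2, ReflTransGen.head ⟨pvnr_edgeIn_symm hyz.1, ih.1⟩ ih.2⟩
  exact key

theorem pvnr_join_mono {A A' : Set D} {X X' : Set V} (hA : A ⊆ A') (hX : X ⊆ X') {a b : V} (h : T.Join A X a b) : T.Join A' X' a b := by
  refine ⟨hX h.1, ReflTransGen.mono (fun u v huv => ⟨?_, hX huv.2⟩) _ _ h.2⟩
  obtain ⟨d, hd, h1, h2⟩ := huv.1
  exact ⟨d, hd.imp (fun h => hA h) (fun h => hA h), h1, h2⟩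

/-- **the layer of colour `κ` of a run is a crossing of the annulus** -/
theorem pvnr_arm (hT : T.IsSph) {c' c : T.Cyc} (hsub : c'.Left ⊆ c.Left) {s : V → Bool} {x : D} {n : ℕ} (h : PvatRun T c.Left c'.Left s x n) (κ : Bool) {X : Set V}
    (hX : ∀ v ∈ pvatLay T s x n, s v = κ → v ∈ X) : PvaxCr T c' c X κ s := by
  have hx := h.ent.2.2
  have hFc : pvasFc T s x n ⊆ c'.Ann c := by
    rintro f ⟨i, hi, hf⟩
    exact ((pl_ann_face c' c).sf T hf).2 (h.mid i hi)
  have h0 : T.src x ∈ c.verts ∧ T.tgt x ∈ c.verts := pvak_bd_verts hT c (fun hh => h.ent.2.1 (hh.1 h.ent.1))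
  have hn : T.src (pvasIt T s x n) ∈ c'.verts ∧ T.tgt (pvasIt T s x n) ∈ c'.verts := by
    refine pvak_bd_verts hT c' (fun hh => ?_)
    have h1 := hh.1 h.hit
    rcases Nat.eq_zero_or_pos n with rfl | hpos
    · exact h.ent.2.1 (hsub h1)
    · obtain ⟨j, rfl⟩ : ∃ j, n = j + 1 := ⟨n - 1, by omega⟩
      rw [pvas_it_succ, pvas_step_opp_mem (pl_left_face c')] at h1
      exact (h.mid j (by omega)).2 h1
  cases κ
  · refine ⟨_, hn.2, _, h0.2, pvnr_join_symm (pvnr_join_mono hFc ?_ (pvas_layW_join s x (le_refl n)))⟩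
    intro v hv
    exact ⟨hX v (Or.inr hv) (pvas_layW_white hx hv), pvas_layW_white hx hv⟩
  · refine ⟨_, hn.1, _, h0.1, pvnr_join_symm (pvnr_join_mono hFc ?_ (pvas_layB_join s x (le_refl n)))⟩
    intro v hv
    exact ⟨hX v (Or.inl hv) (pvas_layB_black hx hv), pvas_layB_black hx hv⟩

/-! ## 7. the main theorem -/

theorem pvnr_bool_cases (a κ : Bool) : a = κ ∨ a = !κ := by revert a κ; decide

/-- a run to a larger target is shorter -/
theorem pvnr_run_le {B A A' : Set D} (hAA : A ⊆ A') {t : V → Bool} {x : D} {n m : ℕ} (h : PvatRun T B A t x n) (h' : PvatRun T B A' t x m) : m ≤ n := by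
  by_contra hlt
  exact (h'.mid n (by omega)).2 (hAA h.hit)

/-- **NEAR RETURN ⟹ CONFIG5 + SIXTH ARM** -/
theorem pvnr_main (hT : T.IsSph) {c0 c1 c2 c3 : T.Cyc} (hfin : c0.Left.Finite) (h10 : c1.Inside c0) (h12 : c1.Left ⊆ c2.Left) (h13 : c1.Left ⊆ c3.Left) (h30 : c3.Left ⊆ c0.Left)
    {s : V → Bool} {P : T.Cyc} (hP : PvnrRim T s P) {i₀ i₁ i₂ i₃ : ℕ} (l01 : i₀ < i₁) (l12 : i₁ < i₂) (l23 : i₂ < i₃) (l30 : i₃ < i₀ + P.n)
    (hf0 : T.opp (P.e i₀) ∈ c1.Left) (hf2 : T.opp (P.e i₂) ∈ c1.Left) (hg1 : T.opp (P.e i₁) ∉ c0.Left) (hg3 : T.opp (P.e i₃) ∉ c0.Left) :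
    ∃ x x2 x4 n1 n2 n4, PvatCfg T c0 c1 c2 s x x2 x4 n1 n2 n4 ∧
      PvaxCr T c3 c0 (pvatLay T s x n1 ∪ pvatLay T (pvasNot s) x2 n2 ∪ pvatLay T (pvasNot s) x4 n4)ᶜ (s (T.src (P.e 0))) s := by
  have hB := pl_left_face c0
  have hP' := pvnr_rim_not hP
  obtain ⟨a1, k1, H1⟩ := pvnr_thru hB hfin (hP.tag i₀) (h10.2 hf0) (hP.wall i₀ i₁) hg1
  obtain ⟨a2, k2, H2⟩ := pvnr_thru hB hfin (hP'.tag i₀) (h10.2 hf0) (hP'.wall i₀ i₁) hg1
  obtain ⟨a3, k3, H3⟩ := pvnr_thru hB hfin (hP.tag i₂) (h10.2 hf2) (hP.wall i₂ i₁) hg1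
  obtain ⟨a4, k4, H4⟩ := pvnr_thru hB hfin (hP'.tag i₂) (h10.2 hf2) (hP'.wall i₂ i₁) hg1
  obtain ⟨n1, hn1, R1⟩ := pvnr_thru_run (pl_left_face c1) H1 hf0
  obtain ⟨n2, hn2, R2⟩ := pvnr_thru_run (pl_left_face c1) H2 hf0
  obtain ⟨n4, hn4, R4⟩ := pvnr_thru_run (pl_left_face c1) H4 hf2
  obtain ⟨m2, -, R2'⟩ := pvnr_thru_run (pl_left_face c2) H2 (h12 hf0)
  obtain ⟨m4, -, R4'⟩ := pvnr_thru_run (pl_left_face c2) H4 (h12 hf2)
  obtain ⟨m3, hm3, R3'⟩ := pvnr_thru_run (pl_left_face c3) H3 (h13 hf2)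
  have hm2 : m2 ≤ n2 := pvnr_run_le h12 R2 R2'
  have hm4 : m4 ≤ n4 := pvnr_run_le h12 R4 R4'
  set κ := s (T.src (P.e 0)) with hκ
  have cs : PvnrCol s s := Or.inl rfl
  have cn : PvnrCol s (pvasNot s) := Or.inr rfl
  have K13 : ∀ v, v ∈ pvatLay T s a1 k1 → v ∈ pvatLay T s a3 k3 → s v ≠ κ := fun v h h' => pvnr_far hT cs cs hP hB l01 l12 l23 l30 hg1 hg3 H1 H3 h h'
  have K14 : ∀ v, v ∈ pvatLay T s a1 k1 → v ∈ pvatLay T (pvasNot s) a4 k4 → s v ≠ κ := fun v h h' => pvnr_far hT cs cn hP hB l01 l12 l23 l30 hg1 hg3 H1 H4 h h'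
  have K23 : ∀ v, v ∈ pvatLay T (pvasNot s) a2 k2 → v ∈ pvatLay T s a3 k3 → s v ≠ κ := fun v h h' => pvnr_far hT cn cs hP hB l01 l12 l23 l30 hg1 hg3 H2 H3 h h'
  have K24 : ∀ v, v ∈ pvatLay T (pvasNot s) a2 k2 → v ∈ pvatLay T (pvasNot s) a4 k4 → s v ≠ κ := fun v h h' => pvnr_far hT cn cn hP hB l01 l12 l23 l30 hg1 hg3 H2 H4 h h'
  have K12 : ∀ v, v ∈ pvatLay T s a1 k1 → v ∈ pvatLay T (pvasNot s) a2 k2 → s v ≠ κ := fun v h h' => pvnr_near hT hP hB (pvak_mod_ne l01 (by omega)) hg1 H1 H2 h h'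
  have K34 : ∀ v, v ∈ pvatLay T s a3 k3 → v ∈ pvatLay T (pvasNot s) a4 k4 → s v ≠ κ := fun v h h' => pvnr_near hT hP hB (pvak_mod_ne l12 (by omega)).symm hg1 H3 H4 h h'
  have hne : a2 ≠ a4 := by
    rintro rfl
    have hocc : T.Occ s a2 := pvas_occ_not.1 (pvas_bw_occ H2.ent.2.2)
    rcases pvnr_bool_cases (s (T.src a2)) κ with h | h
    · exact K24 _ (pvnr_src_mem _ _ _) (pvnr_src_mem _ _ _) h
    · rcases pvnr_bool_cases (s (T.tgt a2)) κ with h' | h'
      · exact K24 _ (pvnr_tgt_mem _ _ _) (pvnr_tgt_mem _ _ _) h'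
      · exact hocc (h.trans h'.symm)
  have D24 := pvnr_same_disj hT h10 cn R2 R4 hne
  -- the sixth arm
  have harm : ∀ j2 j4, j2 ≤ k2 → j4 ≤ k4 → ∀ v ∈ pvatLay T s a3 m3, s v = κ → v ∉ pvatLay T s a1 n1 ∧ v ∉ pvatLay T (pvasNot s) a2 j2 ∧ v ∉ pvatLay T (pvasNot s) a4 j4 := by
    intro j2 j4 hj2 hj4 v hv hc
    have hv3 := pvnr_lay_mono s a3 hm3 hv
    exact ⟨fun h => K13 v (pvnr_lay_mono s a1 hn1 h) hv3 hc, fun h => K23 v (pvnr_lay_mono _ a2 hj2 h) hv3 hc, fun h => K34 v hv3 (pvnr_lay_mono _ a4 hj4 h) hc⟩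
  rcases pvnr_third hT h10 cn cs R2 R4 hne R1 (!κ) with hA | hA
  · refine ⟨a1, a4, a2, n1, n4, m2, ⟨R1, R4, R2', ?_, ?_⟩, pvnr_arm hT h30 R3' κ ?_⟩
    · rw [Set.disjoint_left]
      intro v hv hv'
      rcases pvnr_bool_cases (s v) κ with h | h
      · exact K12 v (pvnr_lay_mono s a1 hn1 hv') (pvnr_lay_mono _ a2 (hm2.trans hn2) hv) h
      · exact hA v (pvnr_lay_mono _ a2 hm2 hv) hv' h
    · exact Set.disjoint_of_subset_left (pvnr_lay_mono _ a2 hm2) D24
    · intro v hv hc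
      obtain ⟨b1, b2, b4⟩ := harm m2 n4 (hm2.trans hn2) hn4 v hv hc
      rintro ((h | h) | h)
      · exact b1 h
      · exact b4 h
      · exact b2 h
  · refine ⟨a1, a2, a4, n1, n2, m4, ⟨R1, R2, R4', ?_, ?_⟩, pvnr_arm hT h30 R3' κ ?_⟩
    · rw [Set.disjoint_left]
      intro v hv hv'
      rcases pvnr_bool_cases (s v) κ with h | h
      · exact K14 v (pvnr_lay_mono s a1 hn1 hv') (pvnr_lay_mono _ a4 (hm4.trans hn4) hv) h
      · exact hA v (pvnr_lay_mono _ a4 hm4 hv) hv' h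
    · exact Set.disjoint_of_subset_left (pvnr_lay_mono _ a4 hm4) D24.symm
    · intro v hv hc
      obtain ⟨b1, b2, b4⟩ := harm n2 m4 hn2 (hm4.trans hn4) v hv hc
      rintro ((h | h) | h)
      · exact b1 h
      · exact b2 h
      · exact b4 h

/-! ## 8. consumer forms -/

/-- a rim of `Pl/Rim` -/
theorem pvnr_of_isRim {s : V → Bool} {P : T.Cyc} (h : P.IsRim s) : PvnrRim T s P :=
  ⟨fun i => pl_rim_tag h i, fun i j => (pl_rim_lab' h i j).2.2.1⟩

/-- the right face of a rim edge whose source is interior to `A` -/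
theorem pvnr_right_mem {A : Set D} (hA : T.FaceSet A) {e : D} (h : T.src e ∈ T.Int A) : T.opp e ∈ A :=
  (hA _).1 (h (T.nxt (T.opp e)) (by rw [T.src_nxt, T.tgt_opp]))

/-- **NEAR RETURN, vertex form**: a rim visits the open disc of `c1` at the times `i₀`, `i₂`, and the open outside of `c0` at the times `i₁`, `i₃` -/
theorem pvnr_main_vert (hT : T.IsSph) {c0 c1 c2 c3 : T.Cyc} (hfin : c0.Left.Finite) (h12 : c1.Inside c2) (h23 : c2.Inside c3) (h30 : c3.Inside c0)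
    {s : V → Bool} {P : T.Cyc} (hP : PvnrRim T s P) {i₀ i₁ i₂ i₃ : ℕ} (l01 : i₀ < i₁) (l12 : i₁ < i₂) (l23 : i₂ < i₃) (l30 : i₃ < i₀ + P.n)
    (hv0 : T.src (P.e i₀) ∈ T.Int c1.Left) (hv2 : T.src (P.e i₂) ∈ T.Int c1.Left) (hv1 : T.src (P.e i₁) ∈ T.Int c0.Right) (hv3 : T.src (P.e i₃) ∈ T.Int c0.Right) :
    ∃ x x2 x4 n1 n2 n4, PvatCfg T c0 c1 c2 s x x2 x4 n1 n2 n4 ∧
      PvaxCr T c3 c0 (pvatLay T s x n1 ∪ pvatLay T (pvasNot s) x2 n2 ∪ pvatLay T (pvasNot s) x4 n4)ᶜ (s (T.src (P.e 0))) s := by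
  have hJ := pl_jordan hT c0
  have hout : ∀ e, T.src e ∈ T.Int c0.Right → T.opp e ∉ c0.Left := by
    intro e he
    have := pvnr_right_mem (pl_right_face c0) he
    rw [hJ.1] at this
    exact this
  exact pvnr_main hT hfin (pvat_inside_trans hT h12 (pvat_inside_trans hT h23 h30)) h12.2 (h12.2.trans h23.2) h30.2 hP l01 l12 l23 l30
    (pvnr_right_mem (pl_left_face c1) hv0) (pvnr_right_mem (pl_left_face c1) hv2) (hout _ hv1) (hout _ hv3)

/-- **shape of `ArmtGeo.Cfg6`** (`Arm/Top`): the sixth arm has the colour `true`, crosses `(c3, cm)`; for `s` or for `pvasNot s` -/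
theorem pvnr_cfg6_rim (hT : T.IsSph) {c0 cm c1 c2 c3 : T.Cyc} (hfin : c0.Left.Finite) (h12 : c1.Inside c2) (h23 : c2.Inside c3) (h3m : c3.Inside cm) (hm0 : cm.Inside c0)
    {s : V → Bool} {P : T.Cyc} (hP : PvnrRim T s P) {i₀ i₁ i₂ i₃ : ℕ} (l01 : i₀ < i₁) (l12 : i₁ < i₂) (l23 : i₂ < i₃) (l30 : i₃ < i₀ + P.n)
    (hv0 : T.src (P.e i₀) ∈ T.Int c1.Left) (hv2 : T.src (P.e i₂) ∈ T.Int c1.Left) (hv1 : T.src (P.e i₁) ∈ T.Int c0.Right) (hv3 : T.src (P.e i₃) ∈ T.Int c0.Right) :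
    (∃ x x2 x4 n1 n2 n4, PvatCfg T c0 c1 c2 s x x2 x4 n1 n2 n4 ∧
      PvaxCr T c3 cm (pvatLay T s x n1 ∪ pvatLay T (pvasNot s) x2 n2 ∪ pvatLay T (pvasNot s) x4 n4)ᶜ true s) ∨
    (∃ x x2 x4 n1 n2 n4, PvatCfg T c0 c1 c2 (pvasNot s) x x2 x4 n1 n2 n4 ∧
      PvaxCr T c3 cm (pvatLay T (pvasNot s) x n1 ∪ pvatLay T (pvasNot (pvasNot s)) x2 n2 ∪ pvatLay T (pvasNot (pvasNot s)) x4 n4)ᶜ true (pvasNot s)) := by
  classical
  have h30 := pvat_inside_trans hT h3m hm0
  cases hκ : s (T.src (P.e 0))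
  · right
    obtain ⟨x, x2, x4, n1, n2, n4, hc, ha⟩ := pvnr_main_vert hT hfin h12 h23 h30 (pvnr_rim_not hP) l01 l12 l23 l30 hv0 hv2 hv1 hv3
    have e : pvasNot s (T.src (P.e 0)) = true := by unfold pvasNot; rw [hκ]; rfl
    rw [e] at ha
    exact ⟨x, x2, x4, n1, n2, n4, hc, pvax_cr_sub hT subset_rfl h3m hm0.2 ha⟩
  · left
    obtain ⟨x, x2, x4, n1, n2, n4, hc, ha⟩ := pvnr_main_vert hT hfin h12 h23 h30 hP l01 l12 l23 l30 hv0 hv2 hv1 hv3
    rw [hκ] at ha
    exact ⟨x, x2, x4, n1, n2, n4, hc, pvax_cr_sub hT subset_rfl h3m hm0.2 ha⟩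

/-- the rims of `Arm/Ret` -/
theorem pvnr_of_arRim {s : V → Bool} {P : T.Cyc} (h : T.ArRim s P) : PvnrRim T s P :=
  ⟨h.tag, fun i j => pl_ra_wall_trans (pl_ra_wall_symm (h.wall i)) (h.wall j)⟩

/-- **NR-DET, form of record** (ruling E2 of 146): input `T.NearRet s c1 c0` of `Arm/Ret` -/
theorem pvnr_record (hT : T.IsSph) {c0 c1 c2 c3 : T.Cyc} (hfin : c0.Left.Finite) (h12 : c1.Inside c2) (h23 : c2.Inside c3) (h30 : c3.Inside c0)
    {s : V → Bool} (h : T.NearRet s c1 c0) :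
    ∃ x x2 x4 n1 n2 n4 κ, PvatCfg T c0 c1 c2 s x x2 x4 n1 n2 n4 ∧
      PvaxCr T c3 c0 (pvatLay T s x n1 ∪ pvatLay T (pvasNot s) x2 n2 ∪ pvatLay T (pvasNot s) x4 n4)ᶜ κ s := by
  obtain ⟨P, hP, i₀, i₁, i₂, i₃, l01, l12, l23, l30, hv0, hv1, hv2, hv3⟩ := h
  obtain ⟨x, x2, x4, n1, n2, n4, hc, ha⟩ := pvnr_main_vert hT hfin h12 h23 h30 (pvnr_of_arRim hP) l01 l12 l23 l30 hv0 hv2 hv1 hv3
  exact ⟨x, x2, x4, n1, n2, n4, _, hc, ha⟩

/-- the same in the shape of `ArmtGeo.Cfg6` -/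
theorem pvnr_cfg6 (hT : T.IsSph) {c0 cm c1 c2 c3 : T.Cyc} (hfin : c0.Left.Finite) (h12 : c1.Inside c2) (h23 : c2.Inside c3) (h3m : c3.Inside cm) (hm0 : cm.Inside c0)
    {s : V → Bool} (h : T.NearRet s c1 c0) :
    (∃ x x2 x4 n1 n2 n4, PvatCfg T c0 c1 c2 s x x2 x4 n1 n2 n4 ∧
      PvaxCr T c3 cm (pvatLay T s x n1 ∪ pvatLay T (pvasNot s) x2 n2 ∪ pvatLay T (pvasNot s) x4 n4)ᶜ true s) ∨
    (∃ x x2 x4 n1 n2 n4, PvatCfg T c0 c1 c2 (pvasNot s) x x2 x4 n1 n2 n4 ∧
      PvaxCr T c3 cm (pvatLay T (pvasNot s) x n1 ∪ pvatLay T (pvasNot (pvasNot s)) x2 n2 ∪ pvatLay T (pvasNot (pvasNot s)) x4 n4)ᶜ true (pvasNot s)) := by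
  obtain ⟨P, hP, i₀, i₁, i₂, i₃, l01, l12, l23, l30, hv0, hv1, hv2, hv3⟩ := h
  exact pvnr_cfg6_rim hT hfin h12 h23 h3m hm0 (pvnr_of_arRim hP) l01 l12 l23 l30 hv0 hv2 hv1 hv3

end Claimed.Agent.R289
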