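import Claimed.Agent.R289.Arm.Top

/-!
# Row 289 (S0537, Cardy for Poisson-Voronoi), box ARM, file Arm/Outer : THE OUTER ARM, DETERMINISTIC HALF      (owner helper112; post of helper146 / helper243; prefix `pvao_`)

Consumer: `armt_nr_cfg` (`Arm/Top.lean`, helper186; cut by helper197): its SECOND conjunct `G.Out` is `pvao_out`, verbatim.      The PRODUCT half (factor `(1-q)^m'`) lives in `Arm/Count.lean` (helper89).

* `pvao_cr_of_path`   a path of colour `b` inside `X` from the closed disc of `a` to a vertex which is not strictly inside `o` (`a.Left ⊆ o.Left`, `a = o` allowed) contains a crossing `PvaxCr T a o X b s`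
* `pvao_rim_mono`, `pvao_rim_path`   a rim is monochromatic; its arc is a path of its colour
* `pvao_rim_cr`       two vertices of a rim, one in the closed disc of `a`, the other one not strictly inside `o`
* `pvao_mono_cr`, `pvao_join_cr`   the same for a connection `PvMap.Mono`, `PvMap.Join`
* `pvao_tower_path`   a path through a tower `PvaxTower` crosses every annulus of the tower
* `pvao_arm_cr`       an arm `PvaxArm` is a crossing between two cycles at a radius (converse of `pvax_cr_arm`)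
* `pvao_walk`         the arc of a rim of a LOCAL MODEL is walked step by step in the Delaunay plane as long as it stays in `K`
* **`pvao_out`**      near return in some local model ⟹ `G.Out` in the plane model;   `pvao_out_lev` the same, level by level
-/

set_option autoImplicit false
set_option linter.unusedSectionVars false
set_option linter.unusedVariables false

namespace Claimed.Agent.R289

open Relation Set Metric

section abs

variable {V D : Type} [DecidableEq V] {T : PvMap V D}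

/-- **a path from the closed inner disc to a vertex which is not strictly inside the outer cycle contains a crossing** -/
theorem pvao_cr_of_path (hT : T.IsSph) {a o : T.Cyc} (h : a.Left ⊆ o.Left) {X : Set V} {b : Bool} {s : V → Bool} {u w : V}
    (hu : u ∈ T.VOf a.Left) (huY : u ∈ X ∧ s u = b) (hw : w ∉ T.Int o.Left)
    (hp : ReflTransGen (fun x y => T.Adj x y ∧ (y ∈ X ∧ s y = b)) u w) : PvaxCr T a o X b s := by
  by_contra hG
  set Y : Set V := {v | v ∈ X ∧ s v = b} with hY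
  -- a vertex of the closed inner disc
  have hin : ∀ v, v ∈ Y → v ∈ T.VOf a.Left → v ∈ T.Int a.Left ∨ (v ∈ T.Int o.Left ∧ ∃ u₁ ∈ a.verts, T.Join (a.Ann o) Y u₁ v) := by
    intro v hvY hv
    have hv2 := (pl_nested_vert hT o a h).1 hv
    rw [pl_VOf_left hT a] at hv
    rw [pl_VOf_left hT o] at hv2
    rcases hv with hv | hv
    · rcases hv2 with hv2 | hv2
      · exact absurd ⟨v, hv, v, hv2, hvY, ReflTransGen.refl⟩ hG
      · exact Or.inr ⟨hv2, v, hv, hvY, ReflTransGen.refl⟩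
    · exact Or.inl hv
  have key : ∀ v, ReflTransGen (fun x y => T.Adj x y ∧ (y ∈ X ∧ s y = b)) u v →
      v ∈ T.Int a.Left ∨ (v ∈ T.Int o.Left ∧ ∃ u₁ ∈ a.verts, T.Join (a.Ann o) Y u₁ v) := by
    intro v hv
    induction hv with
    | refl => exact hin u huY hu
    | @tail v v' _ hstep ih =>
      obtain ⟨⟨d, rfl, rfl⟩, hv'Y⟩ := hstep
      rcases ih with ih | ⟨ih1, u₁, hu₁, hj⟩
      · exact hin _ hv'Y (pl_int_edge hT a ih).2.2
      · obtain ⟨e1, e2, e3⟩ := pl_int_edge hT o ih1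
        by_cases hboth : d ∈ a.Left ∧ T.opp d ∈ a.Left
        · exact hin _ hv'Y ⟨T.opp d, hboth.2, T.src_opp' d⟩
        · have hedge : T.EdgeIn (a.Ann o) (T.src d) (T.tgt d) := by
            refine ⟨d, ?_, rfl, rfl⟩
            by_cases hd : d ∈ a.Left
            · exact Or.inr ⟨e2, fun h => hboth ⟨hd, h⟩⟩
            · exact Or.inl ⟨e1, hd⟩
          have hj' : T.Join (a.Ann o) Y u₁ (T.tgt d) := ⟨hj.1, hj.2.tail ⟨hedge, hv'Y⟩⟩
          rw [pl_VOf_left hT o] at e3
          rcases e3 with e3 | e3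
          · exact absurd ⟨u₁, hu₁, _, e3, hj'⟩ hG
          · exact Or.inr ⟨e3, u₁, hu₁, hj'⟩
  rcases key w hp with h1 | ⟨h1, -⟩
  · exact hw ((pl_nested_vert hT o a h).2 h1)
  · exact hw h1

/-- a rim is monochromatic -/
theorem pvao_rim_mono {c : T.Cyc} {s : V → Bool} (h : c.IsRim s) (k j : ℕ) : s (T.src (c.e (k + j))) = s (T.src (c.e k)) := by
  induction j with
  | zero => rfl
  | succ j ih =>
    have h1 := (pl_rim_tag h (k + j)).1
    rw [T.src_opp', T.tgt_opp, c.chain] at h1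
    rw [← ih, ← h1]
    rfl

/-- the arc of a rim is a path of its colour -/
theorem pvao_rim_path {c : T.Cyc} {s : V → Bool} (h : c.IsRim s) (k j : ℕ) :
    ReflTransGen (fun x y => T.Adj x y ∧ (y ∈ (Set.univ : Set V) ∧ s y = s (T.src (c.e k)))) (T.src (c.e k)) (T.src (c.e (k + j))) := by
  induction j with
  | zero => exact ReflTransGen.refl
  | succ j ih =>
    refine ih.tail ⟨⟨c.e (k + j), rfl, c.chain _⟩, Set.mem_univ _, ?_⟩
    exact pvao_rim_mono h k (j + 1)

/-- **two vertices of a rim**: one in the closed disc of `a`, the other one not strictly inside `o` -/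
theorem pvao_rim_cr (hT : T.IsSph) {a o : T.Cyc} (h : a.Left ⊆ o.Left) {c : T.Cyc} {s : V → Bool} (hc : c.IsRim s) {k j : ℕ}
    (hu : T.src (c.e k) ∈ T.VOf a.Left) (hw : T.src (c.e (k + j)) ∉ T.Int o.Left) : PvaxCr T a o Set.univ (s (T.src (c.e k))) s :=
  pvao_cr_of_path hT h hu ⟨Set.mem_univ _, rfl⟩ hw (pvao_rim_path hc k j)

/-- a monochromatic connection (`PvMap.Mono`) is a path of the colour of its first vertex -/
theorem pvao_path_of_mono {s : V → Bool} {u w : V} (h : T.Mono s u w) :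
    ReflTransGen (fun x y => T.Adj x y ∧ (y ∈ (Set.univ : Set V) ∧ s y = s u)) u w ∧ s w = s u := by
  induction h with
  | refl => exact ⟨ReflTransGen.refl, rfl⟩
  | @tail v v' _ hstep ih =>
    have h1 : s v' = s u := hstep.2.symm.trans ih.2
    exact ⟨ih.1.tail ⟨hstep.1, Set.mem_univ _, h1⟩, h1⟩

/-- **monochromatic connection** from the closed disc of `a` to a vertex which is not strictly inside `o` -/
theorem pvao_mono_cr (hT : T.IsSph) {a o : T.Cyc} (h : a.Left ⊆ o.Left) {s : V → Bool} {u w : V} (hu : u ∈ T.VOf a.Left) (hw : w ∉ T.Int o.Left)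
    (hm : T.Mono s u w) : PvaxCr T a o Set.univ (s u) s :=
  pvao_cr_of_path hT h hu ⟨Set.mem_univ _, rfl⟩ hw (pvao_path_of_mono hm).1

/-- a connection `Join` (any set of allowed faces) is a path -/
theorem pvao_path_of_join {A : Set D} {X : Set V} {b : Bool} {s : V → Bool} {u w : V} (h : T.Join A {v | v ∈ X ∧ s v = b} u w) :
    ReflTransGen (fun x y => T.Adj x y ∧ (y ∈ X ∧ s y = b)) u w := by
  refine ReflTransGen.mono ?_ _ _ h.2
  rintro x y ⟨⟨d, -, h1, h2⟩, h3⟩
  exact ⟨⟨d, h1, h2⟩, h3⟩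

/-- **connection `Join`** from the closed disc of `a` to a vertex which is not strictly inside `o` -/
theorem pvao_join_cr (hT : T.IsSph) {a o : T.Cyc} (h : a.Left ⊆ o.Left) {A : Set D} {X : Set V} {b : Bool} {s : V → Bool} {u w : V}
    (hu : u ∈ T.VOf a.Left) (hw : w ∉ T.Int o.Left) (hj : T.Join A {v | v ∈ X ∧ s v = b} u w) : PvaxCr T a o X b s :=
  pvao_cr_of_path hT h hu hj.1 hw (pvao_path_of_join hj)

/-- the discs of a tower are nested -/
theorem pvao_tower_nest {m : ℕ} {a o : ℕ → T.Cyc} {q : ℝ} (h : PvaxTower T m a o q) (i k : ℕ) (hik : i + k < m) :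
    (a i).Left ⊆ (a (i + k)).Left ∧ (o i).Left ⊆ (o (i + k)).Left := by
  induction k with
  | zero => exact ⟨subset_rfl, subset_rfl⟩
  | succ k ih =>
    obtain ⟨h1, h2⟩ := ih (by omega)
    have h3 := (h.ins (i + k) (by omega)).2
    have h4 := (h.nxt (i + k) (by omega)).2
    have h5 := (h.ins (i + k + 1) (by omega)).2
    exact ⟨h1.trans (h3.trans h4), h2.trans (h4.trans h5)⟩

/-- **a path through a tower**: from the closed innermost disc to a vertex which is not strictly inside the outermost cycle: every annulus of the tower is crossed -/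
theorem pvao_tower_path (hT : T.IsSph) {m : ℕ} {a o : ℕ → T.Cyc} {q : ℝ} (h : PvaxTower T (m + 1) a o q) {X : Set V} {b : Bool} {s : V → Bool} {u w : V}
    (hu : u ∈ T.VOf (a 0).Left) (huY : u ∈ X ∧ s u = b) (hw : w ∉ T.Int (o m).Left)
    (hp : ReflTransGen (fun x y => T.Adj x y ∧ (y ∈ X ∧ s y = b)) u w) : ∀ i < m + 1, PvaxCr T (a i) (o i) X b s := by
  intro i hi
  have h1 := (pvao_tower_nest h 0 i (by omega)).1
  rw [Nat.zero_add] at h1
  have h2 := (pvao_tower_nest h i (m - i) (by omega)).2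
  rw [show i + (m - i) = m by omega] at h2
  exact pvao_cr_of_path hT (h.ins i hi).2 ((pl_nested_vert hT _ _ h1).1 hu) huY (fun hw' => hw ((pl_nested_vert hT _ _ h2).2 hw')) hp

/-- **an arm is a crossing** (converse of `pvax_cr_arm`): `a` a cycle beyond radius `r`, `o` a cycle within radius `R` -/
theorem pvao_arm_cr (hT : T.IsSph) {pos : V → ℂ} {z : ℂ} {r r' ρ R : ℝ} {a o : T.Cyc} (ha : PvaxAt T pos z r r' a) (ho : PvaxAt T pos z ρ R o) (h : a.Left ⊆ o.Left)
    {b : Bool} {s : V → Bool} (hA : PvaxArm T pos z r R b s) : PvaxCr T a o Set.univ b s := by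
  obtain ⟨u, w, hu, hw, hub, hp⟩ := hA
  refine pvao_cr_of_path hT h ?_ ⟨Set.mem_univ _, hub⟩ (fun hw' => ?_) (ReflTransGen.mono (fun x y hxy => ⟨hxy.1, Set.mem_univ _, hxy.2⟩) _ _ hp)
  · rw [pl_VOf_left hT]
    exact Or.inr (ha.inn u hu)
  · have h1 : w ∈ T.VOf o.Left := by
      rw [pl_VOf_left hT]
      exact Or.inr hw'
    exact absurd (ho.out w h1) (not_lt.2 hw)

end abs

/-! ## the rim of a local model, walked in the Delaunay plane -/

section model

variable {Y : Set ℂ}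

/-- **the arc of a rim of a local model is walked step by step in the Delaunay plane**, as long as it stays in `K` -/
theorem pvao_walk (h : DelGood Y) {K : Set ℂ} {V' D' : Type} {T' : PvMap V' D'} {lab : V' → Option ℂ} (hL : ArmtLoc Y K T' lab) {col : V' → Bool} {σ : ℂ → Bool}
    (hcol : ∀ v p, lab v = some p → col v = σ p) {c : T'.Cyc} (hc : c.IsRim col) (k : ℕ) {p0 : ℂ} (hp0 : lab (T'.src (c.e k)) = some p0) (hp0Y : p0 ∈ Y) (j : ℕ)
    (hin : ∀ l, l < j → ∃ p, lab (T'.src (c.e (k + l))) = some p ∧ p ∈ K) :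
    ∃ (p : ℂ) (hp : p ∈ Y), lab (T'.src (c.e (k + j))) = some p ∧
      ReflTransGen (fun x y : Y => (delMap h).Adj x y ∧ (y ∈ (Set.univ : Set Y) ∧ σ y = σ p0)) ⟨p0, hp0Y⟩ ⟨p, hp⟩ := by
  classical
  induction j with
  | zero => exact ⟨p0, hp0Y, hp0, ReflTransGen.refl⟩
  | succ j ih =>
    obtain ⟨p, hp, hlab, hpath⟩ := ih fun l hl => hin l (by omega)
    obtain ⟨p', hlab', hpK⟩ := hin j (by omega)
    have hpp : p' = p := Option.some.inj (hlab'.symm.trans hlab)
    subst hpp
    obtain ⟨b, a, hb, -, htri⟩ := hL.del (c.e (k + j)) p' hlab hpK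
    rw [c.chain] at hb
    have hbY : b ∈ Y := hL.site _ _ hb
    refine ⟨b, hbY, hb, hpath.tail ⟨(dls_adj_iff h ⟨p', hp⟩ ⟨b, hbY⟩).2 (del_tri_adj htri).1, Set.mem_univ _, ?_⟩⟩
    show σ b = σ p0
    rw [← hcol _ _ hb, ← hcol _ _ hp0]
    exact pvao_rim_mono hc k (j + 1)

variable {ι : Type} {q : ℝ} {m m' Cl : ℕ}

/-- the discs of the record are nested -/
theorem pvao_nest_γ {V D : Type} [DecidableEq V] {T : PvMap V D} (G : ArmtGeo T ι q m m' Cl) (b : ι) (j : ℕ) (hj : j ≤ 7 + 2 * m) : (G.γ b 0).Left ⊆ (G.γ b j).Left := by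
  induction j with
  | zero => exact subset_rfl
  | succ j ih => exact (ih (by omega)).trans (G.γ_blk b j (by omega)).1.2

theorem pvao_nest_δ {V D : Type} [DecidableEq V] {T : PvMap V D} (G : ArmtGeo T ι q m m' Cl) (i j : ℕ) (hj : i + j ≤ 2 + 2 * m') : (G.δ i).Left ⊆ (G.δ (i + j)).Left := by
  induction j with
  | zero => exact subset_rfl
  | succ j ih => exact (ih (by omega)).trans (G.δ_blk (i + j) (by omega)).1.2

theorem pvao_nest_γδ {V D : Type} [DecidableEq V] {T : PvMap V D} (G : ArmtGeo T ι q m m' Cl) (b : ι) (j : ℕ) (hj : j ≤ 2 + 2 * m') : (G.γ b 0).Left ⊆ (G.δ j).Left := by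
  have h1 := pvao_nest_δ G 0 j (by omega)
  rw [Nat.zero_add] at h1
  exact ((pvao_nest_γ G b (7 + 2 * m) le_rfl).trans (G.γ_top b).2).trans h1

open Classical in
/-- **the plane path**: from a visit to a site beyond the last cycle -/
theorem pvao_plane_path (h : DelGood Y) (σ : ℂ → Bool) (G : ArmtGeo (delMap h) ι q m m' Cl) {ζ : ι → ℂ} {s S R : ℝ}
    (hG : G.At (dlsPos Y) ζ s S R) (hs : 0 < s) (hsS : s ≤ S) (hSR : S ≤ R) (b : ι) (hN : ArmtNR Y σ (ζ b) s S R) :
    ∃ u w : Y, u ∈ (delMap h).Int (G.γ b 0).Left ∧ w ∉ (delMap h).VOf (G.δ (2 + 2 * m')).Left ∧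
      ReflTransGen (fun x y : Y => (delMap h).Adj x y ∧ (y ∈ (Set.univ : Set Y) ∧ σ y = σ u)) u w := by
  obtain ⟨V', D', T', lab, col, hL, hcol, c, hc, k, i, k', i', -, -, hk', -, -, ⟨p0, hp0, hp0s⟩, -, hfar⟩ := hN
  have hR : 0 < R := lt_of_lt_of_le hs (hsS.trans hSR)
  have hp0Y : p0 ∈ Y := hL.site _ _ hp0
  have hex : ∃ j, ¬ ∃ p, lab (T'.src (c.e (k' + j))) = some p ∧ ‖p - ζ b‖ < 2 * R := by
    refine ⟨i' - k', ?_⟩
    rintro ⟨p, hp, hlt⟩
    rw [show k' + (i' - k') = i' by omega] at hp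
    exact absurd (hfar p hp) (not_le.2 hlt)
  obtain ⟨p, hp, hlab, hpath⟩ := pvao_walk h hL hcol hc k' hp0 hp0Y (Nat.find hex) fun l hl => by
    obtain ⟨p, h1, h2⟩ := not_not.1 (Nat.find_min hex hl)
    refine ⟨p, h1, ?_⟩
    rw [mem_closedBall, dist_eq_norm]
    linarith
  refine ⟨⟨p0, hp0Y⟩, ⟨p, hp⟩, hG.inn b _ hp0s, fun hw => ?_, hpath⟩
  exact Nat.find_spec hex ⟨p, hlab, hG.out b _ hw⟩

open Classical in
/-- **THE SECOND CONJUNCT OF `armt_nr_cfg`** -/
theorem pvao_out (h : DelGood Y) (σ : ℂ → Bool) (G : ArmtGeo (delMap h) ι q m m' Cl) {ζ : ι → ℂ} {s S R : ℝ}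
    (hG : G.At (dlsPos Y) ζ s S R) (hs : 0 < s) (hsS : s ≤ S) (hSR : S ≤ R) (b : ι) (hN : ArmtNR Y σ (ζ b) s S R) : G.Out (fun v => σ v) := by
  obtain ⟨u, w, hu, hw, hpath⟩ := pvao_plane_path h σ G hG hs hsS hSR b hN
  have hT := dls_isSph h
  refine ⟨σ u, pvao_cr_of_path hT (pvao_nest_δ G 2 (2 * m') le_rfl) ?_ ⟨Set.mem_univ _, rfl⟩ (fun hw' => hw ?_) hpath⟩
  · rw [pl_VOf_left hT]
    exact Or.inr ((pl_nested_vert hT _ _ (pvao_nest_γδ G b 2 (by omega))).2 hu)
  · rw [pl_VOf_left hT]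
    exact Or.inr hw'

open Classical in
/-- the same, level by level (one colour for all the levels) -/
theorem pvao_out_lev (h : DelGood Y) (σ : ℂ → Bool) (G : ArmtGeo (delMap h) ι q m m' Cl) {ζ : ι → ℂ} {s S R : ℝ}
    (hG : G.At (dlsPos Y) ζ s S R) (hs : 0 < s) (hsS : s ≤ S) (hSR : S ≤ R) (b : ι) (hN : ArmtNR Y σ (ζ b) s S R) :
    ∃ col : Bool, ∀ i j, i ≤ j → j ≤ 2 + 2 * m' → PvaxCr (delMap h) (G.δ i) (G.δ j) Set.univ col (fun v => σ v) := by
  obtain ⟨u, w, hu, hw, hpath⟩ := pvao_plane_path h σ G hG hs hsS hSR b hN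
  have hT := dls_isSph h
  refine ⟨σ u, fun i j hij hj => ?_⟩
  have h1 := pvao_nest_δ G i (j - i) (by omega)
  rw [show i + (j - i) = j by omega] at h1
  have h2 := pvao_nest_δ G j (2 + 2 * m' - j) (by omega)
  rw [show j + (2 + 2 * m' - j) = 2 + 2 * m' by omega] at h2
  refine pvao_cr_of_path hT h1 ?_ ⟨Set.mem_univ _, rfl⟩ (fun hw' => hw ?_) hpath
  · rw [pl_VOf_left hT]
    exact Or.inr ((pl_nested_vert hT _ _ (pvao_nest_γδ G b i (by omega))).2 hu)
  · rw [pl_VOf_left hT]
    exact Or.inr ((pl_nested_vert hT _ _ h2).2 hw')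

end model

end Claimed.Agent.R289
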