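import Claimed.Agent.R289.Del.Meas
import Claimed.Agent.R289.Del.Cov
import Claimed.Agent.R289.Del.Seam
import Claimed.Agent.R289.PppQ
import Claimed.Agent.R289.Defs.Up

/-!
# Row 289 (S0537), unit L3 ARMS, block A5c, file Arm/Stat : STATIONARITY + ANNEALING + MEASURABILITY OF COMBINATORIAL EVENTS      (owner helper98, post of helper146; prefix `pvat_`, records `PvatIso PvatInv PvatNice`)      0 sorry

GOAL (S3 of 241, v2): `(T/8s)² P(A6 centred at 0) ≤ E ∑_b P^η(A6(b; s, T))`, measurability of the quenched probabilities, removal of the bad geometry event.      Vocabulary: `PppQ` (261), `Del/Meas` (120), `Del/Cov` (135), `Del/Seam` (271).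
* sec. 0  abstract: `pvat_meas_code` (on a measurable piece the event is a function of a measurable code with countably many values), `pvat_meas_pieces`.
* sec. 1  **`PvatIso W r Y σ W' r' Y' σ' φ`**: `φ` is a bijection `Y ∩ W → Y' ∩ W'` which preserves colours, regions, `DelAdj`, `DelTri`.
          **`pvat_meas`**: an event `Φ (cfSites η) (cfCol η)` which is invariant under the `PvatIso` of a window `W` is MEASURABLE on `PVSample` (on `{N, finitely many sites in W}`).  NO analysis of `Φ`: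
          pieces = finite index sets `F` carrying the sites of the window (`pvatPc`), code = regions, colours, coincidences, edges, triangles on `F` (`pvatCode`); atoms of 120.  Regions may depend on the site set (`reg : Set ℂ → ℂ → κ`).
* sec. 2  `PvatNice Y` = `VorLF ∧ VorGP ∧ VorQuad` (measurable, a.s., translation invariant, `.good : DelGood Y`);  EVENT OF RECORD `pvatEv Φ = {η | Φ (cfSites η) (cfCol η) ∧ PvatNice (cfSites η)}`;
          **`pvat_meas_ev`** (bounded window), `pvat_meas_ev_iUnion` (exhaustion by windows: non local events such as rims).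
* sec. 3  `pvat_anneal`, **`pvat_sum_le`**: `∑_b pvQc (𝒜 b) g ≤ K` off `Bad` (ANY set of geometries) ⟹ `∑_b pvP ε (𝒜 b) ≤ K + #G · pvGeo ε Bad`.
* sec. 4  `pvatTr a` (translation as a measurable equivalence), `pvat_tr_apply` (ALL events, outer measure), **`pvat_stat`**, **`pvat_main`**: `pvP ε 𝒜₀ ≤ K / #G + pvGeo ε Bad`.
* sec. 5  `pvat_iso_tr` (translations are `PvatIso`), `.refl .trans .symm`;  SCHEMES `PvatInv Φ` (`Φ W r Y σ` invariant under all `PvatIso`): ONE lemma of the owner gives `PvatInv.meas` AND `PvatInv.cov`;  **`pvat_main_scheme`**.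
* sec. 6  `pvatMaj Φ` measurable majorant of `pvQc {Φ}` at EVERY geometry (form asked by `PvTransport`), `pvat_maj_lintegral`, `pvat_ev_apply`.
* sec. 7  grid `pvatGrid n`, centres `pvatZ s k`: `pvat_grid_card`, `pvat_grid_in` (`≤ T/4`), `pvat_grid_ge` (`≥ (T/8s)²`), **`pvat_grid_local`** (`C_loc = (2ρ+1)²`), **`pvat_main_grid`**: `pvP ε 𝒜₀ ≤ K (8s/T)² + pvGeo ε Bad`.
* sec. 8  `ε ↓ 0`: `pvat_limsup`, `pvat_eventually`.
* sec. 10 COUNT FORM (146, ruling E2 (5)): **`pvat_count_up`**, `pvat_count_up_pv`, `pvat_some_up_pv`: over `PvUp.iter (pvGeo ε) pvCol` (163) the quenched sum gives the upper expectation of the NUMBER of flagged boxes: no stationarity, no measurability.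
* sec. 9  LOC: **`pvat_iso_loc`** (agreement on `vorNbd W (3ρ)` + `ρ`-density on `vorNbd W (2ρ)` ⟹ `id` is a `PvatIso`), `PvatInv.loc`, **`PvatInv.loc_conf`** (the flag of a scheme reads `Conf.restr (vorNbd W (3ρ) ×ˢ univ) η` only).
-/

set_option autoImplicit false

namespace Claimed.Agent.R289

open MeasureTheory ProbabilityTheory Set Filter Topology Claims.C0465
open scoped ENNReal NNReal

/-! ## 0. abstract measurability: countably many pieces, a countable code on each piece -/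

/-- on the measurable piece `E` the event `A` is a function of a measurable code with countably many values -/
theorem pvat_meas_code {Ω C : Type*} [MeasurableSpace Ω] [MeasurableSpace C] [Countable C] [MeasurableSingletonClass C]
    {code : Ω → C} (hc : Measurable code) {E A : Set Ω} (hE : MeasurableSet E)
    (h : ∀ ω ∈ E, ∀ ω' ∈ E, code ω = code ω' → ω ∈ A → ω' ∈ A) : MeasurableSet (A ∩ E) := by
  have e : A ∩ E = E ∩ code ⁻¹' (code '' (A ∩ E)) := by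
    ext ω
    constructor
    · rintro ⟨h1, h2⟩
      exact ⟨h2, ω, ⟨h1, h2⟩, rfl⟩
    · rintro ⟨h2, ω', ⟨h1', h2'⟩, he⟩
      exact ⟨h ω' h2' ω h2 he h1', h2⟩
  rw [e]
  exact hE.inter (hc (Set.to_countable _).measurableSet)

theorem pvat_meas_pieces {Ω ι : Type*} [MeasurableSpace Ω] [Countable ι] {E : ι → Set Ω} {A : Set Ω} (h : ∀ i, MeasurableSet (A ∩ E i)) :
    MeasurableSet (A ∩ ⋃ i, E i) := by
  rw [inter_iUnion]
  exact MeasurableSet.iUnion h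

/-! ## 1. combinatorial isomorphisms of coloured site sets seen in a window -/

/-- `φ` is an isomorphism from (the sites of `Y` in the window `W`, colours `σ`, regions `r`, Delaunay edges and triangles of `Y`) onto the same data of `(W', r', Y', σ')` -/
structure PvatIso {κ : Type*} (W : Set ℂ) (r : ℂ → κ) (Y : Set ℂ) (σ : ℂ → Bool) (W' : Set ℂ) (r' : ℂ → κ) (Y' : Set ℂ) (σ' : ℂ → Bool) (φ : ℂ → ℂ) : Prop where
  maps : ∀ a ∈ Y ∩ W, φ a ∈ Y' ∩ W'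
  inj : InjOn φ (Y ∩ W)
  surj : ∀ a' ∈ Y' ∩ W', ∃ a ∈ Y ∩ W, φ a = a'
  col : ∀ a ∈ Y ∩ W, σ' (φ a) = σ a
  reg : ∀ a ∈ Y ∩ W, r' (φ a) = r a
  adj : ∀ a ∈ Y ∩ W, ∀ b ∈ Y ∩ W, (DelAdj Y' (φ a) (φ b) ↔ DelAdj Y a b)
  tri : ∀ a ∈ Y ∩ W, ∀ b ∈ Y ∩ W, ∀ c ∈ Y ∩ W, (DelTri Y' (φ a) (φ b) (φ c) ↔ DelTri Y a b c)

theorem pvat_col_true (η : Conf PvPt) (z : ℂ) : cfCol η z = true ↔ (z, true) ∈ η.pts := by
  unfold cfCol
  simp

/-- the colour atom -/
theorem pvat_col_iff (ω : PVSample) (z : ℂ) : cfCol (pvConf ω) z = true ↔ ∃ l : DelgpIx, l.2 < ω.1 l.1 ∧ delgpW ω l = z ∧ (ω.2 l).2 = true := by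
  rw [pvat_col_true]
  constructor
  · rintro ⟨k, j, hj, he⟩
    have h1 := congrArg Prod.fst he
    have h2 := congrArg Prod.snd he
    exact ⟨(k, j), hj, h1.symm, h2.symm⟩
  · rintro ⟨⟨k, j⟩, hj, h1, h2⟩
    exact ⟨k, j, hj, Prod.ext h1.symm h2.symm⟩

theorem pvat_meas_col (i : DelgpIx) : MeasurableSet {ω : PVSample | cfCol (pvConf ω) (delgpW ω i) = true} := by
  have e : {ω : PVSample | cfCol (pvConf ω) (delgpW ω i) = true}
      = ⋃ l : DelgpIx, ({ω : PVSample | l.2 < ω.1 l.1} ∩ {ω : PVSample | delmOf ω ∈ {x : DelmT | x.2 l = x.2 i}}) ∩ {ω : PVSample | (ω.2 l).2 = true} := by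
    ext ω
    simp only [mem_ofPred_eq, mem_iUnion, mem_inter_iff, pvat_col_iff]
    exact ⟨fun ⟨l, h1, h2, h3⟩ => ⟨l, ⟨h1, h2⟩, h3⟩, fun ⟨l, ⟨h1, h2⟩, h3⟩ => ⟨l, h1, h2, h3⟩⟩
  rw [e]
  refine MeasurableSet.iUnion fun l => ((delm_pv_act l).inter (delm_pull (delm_meas_eq l i))).inter ?_
  have hm : Measurable fun ω : PVSample => (ω.2 l).2 := by fun_prop
  exact hm (measurableSet_singleton true)

/-- the piece of the finite index set `F`: the indices of `F` are active with sites in `W`, and every active site in `W` is the site of an index of `F` -/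
def pvatPc (W : Set ℂ) (F : Finset DelgpIx) : Set DelmT :=
  {x | (∀ i : DelgpIx, i ∈ F → DelmAct x i ∧ x.2 i ∈ W) ∧ ∀ l : DelgpIx, DelmAct x l → x.2 l ∈ W → ∃ t : DelgpIx, t ∈ F ∧ x.2 l = x.2 t}

theorem pvat_meas_site {W : Set ℂ} (hW : MeasurableSet W) (i : DelgpIx) : MeasurableSet {x : DelmT | x.2 i ∈ W} := delm_measurable_site i hW

theorem pvat_meas_pc {W : Set ℂ} (hW : MeasurableSet W) (F : Finset DelgpIx) : MeasurableSet (pvatPc W F) := by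
  unfold pvatPc
  refine delm_meas_and (delm_meas_all fun i => delm_meas_imp (MeasurableSet.const _) (delm_meas_and (delm_meas_act i) (pvat_meas_site hW i))) ?_
  refine delm_meas_all fun l => delm_meas_imp (delm_meas_act l) (delm_meas_imp (pvat_meas_site hW l) ?_)
  exact delm_meas_exi fun t => delm_meas_and (MeasurableSet.const _) (delm_meas_eq l t)

theorem pvat_pc_mem {W : Set ℂ} {F : Finset DelgpIx} {x : DelmT} (h : x ∈ pvatPc W F) (a : ℂ) : a ∈ delmY x ∩ W ↔ ∃ i ∈ F, x.2 i = a := by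
  constructor
  · rintro ⟨⟨l, hl, rfl⟩, hW⟩
    obtain ⟨t, ht, e⟩ := h.2 l hl hW
    exact ⟨t, ht, e.symm⟩
  · rintro ⟨i, hi, rfl⟩
    exact ⟨delm_mem (h.1 i hi).1, (h.1 i hi).2⟩

theorem pvat_iUnion_pc (W : Set ℂ) : ⋃ F, pvatPc W F = {x : DelmT | (delmY x ∩ W).Finite} := by
  classical
  ext x
  simp only [mem_iUnion, mem_ofPred_eq]
  constructor
  · rintro ⟨F, hF⟩
    refine (F.finite_toSet.image fun i => x.2 i).subset fun a ha => ?_
    obtain ⟨i, hi, e⟩ := (pvat_pc_mem hF a).1 ha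
    exact ⟨i, hi, e⟩
  · intro hfin
    have hch : ∀ a : ℂ, a ∈ delmY x ∩ W → ∃ i : DelgpIx, DelmAct x i ∧ x.2 i = a := fun a ha => by
      obtain ⟨i, hi, e⟩ := ha.1
      exact ⟨i, hi, e.symm⟩
    choose! idx hidx using hch
    refine ⟨hfin.toFinset.image idx, fun i hi => ?_, fun l hl hW => ?_⟩
    · obtain ⟨a, ha, rfl⟩ := Finset.mem_image.1 hi
      have ha' := hfin.mem_toFinset.1 ha
      exact ⟨(hidx a ha').1, by rw [(hidx a ha').2]; exact ha'.2⟩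
    · have ha' : x.2 l ∈ delmY x ∩ W := ⟨delm_mem hl, hW⟩
      exact ⟨idx (x.2 l), Finset.mem_image.2 ⟨x.2 l, hfin.mem_toFinset.2 ha', rfl⟩, ((hidx _ ha').2).symm⟩

/-- the combinatorial code of a sample on the index set `F`: regions, colours, coincidences, Delaunay edges, Delaunay triangles -/
def pvatCode {κ : Type*} (reg : Set ℂ → ℂ → κ) (F : Finset DelgpIx) (ω : PVSample) : (F → κ) × (F → Prop) × (F → F → Prop) × (F → F → Prop) × (F → F → F → Prop) :=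
  (fun i => reg (delmY (delmOf ω)) ((delmOf ω).2 i), fun i => cfCol (pvConf ω) (delgpW ω i) = true, fun i j => (delmOf ω).2 i = (delmOf ω).2 j,
    fun i j => DelAdj (delmY (delmOf ω)) ((delmOf ω).2 i) ((delmOf ω).2 j), fun i j k => DelTri (delmY (delmOf ω)) ((delmOf ω).2 i) ((delmOf ω).2 j) ((delmOf ω).2 k))

theorem pvat_measurable_code {κ : Type*} [MeasurableSpace κ] {reg : Set ℂ → ℂ → κ} (hreg : ∀ i : DelgpIx, Measurable fun x : DelmT => reg (delmY x) (x.2 i))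
    (F : Finset DelgpIx) : Measurable (pvatCode reg F) := by
  unfold pvatCode
  refine Measurable.prodMk (measurable_pi_lambda _ fun i => (hreg i).comp delm_measurable_of) ?_
  refine Measurable.prodMk (measurable_pi_lambda _ fun i => measurableSet_setOfPred.1 (pvat_meas_col i)) ?_
  refine Measurable.prodMk (measurable_pi_lambda _ fun i => measurable_pi_lambda _ fun j => measurableSet_setOfPred.1 (delm_pull (delm_meas_eq i j))) ?_
  refine Measurable.prodMk (measurable_pi_lambda _ fun i => measurable_pi_lambda _ fun j => measurableSet_setOfPred.1 (delm_pull (delm_meas_adj i j))) ?_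
  exact measurable_pi_lambda _ fun i => measurable_pi_lambda _ fun j => measurable_pi_lambda _ fun k => measurableSet_setOfPred.1 (delm_pull (delm_meas_tri i j k))

/-- two samples in the same piece with the same code are combinatorially isomorphic in the window -/
theorem pvat_iso_of_code {κ : Type*} {reg : Set ℂ → ℂ → κ} {W : Set ℂ} {F : Finset DelgpIx} {ω ω' : PVSample} (h : delmOf ω ∈ pvatPc W F) (h' : delmOf ω' ∈ pvatPc W F)
    (hc : pvatCode reg F ω = pvatCode reg F ω') :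
    ∃ φ : ℂ → ℂ, PvatIso W (reg (cfSites (pvConf ω))) (cfSites (pvConf ω)) (cfCol (pvConf ω)) W (reg (cfSites (pvConf ω'))) (cfSites (pvConf ω')) (cfCol (pvConf ω')) φ := by
  classical
  rw [delm_sites, delm_sites]
  simp only [pvatCode, Prod.mk.injEq] at hc
  obtain ⟨c1, c2, c3, c4, c5⟩ := hc
  set x := delmOf ω with hx
  set x' := delmOf ω' with hx'
  let φ : ℂ → ℂ := fun z => if hz : ∃ i ∈ F, x.2 i = z then x'.2 hz.choose else z
  have hφ : ∀ i ∈ F, φ (x.2 i) = x'.2 i := by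
    intro i hi
    have hz : ∃ j ∈ F, x.2 j = x.2 i := ⟨i, hi, rfl⟩
    have e1 : φ (x.2 i) = x'.2 hz.choose := dif_pos hz
    rw [e1]
    obtain ⟨hj, he⟩ := hz.choose_spec
    have e2 := congrFun (congrFun c3 ⟨hz.choose, hj⟩) ⟨i, hi⟩
    exact e2.mp he
  refine ⟨φ, ⟨?_, ?_, ?_, ?_, ?_, ?_, ?_⟩⟩
  · intro a ha
    obtain ⟨i, hi, rfl⟩ := (pvat_pc_mem h a).1 ha
    rw [hφ i hi]
    exact (pvat_pc_mem h' _).2 ⟨i, hi, rfl⟩
  · intro a ha b hb hab
    obtain ⟨i, hi, rfl⟩ := (pvat_pc_mem h a).1 ha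
    obtain ⟨j, hj, rfl⟩ := (pvat_pc_mem h b).1 hb
    rw [hφ i hi, hφ j hj] at hab
    exact (congrFun (congrFun c3 ⟨i, hi⟩) ⟨j, hj⟩).mpr hab
  · intro a' ha'
    obtain ⟨i, hi, rfl⟩ := (pvat_pc_mem h' a').1 ha'
    exact ⟨x.2 i, (pvat_pc_mem h _).2 ⟨i, hi, rfl⟩, hφ i hi⟩
  · intro a ha
    obtain ⟨i, hi, rfl⟩ := (pvat_pc_mem h a).1 ha
    rw [hφ i hi]
    have e2 : (cfCol (pvConf ω) (delgpW ω i) = true) = (cfCol (pvConf ω') (delgpW ω' i) = true) := congrFun c2 ⟨i, hi⟩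
    exact (Bool.eq_iff_iff.2 (iff_of_eq e2)).symm
  · intro a ha
    obtain ⟨i, hi, rfl⟩ := (pvat_pc_mem h a).1 ha
    rw [hφ i hi]
    exact (congrFun c1 ⟨i, hi⟩).symm
  · intro a ha b hb
    obtain ⟨i, hi, rfl⟩ := (pvat_pc_mem h a).1 ha
    obtain ⟨j, hj, rfl⟩ := (pvat_pc_mem h b).1 hb
    rw [hφ i hi, hφ j hj]
    exact (iff_of_eq (congrFun (congrFun c4 ⟨i, hi⟩) ⟨j, hj⟩)).symm
  · intro a ha b hb c hc
    obtain ⟨i, hi, rfl⟩ := (pvat_pc_mem h a).1 ha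
    obtain ⟨j, hj, rfl⟩ := (pvat_pc_mem h b).1 hb
    obtain ⟨k, hk, rfl⟩ := (pvat_pc_mem h c).1 hc
    rw [hφ i hi, hφ j hj, hφ k hk]
    exact (iff_of_eq (congrFun (congrFun (congrFun c5 ⟨i, hi⟩) ⟨j, hj⟩) ⟨k, hk⟩)).symm

/-- **MEASURABILITY OF COMBINATORIAL EVENTS**: an event of coloured site sets which is invariant under the combinatorial isomorphisms in a window `W` (inside a measurable class `N` of site sets) is measurable
on the sample space, on the event that `W` contains finitely many sites.      NO analysis of the event is needed. -/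
theorem pvat_meas {κ : Type*} [MeasurableSpace κ] [MeasurableSingletonClass κ] [Countable κ]
    {N : Set ℂ → Prop} (hN : MeasurableSet {x : DelmT | N (delmY x)}) {W : Set ℂ} (hW : MeasurableSet W)
    {reg : Set ℂ → ℂ → κ} (hreg : ∀ i : DelgpIx, Measurable fun x : DelmT => reg (delmY x) (x.2 i))
    {Φ : Set ℂ → (ℂ → Bool) → Prop}
    (hΦ : ∀ (Y : Set ℂ) (σ : ℂ → Bool) (Y' : Set ℂ) (σ' : ℂ → Bool) (φ : ℂ → ℂ), N Y → N Y' → PvatIso W (reg Y) Y σ W (reg Y') Y' σ' φ → Φ Y σ → Φ Y' σ') :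
    MeasurableSet (pvConf ⁻¹' {η : Conf PvPt | Φ (cfSites η) (cfCol η) ∧ N (cfSites η) ∧ (cfSites η ∩ W).Finite}) := by
  have e : pvConf ⁻¹' {η : Conf PvPt | Φ (cfSites η) (cfCol η) ∧ N (cfSites η) ∧ (cfSites η ∩ W).Finite}
      = {ω : PVSample | Φ (cfSites (pvConf ω)) (cfCol (pvConf ω))} ∩ ⋃ F : Finset DelgpIx, {ω : PVSample | N (delmY (delmOf ω)) ∧ delmOf ω ∈ pvatPc W F} := by
    ext ω
    have h1 : (delmY (delmOf ω) ∩ W).Finite ↔ ∃ F, delmOf ω ∈ pvatPc W F := by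
      have := Set.ext_iff.1 (pvat_iUnion_pc W) (delmOf ω)
      simp only [mem_iUnion, mem_ofPred_eq] at this
      exact this.symm
    simp only [mem_preimage, mem_ofPred_eq, mem_inter_iff, mem_iUnion, delm_sites, h1]
    exact ⟨fun ⟨a, b, F, c⟩ => ⟨a, F, b, c⟩, fun ⟨a, F, b, c⟩ => ⟨a, b, F, c⟩⟩
  rw [e]
  refine pvat_meas_pieces fun F => ?_
  have hcF : Countable ↥F := Finite.to_countable
  refine pvat_meas_code (pvat_measurable_code hreg F) ((delm_pull hN).inter (delm_pull (pvat_meas_pc hW F))) ?_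
  rintro ω ⟨n1, p1⟩ ω' ⟨n2, p2⟩ hc hA
  obtain ⟨φ, hφ⟩ := pvat_iso_of_code p1 p2 hc
  exact hΦ _ _ _ _ φ (by rw [delm_sites]; exact n1) (by rw [delm_sites]; exact n2) hφ hA

/-! ## 2. nice site sets, events of record -/

/-- the nice site sets: locally finite, general position, a site in every open quadrant.      MEASURABLE (index form), almost sure, invariant under translations, and it implies `DelGood` -/
def PvatNice (Y : Set ℂ) : Prop := VorLF Y ∧ VorGP Y ∧ VorQuad Y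

/-- the event of coloured configurations defined by a predicate of (site set, colouring), cut by the nice site sets -/
def pvatEv (Φ : Set ℂ → (ℂ → Bool) → Prop) : Set (Conf PvPt) := {η | Φ (cfSites η) (cfCol η) ∧ PvatNice (cfSites η)}

theorem PvatNice.good {Y : Set ℂ} (h : PvatNice Y) : DelGood Y := DelGood.of_quad h.1 h.2.1 h.2.2

theorem pvat_meas_nice : MeasurableSet {x : DelmT | PvatNice (delmY x)} :=
  delm_meas_and delm_meas_lf (delm_meas_and delm_meas_gp delm_meas_quad)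

theorem PvatNice.finite {Y : Set ℂ} (h : PvatNice Y) {W : Set ℂ} (hW : Bornology.IsBounded W) : (Y ∩ W).Finite := by
  obtain ⟨R, hR⟩ := hW.subset_closedBall 0
  exact (h.1 R).subset (inter_subset_inter_right _ hR)

theorem pvat_nice_ae {ε : ℝ} (hε : ε ≠ 0) : ∀ᵐ η ∂(pvP ε), PvatNice (cfSites η) := by
  filter_upwards [delgd_all_ae hε] with η h
  exact ⟨h.1, h.2.1, h.2.2.1⟩

theorem pvat_nice_ae_geo {ε : ℝ} (hε : ε ≠ 0) : ∀ᵐ g ∂(pvGeo ε), PvatNice (pvgSites g) := by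
  filter_upwards [pvqu_Qc_ae ε (pvat_nice_ae hε)] with g hg
  obtain ⟨c, hc⟩ := hg.exists
  rwa [pvqu_cfSites] at hc

theorem PvatNice.translate {Y : Set ℂ} (h : PvatNice Y) (a : ℂ) : PvatNice ((fun z => z + a) '' Y) := by
  have hs : VorSim (fun z : ℂ => z + a) 1 := (delc_P_add a).toVorSim
  refine ⟨vorc_lf_image hs h.1, vorc_gp_image hs h.2.1, fun z => ?_⟩
  obtain ⟨⟨s1, m1, a1, b1⟩, ⟨s2, m2, a2, b2⟩, ⟨s3, m3, a3, b3⟩, ⟨s4, m4, a4, b4⟩⟩ := h.2.2 (z - a)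
  simp only [Complex.sub_re, Complex.sub_im] at a1 b1 a2 b2 a3 b3 a4 b4
  refine ⟨⟨s1 + a, ⟨s1, m1, rfl⟩, ?_, ?_⟩, ⟨s2 + a, ⟨s2, m2, rfl⟩, ?_, ?_⟩, ⟨s3 + a, ⟨s3, m3, rfl⟩, ?_, ?_⟩, ⟨s4 + a, ⟨s4, m4, rfl⟩, ?_, ?_⟩⟩ <;>
    simp only [Complex.add_re, Complex.add_im] <;> linarith

theorem pvat_meas_niceEv : MeasurableSet (pvConf ⁻¹' {η : Conf PvPt | PvatNice (cfSites η)}) := by
  have e : pvConf ⁻¹' {η : Conf PvPt | PvatNice (cfSites η)} = {ω : PVSample | delmOf ω ∈ {x : DelmT | PvatNice (delmY x)}} := by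
    ext ω
    simp only [mem_preimage, mem_ofPred_eq, delm_sites]
  rw [e]
  exact delm_pull pvat_meas_nice

/-- **measurability of the events of record**: bounded measurable window, invariance under the combinatorial isomorphisms between nice site sets -/
theorem pvat_meas_ev {κ : Type*} [MeasurableSpace κ] [MeasurableSingletonClass κ] [Countable κ] {W : Set ℂ} (hW : MeasurableSet W) (hWb : Bornology.IsBounded W)
    {reg : Set ℂ → ℂ → κ} (hreg : ∀ i : DelgpIx, Measurable fun x : DelmT => reg (delmY x) (x.2 i)) {Φ : Set ℂ → (ℂ → Bool) → Prop}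
    (hΦ : ∀ (Y : Set ℂ) (σ : ℂ → Bool) (Y' : Set ℂ) (σ' : ℂ → Bool) (φ : ℂ → ℂ), PvatNice Y → PvatNice Y' → PvatIso W (reg Y) Y σ W (reg Y') Y' σ' φ → Φ Y σ → Φ Y' σ') :
    MeasurableSet (pvConf ⁻¹' pvatEv Φ) := by
  have e : pvatEv Φ = {η : Conf PvPt | Φ (cfSites η) (cfCol η) ∧ PvatNice (cfSites η) ∧ (cfSites η ∩ W).Finite} := by
    ext η
    exact ⟨fun h => ⟨h.1, h.2, h.2.finite hWb⟩, fun h => ⟨h.1, h.2.1⟩⟩
  rw [e]
  exact pvat_meas pvat_meas_nice hW hreg hΦ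

/-- regions which depend on the position only -/
theorem pvat_reg_pos {κ : Type*} [MeasurableSpace κ] {r : ℂ → κ} (hr : Measurable r) (i : DelgpIx) : Measurable fun x : DelmT => (fun _ : Set ℂ => r) (delmY x) (x.2 i) :=
  hr.comp (delm_measurable_site i)

/-- countable unions (exhaustion by windows) -/
theorem pvat_ev_iUnion {ι : Type*} (Φ : ι → Set ℂ → (ℂ → Bool) → Prop) : pvatEv (fun Y σ => ∃ n, Φ n Y σ) = ⋃ n, pvatEv (Φ n) := by
  ext η
  simp only [pvatEv, mem_ofPred_eq, mem_iUnion]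
  exact ⟨fun ⟨⟨n, h⟩, h'⟩ => ⟨n, h, h'⟩, fun ⟨n, h, h'⟩ => ⟨⟨n, h⟩, h'⟩⟩

theorem pvat_meas_ev_iUnion {ι : Type*} [Countable ι] {Φ : ι → Set ℂ → (ℂ → Bool) → Prop} (h : ∀ n, MeasurableSet (pvConf ⁻¹' pvatEv (Φ n))) :
    MeasurableSet (pvConf ⁻¹' pvatEv (fun Y σ => ∃ n, Φ n Y σ)) := by
  rw [pvat_ev_iUnion, preimage_iUnion]
  exact MeasurableSet.iUnion h

/-! ## 3. annealing -/

theorem pvat_Qc_meas {𝒜 : Set (Conf PvPt)} (h : MeasurableSet (pvConf ⁻¹' 𝒜)) : Measurable (pvQc 𝒜) := pvqu_Q_meas h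

/-- the annealed probability is the mean of the quenched probability -/
theorem pvat_anneal (ε : ℝ) {𝒜 : Set (Conf PvPt)} (h : MeasurableSet (pvConf ⁻¹' 𝒜)) : pvP ε 𝒜 = ∫⁻ g, pvQc 𝒜 g ∂(pvGeo ε) := (pvqu_Qc_lintegral' ε h).symm

/-- **ANNEALING WITH A BAD GEOMETRY EVENT** (`Bad` is ANY set of geometries: outer measure) -/
theorem pvat_sum_le (ε : ℝ) {ι : Type*} (G : Finset ι) {𝒜 : ι → Set (Conf PvPt)} (h𝒜 : ∀ b ∈ G, MeasurableSet (pvConf ⁻¹' 𝒜 b)) (Bad : Set PvGeoT) (K : ℝ≥0∞)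
    (hq : ∀ g, g ∉ Bad → ∑ b ∈ G, pvQc (𝒜 b) g ≤ K) : ∑ b ∈ G, pvP ε (𝒜 b) ≤ K + G.card * pvGeo ε Bad := by
  rw [Finset.sum_congr rfl fun b hb => pvat_anneal ε (h𝒜 b hb), ← lintegral_finsetSum G fun b hb => pvat_Qc_meas (h𝒜 b hb)]
  set B' := toMeasurable (pvGeo ε) Bad with hB'
  have hB'm : MeasurableSet B' := measurableSet_toMeasurable _ _
  have h1 : ∀ g, ∑ b ∈ G, pvQc (𝒜 b) g ≤ K + B'.indicator (fun _ => (G.card : ℝ≥0∞)) g := by
    intro g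
    by_cases hg : g ∈ B'
    · rw [indicator_of_mem hg]
      refine le_trans ?_ le_add_self
      calc ∑ b ∈ G, pvQc (𝒜 b) g ≤ ∑ _b ∈ G, (1 : ℝ≥0∞) := Finset.sum_le_sum fun b _ => pvqu_Q_le_one _ g
        _ = G.card := by simp
    · rw [indicator_of_notMem hg, add_zero]
      exact hq g fun hb => hg (subset_toMeasurable _ _ hb)
  calc ∫⁻ g, ∑ b ∈ G, pvQc (𝒜 b) g ∂(pvGeo ε) ≤ ∫⁻ g, (K + B'.indicator (fun _ => (G.card : ℝ≥0∞)) g) ∂(pvGeo ε) := lintegral_mono h1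
    _ = K + G.card * pvGeo ε Bad := by
      rw [lintegral_add_left measurable_const, lintegral_const, measure_univ, mul_one, lintegral_indicator_const hB'm, hB', measure_toMeasurable]

/-! ## 4. stationarity -/

theorem pvat_cfMap_comp (f g : ℂ → ℂ) (η : Conf PvPt) : cfMap f (cfMap g η) = cfMap (f ∘ g) η := by
  ext p
  simp only [cfMap, Conf.image, mem_image]
  constructor
  · rintro ⟨_, ⟨q, hq, rfl⟩, rfl⟩
    exact ⟨q, hq, rfl⟩
  · rintro ⟨q, hq, rfl⟩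
    exact ⟨_, ⟨q, hq, rfl⟩, rfl⟩

theorem pvat_cfMap_id (η : Conf PvPt) : cfMap id η = η := by
  ext p
  simp [cfMap, Conf.image]

/-- the translation of configurations as a measurable equivalence -/
def pvatTr (a : ℂ) : Conf PvPt ≃ᵐ Conf PvPt where
  toFun := cfMap fun z => z + a
  invFun := cfMap fun z => z + -a
  left_inv η := by
    rw [pvat_cfMap_comp]
    have : ((fun z : ℂ => z + -a) ∘ fun z : ℂ => z + a) = id := by funext z; simp
    rw [this, pvat_cfMap_id]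
  right_inv η := by
    rw [pvat_cfMap_comp]
    have : ((fun z : ℂ => z + a) ∘ fun z : ℂ => z + -a) = id := by funext z; simp
    rw [this, pvat_cfMap_id]
  measurable_toFun := measurable_cfMap (measurable_id.add_const a)
  measurable_invFun := measurable_cfMap (measurable_id.add_const (-a))

/-- translation invariance for ALL events (outer measure) -/
theorem pvat_tr_apply (a : ℂ) (ε : ℝ) (𝒜 : Set (Conf PvPt)) : pvP ε ((cfMap fun z => z + a) ⁻¹' 𝒜) = pvP ε 𝒜 := by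
  have h : MeasurePreserving (pvatTr a) (pvP ε) (pvP ε) := ⟨(pvatTr a).measurable, pvP_translate a ε⟩
  exact h.measure_preimage_equiv 𝒜

/-- **STATIONARITY**: if the translate by `z b` of the centred event `𝒜₀` is contained in `𝒜 b`, then `#G · P(𝒜₀) ≤ ∑_b P(𝒜 b)`      (no measurability) -/
theorem pvat_stat (ε : ℝ) {ι : Type*} (G : Finset ι) (z : ι → ℂ) {𝒜₀ : Set (Conf PvPt)} {𝒜 : ι → Set (Conf PvPt)}
    (hcov : ∀ b ∈ G, ∀ η ∈ 𝒜₀, cfMap (fun w => w + z b) η ∈ 𝒜 b) : G.card * pvP ε 𝒜₀ ≤ ∑ b ∈ G, pvP ε (𝒜 b) := by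
  calc (G.card : ℝ≥0∞) * pvP ε 𝒜₀ = ∑ _b ∈ G, pvP ε 𝒜₀ := by simp
    _ ≤ ∑ b ∈ G, pvP ε (𝒜 b) := Finset.sum_le_sum fun b hb => by
      rw [← pvat_tr_apply (z b) ε (𝒜 b)]
      exact measure_mono fun η hη => hcov b hb η hη

/-- **A5c, abstract form**: stationarity + annealing + removal of the bad geometries -/
theorem pvat_main (ε : ℝ) {ι : Type*} (G : Finset ι) (hG : G.Nonempty) (z : ι → ℂ) {𝒜₀ : Set (Conf PvPt)} {𝒜 : ι → Set (Conf PvPt)}
    (hcov : ∀ b ∈ G, ∀ η ∈ 𝒜₀, cfMap (fun w => w + z b) η ∈ 𝒜 b) (h𝒜 : ∀ b ∈ G, MeasurableSet (pvConf ⁻¹' 𝒜 b)) (Bad : Set PvGeoT) (K : ℝ≥0∞)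
    (hq : ∀ g, g ∉ Bad → ∑ b ∈ G, pvQc (𝒜 b) g ≤ K) : pvP ε 𝒜₀ ≤ K / G.card + pvGeo ε Bad := by
  have h1 := (pvat_stat ε G z hcov).trans (pvat_sum_le ε G h𝒜 Bad K hq)
  have hc0 : (G.card : ℝ≥0∞) ≠ 0 := by exact_mod_cast hG.card_pos.ne'
  have hct : (G.card : ℝ≥0∞) ≠ ∞ := ENNReal.natCast_ne_top _
  have h2 : pvP ε 𝒜₀ ≤ (K + G.card * pvGeo ε Bad) / G.card := by
    rw [ENNReal.le_div_iff_mul_le (Or.inl hc0) (Or.inl hct), mul_comm]
    exact h1
  refine h2.trans (le_of_eq ?_)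
  rw [ENNReal.add_div, mul_comm, ENNReal.mul_div_cancel_right hc0 hct]

/-! ## 5. translations are combinatorial isomorphisms; schemes of events -/

theorem pvat_sites_tr (a : ℂ) (η : Conf PvPt) : cfSites (cfMap (fun z => z + a) η) = (fun z => z + a) '' cfSites η := vorc_sites_image _ η

theorem pvat_col_tr (a : ℂ) (η : Conf PvPt) (z : ℂ) : cfCol (cfMap (fun w => w + a) η) (z + a) = cfCol η z := by
  have h : ((z + a, true) ∈ (cfMap (fun w => w + a) η).pts) ↔ ((z, true) ∈ η.pts) := by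
    simp only [cfMap, Conf.image, mem_image]
    constructor
    · rintro ⟨⟨w, c⟩, hq, he⟩
      have h1 : w + a = z + a := congrArg Prod.fst he
      have h2 : c = true := congrArg Prod.snd he
      rw [add_right_cancel h1, h2] at hq
      exact hq
    · intro hq
      exact ⟨(z, true), hq, rfl⟩
  exact Bool.eq_iff_iff.2 (by rw [pvat_col_true, pvat_col_true]; exact h)

/-- a translation is a combinatorial isomorphism -/
theorem pvat_iso_tr {κ : Type*} (a : ℂ) {W : Set ℂ} {r : ℂ → κ} (Y : Set ℂ) {σ : ℂ → Bool} {W' : Set ℂ} {r' : ℂ → κ} {σ' : ℂ → Bool} (hW : ∀ z, z + a ∈ W' ↔ z ∈ W)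
    (hr : ∀ z ∈ Y ∩ W, r' (z + a) = r z) (hσ : ∀ z ∈ Y ∩ W, σ' (z + a) = σ z) : PvatIso W r Y σ W' r' ((fun z => z + a) '' Y) σ' (fun z => z + a) where
  maps z hz := ⟨⟨z, hz.1, rfl⟩, (hW z).2 hz.2⟩
  inj z _ w _ h := add_right_cancel h
  surj := by
    rintro _ ⟨⟨z, hz, rfl⟩, hw⟩
    exact ⟨z, ⟨hz, (hW z).1 hw⟩, rfl⟩
  col := hσ
  reg := hr
  adj z _ w _ := delc_adj (delc_P_add a).toVorSim Y z w
  tri z _ w _ u _ := delc_tri (delc_P_add a) Y z w u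

theorem PvatIso.refl {κ : Type*} (W : Set ℂ) (r : ℂ → κ) (Y : Set ℂ) (σ : ℂ → Bool) : PvatIso W r Y σ W r Y σ id where
  maps _ h := h
  inj := injOn_id _
  surj a h := ⟨a, h, rfl⟩
  col _ _ := rfl
  reg _ _ := rfl
  adj _ _ _ _ := Iff.rfl
  tri _ _ _ _ _ _ := Iff.rfl

theorem PvatIso.trans {κ : Type*} {W W' W'' : Set ℂ} {r r' r'' : ℂ → κ} {Y Y' Y'' : Set ℂ} {σ σ' σ'' : ℂ → Bool} {φ ψ : ℂ → ℂ} (h : PvatIso W r Y σ W' r' Y' σ' φ)
    (h' : PvatIso W' r' Y' σ' W'' r'' Y'' σ'' ψ) : PvatIso W r Y σ W'' r'' Y'' σ'' (ψ ∘ φ) where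
  maps a ha := h'.maps _ (h.maps a ha)
  inj a ha b hb e := h.inj ha hb (h'.inj (h.maps a ha) (h.maps b hb) e)
  surj c hc := by
    obtain ⟨b, hb, rfl⟩ := h'.surj c hc
    obtain ⟨a, ha, rfl⟩ := h.surj b hb
    exact ⟨a, ha, rfl⟩
  col a ha := (h'.col _ (h.maps a ha)).trans (h.col a ha)
  reg a ha := (h'.reg _ (h.maps a ha)).trans (h.reg a ha)
  adj a ha b hb := (h'.adj _ (h.maps a ha) _ (h.maps b hb)).trans (h.adj a ha b hb)
  tri a ha b hb c hc := (h'.tri _ (h.maps a ha) _ (h.maps b hb) _ (h.maps c hc)).trans (h.tri a ha b hb c hc)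

/-- the inverse isomorphism -/
theorem PvatIso.symm {κ : Type*} {W W' : Set ℂ} {r r' : ℂ → κ} {Y Y' : Set ℂ} {σ σ' : ℂ → Bool} {φ : ℂ → ℂ} (h : PvatIso W r Y σ W' r' Y' σ' φ) :
    ∃ ψ : ℂ → ℂ, PvatIso W' r' Y' σ' W r Y σ ψ ∧ (∀ a ∈ Y ∩ W, ψ (φ a) = a) ∧ ∀ a' ∈ Y' ∩ W', φ (ψ a') = a' := by
  classical
  have hs := h.surj
  choose! ψ hψ using hs
  have hl : ∀ a ∈ Y ∩ W, ψ (φ a) = a := fun a ha => h.inj (hψ _ (h.maps a ha)).1 ha (hψ _ (h.maps a ha)).2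
  refine ⟨ψ, ⟨fun a ha => (hψ a ha).1, fun a ha b hb e => ?_, fun a ha => ⟨φ a, h.maps a ha, hl a ha⟩, fun a ha => ?_, fun a ha => ?_, fun a ha b hb => ?_, fun a ha b hb c hc => ?_⟩,
    hl, fun a ha => (hψ a ha).2⟩
  · rw [← (hψ a ha).2, ← (hψ b hb).2, e]
  · have := h.col _ (hψ a ha).1
    rw [(hψ a ha).2] at this
    exact this.symm
  · have := h.reg _ (hψ a ha).1
    rw [(hψ a ha).2] at this
    exact this.symm
  · have := h.adj _ (hψ a ha).1 _ (hψ b hb).1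
    rw [(hψ a ha).2, (hψ b hb).2] at this
    exact this.symm
  · have := h.tri _ (hψ a ha).1 _ (hψ b hb).1 _ (hψ c hc).1
    rw [(hψ a ha).2, (hψ b hb).2, (hψ c hc).2] at this
    exact this.symm

/-- a SCHEME of events: a predicate of (window, regions, site set, colouring), invariant under ALL combinatorial isomorphisms between nice site sets.
ONE lemma of the owner of the event (transport the witnesses along `φ`) gives BOTH the measurability and the covariance under translations. -/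
def PvatInv {κ : Type*} (Φ : Set ℂ → (ℂ → κ) → Set ℂ → (ℂ → Bool) → Prop) : Prop :=
  ∀ (W : Set ℂ) (r : ℂ → κ) (Y : Set ℂ) (σ : ℂ → Bool) (W' : Set ℂ) (r' : ℂ → κ) (Y' : Set ℂ) (σ' : ℂ → Bool) (φ : ℂ → ℂ),
    PvatNice Y → PvatNice Y' → PvatIso W r Y σ W' r' Y' σ' φ → Φ W r Y σ → Φ W' r' Y' σ'

theorem PvatInv.meas {κ : Type*} [MeasurableSpace κ] [MeasurableSingletonClass κ] [Countable κ] {Φ : Set ℂ → (ℂ → κ) → Set ℂ → (ℂ → Bool) → Prop} (hΦ : PvatInv Φ)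
    {W : Set ℂ} (hW : MeasurableSet W) (hWb : Bornology.IsBounded W) {r : ℂ → κ} (hr : Measurable r) : MeasurableSet (pvConf ⁻¹' pvatEv (Φ W r)) :=
  pvat_meas_ev (reg := fun _ => r) hW hWb (pvat_reg_pos hr) fun Y σ Y' σ' φ hY hY' h => hΦ W r Y σ W r Y' σ' φ hY hY' h

/-- covariance of a scheme under translations -/
theorem PvatInv.cov {κ : Type*} {Φ : Set ℂ → (ℂ → κ) → Set ℂ → (ℂ → Bool) → Prop} (hΦ : PvatInv Φ) (a : ℂ) {W W' : Set ℂ} {r r' : ℂ → κ} (hW : ∀ z, z + a ∈ W' ↔ z ∈ W)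
    (hr : ∀ z ∈ W, r' (z + a) = r z) {η : Conf PvPt} (hη : η ∈ pvatEv (Φ W r)) : cfMap (fun z => z + a) η ∈ pvatEv (Φ W' r') := by
  refine ⟨?_, ?_⟩
  · rw [pvat_sites_tr]
    exact hΦ W r _ _ W' r' _ _ _ hη.2 (hη.2.translate a) (pvat_iso_tr a (cfSites η) hW (fun z hz => hr z hz.2) fun z _ => pvat_col_tr a η z) hη.1
  · rw [pvat_sites_tr]
    exact hη.2.translate a

/-- **A5c for a scheme**: the centred event `Φ W r`, its translates `Φ (W + z b) (r (· - z b))`, which may be enlarged to `𝒜 b` -/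
theorem pvat_main_scheme {κ : Type*} {Φ : Set ℂ → (ℂ → κ) → Set ℂ → (ℂ → Bool) → Prop} (hΦ : PvatInv Φ) (ε : ℝ) {ι : Type*} (G : Finset ι) (hG : G.Nonempty) (z : ι → ℂ)
    (W : Set ℂ) (r : ℂ → κ) {𝒜 : ι → Set (Conf PvPt)} (hsub : ∀ b ∈ G, pvatEv (Φ ((fun w => w + z b) '' W) fun w => r (w - z b)) ⊆ 𝒜 b)
    (h𝒜 : ∀ b ∈ G, MeasurableSet (pvConf ⁻¹' 𝒜 b)) (Bad : Set PvGeoT) (K : ℝ≥0∞) (hq : ∀ g, g ∉ Bad → ∑ b ∈ G, pvQc (𝒜 b) g ≤ K) :
    pvP ε (pvatEv (Φ W r)) ≤ K / G.card + pvGeo ε Bad := by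
  refine pvat_main ε G hG z (fun b hb η hη => hsub b hb (hΦ.cov (z b) (fun w => ?_) (fun w _ => ?_) hη)) h𝒜 Bad K hq
  · constructor
    · rintro ⟨w', hw', e⟩
      rwa [← add_right_cancel e]
    · intro hw
      exact ⟨w, hw, rfl⟩
  · simp

/-! ## 6. measurable majorants of the quenched probability, valid at EVERY geometry -/

/-- quenched probability of the event of record + indicator of the geometries which are not nice -/
noncomputable def pvatMaj (Φ : Set ℂ → (ℂ → Bool) → Prop) (g : PvGeoT) : ℝ≥0∞ := pvQc (pvatEv Φ) g + pvQc {η | PvatNice (cfSites η)}ᶜ g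

theorem pvat_maj_meas {Φ : Set ℂ → (ℂ → Bool) → Prop} (h : MeasurableSet (pvConf ⁻¹' pvatEv Φ)) : Measurable (pvatMaj Φ) :=
  (pvat_Qc_meas h).add (pvat_Qc_meas (𝒜 := {η | PvatNice (cfSites η)}ᶜ) pvat_meas_niceEv.compl)

theorem pvat_maj_le (Φ : Set ℂ → (ℂ → Bool) → Prop) (g : PvGeoT) : pvQc {η | Φ (cfSites η) (cfCol η)} g ≤ pvatMaj Φ g := by
  refine le_trans (pvqu_Q_mono ?_ g) (pvqu_Q_union_le _ _ g)
  intro ω hω
  by_cases hn : PvatNice (cfSites (pvConf ω))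
  · exact Or.inl ⟨hω, hn⟩
  · exact Or.inr hn

theorem pvat_maj_lintegral {ε : ℝ} (hε : ε ≠ 0) {Φ : Set ℂ → (ℂ → Bool) → Prop} (h : MeasurableSet (pvConf ⁻¹' pvatEv Φ)) :
    ∫⁻ g, pvatMaj Φ g ∂(pvGeo ε) = pvP ε (pvatEv Φ) := by
  unfold pvatMaj
  rw [lintegral_add_left (pvat_Qc_meas h), ← pvat_anneal ε h, ← pvat_anneal ε (𝒜 := {η | PvatNice (cfSites η)}ᶜ) pvat_meas_niceEv.compl]
  have h0 : pvP ε {η | PvatNice (cfSites η)}ᶜ = 0 := pvat_nice_ae hε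
  rw [h0, add_zero]

/-- the event without the cut has the same (outer) probability -/
theorem pvat_ev_apply {ε : ℝ} (hε : ε ≠ 0) (Φ : Set ℂ → (ℂ → Bool) → Prop) : pvP ε {η | Φ (cfSites η) (cfCol η)} = pvP ε (pvatEv Φ) := by
  refine measure_congr ?_
  filter_upwards [pvat_nice_ae hε] with η hη
  exact propext ⟨fun h => ⟨h, hη⟩, fun h => h.1⟩

/-! ## 7. the grid of `s`-boxes in `B(0, T/4)` -/

/-- the indices of the boxes -/
noncomputable def pvatGrid (n : ℕ) : Finset (ℤ × ℤ) := Finset.Icc (-(n : ℤ)) n ×ˢ Finset.Icc (-(n : ℤ)) n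

/-- the centre of the `s`-box of index `k` -/
def pvatZ (s : ℝ) (k : ℤ × ℤ) : ℂ := ⟨s * k.1, s * k.2⟩

theorem pvat_grid_card (n : ℕ) : (pvatGrid n).card = (2 * n + 1) ^ 2 := by
  unfold pvatGrid
  rw [Finset.card_product, Int.card_Icc]
  have : ((n : ℤ) + 1 - -(n : ℤ)).toNat = 2 * n + 1 := by omega
  rw [this]
  ring

theorem pvat_grid_nonempty (n : ℕ) : (pvatGrid n).Nonempty := ⟨(0, 0), by simp [pvatGrid]⟩

theorem pvat_Z_norm_le {s : ℝ} (hs : 0 ≤ s) {n : ℕ} {k : ℤ × ℤ} (hk : k ∈ pvatGrid n) : ‖pvatZ s k‖ ≤ 2 * s * n := by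
  have h1 := Complex.norm_le_abs_re_add_abs_im (pvatZ s k)
  simp only [pvatGrid, Finset.mem_product, Finset.mem_Icc] at hk
  obtain ⟨⟨a1, a2⟩, b1, b2⟩ := hk
  have c1 : |(k.1 : ℝ)| ≤ n := abs_le.2 ⟨by exact_mod_cast a1, by exact_mod_cast a2⟩
  have c2 : |(k.2 : ℝ)| ≤ n := abs_le.2 ⟨by exact_mod_cast b1, by exact_mod_cast b2⟩
  have d1 : |(pvatZ s k).re| ≤ s * n := by
    show |s * (k.1 : ℝ)| ≤ s * n
    rw [abs_mul, abs_of_nonneg hs]
    exact mul_le_mul_of_nonneg_left c1 hs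
  have d2 : |(pvatZ s k).im| ≤ s * n := by
    show |s * (k.2 : ℝ)| ≤ s * n
    rw [abs_mul, abs_of_nonneg hs]
    exact mul_le_mul_of_nonneg_left c2 hs
  linarith

theorem pvat_Z_inj {s : ℝ} (hs : s ≠ 0) : Function.Injective (pvatZ s) := by
  intro k l h
  have h1 : s * (k.1 : ℝ) = s * (l.1 : ℝ) := congrArg Complex.re h
  have h2 : s * (k.2 : ℝ) = s * (l.2 : ℝ) := congrArg Complex.im h
  exact Prod.ext (by exact_mod_cast mul_left_cancel₀ hs h1) (by exact_mod_cast mul_left_cancel₀ hs h2)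

theorem pvat_card_Icc_le (x : ℝ) {ρ : ℝ} (hρ : 0 ≤ ρ) : ((Finset.Icc ⌈x - ρ⌉ ⌊x + ρ⌋).card : ℝ) ≤ 2 * ρ + 1 := by
  rw [Int.card_Icc]
  rcases le_or_gt (⌊x + ρ⌋ + 1 - ⌈x - ρ⌉) 0 with h | h
  · rw [Int.toNat_of_nonpos h]
    simp only [Nat.cast_zero]
    linarith
  · have e : (((⌊x + ρ⌋ + 1 - ⌈x - ρ⌉).toNat : ℤ) : ℝ) = ((⌊x + ρ⌋ + 1 - ⌈x - ρ⌉ : ℤ) : ℝ) := by rw [Int.toNat_of_nonneg h.le]
    have e' : ((⌊x + ρ⌋ + 1 - ⌈x - ρ⌉).toNat : ℝ) = (⌊x + ρ⌋ : ℝ) + 1 - (⌈x - ρ⌉ : ℝ) := by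
      rw [← Int.cast_natCast, e]
      push_cast
      ring
    rw [e']
    have h1 := Int.floor_le (x + ρ)
    have h2 := Int.le_ceil (x - ρ)
    linarith

/-- LOCAL FINITENESS OF THE GRID: at most `(2ρ+1)²` centres within `ρ s` of a point (the constant `C_loc` of the five-arm count) -/
theorem pvat_grid_local {s : ℝ} (hs : 0 < s) (w : ℂ) {ρ : ℝ} (hρ : 0 ≤ ρ) (S : Finset (ℤ × ℤ)) (hS : ∀ k ∈ S, ‖pvatZ s k - w‖ ≤ ρ * s) : (S.card : ℝ) ≤ (2 * ρ + 1) ^ 2 := by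
  have hsub : S ⊆ Finset.Icc ⌈w.re / s - ρ⌉ ⌊w.re / s + ρ⌋ ×ˢ Finset.Icc ⌈w.im / s - ρ⌉ ⌊w.im / s + ρ⌋ := by
    intro k hk
    have h0 := hS k hk
    have h1 : |s * (k.1 : ℝ) - w.re| ≤ ρ * s := (Complex.abs_re_le_norm (pvatZ s k - w)).trans h0
    have h2 : |s * (k.2 : ℝ) - w.im| ≤ ρ * s := (Complex.abs_im_le_norm (pvatZ s k - w)).trans h0
    rw [abs_le] at h1 h2
    have e1 : w.re / s * s = w.re := div_mul_cancel₀ _ hs.ne'
    have e2 : w.im / s * s = w.im := div_mul_cancel₀ _ hs.ne'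
    simp only [Finset.mem_product, Finset.mem_Icc]
    refine ⟨⟨Int.ceil_le.2 ?_, Int.le_floor.2 ?_⟩, Int.ceil_le.2 ?_, Int.le_floor.2 ?_⟩
    · refine le_of_mul_le_mul_right ?_ hs
      nlinarith
    · refine le_of_mul_le_mul_right ?_ hs
      nlinarith
    · refine le_of_mul_le_mul_right ?_ hs
      nlinarith
    · refine le_of_mul_le_mul_right ?_ hs
      nlinarith
  have h3 : (S.card : ℝ) ≤ ((Finset.Icc ⌈w.re / s - ρ⌉ ⌊w.re / s + ρ⌋ ×ˢ Finset.Icc ⌈w.im / s - ρ⌉ ⌊w.im / s + ρ⌋).card : ℝ) := by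
    exact_mod_cast Finset.card_le_card hsub
  rw [Finset.card_product, Nat.cast_mul] at h3
  have a1 := pvat_card_Icc_le (w.re / s) hρ
  have a2 := pvat_card_Icc_le (w.im / s) hρ
  calc (S.card : ℝ) ≤ _ := h3
    _ ≤ (2 * ρ + 1) * (2 * ρ + 1) := mul_le_mul a1 a2 (Nat.cast_nonneg _) (by linarith)
    _ = (2 * ρ + 1) ^ 2 := by ring

theorem pvat_grid_in {s T : ℝ} (hs : 0 < s) (hT : 0 ≤ T) {k : ℤ × ℤ} (hk : k ∈ pvatGrid ⌊T / (8 * s)⌋₊) : ‖pvatZ s k‖ ≤ T / 4 := by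
  refine (pvat_Z_norm_le hs.le hk).trans ?_
  have h1 : ((⌊T / (8 * s)⌋₊ : ℕ) : ℝ) ≤ T / (8 * s) := Nat.floor_le (by positivity)
  calc 2 * s * ((⌊T / (8 * s)⌋₊ : ℕ) : ℝ) ≤ 2 * s * (T / (8 * s)) := mul_le_mul_of_nonneg_left h1 (by positivity)
    _ = T / 4 := by field_simp; ring

theorem pvat_grid_ge {s T : ℝ} (hs : 0 < s) (hT : 0 ≤ T) : (T / (8 * s)) ^ 2 ≤ ((pvatGrid ⌊T / (8 * s)⌋₊).card : ℝ) := by
  rw [pvat_grid_card]
  push_cast
  have h0 : 0 ≤ T / (8 * s) := by positivity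
  have h1 : T / (8 * s) < (⌊T / (8 * s)⌋₊ : ℝ) + 1 := Nat.lt_floor_add_one _
  have h2 : (0 : ℝ) ≤ (⌊T / (8 * s)⌋₊ : ℝ) := Nat.cast_nonneg _
  exact pow_le_pow_left₀ h0 (by linarith) 2

/-- **A5c on the grid**: `P(𝒜₀) ≤ K (8 s / T)² + P(Bad)` -/
theorem pvat_main_grid (ε : ℝ) {s T : ℝ} (hs : 0 < s) (hT : 0 < T) {𝒜₀ : Set (Conf PvPt)} {𝒜 : ℤ × ℤ → Set (Conf PvPt)}
    (hcov : ∀ k ∈ pvatGrid ⌊T / (8 * s)⌋₊, ∀ η ∈ 𝒜₀, cfMap (fun w => w + pvatZ s k) η ∈ 𝒜 k) (h𝒜 : ∀ k ∈ pvatGrid ⌊T / (8 * s)⌋₊, MeasurableSet (pvConf ⁻¹' 𝒜 k))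
    (Bad : Set PvGeoT) (K : ℝ≥0∞) (hq : ∀ g, g ∉ Bad → ∑ k ∈ pvatGrid ⌊T / (8 * s)⌋₊, pvQc (𝒜 k) g ≤ K) :
    pvP ε 𝒜₀ ≤ K * ENNReal.ofReal ((8 * s / T) ^ 2) + pvGeo ε Bad := by
  refine (pvat_main ε _ (pvat_grid_nonempty _) (pvatZ s) hcov h𝒜 Bad K hq).trans (add_le_add ?_ le_rfl)
  rw [div_eq_mul_inv]
  refine mul_le_mul_right ?_ K
  have h1 := pvat_grid_ge hs hT.le
  have h0 : 0 < (T / (8 * s)) ^ 2 := by positivity
  have hc : (0 : ℝ) < ((pvatGrid ⌊T / (8 * s)⌋₊).card : ℝ) := lt_of_lt_of_le h0 h1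
  rw [← ENNReal.ofReal_natCast, ← ENNReal.ofReal_inv_of_pos hc]
  refine ENNReal.ofReal_le_ofReal ?_
  calc (((pvatGrid ⌊T / (8 * s)⌋₊).card : ℝ))⁻¹ ≤ ((T / (8 * s)) ^ 2)⁻¹ := inv_anti₀ h0 h1
    _ = (8 * s / T) ^ 2 := by rw [← inv_pow, inv_div]

/-! ## 8. `ε ↓ 0` -/

/-- removal of the bad geometries in the limit -/
theorem pvat_limsup {𝒜₀ : ℝ → Set (Conf PvPt)} {L : ℝ≥0∞} {Bad : ℝ → Set PvGeoT} (h : ∀ᶠ ε in 𝓝[>] (0 : ℝ), pvP ε (𝒜₀ ε) ≤ L + pvGeo ε (Bad ε))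
    (hB : Tendsto (fun ε => pvGeo ε (Bad ε)) (𝓝[>] 0) (𝓝 0)) : limsup (fun ε => pvP ε (𝒜₀ ε)) (𝓝[>] 0) ≤ L := by
  have h1 : Tendsto (fun ε => L + pvGeo ε (Bad ε)) (𝓝[>] 0) (𝓝 (L + 0)) := tendsto_const_nhds.add hB
  rw [add_zero] at h1
  calc limsup (fun ε => pvP ε (𝒜₀ ε)) (𝓝[>] 0) ≤ limsup (fun ε => L + pvGeo ε (Bad ε)) (𝓝[>] 0) := limsup_le_limsup h
    _ = L := h1.limsup_eq

theorem pvat_eventually {𝒜₀ : ℝ → Set (Conf PvPt)} {L : ℝ≥0∞} {Bad : ℝ → Set PvGeoT} (h : ∀ᶠ ε in 𝓝[>] (0 : ℝ), pvP ε (𝒜₀ ε) ≤ L + pvGeo ε (Bad ε))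
    (hB : Tendsto (fun ε => pvGeo ε (Bad ε)) (𝓝[>] 0) (𝓝 0)) {δ : ℝ≥0∞} (hδ : 0 < δ) : ∀ᶠ ε in 𝓝[>] (0 : ℝ), pvP ε (𝒜₀ ε) ≤ L + δ := by
  filter_upwards [h, hB.eventually (gt_mem_nhds hδ)] with ε h1 h2
  exact h1.trans (add_le_add le_rfl h2.le)

/-! ## 9. LOC: the events of a scheme are local on the density event -/

theorem pvat_nbd_nbd (W : Set ℂ) (a b : ℝ) : vorNbd (vorNbd W a) b ⊆ vorNbd W (a + b) := by
  rintro w ⟨z, ⟨u, hu, h1⟩, h2⟩
  refine ⟨u, hu, ?_⟩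
  have e : w - u = (w - z) + (z - u) := by ring
  rw [e]
  exact (norm_add_le _ _).trans (by linarith)

/-- the cell of a site of `W` stays in the `2ρ`-neighbourhood of `W` -/
theorem pvat_cell_sub {Y W : Set ℂ} {ρ : ℝ} (hρ : 0 < ρ) (hd : VorDense Y (vorNbd W (2 * ρ)) ρ) {a : ℂ} (ha : a ∈ W) : vorCell Y a ⊆ vorNbd W (2 * ρ) := by
  have hsub : Metric.closedBall a (2 * ρ) ⊆ vorNbd W (2 * ρ) := fun z hz => ⟨a, ha, by rwa [Metric.mem_closedBall, dist_eq_norm] at hz⟩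
  have h1 : vorCell Y a ⊆ Metric.closedBall a ρ := vor_cell_subset_ball hρ.le (by linarith) (hd.mono Subset.rfl hsub le_rfl)
  exact h1.trans ((Metric.closedBall_subset_closedBall (by linarith)).trans hsub)

/-- **LOC**: two site sets which agree on the `3ρ`-neighbourhood of the window, `ρ`-dense on its `2ρ`-neighbourhood, with the same colours in the window: the identity is a combinatorial isomorphism -/
theorem pvat_iso_loc {κ : Type*} {W : Set ℂ} (r : ℂ → κ) {Y Y' : Set ℂ} {σ σ' : ℂ → Bool} {ρ : ℝ} (hρ : 0 < ρ) (hd : VorDense Y (vorNbd W (2 * ρ)) ρ)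
    (hYY : Y ∩ vorNbd W (3 * ρ) = Y' ∩ vorNbd W (3 * ρ)) (hσ : ∀ a ∈ Y ∩ W, σ' a = σ a) : PvatIso W r Y σ W r Y' σ' id := by
  have hsub : vorNbd (vorNbd W (2 * ρ)) ρ ⊆ vorNbd W (3 * ρ) := (pvat_nbd_nbd W (2 * ρ) ρ).trans (by rw [show 2 * ρ + ρ = 3 * ρ by ring])
  have hYK : Y ∩ vorNbd (vorNbd W (2 * ρ)) ρ = Y' ∩ vorNbd (vorNbd W (2 * ρ)) ρ := by
    ext z
    have := Set.ext_iff.1 hYY z
    simp only [mem_inter_iff] at this ⊢
    constructor
    · rintro ⟨h1, h2⟩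
      exact ⟨(this.1 ⟨h1, hsub h2⟩).1, h2⟩
    · rintro ⟨h1, h2⟩
      exact ⟨(this.2 ⟨h1, hsub h2⟩).1, h2⟩
  have hd' : VorDense Y' (vorNbd W (2 * ρ)) ρ := vor_dense_transfer hd hYK
  have hW3 : W ⊆ vorNbd W (3 * ρ) := vor_subset_nbd W (by linarith)
  have hmem : ∀ a, a ∈ Y ∩ W ↔ a ∈ Y' ∩ W := by
    intro a
    have := Set.ext_iff.1 hYY a
    simp only [mem_inter_iff] at this ⊢
    exact ⟨fun h => ⟨(this.1 ⟨h.1, hW3 h.2⟩).1, h.2⟩, fun h => ⟨(this.2 ⟨h.1, hW3 h.2⟩).1, h.2⟩⟩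
  refine ⟨fun a ha => (hmem a).1 ha, injOn_id _, fun a ha => ⟨a, (hmem a).2 ha, rfl⟩, hσ, fun _ _ => rfl, fun a ha b _ => ?_, fun a ha b _ c _ => ?_⟩
  · simp only [id]
    constructor
    · intro h
      exact ((del_loc_adj hd hYK).2 (h.inWin (pvat_cell_sub hρ hd' ha.2))).adj
    · intro h
      exact ((del_loc_adj hd hYK).1 (h.inWin (pvat_cell_sub hρ hd ha.2))).adj
  · simp only [id]
    constructor
    · intro h
      exact ((del_loc_tri hd hYK).2 (h.inWin (pvat_cell_sub hρ hd' ha.2))).tri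
    · intro h
      exact ((del_loc_tri hd hYK).1 (h.inWin (pvat_cell_sub hρ hd ha.2))).tri

/-- **LOC for a scheme** (site sets) -/
theorem PvatInv.loc {κ : Type*} {Φ : Set ℂ → (ℂ → κ) → Set ℂ → (ℂ → Bool) → Prop} (hΦ : PvatInv Φ) {W : Set ℂ} (r : ℂ → κ) {Y Y' : Set ℂ} {σ σ' : ℂ → Bool} {ρ : ℝ} (hρ : 0 < ρ)
    (hY : PvatNice Y) (hY' : PvatNice Y') (hd : VorDense Y (vorNbd W (2 * ρ)) ρ) (hYY : Y ∩ vorNbd W (3 * ρ) = Y' ∩ vorNbd W (3 * ρ)) (hσ : ∀ a ∈ Y ∩ W, σ' a = σ a) :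
    Φ W r Y σ ↔ Φ W r Y' σ' := by
  have h1 := pvat_iso_loc r hρ hd hYY hσ
  obtain ⟨ψ, h2, -, -⟩ := h1.symm
  exact ⟨hΦ _ _ _ _ _ _ _ _ _ hY hY' h1, hΦ _ _ _ _ _ _ _ _ _ hY' hY h2⟩

/-- two configurations with the same restriction to `O × Bool` have the same sites and the same colours in `O` -/
theorem pvat_restr_sites {η η' : Conf PvPt} {O : Set ℂ} (h : Conf.restr (O ×ˢ univ) η = Conf.restr (O ×ˢ univ) η') : cfSites η ∩ O = cfSites η' ∩ O := by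
  have key : ∀ {η η' : Conf PvPt}, Conf.restr (O ×ˢ univ) η = Conf.restr (O ×ˢ univ) η' → cfSites η ∩ O ⊆ cfSites η' ∩ O := by
    rintro η η' h _ ⟨⟨p, hp, rfl⟩, hO⟩
    have h1 : p ∈ (Conf.restr (O ×ˢ univ) η).pts := ⟨hp, hO, mem_univ _⟩
    rw [h] at h1
    exact ⟨⟨p, h1.1, rfl⟩, hO⟩
  exact Subset.antisymm (key h) (key h.symm)

theorem pvat_restr_col {η η' : Conf PvPt} {O : Set ℂ} (h : Conf.restr (O ×ˢ univ) η = Conf.restr (O ×ˢ univ) η') {a : ℂ} (ha : a ∈ O) : cfCol η' a = cfCol η a := by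
  have key : ∀ {η η' : Conf PvPt}, Conf.restr (O ×ˢ univ) η = Conf.restr (O ×ˢ univ) η' → (a, true) ∈ η.pts → (a, true) ∈ η'.pts := by
    intro η η' h hp
    have h1 : (a, true) ∈ (Conf.restr (O ×ˢ univ) η).pts := ⟨hp, ha, mem_univ _⟩
    rw [h] at h1
    exact h1.1
  exact Bool.eq_iff_iff.2 (by rw [pvat_col_true, pvat_col_true]; exact ⟨key h.symm, key h⟩)

/-- **LOC for a scheme** (configurations): on the density event the flag reads the configuration in the `3ρ`-neighbourhood of the window only -/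
theorem PvatInv.loc_conf {κ : Type*} {Φ : Set ℂ → (ℂ → κ) → Set ℂ → (ℂ → Bool) → Prop} (hΦ : PvatInv Φ) {W : Set ℂ} (r : ℂ → κ) {η η' : Conf PvPt} {ρ : ℝ} (hρ : 0 < ρ)
    (hY : PvatNice (cfSites η)) (hY' : PvatNice (cfSites η')) (hd : VorDense (cfSites η) (vorNbd W (2 * ρ)) ρ)
    (h : Conf.restr (vorNbd W (3 * ρ) ×ˢ univ) η = Conf.restr (vorNbd W (3 * ρ) ×ˢ univ) η') : η ∈ pvatEv (Φ W r) ↔ η' ∈ pvatEv (Φ W r) := by
  have h1 := hΦ.loc r (σ := cfCol η) (σ' := cfCol η') hρ hY hY' hd (pvat_restr_sites h) fun a ha => pvat_restr_col h (vor_subset_nbd W (by linarith) ha.2)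
  exact ⟨fun hη => ⟨h1.1 hη.1, hY'⟩, fun hη => ⟨h1.2 hη.1, hY⟩⟩

/-! ## 10. COUNT FORM over an iterated upper expectation: no stationarity, no measurability -/

/-- **COUNT FORM**: the upper expectation of the number of boxes whose flag holds, from the quenched sum off a bad set of geometries (ANY events, ANY bad set) -/
theorem pvat_count_up {G K : Type} [MeasurableSpace G] [MeasurableSpace K] (γ : Measure G) (κ : Measure K) [IsProbabilityMeasure γ] [IsProbabilityMeasure κ] {ι : Type}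
    (S : Finset ι) (A : ι → Set (G × K)) (Bad : Set G) (L : ℝ≥0∞) (hq : ∀ g, g ∉ Bad → ∑ b ∈ S, κ {k | (g, k) ∈ A b} ≤ L) :
    (PvUp.iter γ κ).E (fun o => ∑ b ∈ S, (A b).indicator (fun _ => 1) o) ≤ L + S.card * γ Bad := by
  set B' := toMeasurable γ Bad with hB'
  have hB'm : MeasurableSet B' := measurableSet_toMeasurable _ _
  have h0 : ∀ g, pvUpInt κ (fun k => ∑ b ∈ S, (A b).indicator (fun _ => (1 : ℝ≥0∞)) (g, k)) ≤ ∑ b ∈ S, κ {k | (g, k) ∈ A b} := by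
    intro g
    refine ((PvUp.ofMeasure κ).E_sum_le S fun b k => (A b).indicator (fun _ => (1 : ℝ≥0∞)) (g, k)).trans (le_of_eq ?_)
    refine Finset.sum_congr rfl fun b _ => ?_
    exact pvup_int_ind κ {k | (g, k) ∈ A b}
  have h1 : ∀ g, pvUpInt κ (fun k => ∑ b ∈ S, (A b).indicator (fun _ => (1 : ℝ≥0∞)) (g, k)) ≤ L + B'.indicator (fun _ => (S.card : ℝ≥0∞)) g := by
    intro g
    refine (h0 g).trans ?_
    by_cases hg : g ∈ B'
    · rw [indicator_of_mem hg]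
      refine le_trans ?_ le_add_self
      calc ∑ b ∈ S, κ {k | (g, k) ∈ A b} ≤ ∑ _b ∈ S, (1 : ℝ≥0∞) := Finset.sum_le_sum fun b _ => prob_le_one
        _ = S.card := by simp
    · rw [indicator_of_notMem hg, add_zero]
      exact hq g fun hb => hg (subset_toMeasurable _ _ hb)
  have hw : Measurable fun g => L + B'.indicator (fun _ => (S.card : ℝ≥0∞)) g := measurable_const.add (measurable_const.indicator hB'm)
  refine (pvup_iter_E_quenched γ κ hw h1).trans (le_of_eq ?_)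
  rw [lintegral_add_left measurable_const, lintegral_const, measure_univ, mul_one, lintegral_indicator_const hB'm, hB', measure_toMeasurable]

/-- the same for the flags of coloured configurations, in the vocabulary of `PppQ` -/
theorem pvat_count_up_pv (ε : ℝ) {ι : Type} (S : Finset ι) (𝒜 : ι → Set (Conf PvPt)) (Bad : Set PvGeoT) (L : ℝ≥0∞) (hq : ∀ g, g ∉ Bad → ∑ b ∈ S, pvQc (𝒜 b) g ≤ L) :
    (PvUp.iter (pvGeo ε) pvCol).E (fun o => ∑ b ∈ S, {x : PvGeoT × PvColT | pvConf (pvMerge x) ∈ 𝒜 b}.indicator (fun _ => 1) o) ≤ L + S.card * pvGeo ε Bad :=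
  pvat_count_up (pvGeo ε) pvCol S (fun b => {x : PvGeoT × PvColT | pvConf (pvMerge x) ∈ 𝒜 b}) Bad L hq

/-- union bound in count form: the upper probability that SOME box is flagged -/
theorem pvat_some_up_pv (ε : ℝ) {ι : Type} (S : Finset ι) (𝒜 : ι → Set (Conf PvPt)) (Bad : Set PvGeoT) (L : ℝ≥0∞) (hq : ∀ g, g ∉ Bad → ∑ b ∈ S, pvQc (𝒜 b) g ≤ L) :
    (PvUp.iter (pvGeo ε) pvCol).P {x : PvGeoT × PvColT | ∃ b ∈ S, pvConf (pvMerge x) ∈ 𝒜 b} ≤ L + S.card * pvGeo ε Bad := by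
  refine le_trans ((PvUp.iter (pvGeo ε) pvCol).mono fun o => ?_) (pvat_count_up_pv ε S 𝒜 Bad L hq)
  by_cases ho : o ∈ {x : PvGeoT × PvColT | ∃ b ∈ S, pvConf (pvMerge x) ∈ 𝒜 b}
  · rw [indicator_of_mem ho]
    obtain ⟨b, hb, hm⟩ := ho
    refine le_trans (le_of_eq ?_) (Finset.single_le_sum (f := fun b => {x : PvGeoT × PvColT | pvConf (pvMerge x) ∈ 𝒜 b}.indicator (fun _ => (1 : ℝ≥0∞)) o) (fun _ _ => zero_le) hb)
    exact (indicator_of_mem (s := {x : PvGeoT × PvColT | pvConf (pvMerge x) ∈ 𝒜 b}) hm (fun _ => (1 : ℝ≥0∞))).symm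
  · rw [indicator_of_notMem ho]
    exact zero_le

/-- house rule: the equation lemmas of the defs of this file are generated HERE -/
theorem pvat_eqns_cite : True := by
  have := @pvatPc.eq_1; have := @pvatCode.eq_1.{0}; have := @PvatNice.eq_1; have := @pvatEv.eq_1; have := @pvatTr.eq_1; have := @PvatInv.eq_1.{0}
  have := @pvatMaj.eq_1; have := @pvatGrid.eq_1; have := @pvatZ.eq_1
  trivial

end Claimed.Agent.R289
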