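import Claimed.Agent.R289.Exit.Qbx
import Claimed.Agent.R289.Qbx.Rect

/-!
# Row 289 (S0537, Cardy for Poisson-Voronoi), box ARM, file Arm/TopFrame : THE FRAME CONTRACT OF `Arm/Top.lean` (`armt_frame`)      (helper154; prefix `armtf_`)

`armtf_frame` = the statement `armt_frame` of `Arm/Top.lean` with `ArmtFrame` unfolded.      It is NOT `pvax_frame` of `Arm/BxpPv.lean`:
(A) RATIO.  The frame of Top asks `BXP(q)` between the radii `5r/4` and `4r` (ratio 3.2), the exit of QBX is for the square annulus `(u/2, 5u/2)` (ratio 10 between Euclidean radii).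
    An arm from radius `≤ 5r/4` to radius `≥ 4r` starts in one of `36` squares of half side `r/4` (centres on a grid of mesh `r/2`) and leaves the concentric square of half side `5r/4`:
    `armtf_cover`.  Family form of the exit (`pvqy_family`, 298: quenched Harris): blocking probability `≥ q₀ ^ 36`.  The other colour by `pvqu_Qc_flip`.
(B) MEASURE.  Top asks the OUTER `pvGeo`-measure of a set of geometries (`pvax_geo_le` goes the other way).  All the bad sets are bounded at the level of the geometries: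
    the mesh event `vormG` is measurable and reads the sites only (`armtf_sites_geo`), `dls_ae_geo`, `pvqu_ok_ae`.
(C) `q < 1` by `min`.
-/

set_option autoImplicit false
set_option linter.unusedSectionVars false
set_option linter.unusedVariables false

namespace Claimed.Agent.R289

open Relation MeasureTheory Filter Topology Claims.C0465
open scoped ENNReal

/-! ## 1. events of the sites at the level of the geometries -/

/-- a measurable event of configurations which reads the sites only -/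
theorem armtf_sites_geo (ε : ℝ) {𝒜 : Set (Conf PvPt)} (hA : MeasurableSet 𝒜) (hs : ∀ η η' : Conf PvPt, cfSites η = cfSites η' → η ∈ 𝒜 → η' ∈ 𝒜) :
    pvGeo ε {g | pvConf (pvMerge (g, fun _ => false)) ∈ 𝒜} = pvP ε 𝒜 := by
  have hm : Measurable fun g : PvGeoT => pvConf (pvMerge (g, fun _ => false)) :=
    measurable_pvConf.comp (measurable_pvMerge.comp (measurable_id.prodMk measurable_const))
  have hS : MeasurableSet {g : PvGeoT | pvConf (pvMerge (g, fun _ => false)) ∈ 𝒜} := hm hA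
  have e : pvQc 𝒜 = Set.indicator {g : PvGeoT | pvConf (pvMerge (g, fun _ => false)) ∈ 𝒜} 1 := by
    funext g
    rw [pvqu_Qc_eq]
    by_cases hg : pvConf (pvMerge (g, fun _ => false)) ∈ 𝒜
    · have : {c : PvColT | pvConf (pvMerge (g, c)) ∈ 𝒜} = Set.univ := by
        ext c
        simp only [Set.mem_ofPred_eq, Set.mem_univ, iff_true]
        exact hs _ _ (by rw [pvqu_cfSites, pvqu_cfSites]) hg
      rw [this, measure_univ, Set.indicator_of_mem (show g ∈ {g : PvGeoT | pvConf (pvMerge (g, fun _ => false)) ∈ 𝒜} from hg)]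
      rfl
    · have : {c : PvColT | pvConf (pvMerge (g, c)) ∈ 𝒜} = ∅ := by
        ext c
        simp only [Set.mem_ofPred_eq, Set.mem_empty_iff_false, iff_false]
        exact fun hc => hg (hs _ _ (by rw [pvqu_cfSites, pvqu_cfSites]) hc)
      rw [this, measure_empty, Set.indicator_of_notMem (show g ∉ {g : PvGeoT | pvConf (pvMerge (g, fun _ => false)) ∈ 𝒜} from hg)]
  rw [← pvqu_Qc_lintegral ε hA, e, lintegral_indicator_one hS]

/-- the mesh event at the level of the geometries -/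
theorem armtf_dense {K : Set ℂ} (hK : Bornology.IsBounded K) {ρ : ℝ} (hρ : 0 < ρ) :
    Tendsto (fun ε : ℝ => pvGeo ε {g | ¬ VorDense (pvgSites g) K ρ}) (𝓝[>] 0) (𝓝 0) := by
  refine tendsto_of_tendsto_of_tendsto_of_le_of_le tendsto_const_nhds (vorm_G_tendsto hK hρ) (fun _ => zero_le) fun ε => ?_
  show pvGeo ε {g | ¬ VorDense (pvgSites g) K ρ} ≤ pvP ε (vormG K ρ)ᶜ
  rw [← armtf_sites_geo ε (vorm_G_meas K ρ).compl (fun η η' h h1 h2 => h1 (by
    intro k hk
    rw [h]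
    exact h2 k hk))]
  refine measure_mono fun g hg hG => hg ?_
  have := vorm_G_dense hρ hG
  rwa [pvqu_cfSites] at this

/-- finite unions of bad sets of geometries -/
theorem armtf_union {ι : Type} (I : Finset ι) (B : ι → Set PvGeoT) (h : ∀ i ∈ I, Tendsto (fun ε : ℝ => pvGeo ε (B i)) (𝓝[>] 0) (𝓝 0)) :
    Tendsto (fun ε : ℝ => pvGeo ε (⋃ i ∈ I, B i)) (𝓝[>] 0) (𝓝 0) := by
  have h1 : Tendsto (fun ε : ℝ => ∑ i ∈ I, pvGeo ε (B i)) (𝓝[>] 0) (𝓝 0) := by
    simpa using tendsto_finsetSum I h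
  exact tendsto_of_tendsto_of_tendsto_of_le_of_le tendsto_const_nhds h1 (fun _ => zero_le) fun ε => measure_biUnion_finset_le I _

theorem armtf_union2 {B B' : Set PvGeoT} (h : Tendsto (fun ε : ℝ => pvGeo ε B) (𝓝[>] 0) (𝓝 0)) (h' : Tendsto (fun ε : ℝ => pvGeo ε B') (𝓝[>] 0) (𝓝 0)) :
    Tendsto (fun ε : ℝ => pvGeo ε (B ∪ B')) (𝓝[>] 0) (𝓝 0) := by
  have h1 : Tendsto (fun ε : ℝ => pvGeo ε B + pvGeo ε B') (𝓝[>] 0) (𝓝 0) := by
    simpa using h.add h'
  exact tendsto_of_tendsto_of_tendsto_of_le_of_le tendsto_const_nhds h1 (fun _ => zero_le) fun ε => measure_union_le _ _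

theorem armtf_mono {B B' : Set PvGeoT} (h : Tendsto (fun ε : ℝ => pvGeo ε B) (𝓝[>] 0) (𝓝 0)) (hs : B' ⊆ B) :
    Tendsto (fun ε : ℝ => pvGeo ε B') (𝓝[>] 0) (𝓝 0) :=
  tendsto_of_tendsto_of_tendsto_of_le_of_le tendsto_const_nhds h (fun _ => zero_le) fun ε => measure_mono hs

/-- the geometry is good almost surely -/
theorem armtf_good : Tendsto (fun ε : ℝ => pvGeo ε {g | ¬ (PvgOk g ∧ DelGood (pvgSites g))}) (𝓝[>] 0) (𝓝 0) := by
  refine tendsto_const_nhds.congr' ?_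
  filter_upwards [self_mem_nhdsWithin] with ε hε
  exact (ae_iff.1 ((pvqu_ok_ae ε).and (dls_ae_geo hε))).symm

/-- **Lemma 2.3 (iv)** at the level of the geometries -/
theorem armtf_circ (z : ℂ) {r r' : ℝ} (hr : 0 ≤ r) (hrr : r < r') :
    Tendsto (fun ε : ℝ => pvGeo ε {g | ¬ PvaxCirc z r r' (pvgSites g)}) (𝓝[>] 0) (𝓝 0) := by
  have hρ : 0 < (r' - r) / 4 := by linarith
  refine armtf_mono (armtf_union2 armtf_good (armtf_dense (K := Metric.closedBall z (r + 3 * ((r' - r) / 4))) Metric.isBounded_closedBall hρ)) fun g hg => ?_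
  by_contra hn
  simp only [Set.mem_union, Set.mem_ofPred_eq, not_or, not_not] at hn
  obtain ⟨⟨-, hd⟩, hde⟩ := hn
  exact hg ⟨hd, pvax_circ_det hd hr hρ hde (by linarith)⟩

/-! ## 2. deterministic: the 36 small annuli -/

/-- the centres of the small annuli: a grid of mesh `r/2` -/
noncomputable def armtfCtr (z : ℂ) (r : ℝ) (i : ℕ) : ℂ :=
  ⟨z.re - 5 * r / 4 + r / 2 / 2 + ((i / 6 : ℕ) : ℝ) * (r / 2), z.im - 5 * r / 4 + r / 2 / 2 + ((i % 6 : ℕ) : ℝ) * (r / 2)⟩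

theorem armtf_eqns_cite : True := by
  have := @armtfCtr.eq_1
  trivial

/-- a path from radius `≤ 5r/4` to radius `≥ 4r` contains an arm across one of the 36 square annuli `(r/4, 5r/4)` -/
theorem armtf_cover {F : Set ℂ} {z u v : ℂ} {r : ℝ} (hr : 0 < r) (hj : JoinedIn F u v) (hu : ‖u - z‖ ≤ 5 * r / 4) (hv : 4 * r ≤ ‖v - z‖) :
    ∃ i < 36, (rswArm (armtfCtr z r i).re (armtfCtr z r i).im (r / 2 / 2) (5 * (r / 2) / 2)).Holds F := by
  have hre : |u.re - z.re| ≤ 5 * r / 4 := by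
    have := Complex.abs_re_le_norm (u - z)
    rw [Complex.sub_re] at this
    exact this.trans hu
  have him : |u.im - z.im| ≤ 5 * r / 4 := by
    have := Complex.abs_im_le_norm (u - z)
    rw [Complex.sub_im] at this
    exact this.trans hu
  rw [abs_le] at hre him
  have hw : 0 < r / 2 := by linarith
  obtain ⟨a, ha, a1, a2⟩ := pvqy_cover (x0 := z.re - 5 * r / 4) (x := u.re) (K := 6) hw (by linarith) (by push_cast; linarith)
  obtain ⟨b, hb, b1, b2⟩ := pvqy_cover (x0 := z.im - 5 * r / 4) (x := u.im) (K := 6) hw (by linarith) (by push_cast; linarith)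
  have e1 : (6 * a + b) / 6 = a := by omega
  have e2 : (6 * a + b) % 6 = b := by omega
  have c1 : (armtfCtr z r (6 * a + b)).re = z.re - 5 * r / 4 + r / 2 / 2 + (a : ℝ) * (r / 2) := by
    unfold armtfCtr; rw [e1]
  have c2 : (armtfCtr z r (6 * a + b)).im = z.im - 5 * r / 4 + r / 2 / 2 + (b : ℝ) * (r / 2) := by
    unfold armtfCtr; rw [e2]
  refine ⟨6 * a + b, by omega, pvre_arm_of_path (by linarith) hj ?_ ?_⟩
  · rw [c1, c2]
    exact ⟨a1, a2, b1, b2⟩
  · rw [c1, c2]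
    rintro ⟨g1, g2, g3, g4⟩
    have ha0 : (0 : ℝ) ≤ a := Nat.cast_nonneg a
    have hb0 : (0 : ℝ) ≤ b := Nat.cast_nonneg b
    have ha5 : (a : ℝ) ≤ 5 := by exact_mod_cast Nat.le_of_lt_succ ha
    have hb5 : (b : ℝ) ≤ 5 := by exact_mod_cast Nat.le_of_lt_succ hb
    have k1 : |v.re - z.re| < 11 / 4 * r := by
      rw [abs_lt]
      constructor <;> nlinarith
    have k2 : |v.im - z.im| < 11 / 4 * r := by
      rw [abs_lt]
      constructor <;> nlinarith
    have k3 : ‖v - z‖ ^ 2 = (v.re - z.re) ^ 2 + (v.im - z.im) ^ 2 := by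
      rw [Complex.sq_norm, Complex.normSq_apply, Complex.sub_re, Complex.sub_im]; ring
    have k4 : (v.re - z.re) ^ 2 < (11 / 4 * r) ^ 2 := sq_lt_sq' (abs_lt.1 k1).1 (abs_lt.1 k1).2
    have k5 : (v.im - z.im) ^ 2 < (11 / 4 * r) ^ 2 := sq_lt_sq' (abs_lt.1 k2).1 (abs_lt.1 k2).2
    have k6 : (4 * r) ^ 2 ≤ ‖v - z‖ ^ 2 := pow_le_pow_left₀ (by linarith) hv 2
    nlinarith

/-- no arm of colour `b` across any of the 36 small annuli -/
def armtfBlk (z : ℂ) (r : ℝ) (b : Bool) : Set (Conf PvPt) :=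
  {η | ∀ i < 36, ¬ (rswArm (armtfCtr z r i).re (armtfCtr z r i).im (r / 2 / 2) (5 * (r / 2) / 2)).Holds (cfReg η b)}

theorem armtf_eqns_cite2 : True := by
  have := @armtfBlk.eq_1
  trivial

/-- a vertex arm is excluded by the blocking event -/
theorem armtf_det {η : Conf PvPt} {b : Bool} {z : ℂ} {r : ℝ} (hr : 0 < r) (h : PvArm1 η b z (5 * r / 4) (4 * r)) : η ∉ armtfBlk z r b := by
  obtain ⟨u, v, hu, hv, hub, hch⟩ := h
  obtain ⟨-, hj⟩ := pvr_chain_joined hub hch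
  obtain ⟨i, hi, ha⟩ := armtf_cover hr hj hu hv
  exact fun hB => hB i hi ha

theorem armtf_blk_flip (z : ℂ) (r : ℝ) : armtfBlk z r true = cfFlip ⁻¹' armtfBlk z r false := by
  ext η
  have e : cfReg (cfFlip η) false = cfReg η true := by
    show cfW (cfFlip η) = cfB η
    rw [pvr_W_eq, pvr_flip_flip]
  show (∀ i < 36, ¬ _) ↔ (∀ i < 36, ¬ _)
  rw [e]

/-! ## 3. the blocking probability -/

/-- **quenched blocking for the ratio 3.2** -/
theorem armtf_block : ∃ q : ℝ, 0 < q ∧ q < 1 ∧ ∀ (z : ℂ) (r : ℝ) (b : Bool), 0 < r →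
    Tendsto (fun ε : ℝ => pvGeo ε {g | pvQc (armtfBlk z r b) g < ENNReal.ofReal q}) (𝓝[>] 0) (𝓝 0) := by
  obtain ⟨q, hq, H⟩ := pvqy_family exit_pv_qbx_s1
  have hq36 : 0 < q ^ 36 := by positivity
  refine ⟨min (q ^ 36) (1 / 2), lt_min hq36 (by norm_num), lt_of_le_of_lt (min_le_right _ _) (by norm_num), fun z r b hr => ?_⟩
  have key : Tendsto (fun ε : ℝ => pvGeo ε {g | pvQc (armtfBlk z r false) g < ENNReal.ofReal (q ^ 36)}) (𝓝[>] 0) (𝓝 0) := by
    refine pvqy_tendsto_of_unif (s := r / 2) (by linarith) fun δ hδ => ?_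
    obtain ⟨U, hU, H⟩ := H 36 δ hδ
    exact ⟨U, hU, fun ε hε hu => H ε hε (r / 2) hu (armtfCtr z r) (armtfBlk z r false) fun η _ h i hi => h i hi⟩
  have e : ∀ g, pvQc (armtfBlk z r b) g = pvQc (armtfBlk z r false) g := by
    intro g
    cases b
    · rfl
    · rw [armtf_blk_flip, pvqu_Qc_flip]
  refine armtf_mono key fun g hg => ?_
  have hg' : pvQc (armtfBlk z r b) g < ENNReal.ofReal (min (q ^ 36) (1 / 2)) := hg
  rw [e] at hg'
  exact hg'.trans_le (ENNReal.ofReal_le_ofReal (min_le_left _ _))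

/-- **the quenched step**: at a good labelled geometry the blocking events of both colours give `BXP(q)` between the radii `5r/4` and `4r` -/
theorem armtf_quenched {g : PvGeoT} (hg : PvgOk g) (hd : DelGood (pvgSites g)) {q : ℝ} {z : ℂ} {r : ℝ} (hr : 0 < r)
    (hq : ∀ b : Bool, ENNReal.ofReal q ≤ pvQc (armtfBlk z r b) g) :
    PvaxBxp (delMap hd) (dlsPos (pvgSites g)) q z (5 * r / 4) (4 * r) := by
  intro c' c hin hfin hc' hc A ξ b hA
  have hT : (delMap hd).IsSph := dls_isSph hd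
  have hK := pvax_cr_loc hT hin A hA b
  have h1 := pval_measure hK ξ
  let f : ↥(pvgSites g) → PvIx := fun v => pvgIdx g v
  have hf : Function.Injective f := fun v w hvw => Subtype.ext (pvqu_idx_injOn g v.2 w.2 hvw)
  have hm : Measurable (fun s : PvIx → Bool => s ∘ f) := measurable_pi_lambda _ fun v => measurable_pi_apply (f v)
  have h2 : colLaw PvIx {c₀ | ¬ PvaxCr (delMap hd) c' c Set.univ b (c₀ ∘ f)} = colLaw _ {s | ¬ PvaxCr (delMap hd) c' c Set.univ b s} := by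
    rw [← pvf_colLaw_comp f hf, Measure.map_apply hm (pval_loc_measurableSet hK)]
    rfl
  have h3 : {c₀ : PvColT | pvConf (pvMerge (g, c₀)) ∈ armtfBlk z r b} ⊆ {c₀ | ¬ PvaxCr (delMap hd) c' c Set.univ b (c₀ ∘ f)} := by
    intro c₀ hc₀ hcr
    have hc₁ : pvConf (pvMerge (g, c₀)) ∈ armtfBlk z r b := hc₀
    rw [hg.conf_eq c₀] at hc₁
    exact armtf_det hr (pvax_arm1 hd (pvgColAt g c₀) (pvax_cr_arm hc' hc hcr)) hc₁
  have h4 : ENNReal.ofReal q ≤ ENNReal.ofReal (pvaP A ξ (fun s => ¬ PvaxCr (delMap hd) c' c Set.univ b s)) := by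
    calc ENNReal.ofReal q ≤ pvQc (armtfBlk z r b) g := hq b
      _ ≤ colLaw PvIx {c₀ | ¬ PvaxCr (delMap hd) c' c Set.univ b (c₀ ∘ f)} := measure_mono h3
      _ = _ := by rw [h2, h1]
  exact (ENNReal.ofReal_le_ofReal_iff (pva_P_nonneg _ _ _)).1 h4

/-! ## 4. the frame -/

/-- **THE FRAME CONTRACT**, filter form -/
theorem armtf_frame_lim : ∃ q : ℝ, 0 < q ∧ q < 1 ∧ ∀ (Z : Finset ℂ) (Rs : Finset ℝ), (∀ r ∈ Rs, 0 < r) →
    Tendsto (fun ε : ℝ => pvGeo ε {g | ¬ ∃ h : DelGood (pvgSites g), ∀ z ∈ Z, ∀ r ∈ Rs,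
      (∃ c : (delMap h).Cyc, PvaxAt (delMap h) (dlsPos (pvgSites g)) z r (5 * r / 4) c) ∧ PvaxBxp (delMap h) (dlsPos (pvgSites g)) q z (5 * r / 4) (4 * r)}) (𝓝[>] 0) (𝓝 0) := by
  obtain ⟨q, hq0, hq1, H⟩ := armtf_block
  refine ⟨q, hq0, hq1, fun Z Rs hRs => ?_⟩
  have h1 : ∀ p ∈ Z ×ˢ Rs, Tendsto (fun ε : ℝ => pvGeo ε ({g | ¬ PvaxCirc p.1 p.2 (5 * p.2 / 4) (pvgSites g)} ∪
      ({g | pvQc (armtfBlk p.1 p.2 true) g < ENNReal.ofReal q} ∪ {g | pvQc (armtfBlk p.1 p.2 false) g < ENNReal.ofReal q}))) (𝓝[>] 0) (𝓝 0) := by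
    intro p hp
    have hr := hRs p.2 (Finset.mem_product.1 hp).2
    exact armtf_union2 (armtf_circ p.1 hr.le (by linarith)) (armtf_union2 (H p.1 p.2 true hr) (H p.1 p.2 false hr))
  refine armtf_mono (armtf_union2 armtf_good (armtf_union (Z ×ˢ Rs) (fun p => {g | ¬ PvaxCirc p.1 p.2 (5 * p.2 / 4) (pvgSites g)} ∪
      ({g | pvQc (armtfBlk p.1 p.2 true) g < ENNReal.ofReal q} ∪ {g | pvQc (armtfBlk p.1 p.2 false) g < ENNReal.ofReal q})) h1)) fun g hg => ?_
  by_contra hn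
  simp only [Set.mem_union, Set.mem_ofPred_eq, Set.mem_iUnion, not_or, not_not, not_exists, not_lt] at hn
  obtain ⟨⟨hok, hd⟩, hall⟩ := hn
  refine hg ⟨hd, fun z hz r hr => ?_⟩
  obtain ⟨⟨_, c, hc⟩, ht, hf⟩ := hall (z, r) (Finset.mem_product.2 ⟨hz, hr⟩)
  refine ⟨⟨c, hc⟩, armtf_quenched hok hd (hRs r hr) fun b => ?_⟩
  cases b
  · exact hf
  · exact ht

/-- **THE FRAME CONTRACT** = `armt_frame` of `Arm/Top.lean` with `ArmtFrame` unfolded -/
theorem armtf_frame : ∃ q : ℝ, 0 < q ∧ q < 1 ∧ ∀ εs : ℕ → ℝ, (∀ n, 0 < εs n) → Tendsto εs atTop (𝓝 0) → ∀ (Z : Finset ℂ) (Rs : Finset ℝ), (∀ r ∈ Rs, 0 < r) →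
    Tendsto (fun n => pvGeo (εs n) {g | ¬ ∃ h : DelGood (pvgSites g), ∀ z ∈ Z, ∀ r ∈ Rs,
      (∃ c : (delMap h).Cyc, PvaxAt (delMap h) (dlsPos (pvgSites g)) z r (5 * r / 4) c) ∧ PvaxBxp (delMap h) (dlsPos (pvgSites g)) q z (5 * r / 4) (4 * r)}) atTop (𝓝 0) := by
  obtain ⟨q, hq0, hq1, H⟩ := armtf_frame_lim
  refine ⟨q, hq0, hq1, fun εs h0 h1 Z Rs hRs => ?_⟩
  have hlim : Tendsto εs atTop (𝓝[>] 0) := tendsto_nhdsWithin_iff.2 ⟨h1, Eventually.of_forall fun n => h0 n⟩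
  exact (H Z Rs hRs).comp hlim

end Claimed.Agent.R289
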