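-- KEEP
import Claimed.Agent.R289.Exit.Arm
import Claimed.Agent.R289.Exit.Arm1Rim
import Claimed.Agent.R289.Arm.Trap
import Claimed.Agent.R289.Arm.Bxp
import Claimed.Agent.R289.Arm.Law
import Claimed.Agent.R289.Arm.Stat
import Claimed.Agent.R289.Arm.TopFrame
import Claimed.Agent.R289.Arm.Count
import Claimed.Agent.R289.Del.Seam
import Claimed.Agent.R289.Del.Cov

/-!
# Row 289 (S0537, Cardy for Poisson-Voronoi), box ARM, file Arm/Top : THE ANNEALED NEAR-RETURN LAYER = `PvNearExit`      (architect + owner helper186; prefix `armt_`, defs `Armt…`, `armt…`)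

GOAL: **`armt_near : ∃ c > 0, Nonempty (PvNearExit c)`** (= the sorried `exit_pv_near` of `Exit/Arm.lean`, helper33) as COMPILED GLUE over typed contracts, ONE per producer.

WHY THE EVENT IS WHAT IT IS.   The exponent `2 + c` comes from a SUM OVER BOXES + translation invariance.  For NON-MEASURABLE events this step is FALSE (a Bernstein set `E` of the circle with `N` disjoint rotations has outer measure 1),
and the outer measure of a product is not controlled by the sections either.  So the necessary event `F` must be (M) MEASURABLE, (C) translation COVARIANT, (D) implied by a near return in ANY bulk family, (Q) countable in ONE model.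
  `ArmtLoc Y K T lab`   `(T, lab)` is a LOCAL MODEL: a simple sphere / plane which agrees with the Delaunay triangulation of `Y` at the faces with a vertex in `K` (`lab v = none`: extra vertex or forgotten far site)
  `ArmtNR Y σ z s S R`  SOME local model on `closedBall z (4R)` carries a rim with a near return at `(z; s, S)` whose second arc reaches distance `2R`
(D) is trivial (the bulk family IS a model), (C) is trivial (same `T`, translated labels; only `delc_tri`), (M): relabel by indices, forget the far sites: the event is a function of the LOCAL LABELLED TYPE (countably many), (Q): ONE transfer to the plane model.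

CONTRACTS (each sorried statement below = one block; owners are asked to SIGN):
  `armt_det`        (186)            bulk family ⟹ `armtF`
  `armt_cov`        (market)         covariance of `armtN` under translations
  `armt_meas`       (98 / 286 / 120) `MeasurableSet (pvConf ⁻¹' armtN z s S R)`
  `armt_frame`      (196 + 298 + 190) frames: cycles at radii `(r, 5r/4)` + `BXP(q)` between `5r/4` and `4r`, finite families, probability `→ 1`     (= `pvax_frame` of `Arm/BxpPv`)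
  `armt_geo`        (market)         frame ⟹ the record `ArmtGeo` of nested cycles (pure `pvax_at_inside`, `pvax_at_blk` + counting grid points)
  `armt_nr_cfg`     (228 NR-DET + transfer kit 97 / 219) near return in some model ⟹ CONFIG6 + outer arm in the plane model
  `armt_count`      (237 / 249 / 221) THE QUENCHED COUNT `∑_b P(CONFIG6_b, outer arm) ≤ C(q) Cl (1-q)^m (1-q)^m'`     (`pvat_marker`, rule circuits, `pvak_moment`, `pvax_arm_stop`)
  `armt_col`        (128)            the colours of the sites at fixed geometry are fair bits: `pvCol {c | K (colours)} = pvaP A ξ K`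
  `armt_num`        (market)         the choice of `L m m'` and the exponents
-/

set_option autoImplicit false
set_option linter.unusedSectionVars false
set_option linter.unusedVariables false

namespace Claimed.Agent.R289

open MeasureTheory ProbabilityTheory Set Filter Topology Metric
open scoped ENNReal NNReal
open Claims.C0465

/-! ## 0. local models, the event -/

/-- **LOCAL MODEL**: `T` is a simple sphere (or plane) which agrees with the Delaunay triangulation of `Y` at all faces with a vertex in `K`.      `lab v = none`: an extra vertex (or a far site whose name has been forgotten). -/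
structure ArmtLoc (Y K : Set ℂ) {V D : Type} (T : PvMap V D) (lab : V → Option ℂ) : Prop where
  sph : T.IsSph
  simple : T.Simple
  inj : ∀ v w p, lab v = some p → lab w = some p → v = w
  site : ∀ v p, lab v = some p → p ∈ Y
  face : ∀ a b c : ℂ, DelTri Y a b c → a ∈ K → ∃ d, lab (T.src d) = some a ∧ lab (T.tgt d) = some b ∧ lab (T.apex d) = some c
  del : ∀ d a, lab (T.src d) = some a → a ∈ K → ∃ b c : ℂ, lab (T.tgt d) = some b ∧ lab (T.apex d) = some c ∧ DelTri Y a b c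

/-- the vertex `v` is a site within `r` of `z` -/
def ArmtNear {V : Type} (lab : V → Option ℂ) (z : ℂ) (r : ℝ) (v : V) : Prop := ∃ p, lab v = some p ∧ ‖p - z‖ ≤ r

/-- the vertex `v` is an extra vertex or a site at distance at least `r` from `z` -/
def ArmtFar {V : Type} (lab : V → Option ℂ) (z : ℂ) (r : ℝ) (v : V) : Prop := ∀ p, lab v = some p → r ≤ ‖p - z‖

/-- a rim of the colouring `col` with two visits to `closedBall z s`; one of the two complementary arcs reaches distance `S`, the other one distance `2R` -/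
def ArmtRet {V D : Type} (T : PvMap V D) (lab : V → Option ℂ) (col : V → Bool) (z : ℂ) (s S R : ℝ) : Prop :=
  ∃ c : T.Cyc, c.IsRim col ∧ ∃ k i k' i' : ℕ, k < i ∧ i < k' ∧ k' < i' ∧ i' < k + c.n ∧
    ArmtNear lab z s (T.src (c.e k)) ∧ ArmtNear lab z s (T.src (c.e k')) ∧ ArmtFar lab z S (T.src (c.e i)) ∧ ArmtFar lab z (2 * R) (T.src (c.e i'))

/-- **near return in SOME local model** of the site set `Y` coloured by `σ` -/
def ArmtNR (Y : Set ℂ) (σ : ℂ → Bool) (z : ℂ) (s S R : ℝ) : Prop :=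
  ∃ (V D : Type) (T : PvMap V D) (lab : V → Option ℂ) (col : V → Bool),
    ArmtLoc Y (closedBall z (4 * R)) T lab ∧ (∀ v p, lab v = some p → col v = σ p) ∧ ArmtRet T lab col z s S R

/-- the measurable covariant event, CUT BY THE NICE SITE SETS (`= pvatEv` of `Arm/Stat`; verdict of 98 168 189 239: without the cut the event is only analytic on the site sets which accumulate in `K`) -/
def armtN (z : ℂ) (s S R : ℝ) : Set (Conf PvPt) := {η | ArmtNR (cfSites η) (cfCol η) z s S R ∧ PvatNice (cfSites η)}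

/-- the event `F` of `PvNearExit` (the one-arm event takes care of the range `S ≤ M₀ s`; the site sets which are not nice form a null set: `pvat_nice_ae`) -/
def armtF (z : ℂ) (s S R : ℝ) : Set (Conf PvPt) := (armtN z s S R ∩ {η | ∃ b, PvArm1 η b z s R}) ∪ {η | ¬ PvatNice (cfSites η)}

/-- the labels of a bulk family -/
def PvBulk.labO {X : Type} (𝔅 : PvBulk X) (Y : Set ℂ) (v : 𝔅.V Y) : Option ℂ := (𝔅.lab Y v).getLeft?

theorem armt_eqns_cite : True := by
  have := @ArmtNear.eq_1; have := @ArmtFar.eq_1; have := @ArmtRet.eq_1; have := @ArmtNR.eq_1; have := @armtN.eq_1; have := @armtF.eq_1; have := @PvBulk.labO.eq_1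
  trivial

/-! ## 1. (D): a near return in a bulk family -/

theorem armt_loc_mono {Y K K' : Set ℂ} {V D : Type} {T : PvMap V D} {lab : V → Option ℂ} (h : ArmtLoc Y K T lab) (hK : K' ⊆ K) : ArmtLoc Y K' T lab :=
  ⟨h.sph, h.simple, h.inj, h.site, fun a b c ht ha => h.face a b c ht (hK ha), fun d a hd ha => h.del d a hd (hK ha)⟩

/-- a bulk family is a local model -/
theorem armt_loc_bulk {X : Type} (𝔅 : PvBulk X) {Y K : Set ℂ} (h : 𝔅.Ok Y K) : ArmtLoc Y K (𝔅.T Y) (𝔅.labO Y) := by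
  have e : ∀ v p, 𝔅.labO Y v = some p ↔ 𝔅.lab Y v = Sum.inl p := fun v p => by
    unfold PvBulk.labO
    exact Sum.getLeft?_eq_some_iff
  refine ⟨h.sph, h.simple, ?_, ?_, ?_, ?_⟩
  · intro v w p hv hw
    exact h.inj (((e v p).1 hv).trans ((e w p).1 hw).symm)
  · intro v p hv
    exact h.site v p ((e v p).1 hv)
  · intro a b c ht ha
    obtain ⟨d, h1, h2, h3⟩ := h.face a b c ht ha
    exact ⟨d, (e _ _).2 h1, (e _ _).2 h2, (e _ _).2 h3⟩
  · intro d a hd ha
    obtain ⟨b, c, h1, h2, h3⟩ := h.del d a ((e _ _).1 hd) ha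
    exact ⟨b, c, (e _ _).2 h1, (e _ _).2 h2, h3⟩

/-- the full Delaunay plane is a local model -/
theorem armt_loc_plane {Y : Set ℂ} (h : DelGood Y) (K : Set ℂ) : ArmtLoc Y K (delMap h) (fun v => some (v : ℂ)) := by
  refine ⟨dls_isSph h, dls_simple h, ?_, ?_, ?_, ?_⟩
  · intro v w p hv hw
    have h1 : (v : ℂ) = p := Option.some.inj hv
    have h2 : (w : ℂ) = p := Option.some.inj hw
    exact Subtype.ext (h1.trans h2.symm)
  · intro v p hv
    have h1 : (v : ℂ) = p := Option.some.inj hv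
    exact h1 ▸ v.2
  · intro a b c ht _
    obtain ⟨d, h1, h2, h3⟩ := (dls_face_iff h a b c).1 ht
    exact ⟨d, congrArg some h1, congrArg some h2, congrArg some h3⟩
  · intro d a hd _
    have h1 : (((delMap h).src d : Y) : ℂ) = a := Option.some.inj hd
    exact ⟨_, _, rfl, rfl, h1 ▸ dls_face d⟩

/-- **(D)** -/
theorem armt_det (X : Type) [Fintype X] (𝔅 : PvBulk X) (η : Conf PvPt) (ξ : X → Bool) (x y : ℂ) (s S R : ℝ) (hy : ‖y - x‖ ≤ 2 * R) (hs : 0 < s) (hsS : s ≤ S) (hSR : S ≤ R)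
    (hAdm : 𝔅.Adm (cfSites η)) (hOk : 𝔅.Ok (cfSites η) (closedBall x (6 * R))) (P : PvbRim) (hP : P ∈ 𝔅.rimsAt (cfSites η) (𝔅.col η ξ) x R) (hret : PvbNearRet P y s S) :
    η ∈ armtF y s S R := by
  obtain ⟨c, hrim, hfar, rfl⟩ := hP
  obtain ⟨k, i, k', hki, hik', hk'n, hk, hk', hi⟩ := hret
  have hR : 0 < R := by linarith
  have hk'n' : k' ≤ c.n := hk'n
  have hk1 : ‖𝔅.posF (cfSites η) (x + 7 * R) ((𝔅.T (cfSites η)).src (c.e k)) - y‖ ≤ s := hk
  have hk1' : ‖𝔅.posF (cfSites η) (x + 7 * R) ((𝔅.T (cfSites η)).src (c.e k')) - y‖ ≤ s := hk'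
  have hi1 : S < ‖𝔅.posF (cfSites η) (x + 7 * R) ((𝔅.T (cfSites η)).src (c.e i)) - y‖ := hi
  have hzi : 5 * R ≤ ‖(x + 7 * R : ℂ) - y‖ := by
    have h1 : (x + 7 * R : ℂ) - y = ((7 * R : ℝ) : ℂ) - (y - x) := by push_cast; ring
    have h2 : ‖((7 * R : ℝ) : ℂ)‖ = 7 * R := by rw [Complex.norm_real, Real.norm_eq_abs, abs_of_pos (by linarith)]
    have h3 := norm_sub_norm_le ((7 * R : ℝ) : ℂ) (y - x)
    rw [h1]
    linarith
  have hsite : ∀ v, ‖𝔅.posF (cfSites η) (x + 7 * R) v - y‖ ≤ s → ArmtNear (𝔅.labO (cfSites η)) y s v := by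
    intro v h1
    rcases hl : 𝔅.lab (cfSites η) v with p | e
    · refine ⟨p, by simp [PvBulk.labO, hl], ?_⟩
      simpa [PvBulk.posF, hl] using h1
    · exfalso
      have : 𝔅.posF (cfSites η) (x + 7 * R) v = x + 7 * R := by simp [PvBulk.posF, hl]
      rw [this] at h1
      linarith
  have hpos : ∀ v p, 𝔅.labO (cfSites η) v = some p → 𝔅.posF (cfSites η) (x + 7 * R) v = p := by
    intro v p h
    have hl : 𝔅.lab (cfSites η) v = Sum.inl p := by
      simpa [PvBulk.labO, Sum.getLeft?_eq_some_iff] using h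
    simp [PvBulk.posF, hl]
  have h0far : 2 * R ≤ ‖𝔅.posF (cfSites η) (x + 7 * R) ((𝔅.T (cfSites η)).src (c.e 0)) - y‖ := by
    have h1 := norm_sub_le_norm_sub_add_norm_sub (𝔅.posF (cfSites η) (x + 7 * R) ((𝔅.T (cfSites η)).src (c.e 0))) y x
    linarith
  have hn0 : c.e c.n = c.e 0 := by simpa using c.per 0
  have hk0 : 0 < k := by
    rcases Nat.eq_zero_or_pos k with h | h
    · subst h; linarith
    · exact h
  have hk'lt : k' < c.n := by
    rcases Nat.lt_or_ge k' c.n with h | h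
    · exact h
    · have : k' = c.n := le_antisymm hk'n' h
      rw [this, hn0] at hk1'
      linarith
  by_cases hnice : PvatNice (cfSites η)
  swap
  · exact Or.inr hnice
  refine Or.inl ⟨⟨⟨𝔅.V (cfSites η), 𝔅.D (cfSites η), 𝔅.T (cfSites η), 𝔅.labO (cfSites η), 𝔅.col η ξ, ?_, ?_, ?_⟩, hnice⟩, ?_⟩
  · refine armt_loc_mono (armt_loc_bulk 𝔅 hOk) ?_
    intro w hw
    rw [mem_closedBall, dist_eq_norm] at hw ⊢
    have := norm_sub_le_norm_sub_add_norm_sub w y x
    linarith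
  · intro v p h
    have hl : 𝔅.lab (cfSites η) v = Sum.inl p := by
      simpa [PvBulk.labO, Sum.getLeft?_eq_some_iff] using h
    simp [PvBulk.col, hl]
  · refine ⟨c, hrim, k, i, k', c.n, hki, hik', hk'lt, by omega, hsite _ hk1, hsite _ hk1', ?_, ?_⟩
    · intro p hp
      rw [hpos _ p hp] at hi1
      exact hi1.le
    · intro p hp
      rw [hn0] at hp
      rw [hpos _ p hp] at h0far
      exact h0far
  · exact pvr1_det 𝔅 hR hy (hsS.trans hSR) hOk hrim hfar ⟨k, by show k ≤ c.n; omega, hk⟩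

/-! ## 2. (C), (M) -/

open Classical in
/-- the four bits of a site read by the event: in `K = closedBall z (4R)`, within `s`, beyond `S`, beyond `2R` -/
noncomputable def armtReg (z : ℂ) (s S R : ℝ) (p : ℂ) : Bool × Bool × Bool × Bool :=
  (decide (‖p - z‖ ≤ 4 * R), decide (‖p - z‖ ≤ s), decide (S ≤ ‖p - z‖), decide (2 * R ≤ ‖p - z‖))

theorem armt_eqns_cite5 : True := by
  have := @armtReg.eq_1
  trivial

theorem armt_measurable_reg (z : ℂ) (s S R : ℝ) : Measurable (armtReg z s S R) := by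
  have hn : Measurable fun p : ℂ => ‖p - z‖ := (measurable_id.sub_const z).norm
  unfold armtReg
  refine Measurable.prodMk (measurable_to_bool ?_) (Measurable.prodMk (measurable_to_bool ?_) (Measurable.prodMk (measurable_to_bool ?_) (measurable_to_bool ?_)))
  · have e : (fun p : ℂ => decide (‖p - z‖ ≤ 4 * R)) ⁻¹' {true} = {p | ‖p - z‖ ≤ 4 * R} := by ext p; simp
    rw [e]; exact measurableSet_le hn measurable_const
  · have e : (fun p : ℂ => decide (‖p - z‖ ≤ s)) ⁻¹' {true} = {p | ‖p - z‖ ≤ s} := by ext p; simp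
    rw [e]; exact measurableSet_le hn measurable_const
  · have e : (fun p : ℂ => decide (S ≤ ‖p - z‖)) ⁻¹' {true} = {p | S ≤ ‖p - z‖} := by ext p; simp
    rw [e]; exact measurableSet_le measurable_const hn
  · have e : (fun p : ℂ => decide (2 * R ≤ ‖p - z‖)) ⁻¹' {true} = {p | 2 * R ≤ ‖p - z‖} := by ext p; simp
    rw [e]; exact measurableSet_le measurable_const hn

/-- **RELABELLING**: the event is invariant under the combinatorial isomorphisms of a window which contains the two visits, `K` and the Delaunay neighbours of the sites of `K`.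
Same `V D T col`; `lab' v = some (φ p)` if `lab v = some p`, `p ∈ W`; the other labels are forgotten. -/
theorem armt_nr_iso {W W' Y Y' : Set ℂ} {σ σ' : ℂ → Bool} {φ : ℂ → ℂ} {z z' : ℂ} {s S R : ℝ}
    (h : PvatIso W (armtReg z s S R) Y σ W' (armtReg z' s S R) Y' σ' φ)
    (hsW : ∀ p, ‖p - z‖ ≤ s → p ∈ W) (hKW' : ∀ p, ‖p - z'‖ ≤ 4 * R → p ∈ W')
    (cl : ∀ a b c, DelTri Y a b c → ‖a - z‖ ≤ 4 * R → b ∈ W ∧ c ∈ W)
    (cl' : ∀ a b c, DelTri Y' a b c → ‖a - z'‖ ≤ 4 * R → b ∈ W' ∧ c ∈ W')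
    (hN : ArmtNR Y σ z s S R) : ArmtNR Y' σ' z' s S R := by
  classical
  obtain ⟨V, D, T, lab, col, hL, hc, c, hrim, k, i, k', i', h1, h2, h3, h4, n1, n2, f1, f2⟩ := hN
  obtain ⟨lab', hl⟩ : ∃ lab' : V → Option ℂ, ∀ v p', lab' v = some p' ↔ ∃ p, lab v = some p ∧ p ∈ W ∧ φ p = p' := by
    have aux : ∀ (o : Option ℂ) (p' : ℂ), (o.bind fun p => if p ∈ W then some (φ p) else none) = some p' ↔ ∃ p, o = some p ∧ p ∈ W ∧ φ p = p' := by
      intro o p'
      cases o with
      | none => simp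
      | some p =>
        by_cases hp : p ∈ W
        · simp [hp]
        · simp only [Option.bind_some, if_neg hp, Option.some.injEq]
          constructor
          · intro h0; exact absurd h0 (by simp)
          · rintro ⟨q, rfl, hq, -⟩; exact absurd hq hp
    exact ⟨fun v => (lab v).bind fun p => if p ∈ W then some (φ p) else none, fun v p' => aux (lab v) p'⟩
  have hb : ∀ a ∈ Y ∩ W, (‖φ a - z'‖ ≤ 4 * R ↔ ‖a - z‖ ≤ 4 * R) ∧ (‖φ a - z'‖ ≤ s ↔ ‖a - z‖ ≤ s) ∧ (S ≤ ‖φ a - z'‖ ↔ S ≤ ‖a - z‖) ∧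
      (2 * R ≤ ‖φ a - z'‖ ↔ 2 * R ≤ ‖a - z‖) := by
    intro a ha
    have := h.reg a ha
    simp only [armtReg, Prod.mk.injEq, decide_eq_decide] at this
    exact this
  have hnear : ∀ v, ArmtNear lab z s v → ArmtNear lab' z' s v := by
    rintro v ⟨p, hp, hps⟩
    exact ⟨φ p, (hl _ _).2 ⟨p, hp, hsW p hps, rfl⟩, (hb p ⟨hL.site v p hp, hsW p hps⟩).2.1.2 hps⟩
  refine ⟨V, D, T, lab', col, ⟨hL.sph, hL.simple, ?_, ?_, ?_, ?_⟩, ?_, c, hrim, k, i, k', i', h1, h2, h3, h4, hnear _ n1, hnear _ n2, ?_, ?_⟩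
  · intro v w p' hv hw
    obtain ⟨p, hp, hpW, rfl⟩ := (hl v p').1 hv
    obtain ⟨q, hq, hqW, hqe⟩ := (hl w _).1 hw
    have hqp : q = p := h.inj ⟨hL.site w q hq, hqW⟩ ⟨hL.site v p hp, hpW⟩ hqe
    subst hqp
    exact hL.inj v w q hp hq
  · intro v p' hv
    obtain ⟨p, hp, hpW, rfl⟩ := (hl v p').1 hv
    exact (h.maps p ⟨hL.site v p hp, hpW⟩).1
  · intro a' b' c' ht ha'
    rw [mem_closedBall_iff_norm] at ha'
    obtain ⟨hbW, hcW⟩ := cl' a' b' c' ht ha'
    obtain ⟨a, haY, rfl⟩ := h.surj a' ⟨ht.1, hKW' a' ha'⟩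
    obtain ⟨b, hbY, rfl⟩ := h.surj b' ⟨ht.2.1, hbW⟩
    obtain ⟨c0, hcY, rfl⟩ := h.surj c' ⟨ht.2.2.1, hcW⟩
    have ht0 := (h.tri a haY b hbY c0 hcY).1 ht
    obtain ⟨d, d1, d2, d3⟩ := hL.face a b c0 ht0 (mem_closedBall_iff_norm.2 ((hb a haY).1.1 ha'))
    exact ⟨d, (hl _ _).2 ⟨a, d1, haY.2, rfl⟩, (hl _ _).2 ⟨b, d2, hbY.2, rfl⟩, (hl _ _).2 ⟨c0, d3, hcY.2, rfl⟩⟩
  · intro d a' hd ha'
    obtain ⟨a, ha, haW, rfl⟩ := (hl _ _).1 hd
    have haY : a ∈ Y ∩ W := ⟨hL.site _ a ha, haW⟩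
    have haK := (hb a haY).1.1 (mem_closedBall_iff_norm.1 ha')
    obtain ⟨b, c0, hb1, hc1, ht⟩ := hL.del d a ha (mem_closedBall_iff_norm.2 haK)
    obtain ⟨hbW, hcW⟩ := cl a b c0 ht haK
    exact ⟨φ b, φ c0, (hl _ _).2 ⟨b, hb1, hbW, rfl⟩, (hl _ _).2 ⟨c0, hc1, hcW, rfl⟩, (h.tri a haY b ⟨ht.2.1, hbW⟩ c0 ⟨ht.2.2.1, hcW⟩).2 ht⟩
  · intro v p' hv
    obtain ⟨p, hp, hpW, rfl⟩ := (hl v p').1 hv
    rw [hc v p hp, h.col p ⟨hL.site v p hp, hpW⟩]
  · intro p' hv
    obtain ⟨p, hp, hpW, rfl⟩ := (hl _ p').1 hv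
    exact (hb p ⟨hL.site _ p hp, hpW⟩).2.2.1.2 (f1 p hp)
  · intro p' hv
    obtain ⟨p, hp, hpW, rfl⟩ := (hl _ p').1 hv
    exact (hb p ⟨hL.site _ p hp, hpW⟩).2.2.2.2 (f2 p hp)

theorem armt_cov_aux (a z : ℂ) (s S R : ℝ) (η : Conf PvPt) (h : η ∈ armtN z s S R) : cfMap (fun w => w + a) η ∈ armtN (z + a) s S R := by
  obtain ⟨hN, hnice⟩ := h
  refine ⟨?_, ?_⟩
  · rw [pvat_sites_tr]
    refine armt_nr_iso (W := univ) (W' := univ) (φ := fun w => w + a) (pvat_iso_tr a (cfSites η) (fun _ => Iff.rfl) ?_ fun w _ => pvat_col_tr a η w)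
      (fun _ _ => mem_univ _) (fun _ _ => mem_univ _) (fun _ _ _ _ _ => ⟨mem_univ _, mem_univ _⟩) (fun _ _ _ _ _ => ⟨mem_univ _, mem_univ _⟩) hN
    intro w _
    unfold armtReg
    rw [add_sub_add_right_eq_sub]
  · rw [pvat_sites_tr]
    exact hnice.translate a

/-- **(C)** covariance.      Plan: the same `V D T col`, the labels `Option.map (· + a) ∘ lab`; `cfSites (cfMap g η) = g '' cfSites η`, `delc_tri` (`DelSimP (· + a) 1`), `cfCol (cfMap g η) (g p) = cfCol η p` (`g` injective); norms: `(p + a) - (z + a) = p - z`.  The converse with `-a`. -/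
theorem armt_cov (a z : ℂ) (s S R : ℝ) (η : Conf PvPt) : cfMap (fun w => w + a) η ∈ armtN (z + a) s S R ↔ η ∈ armtN z s S R := by
  refine ⟨fun h => ?_, armt_cov_aux a z s S R η⟩
  have h1 := armt_cov_aux (-a) (z + a) s S R _ h
  rw [pvat_cfMap_comp, add_neg_cancel_right] at h1
  have e : ((fun w : ℂ => w + -a) ∘ fun w => w + a) = id := by
    funext w
    simp
  rwa [e, pvat_cfMap_id] at h1

/-- the event reads the colours of the sites only -/
theorem armt_nr_congr {Y : Set ℂ} {σ σ' : ℂ → Bool} (h : ∀ p ∈ Y, σ p = σ' p) {z : ℂ} {s S R : ℝ} (hN : ArmtNR Y σ z s S R) : ArmtNR Y σ' z s S R := by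
  obtain ⟨V, D, T, lab, col, hL, hc, hr⟩ := hN
  exact ⟨V, D, T, lab, col, hL, fun v p hv => (hc v p hv).trans (h p (hL.site v p hv)), hr⟩

/-- all the Delaunay neighbours of the sites of `K` lie in `W` -/
def ArmtNb (K W Y : Set ℂ) : Prop := ∀ a b c : ℂ, DelTri Y a b c → a ∈ K → b ∈ W ∧ c ∈ W

/-- the index form of `ArmtNb` -/
theorem armt_nb_iff (K W : Set ℂ) (x : DelmT) : ArmtNb K W (delmY x) ↔
    ∀ i j k : DelgpIx, DelTri (delmY x) (x.2 i) (x.2 j) (x.2 k) → x.2 i ∈ K → x.2 j ∈ W ∧ x.2 k ∈ W := by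
  constructor
  · intro h i j k ht hi
    exact h _ _ _ ht hi
  · intro h a b c ht ha
    obtain ⟨i, -, rfl⟩ := ht.1
    obtain ⟨j, -, rfl⟩ := ht.2.1
    obtain ⟨k, -, rfl⟩ := ht.2.2.1
    exact h i j k ht ha

theorem armt_nb_meas {K W : Set ℂ} (hK : MeasurableSet K) (hW : MeasurableSet W) : MeasurableSet {x : DelmT | ArmtNb K W (delmY x)} := by
  simp only [armt_nb_iff]
  exact delm_meas_all fun i => delm_meas_all fun j => delm_meas_all fun k =>
    delm_meas_imp (delm_meas_tri i j k) (delm_meas_imp (pvat_meas_site hK i) (delm_meas_and (pvat_meas_site hW j) (pvat_meas_site hW k)))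

/-- on a nice site set the Delaunay neighbours of the sites of a bounded set stay in a bounded set -/
theorem armt_nb_exists {Y : Set ℂ} (hY : PvatNice Y) (z : ℂ) (ρ : ℝ) : ∃ M : ℝ, ArmtNb (closedBall z ρ) (closedBall z M) Y := by
  have hfin : (Y ∩ closedBall z ρ).Finite := hY.finite isBounded_closedBall
  have hb : Bornology.IsBounded (⋃ a ∈ Y ∩ closedBall z ρ, vorCell Y a) := (Bornology.isBounded_biUnion hfin).2 fun a _ => hY.good.bdd a
  obtain ⟨M, hM⟩ := hb.subset_closedBall z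
  refine ⟨2 * M + ρ, fun a b c ht ha => ?_⟩
  have hO : delO a b c ∈ closedBall z M := hM (mem_biUnion (show a ∈ Y ∩ closedBall z ρ from ⟨ht.1, ha⟩) ht.O_mem_a)
  rw [mem_closedBall, dist_eq_norm] at hO ha
  have e1 : ‖delO a b c - a‖ ≤ M + ρ := by
    have e : delO a b c - a = (delO a b c - z) - (a - z) := by ring
    rw [e]
    exact (norm_sub_le _ _).trans (add_le_add hO ha)
  have e2 : ‖delO a b c - b‖ ≤ M + ρ := by rw [← del_O_ab]; exact e1
  have e3 : ‖delO a b c - c‖ ≤ M + ρ := by rw [← del_O_ac ht.left.ne']; exact e1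
  constructor
  · rw [mem_closedBall, dist_eq_norm]
    have e : b - z = (delO a b c - z) - (delO a b c - b) := by ring
    rw [e]
    exact (norm_sub_le _ _).trans (by linarith)
  · rw [mem_closedBall, dist_eq_norm]
    have e : c - z = (delO a b c - z) - (delO a b c - c) := by ring
    rw [e]
    exact (norm_sub_le _ _).trans (by linarith)

theorem ArmtNb.mono {K W W' Y : Set ℂ} (h : ArmtNb K W Y) (hW : W ⊆ W') : ArmtNb K W' Y := fun a b c ht ha => ⟨hW (h a b c ht ha).1, hW (h a b c ht ha).2⟩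

/-- **(M)** measurability in the sample space (the event is cut by the nice site sets).      Proof: `pvat_meas` (`Arm/Stat`) on the windows `closedBall z (max n (max s (4R)))`, class `N` = nice + the Delaunay neighbours of the sites of `K` lie in the window; invariance = `armt_nr_iso`. -/
theorem armt_meas (z : ℂ) (s S R : ℝ) : MeasurableSet (pvConf ⁻¹' armtN z s S R) := by
  have e : armtN z s S R = ⋃ n : ℕ, {η : Conf PvPt | ArmtNR (cfSites η) (cfCol η) z s S R ∧
      (PvatNice (cfSites η) ∧ ArmtNb (closedBall z (4 * R)) (closedBall z (max (n : ℝ) (max s (4 * R)))) (cfSites η)) ∧ (cfSites η ∩ closedBall z (max (n : ℝ) (max s (4 * R)))).Finite} := by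
    ext η
    simp only [armtN, mem_ofPred_eq, mem_iUnion]
    constructor
    · rintro ⟨h1, h2⟩
      obtain ⟨M, hM⟩ := armt_nb_exists h2 z (4 * R)
      obtain ⟨n, hn⟩ := exists_nat_ge M
      exact ⟨n, h1, ⟨h2, hM.mono (closedBall_subset_closedBall (hn.trans (le_max_left _ _)))⟩, h2.finite isBounded_closedBall⟩
    · rintro ⟨n, h1, ⟨h2, -⟩, -⟩
      exact ⟨h1, h2⟩
  rw [e, preimage_iUnion]
  refine MeasurableSet.iUnion fun n => ?_
  refine pvat_meas (N := fun Y => PvatNice Y ∧ ArmtNb (closedBall z (4 * R)) (closedBall z (max (n : ℝ) (max s (4 * R)))) Y)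
    (delm_meas_and pvat_meas_nice (armt_nb_meas measurableSet_closedBall measurableSet_closedBall)) measurableSet_closedBall
    (reg := fun _ => armtReg z s S R) (pvat_reg_pos (armt_measurable_reg z s S R)) (Φ := fun Y σ => ArmtNR Y σ z s S R) ?_
  intro Y σ Y' σ' φ hY hY' hφ h
  exact armt_nr_iso hφ (fun p hp => mem_closedBall_iff_norm.2 (hp.trans ((le_max_left _ _).trans (le_max_right _ _))))
    (fun p hp => mem_closedBall_iff_norm.2 (hp.trans ((le_max_right _ _).trans (le_max_right _ _))))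
    (fun a b c ht ha => hY.2 a b c ht (mem_closedBall_iff_norm.2 ha)) (fun a b c ht ha => hY'.2 a b c ht (mem_closedBall_iff_norm.2 ha)) h

theorem armt_eqns_cite1 : True := by
  have := @ArmtNb.eq_1
  trivial

/-! ## 3. frames -/

open Classical in
/-- **FRAME** of the site set `Y`: good Delaunay plane; for all centres `z ∈ Z` and radii `r ∈ Rs` a cycle at radius `(r, 5r/4)` and `BXP(q)` between the radii `5r/4` and `4r` -/
def ArmtFrame (q : ℝ) (Z : Finset ℂ) (Rs : Finset ℝ) (Y : Set ℂ) : Prop :=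
  ∃ h : DelGood Y, ∀ z ∈ Z, ∀ r ∈ Rs, (∃ c : (delMap h).Cyc, PvaxAt (delMap h) (dlsPos Y) z r (5 * r / 4) c) ∧ PvaxBxp (delMap h) (dlsPos Y) q z (5 * r / 4) (4 * r)

theorem armt_eqns_cite2 : True := by
  have := @ArmtFrame.eq_1
  trivial

/-- **CONTRACT (196: `pvax_frame` of `Arm/BxpPv`; QBX exit of 298; cycles near circles of 190)**: OUTER measure of the bad geometries -/
theorem armt_frame : ∃ q : ℝ, 0 < q ∧ q < 1 ∧ ∀ εs : ℕ → ℝ, (∀ n, 0 < εs n) → Tendsto εs atTop (𝓝 0) → ∀ (Z : Finset ℂ) (Rs : Finset ℝ), (∀ r ∈ Rs, 0 < r) →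
    Tendsto (fun n => pvGeo (εs n) {g | ¬ ArmtFrame q Z Rs (pvgSites g)}) atTop (𝓝 0) :=
  armtf_frame

/-! ## 4. the record of nested cycles, CONFIG6, the quenched count -/

/-- **the cycles of the count**.   Round every box `b`: `γ b 0 < γ b 1 < …`, consecutive ones nested with blocking probability `≥ q`.
`c1 = γ b 0`, first rule circuit in `(γ b 1, γ b 2)`, `c2 = γ b 3`, second rule circuit in `(γ b 4, γ b 5)`, `c3 = γ b 6`, inner tower `(γ b (7+2i), γ b (8+2i))`, `i < m`.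
Common cycles: `cm = δ 0`, `c0 = δ 1`, outer tower `(δ (2+2i), δ (3+2i))`, `i < m'`. -/
structure ArmtGeo {V D : Type} [DecidableEq V] (T : PvMap V D) (ι : Type) (q : ℝ) (m m' Cl : ℕ) where
  γ : ι → ℕ → T.Cyc
  δ : ℕ → T.Cyc
  fin : ∀ j, (δ j).Left.Finite
  γ_blk : ∀ b j, j < 7 + 2 * m → (γ b j).Inside (γ b (j + 1)) ∧ PvaxBlk T (γ b j) (γ b (j + 1)) q
  γ_top : ∀ b, (γ b (7 + 2 * m)).Inside (δ 0)
  δ_blk : ∀ j, j < 2 + 2 * m' → (δ j).Inside (δ (j + 1)) ∧ PvaxBlk T (δ j) (δ (j + 1)) q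
  mult : ∀ d : D, {b | d ∈ (γ b 6).Left}.encard ≤ Cl

namespace ArmtGeo

variable {V D : Type} [DecidableEq V] {T : PvMap V D} {ι : Type} {q : ℝ} {m m' Cl : ℕ} (G : ArmtGeo T ι q m m' Cl)

/-- **CONFIG6** round the box `b` (249): CONFIG5 + an arm of colour `true` from `c3 b` to `cm` which avoids the three explored strands -/
def Cfg6 (b : ι) (s : V → Bool) : Prop :=
  ∃ (x x2 x4 : D) (n1 n2 n4 : ℕ), PvatCfg T (G.δ 1) (G.γ b 0) (G.γ b 3) s x x2 x4 n1 n2 n4 ∧
    PvaxCr T (G.γ b 6) (G.δ 0) (pvatLay T s x n1 ∪ pvatLay T (pvasNot s) x2 n2 ∪ pvatLay T (pvasNot s) x4 n4)ᶜ true s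

/-- a monochromatic crossing of the outer tower -/
def Out (s : V → Bool) : Prop := ∃ col : Bool, PvaxCr T (G.δ 2) (G.δ (2 + 2 * m')) Set.univ col s

/-- the position of the cycles: centres `ζ b`, scales `s ≤ S ≤ R` -/
structure At (pos : V → ℂ) (ζ : ι → ℂ) (s S R : ℝ) : Prop where
  inn : ∀ b v, ‖pos v - ζ b‖ ≤ s → v ∈ T.Int (G.γ b 0).Left
  mid : ∀ b, ∀ v ∈ T.VOf (G.δ 1).Left, ‖pos v - ζ b‖ < S
  out : ∀ b, ∀ v ∈ T.VOf (G.δ (2 + 2 * m')).Left, ‖pos v - ζ b‖ < 2 * R

end ArmtGeo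

theorem armt_eqns_cite3 : True := by
  have := @ArmtGeo.Cfg6.eq_1; have := @ArmtGeo.Out.eq_1
  trivial

/-- **CONTRACT: THE QUENCHED COUNT** (A4_249.md sec. 3-5).      The constant depends on `q` only.
Plan.  Fix `b` and a tuple `a = (x, x2, x4, n1, n2, n4)`; `S_a` = the three layers (stopping set: `pvas_expl_stop`, unions), `E_a = PvatCfg` is `S_a`-measurable.
(1) `P(E_a, fresh arm, Out) ≤ (1-q)^m · 2 (1-q)^m' · P(E_a)`  (`pvax_arm_stop` for the inner tower with `X = S_aᶜ`, `pvax_tower_cr`; `Out` reads the vertices outside `δ 1`: `pva_smarkov_le_prod` / `pvax_arm_le`, both colours);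
(2) `q² P(E_a) ≤ P(E_a, RC12, RC14)`: rule colourings `r12 r14` (`pvat_rule`, `pvat_rule_congr`: functions of the explored data), flip `s ↦ s xor r` on the fresh vertices (`pva_E_fl_meas`), then `pvax_blk_stop` + `pvax_ncr_iff` in `(γ b 1, γ b 2)`, `(γ b 4, γ b 5)`: the circuit is STRICTLY between `c1, c2` resp. `c2, c3`;
(3) `∑_b ∑_a 1[E_a, RC12, RC14] ≤ Cl K(s) K(¬s)`: `pvat_marker`: `x2` = partner of `x`, the times are first hitting times, the marker of `(x, x4)` lies in `(γ b 6).Left`: `mult`;  `K` = number of entrances of `δ 1` whose strand reaches `(δ 0).Left`;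
(4) `E[K(s) K(¬s)] ≤ C(q)` (`pvak_moment`, blocking between `δ 0` and `δ 1`).      The same for `pvasNot s` (`pva_E_not`). -/
theorem armt_count (q : ℝ) (hq : 0 < q) (hq1 : q < 1) : ∃ C : ℝ, 0 ≤ C ∧ ∀ (V D ι : Type) [DecidableEq V] [Fintype ι] (T : PvMap V D), T.IsSph → T.Simple →
    ∀ (m m' Cl : ℕ) (G : ArmtGeo T ι q m m' Cl) (A : Finset V) (ξ : V → Bool), (∀ v ∈ T.VOf (G.δ (2 + 2 * m')).Left, v ∈ A) →
      ∑ b, pvaP A ξ (fun s => (G.Cfg6 b s ∨ G.Cfg6 b (pvasNot s)) ∧ G.Out s) ≤ C * Cl * (1 - q) ^ m * (1 - q) ^ m' := by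
  refine ⟨4 * ((q * q)⁻¹ * pvbkM 2 2 (1 - q)), by have := pvbk_M_nonneg 2 2 (r := 1 - q) (by linarith); positivity, ?_⟩
  intro V D ι _ _ T hT hS m m' Cl G A ξ hA
  exact PvauChain.count ⟨G.fin, G.γ_blk, G.γ_top, G.δ_blk, G.mult⟩ hT hS hq A ξ hA

/-! `armt_nr_cfg` (near return in some model ⟹ CONFIG6 + outer arm in the plane model) is PROVED as `pvdl_nr_cfg` in `Arm/DictLoc.lean` (137; kit of 33, NR-DET of 228, outer arm of 112), which imports this file.
Its consumers `armt_quenched`, `armt_prob_main`, `armt_near` live in `Arm/TopGlue.lean` (split by 146, 09:55Z). -/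

/-! ## 5. the grid of boxes, frame ⟹ record -/

/-- the indices of the boxes -/
noncomputable def armtBox (L : ℕ) : Finset (ℤ × ℤ) := Finset.Icc (-(L : ℤ)) L ×ˢ Finset.Icc (-(L : ℤ)) L

/-- the centres of the boxes -/
def armtCtr (y : ℂ) (s : ℝ) (p : ℤ × ℤ) : ℂ := y + l9Pt s p

/-- the centres of the frame -/
noncomputable def armtZ (y : ℂ) (s : ℝ) (L : ℕ) : Finset ℂ := by
  classical exact insert y ((armtBox L).image (armtCtr y s))

/-- the radii of the frame -/
noncomputable def armtRs (s S : ℝ) (m m' : ℕ) : Finset ℝ := by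
  classical exact (Finset.range (8 + 2 * m)).image (fun j => 4 ^ j * s) ∪ (Finset.range (3 + 2 * m')).image (fun j => 4 ^ j * (S / 32))

/-- the multiplicity constant: number of points of `s ℤ²` in a disc of radius `5120 s` -/
def armtCl : ℕ := 10243 ^ 2

theorem armt_eqns_cite4 : True := by
  have := @armtBox.eq_1; have := @armtCtr.eq_1; have := @armtZ.eq_1; have := @armtRs.eq_1; have := @armtCl.eq_1
  trivial

theorem armt_box_card (L : ℕ) : (armtBox L).card = (2 * L + 1) ^ 2 := by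
  unfold armtBox
  rw [Finset.card_product, Int.card_Icc, sq]
  congr 1 <;> omega

open Classical in
/-- **CONTRACT: frame ⟹ record**.      `γ p j` = the cycle of the frame at radius `(4^j s, 5·4^j s/4)` round `armtCtr y s p`, `δ j` = the cycle at radius `(4^j S/32, 5·4^j S/128)` round `y`.
Plan: `pvax_at_blk` (consecutive radii), `pvax_at_inside` (`γ_top`: `‖b - y‖ + 5·4^(7+2m) s/4 ≤ S/32`), `At.inn` = `PvaxAt.inn` at `j = 0`, `At.mid`: `5S/32 + S/64 < S`, `At.out`: hypothesis `hm'`;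
`mult`: `d ∈ (γ p 6).Left` ⟹ `‖pos (src d) - armtCtr y s p‖ < 5120 s` ⟹ both coordinates of `p` lie in an interval of length `< 10241`. -/
theorem armt_geo {Y : Set ℂ} {q : ℝ} {y : ℂ} {s S R : ℝ} {L m m' : ℕ} (hs : 0 < s) (hL : 2 * (L : ℝ) * s ≤ S / 64) (hm : 5 / 4 * 4 ^ (7 + 2 * m) * s ≤ S / 64)
    (hm' : 5 / 4 * 4 ^ (2 + 2 * m') * (S / 32) + S / 64 ≤ 2 * R) (hF : ArmtFrame q (armtZ y s L) (armtRs s S m m') Y) :
    ∃ (h : DelGood Y) (G : ArmtGeo (delMap h) (armtBox L) q m m' armtCl), G.At (dlsPos Y) (fun p => armtCtr y s p) s S R := by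
  obtain ⟨h, hF⟩ := hF
  have hT : (delMap h).IsSph := dls_isSph h
  have hS : 0 < S := by
    have : 0 < 5 / 4 * 4 ^ (7 + 2 * m) * s := by positivity
    linarith
  -- membership in the frame
  have hZ : ∀ p : armtBox L, armtCtr y s p ∈ armtZ y s L := fun p => by
    unfold armtZ
    exact Finset.mem_insert_of_mem (Finset.mem_image_of_mem _ p.2)
  have hZy : y ∈ armtZ y s L := by
    unfold armtZ
    exact Finset.mem_insert_self _ _
  have hR1 : ∀ j, j ≤ 7 + 2 * m → (4 : ℝ) ^ j * s ∈ armtRs s S m m' := fun j hj => by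
    unfold armtRs
    exact Finset.mem_union_left _ (Finset.mem_image.2 ⟨j, Finset.mem_range.2 (by omega), rfl⟩)
  have hR2 : ∀ j, j ≤ 2 + 2 * m' → (4 : ℝ) ^ j * (S / 32) ∈ armtRs s S m m' := fun j hj => by
    unfold armtRs
    exact Finset.mem_union_right _ (Finset.mem_image.2 ⟨j, Finset.mem_range.2 (by omega), rfl⟩)
  -- the cycles
  have exγ : ∀ (p : armtBox L) (j : ℕ), ∃ c : (delMap h).Cyc,
      PvaxAt (delMap h) (dlsPos Y) (armtCtr y s p) (4 ^ (min j (7 + 2 * m)) * s) (5 * (4 ^ (min j (7 + 2 * m)) * s) / 4) c :=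
    fun p j => (hF _ (hZ p) _ (hR1 _ (min_le_right _ _))).1
  have exδ : ∀ j : ℕ, ∃ c : (delMap h).Cyc,
      PvaxAt (delMap h) (dlsPos Y) y (4 ^ (min j (2 + 2 * m')) * (S / 32)) (5 * (4 ^ (min j (2 + 2 * m')) * (S / 32)) / 4) c :=
    fun j => (hF _ hZy _ (hR2 _ (min_le_right _ _))).1
  choose γ hγ0 using exγ
  choose δ hδ0 using exδ
  have hγ : ∀ (p : armtBox L) (j : ℕ), j ≤ 7 + 2 * m → PvaxAt (delMap h) (dlsPos Y) (armtCtr y s p) (4 ^ j * s) (5 * (4 ^ j * s) / 4) (γ p j) := by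
    intro p j hj
    have := hγ0 p j
    rwa [min_eq_left hj] at this
  have hδ : ∀ j : ℕ, j ≤ 2 + 2 * m' → PvaxAt (delMap h) (dlsPos Y) y (4 ^ j * (S / 32)) (5 * (4 ^ j * (S / 32)) / 4) (δ j) := by
    intro j hj
    have := hδ0 j
    rwa [min_eq_left hj] at this
  -- the centres are close to `y`
  have hctr : ∀ p : armtBox L, ‖armtCtr y s p - y‖ ≤ S / 64 := by
    intro p
    have hp := p.2
    unfold armtBox at hp
    rw [Finset.mem_product, Finset.mem_Icc, Finset.mem_Icc] at hp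
    have e : armtCtr y s p - y = l9Pt s p := by unfold armtCtr; ring
    rw [e]
    have h1 : |((p : ℤ × ℤ).1 : ℝ)| ≤ L := by
      rw [abs_le]
      constructor
      · exact_mod_cast hp.1.1
      · exact_mod_cast hp.1.2
    have h2 : |((p : ℤ × ℤ).2 : ℝ)| ≤ L := by
      rw [abs_le]
      constructor
      · exact_mod_cast hp.2.1
      · exact_mod_cast hp.2.2
    calc ‖l9Pt s p‖ ≤ |(l9Pt s p).re| + |(l9Pt s p).im| := Complex.norm_le_abs_re_add_abs_im _
      _ = |((p : ℤ × ℤ).1 : ℝ)| * s + |((p : ℤ × ℤ).2 : ℝ)| * s := by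
          simp only [l9Pt, abs_mul, abs_of_pos hs]
      _ ≤ L * s + L * s := by gcongr
      _ = 2 * (L : ℝ) * s := by ring
      _ ≤ S / 64 := hL
  refine ⟨h, ⟨γ, δ, fun j => (hδ0 j).fin, ?_, ?_, ?_, ?_⟩, ⟨?_, ?_, ?_⟩⟩
  · -- γ_blk
    intro p j hj
    have hr : 0 < (4 : ℝ) ^ j * s := by positivity
    have hB := (hF _ (hZ p) _ (hR1 j (by omega))).2
    have h2 := hγ p (j + 1) (by omega)
    have e : (4 : ℝ) ^ (j + 1) * s = 4 * (4 ^ j * s) := by ring
    rw [e] at h2
    exact pvax_at_blk hT (hγ p j (by omega)) h2 hB (by linarith)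
  · -- γ_top
    intro p
    have h2 := hδ 0 (by omega)
    refine pvax_at_inside hT (hγ p (7 + 2 * m) le_rfl) h2 ?_
    have := hctr p
    have e : (4 : ℝ) ^ 0 * (S / 32) = S / 32 := by ring
    rw [e]
    have e2 : 5 * ((4 : ℝ) ^ (7 + 2 * m) * s) / 4 = 5 / 4 * 4 ^ (7 + 2 * m) * s := by ring
    rw [e2]
    linarith
  · -- δ_blk
    intro j hj
    have hr : 0 < (4 : ℝ) ^ j * (S / 32) := by positivity
    have hB := (hF _ hZy _ (hR2 j (by omega))).2
    have h2 := hδ (j + 1) (by omega)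
    have e : (4 : ℝ) ^ (j + 1) * (S / 32) = 4 * (4 ^ j * (S / 32)) := by ring
    rw [e] at h2
    exact pvax_at_blk hT (hδ j (by omega)) h2 hB (by linarith)
  · -- mult
    intro d
    set w : ℂ := dlsPos Y ((delMap h).src d) - y with hw
    set i1 : ℤ := ⌊w.re / s⌋ with hi1
    set i2 : ℤ := ⌊w.im / s⌋ with hi2
    set F : Finset (ℤ × ℤ) := Finset.Icc (i1 - 5120) (i1 + 5120) ×ˢ Finset.Icc (i2 - 5120) (i2 + 5120) with hFdef
    have hsub : (Subtype.val '' {b : armtBox L | d ∈ (γ b 6).Left}) ⊆ (F : Set (ℤ × ℤ)) := by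
      rintro _ ⟨p, hp, rfl⟩
      have h1 := (hγ p 6 (by omega)).out _ ⟨d, hp, rfl⟩
      have e : dlsPos Y ((delMap h).src d) - armtCtr y s p = w - l9Pt s p := by rw [hw]; unfold armtCtr; ring
      rw [e] at h1
      have e3 : 5 * ((4 : ℝ) ^ 6 * s) / 4 = 5120 * s := by norm_num; ring
      rw [e3] at h1
      have hre : |w.re - ((p : ℤ × ℤ).1 : ℝ) * s| < 5120 * s := lt_of_le_of_lt (by simpa [l9Pt] using Complex.abs_re_le_norm (w - l9Pt s p)) h1
      have him : |w.im - ((p : ℤ × ℤ).2 : ℝ) * s| < 5120 * s := lt_of_le_of_lt (by simpa [l9Pt] using Complex.abs_im_le_norm (w - l9Pt s p)) h1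
      have key : ∀ (a : ℝ) (k : ℤ), |a - (k : ℝ) * s| < 5120 * s → ⌊a / s⌋ - 5120 ≤ k ∧ k ≤ ⌊a / s⌋ + 5120 := by
        intro a k hk
        rw [abs_lt] at hk
        have h3 : a / s - 5120 < k := by
          rw [sub_lt_iff_lt_add, div_lt_iff₀ hs]
          nlinarith [hk.2]
        have h4 : (k : ℝ) < a / s + 5120 := by
          rw [← sub_lt_iff_lt_add, lt_div_iff₀ hs]
          nlinarith [hk.1]
        have f1 := Int.floor_le (a / s)
        have f2 := Int.lt_floor_add_one (a / s)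
        constructor
        · have : ((⌊a / s⌋ - 5120 : ℤ) : ℝ) < (k : ℝ) + 1 := by push_cast; linarith
          have : (⌊a / s⌋ - 5120 : ℤ) < k + 1 := by exact_mod_cast this
          omega
        · have : (k : ℝ) < ((⌊a / s⌋ + 5120 + 1 : ℤ) : ℝ) := by push_cast; linarith
          have : k < (⌊a / s⌋ + 5120 + 1 : ℤ) := by exact_mod_cast this
          omega
      rw [hFdef, Finset.mem_coe, Finset.mem_product, Finset.mem_Icc, Finset.mem_Icc]
      exact ⟨key _ _ hre, key _ _ him⟩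
    calc {b : armtBox L | d ∈ (γ b 6).Left}.encard = (Subtype.val '' {b : armtBox L | d ∈ (γ b 6).Left}).encard :=
          (Subtype.val_injective.encard_image _).symm
      _ ≤ (F : Set (ℤ × ℤ)).encard := Set.encard_le_encard hsub
      _ = (F.card : ℕ∞) := Set.encard_coe_eq_coe_finsetCard F
      _ ≤ (armtCl : ℕ∞) := by
          have : F.card ≤ armtCl := by
            rw [hFdef, Finset.card_product, Int.card_Icc, Int.card_Icc]
            have a1 : (i1 + 5120 + 1 - (i1 - 5120)).toNat = 10241 := by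
              have : i1 + 5120 + 1 - (i1 - 5120) = 10241 := by ring
              rw [this]; rfl
            have a2 : (i2 + 5120 + 1 - (i2 - 5120)).toNat = 10241 := by
              have : i2 + 5120 + 1 - (i2 - 5120) = 10241 := by ring
              rw [this]; rfl
            rw [a1, a2]
            unfold armtCl
            norm_num
          exact_mod_cast this
  · -- inn
    intro p v hv
    have h1 := hγ p 0 (by omega)
    exact h1.inn v (by simpa using hv)
  · -- mid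
    intro p v hv
    have h1 := (hδ 1 (by omega)).out v hv
    have h2 := hctr p
    have e : dlsPos Y v - armtCtr y s p = (dlsPos Y v - y) - (armtCtr y s p - y) := by ring
    show ‖dlsPos Y v - armtCtr y s p‖ < S
    rw [e]
    have h3 := norm_sub_le (dlsPos Y v - y) (armtCtr y s p - y)
    have e2 : 5 * ((4 : ℝ) ^ 1 * (S / 32)) / 4 = 5 * S / 32 := by ring
    rw [e2] at h1
    linarith
  · -- out
    intro p v hv
    have h1 := (hδ (2 + 2 * m') le_rfl).out v hv
    have h2 := hctr p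
    have e : dlsPos Y v - armtCtr y s p = (dlsPos Y v - y) - (armtCtr y s p - y) := by ring
    show ‖dlsPos Y v - armtCtr y s p‖ < 2 * R
    rw [e]
    have h3 := norm_sub_le (dlsPos Y v - y) (armtCtr y s p - y)
    have e2 : 5 * ((4 : ℝ) ^ (2 + 2 * m') * (S / 32)) / 4 = 5 / 4 * 4 ^ (2 + 2 * m') * (S / 32) := by ring
    rw [e2] at h1
    linarith

/-! ## 6. the quenched bound -/

open Classical in
/-- **CONTRACT (128)**: at fixed geometry the colours of the sites are fair bits.      `K` reads the colours of the finite set `A` only.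
Plan: `pval_quench` for `dlsBulk` (or `pvqu_sites_bits`) + `pval_measure`. -/
theorem armt_col {g : PvGeoT} (hg : PvgOk g) (A : Finset (pvgSites g)) (K : (pvgSites g → Bool) → Prop) (hK : PvalLoc A K) (ξ : pvgSites g → Bool) :
    pvCol {c | K (fun v => pvgColAt g c v)} = ENNReal.ofReal (pvaP A ξ K) := by
  have he : Function.Injective (fun v : pvgSites g => pvgIdx g v) := fun v w h => Subtype.ext (pvqu_idx_injOn g v.2 w.2 h)
  have hm : Measurable (fun s : PvIx → Bool => s ∘ (fun v : pvgSites g => pvgIdx g v)) := measurable_pi_lambda _ fun v => measurable_pi_apply _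
  rw [← pval_measure hK ξ, ← pvf_colLaw_comp _ he, Measure.map_apply hm (pval_loc_measurableSet hK)]
  rfl

open Classical in
/-- CONFIG6 and the outer arm read the colours of the closed outer disc only.      Plan: `pvas_it_congr`-type lemmas: all the positions of the runs are in `(δ 1).Left`; `pvax_cr_congr` + `pvax_cr_inter`. -/
theorem armt_cfg_loc {V D ι : Type} [DecidableEq V] {T : PvMap V D} (hT : T.IsSph) {q : ℝ} {m m' Cl : ℕ} (G : ArmtGeo T ι q m m' Cl) (A : Finset V)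
    (hA : ∀ v ∈ T.VOf (G.δ (2 + 2 * m')).Left, v ∈ A) (b : ι) : PvalLoc A (fun s => (G.Cfg6 b s ∨ G.Cfg6 b (pvasNot s)) ∧ G.Out s) := by
  set W : Set V := T.VOf (G.δ (2 + 2 * m')).Left with hW
  have vmono : ∀ {X Y : Set D}, X ⊆ Y → T.VOf X ⊆ T.VOf Y := fun h _ ⟨d, hd, e⟩ => ⟨d, h hd, e⟩
  -- the towers are increasing
  have hδ : ∀ j k, j ≤ k → k ≤ 2 + 2 * m' → (G.δ j).Left ⊆ (G.δ k).Left := by
    intro j k hjk
    induction k, hjk using Nat.le_induction with
    | base => intro _; exact subset_rfl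
    | succ k hk ih => intro hk'; exact (ih (by omega)).trans (G.δ_blk k (by omega)).1.2
  have hγ : ∀ j k, j ≤ k → k ≤ 7 + 2 * m → (G.γ b j).Left ⊆ (G.γ b k).Left := by
    intro j k hjk
    induction k, hjk using Nat.le_induction with
    | base => intro _; exact subset_rfl
    | succ k hk ih => intro hk'; exact (ih (by omega)).trans (G.γ_blk b k (by omega)).1.2
  have hγδ : ∀ j, j ≤ 7 + 2 * m → (G.γ b j).Left ⊆ (G.δ 0).Left := fun j hj => (hγ j _ hj le_rfl).trans (G.γ_top b).2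
  have hverts : ∀ c : T.Cyc, c.verts ⊆ T.VOf c.Left := fun c v hv => by rw [pl_VOf_left hT c]; exact Or.inl hv
  -- a crossing reads the closed outer disc
  have hcr : ∀ (c' c : T.Cyc) (X : Set V) (col : Bool) (s s' : V → Bool), c'.Left ⊆ (G.δ (2 + 2 * m')).Left → c.Left ⊆ (G.δ (2 + 2 * m')).Left →
      (∀ v ∈ W, s' v = s v) → PvaxCr T c' c X col s → PvaxCr T c' c X col s' := by
    intro c' c X col s s' h1 h2 hs
    rintro ⟨u, hu, w, hw, ⟨j1, j1'⟩, j2⟩
    have huW : u ∈ W := vmono h1 (hverts c' hu)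
    refine ⟨u, hu, w, hw, ⟨j1, by rw [hs u huW]; exact j1'⟩, ?_⟩
    refine Relation.ReflTransGen.mono (fun a z haz => ⟨haz.1, haz.2.1, ?_⟩) _ _ j2
    have hzW : z ∈ W := by
      obtain ⟨d, hd, -, e2⟩ := haz.1
      rcases hd with hd | hd
      · exact ⟨T.nxt d, h2 (((pl_ann_face c' c) d).2 hd).1, e2⟩
      · exact ⟨T.opp d, h2 hd.1, by rw [T.src_opp]; exact e2⟩
    rw [hs z hzW]
    exact haz.2.2
  have hcfg : ∀ s s' : V → Bool, (∀ v ∈ W, s' v = s v) → G.Cfg6 b s → G.Cfg6 b s' := by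
    intro s s' hs
    rintro ⟨x, x2, x4, n1, n2, n4, hc, hx⟩
    have hB : (G.δ 1).Left ⊆ (G.δ (2 + 2 * m')).Left := hδ 1 _ (by omega) le_rfl
    have h01 : (G.δ 0).Left ⊆ (G.δ 1).Left := hδ 0 1 (by omega) (by omega)
    have l1 : pvatLay T s x n1 ⊆ W := (pvat_lay_sub (pl_left_face _) ((hγδ 0 (by omega)).trans h01) hc.r1).trans (vmono hB)
    have l2 : pvatLay T (pvasNot s) x2 n2 ⊆ W := (pvat_lay_sub (pl_left_face _) ((hγδ 0 (by omega)).trans h01) hc.r2).trans (vmono hB)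
    have l4 : pvatLay T (pvasNot s) x4 n4 ⊆ W := (pvat_lay_sub (pl_left_face _) ((hγδ 3 (by omega)).trans h01) hc.r4).trans (vmono hB)
    have e1 : pvatLay T s' x n1 = pvatLay T s x n1 := pvat_lay_congr fun v hv => hs v (l1 hv)
    have e2 : pvatLay T (pvasNot s') x2 n2 = pvatLay T (pvasNot s) x2 n2 := pvat_lay_congr_not fun v hv => hs v (l2 hv)
    have e4 : pvatLay T (pvasNot s') x4 n4 = pvatLay T (pvasNot s) x4 n4 := pvat_lay_congr_not fun v hv => hs v (l4 hv)
    refine ⟨x, x2, x4, n1, n2, n4, (pvat_cfg_congr ?_).2 hc, ?_⟩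
    · rintro v ((hv | hv) | hv)
      · exact hs v (l1 hv)
      · exact hs v (l2 hv)
      · exact hs v (l4 hv)
    · rw [e1, e2, e4]
      exact hcr _ _ _ _ s s' ((hγδ 6 (by omega)).trans (hδ 0 _ (by omega) le_rfl)) (hδ 0 _ (by omega) le_rfl) hs hx
  have hall : ∀ s s' : V → Bool, (∀ v ∈ W, s' v = s v) → ((G.Cfg6 b s ∨ G.Cfg6 b (pvasNot s)) ∧ G.Out s) → ((G.Cfg6 b s' ∨ G.Cfg6 b (pvasNot s')) ∧ G.Out s') := by
    intro s s' hs
    rintro ⟨h1, col, h2⟩
    refine ⟨h1.imp (hcfg s s' hs) (hcfg _ _ fun v hv => by simp only [pvasNot, hs v hv]), col, ?_⟩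
    exact hcr _ _ _ _ s s' (hδ 2 _ (by omega) le_rfl) subset_rfl hs h2
  intro ω ω' h
  exact propext ⟨hall ω ω' fun v hv => (h v (hA v hv)).symm, hall ω' ω fun v hv => h v (hA v hv)⟩

/-! ## 7. annealing + stationarity -/

/-- translation invariance of the probability of the event -/
theorem armt_inv (ε : ℝ) (a z : ℂ) (s S R : ℝ) : pvP ε (armtN (z + a) s S R) = pvP ε (armtN z s S R) := by
  have hn : NullMeasurableSet (armtN (z + a) s S R) (pvP ε) := pvcn_bridge_null ε (armt_meas _ _ _ _)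
  have hm : Measurable (cfMap fun w : ℂ => w + a) := measurable_cfMap (by fun_prop)
  conv_lhs => rw [← pvP_translate a ε]
  rw [Measure.map_apply₀ hm.aemeasurable (by rw [pvP_translate]; exact hn)]
  congr 1
  ext η
  exact armt_cov a z s S R η

/-- **annealing + stationarity** (glue) -/
theorem armt_anneal (ε : ℝ) (y : ℂ) (s S R : ℝ) (L : ℕ) (Bad : Set PvGeoT) (κ : ℝ≥0∞)
    (h : ∀ g, g ∉ Bad → ∑ p ∈ armtBox L, pvQc (armtN (armtCtr y s p) s S R) g ≤ κ) :
    ((2 * L + 1) ^ 2 : ℕ) * pvP ε (armtN y s S R) ≤ κ + ((2 * L + 1) ^ 2 : ℕ) * pvGeo ε Bad := by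
  set N : ℕ := (2 * L + 1) ^ 2 with hN
  set B' : Set PvGeoT := toMeasurable (pvGeo ε) Bad with hB'
  have hB'm : MeasurableSet B' := measurableSet_toMeasurable _ _
  have hm : ∀ p : ℤ × ℤ, Measurable (pvQc (armtN (armtCtr y s p) s S R)) := fun p => pvqu_Q_meas (armt_meas _ s S R)
  have e1 : ∀ p : ℤ × ℤ, pvP ε (armtN y s S R) = ∫⁻ g, pvQc (armtN (armtCtr y s p) s S R) g ∂(pvGeo ε) := by
    intro p
    rw [← armt_inv ε (l9Pt s p) y s S R, pvcn_bridge_apply ε (armt_meas _ s S R), ← pvqu_Q_lintegral ε (armt_meas _ s S R)]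
    rfl
  have e2 : (N : ℝ≥0∞) * pvP ε (armtN y s S R) = ∫⁻ g, ∑ p ∈ armtBox L, pvQc (armtN (armtCtr y s p) s S R) g ∂(pvGeo ε) := by
    rw [lintegral_finsetSum _ (fun p _ => hm p), ← Finset.sum_congr rfl (fun p _ => e1 p), Finset.sum_const, armt_box_card, nsmul_eq_mul]
  rw [e2]
  have hle : ∀ g, ∑ p ∈ armtBox L, pvQc (armtN (armtCtr y s p) s S R) g ≤ κ + B'.indicator (fun _ => (N : ℝ≥0∞)) g := by
    intro g
    by_cases hg : g ∈ B'
    · rw [Set.indicator_of_mem hg]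
      refine le_trans ?_ le_add_self
      calc ∑ p ∈ armtBox L, pvQc (armtN (armtCtr y s p) s S R) g ≤ ∑ _p ∈ armtBox L, (1 : ℝ≥0∞) := Finset.sum_le_sum fun p _ => pvqu_Q_le_one _ g
        _ = N := by rw [Finset.sum_const, armt_box_card, nsmul_eq_mul, mul_one]
    · rw [Set.indicator_of_notMem hg, add_zero]
      exact h g (fun hb => hg (subset_toMeasurable _ _ hb))
  calc ∫⁻ g, ∑ p ∈ armtBox L, pvQc (armtN (armtCtr y s p) s S R) g ∂(pvGeo ε) ≤ ∫⁻ g, (κ + B'.indicator (fun _ => (N : ℝ≥0∞)) g) ∂(pvGeo ε) := lintegral_mono hle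
    _ = κ + N * pvGeo ε Bad := by
        rw [lintegral_add_left measurable_const, lintegral_const, measure_univ, mul_one, lintegral_indicator hB'm, lintegral_const,
          Measure.restrict_apply MeasurableSet.univ, Set.univ_inter, measure_toMeasurable]

/-! ## 8. numbers, the exit -/

theorem armt_num_aux (q : ℝ) (hq : 0 < q) (hq1 : q < 1) : ∃ c : ℝ, 0 < c ∧ ∀ (x : ℝ) (n : ℕ), 0 < x → x < 16 ^ (n + 1) → (1 - q) ^ n ≤ (1 - q)⁻¹ * (x⁻¹) ^ c := by
  have h1 : 0 < 1 - q := by linarith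
  have h2 : 1 - q < 1 := by linarith
  have hl : Real.log (1 - q) < 0 := Real.log_neg h1 h2
  have hl16 : 0 < Real.log 16 := Real.log_pos (by norm_num)
  have cpos : 0 < - Real.log (1 - q) / Real.log 16 := div_pos (by linarith) hl16
  refine ⟨- Real.log (1 - q) / Real.log 16, cpos, fun x n hx hxn => ?_⟩
  obtain ⟨c, hc⟩ : ∃ c, c = - Real.log (1 - q) / Real.log 16 := ⟨_, rfl⟩
  rw [← hc] at cpos ⊢
  have e : (16 : ℝ) ^ (-c) = 1 - q := by
    rw [Real.rpow_def_of_pos (by norm_num)]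
    have : Real.log 16 * -c = Real.log (1 - q) := by rw [hc]; field_simp
    rw [this, Real.exp_log h1]
  have e2 : (1 - q) ^ (n + 1) = ((16 : ℝ) ^ (n + 1)) ^ (-c) := by
    rw [← e, ← Real.rpow_natCast, ← Real.rpow_natCast, ← Real.rpow_mul (by norm_num), ← Real.rpow_mul (by norm_num), mul_comm]
  have h3 : ((16 : ℝ) ^ (n + 1)) ^ (-c) ≤ x ^ (-c) := Real.rpow_le_rpow_of_nonpos hx hxn.le (by linarith)
  have h4 : x ^ (-c) = (x⁻¹) ^ c := by rw [Real.rpow_neg hx.le, Real.inv_rpow hx.le]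
  calc (1 - q) ^ n = (1 - q)⁻¹ * (1 - q) ^ (n + 1) := by rw [pow_succ]; field_simp
    _ ≤ _ := by rw [e2]; exact mul_le_mul_of_nonneg_left (h3.trans h4.le) (inv_nonneg.2 h1.le)

/-- **CONTRACT: the numbers**.      Plan: `c = min 1 (- log (1-q) / (2 log 4))`-ish; `L = ⌊S/(128 s)⌋`, `m = ⌊(log_4 (S/(80 s)) - 7)/2⌋`, `m' = ⌊(log_4 (R/S))/2⌋`; `(1-q)^m ≤ (1-q)^(-5) (s/S)^c`, `(2L+1)² ≥ (S/(128 s))²`. -/
theorem armt_num (q : ℝ) (hq : 0 < q) (hq1 : q < 1) (C : ℝ) (hC : 0 ≤ C) : ∃ c C' M₀ : ℝ, 0 < c ∧ 0 ≤ C' ∧ 1 ≤ M₀ ∧ ∀ s S R : ℝ, 0 < s → M₀ * s ≤ S → S ≤ R →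
    ∃ L m m' : ℕ, 2 * (L : ℝ) * s ≤ S / 64 ∧ 5 / 4 * 4 ^ (7 + 2 * m) * s ≤ S / 64 ∧ 5 / 4 * 4 ^ (2 + 2 * m') * (S / 32) + S / 64 ≤ 2 * R ∧
      C * armtCl * (1 - q) ^ m * (1 - q) ^ m' / ((2 * L + 1) ^ 2 : ℕ) ≤ C' * (s / S) ^ (2 + c) * (S / R) ^ c := by
  obtain ⟨c, hc, haux⟩ := armt_num_aux q hq hq1
  have h1 : 0 < 1 - q := by linarith
  refine ⟨c, C * armtCl * ((1 - q)⁻¹ * (1310720 : ℝ) ^ c) * (1 - q)⁻¹ * 128 ^ 2, 1310720, hc, by positivity, by norm_num, fun s S R hs hS hR => ?_⟩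
  have hSpos : 0 < S := lt_of_lt_of_le (by positivity) hS
  have hRpos : 0 < R := lt_of_lt_of_le hSpos hR
  have hx1 : 1 ≤ S / (1310720 * s) := by rw [le_div_iff₀ (by positivity)]; linarith
  obtain ⟨m, hm1, hm2⟩ := exists_nat_pow_near hx1 (by norm_num : (1:ℝ) < 16)
  have hy1 : 1 ≤ R / S := by rw [le_div_iff₀ hSpos]; linarith
  obtain ⟨m', hm1', hm2'⟩ := exists_nat_pow_near hy1 (by norm_num : (1:ℝ) < 16)
  refine ⟨⌊S / (128 * s)⌋₊, m, m', ?_, ?_, ?_, ?_⟩
  · have := Nat.floor_le (show 0 ≤ S / (128 * s) by positivity)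
    rw [le_div_iff₀ (by positivity)] at this
    linarith
  · have e : (4:ℝ) ^ (7 + 2 * m) = 16384 * 16 ^ m := by rw [pow_add, pow_mul]; norm_num
    rw [e]
    rw [le_div_iff₀ (by positivity)] at hm1
    linarith
  · have e : (4:ℝ) ^ (2 + 2 * m') = 16 * 16 ^ m' := by rw [pow_add, pow_mul]; norm_num
    rw [le_div_iff₀ hSpos] at hm1'
    rw [e]
    linarith
  · have a1 := haux (S / (1310720 * s)) m (by positivity) hm2
    have a2 := haux (R / S) m' (by positivity) hm2'
    have b1 : (S / (1310720 * s))⁻¹ ^ c = (1310720 : ℝ) ^ c * (s / S) ^ c := by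
      rw [inv_div, mul_div_assoc, Real.mul_rpow (by positivity) (by positivity)]
    have b2 : (R / S)⁻¹ = S / R := inv_div _ _
    rw [b1] at a1
    rw [b2] at a2
    obtain ⟨L, hLdef⟩ : ∃ L : ℕ, L = ⌊S / (128 * s)⌋₊ := ⟨_, rfl⟩
    have hL : S / (128 * s) ≤ 2 * (L : ℝ) + 1 := by
      have := (Nat.lt_floor_add_one (S / (128 * s))).le
      rw [← hLdef] at this
      have h0 : (0:ℝ) ≤ L := Nat.cast_nonneg _
      linarith
    rw [← hLdef]
    have hcast : (((2 * L + 1) ^ 2 : ℕ) : ℝ) = (2 * (L : ℝ) + 1) ^ 2 := by push_cast; ring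
    rw [hcast]
    obtain ⟨t, ht⟩ : ∃ t, t = s / S := ⟨_, rfl⟩
    have htpos : 0 < t := by rw [ht]; positivity
    have hD : 1 ≤ 128 * t * (2 * (L : ℝ) + 1) := by
      have : S / (128 * s) = 1 / (128 * t) := by rw [ht]; field_simp
      rw [this, div_le_iff₀ (by positivity)] at hL
      linarith
    have hDpos : 0 < 2 * (L : ℝ) + 1 := by positivity
    have e3 : (s / S) ^ (2 + c) = t ^ 2 * t ^ c := by
      rw [← ht, Real.rpow_add htpos, Real.rpow_two]
    rw [e3]
    rw [← ht] at a1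
    obtain ⟨u, hu⟩ : ∃ u, u = t ^ c := ⟨_, rfl⟩
    obtain ⟨v, hv⟩ : ∃ v, v = (S / R) ^ c := ⟨_, rfl⟩
    have hu0 : 0 ≤ u := by rw [hu]; positivity
    have hv0 : 0 ≤ v := by rw [hv]; positivity
    rw [← hu] at a1 ⊢
    rw [← hv] at a2 ⊢
    obtain ⟨a, ha⟩ : ∃ a, a = (1 - q)⁻¹ * (1310720 : ℝ) ^ c := ⟨_, rfl⟩
    have ha0 : 0 ≤ a := by rw [ha]; positivity
    have a1' : (1 - q) ^ m ≤ a * u := by rw [ha]; linarith [a1]
    rw [← ha]
    obtain ⟨a', ha'⟩ : ∃ a', a' = (1 - q)⁻¹ := ⟨_, rfl⟩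
    have ha'0 : 0 ≤ a' := by rw [ha']; positivity
    rw [← ha'] at a2 ⊢
    obtain ⟨K, hK⟩ : ∃ K : ℝ, K = C * armtCl := ⟨_, rfl⟩
    have hK0 : 0 ≤ K := by rw [hK]; positivity
    rw [← hK]
    have hA0 : 0 ≤ (1 - q) ^ m := by positivity
    have hA'0 : 0 ≤ (1 - q) ^ m' := by positivity
    rw [div_le_iff₀ (by positivity)]
    have s1 : K * (1 - q) ^ m * (1 - q) ^ m' ≤ K * (a * u) * (a' * v) := by
      apply mul_le_mul (mul_le_mul_of_nonneg_left a1' hK0) a2 hA'0 (by positivity)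
    have s2 : (1 : ℝ) ≤ (128 * t * (2 * (L : ℝ) + 1)) ^ 2 := one_le_pow₀ hD
    calc K * (1 - q) ^ m * (1 - q) ^ m' ≤ K * (a * u) * (a' * v) := s1
      _ = K * (a * u) * (a' * v) * 1 := by ring
      _ ≤ K * (a * u) * (a' * v) * (128 * t * (2 * (L : ℝ) + 1)) ^ 2 := mul_le_mul_of_nonneg_left s2 (by positivity)
      _ = K * a * a' * 128 ^ 2 * (t ^ 2 * u) * v * (2 * (L : ℝ) + 1) ^ 2 := by ring

/-- the site sets which are not nice form a null set -/
theorem armt_F_ae {ε : ℝ} (hε : ε ≠ 0) (z : ℂ) (s S R : ℝ) : pvP ε (armtF z s S R) = pvP ε (armtN z s S R ∩ {η | ∃ b, PvArm1 η b z s R}) := by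
  apply measure_congr
  filter_upwards [pvat_nice_ae hε] with η hη
  exact propext ⟨fun h => h.resolve_right (fun h' => h' hη), Or.inl⟩

end Claimed.Agent.R289
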