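-- KEEP
import Claimed.Agent.R289.Arm.Top
import Claimed.Agent.R289.Del.Bulk
import Claimed.Agent.R289.Arm.Dict
import Claimed.Agent.R289.Arm.NearRet
import Claimed.Agent.R289.Arm.Outer

/-!
# Row 289 (S0537, Cardy for Poisson-Voronoi), box ARM, block DICT, file Arm/DictLoc : THE INSTANCE  local model  <->  Delaunay plane,  AND `armt_nr_cfg`      (helper137, second of helper33; ruling E4 of helper146; prefix `pvdl_`)      0 sorry

* `pvdlStar T lab K`      the darts of a labelled map whose face has a vertex which is a site of `K`;      `PvdlRd T lab h d e` (the labels of the end points agree), `PvdlRv lab v w`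
* `pvdl_star_tri`         the faces of the star are Delaunay triangles, in coordinates;      `pvdl_rd_fun _inj _opp _apex _nxt _star _total _onto`
* **`pvdl_loc`**          `ArmtLoc Y K T lab → (h : DelGood Y) → PvdqIso T (delMap h) (pvdlStar T lab K) (delbStar h K) (PvdlRd T lab h) (PvdlRv lab)`      (record of helper33, `Arm/Dict`);   `pvdl_loc'` read from the plane
* POSITIONS               `pvdl_left_star`, `pvdl_cyc` (a cycle of the plane whose disc lies in the star goes to the model), **`pvdl_near_int`** (`ArmtNear` ⟹ interior vertex of the transferred disc),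
                          **`pvdl_far_out`**, `pvdl_far_right` (`ArmtFar` ⟹ interior vertex of the right side of the transferred cycle)
* **`pvdl_cfg6`**         near return in SOME local model ⟹ CONFIG6 in the plane, for five nested cycles of the plane      (`pvnr_cfg6_rim` of helper228 in the model, `pvdq_cfg6` of helper33 back)
* `pvdl_nr_cfg6`          the first conjunct of `armt_nr_cfg` for the record `ArmtGeo`
* **`pvdl_nr_cfg`**       **`armt_nr_cfg` of `Arm/Top`, VERBATIM** (second conjunct = `pvao_out` of helper112, `Arm/Outer`)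
-/

set_option autoImplicit false

namespace Claimed.Agent.R289

open Set Metric Claims.C0465

section loc

variable {Y K : Set ℂ} {V D : Type} {T : PvMap V D} {lab : V → Option ℂ}

/-- the darts of the local model whose face has a vertex in `K` -/
def pvdlStar (T : PvMap V D) (lab : V → Option ℂ) (K : Set ℂ) : Set D :=
  {d | (∃ a ∈ K, lab (T.src d) = some a) ∨ (∃ a ∈ K, lab (T.tgt d) = some a) ∨ (∃ a ∈ K, lab (T.apex d) = some a)}

/-- vertex relation: the labels agree -/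
def PvdlRv (lab : V → Option ℂ) (v : V) (w : Y) : Prop := lab v = some (w : ℂ)

/-- dart relation: the labels of the end points agree -/
def PvdlRd (T : PvMap V D) (lab : V → Option ℂ) (h : DelGood Y) (d : D) (e : DelDart h) : Prop :=
  lab (T.src d) = some (((delMap h).src e : Y) : ℂ) ∧ lab (T.tgt d) = some (((delMap h).tgt e : Y) : ℂ)

theorem pvdl_eqns_cite : True := by
  have := @pvdlStar.eq_1; have := @PvdlRv.eq_1; have := @PvdlRd.eq_1
  trivial

theorem pvdl_star_nxt {d : D} : T.nxt d ∈ pvdlStar T lab K ↔ d ∈ pvdlStar T lab K := by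
  unfold pvdlStar
  simp only [Set.mem_ofPred_eq, PvMap.src_nxt, PvMap.tgt_nxt, PvMap.apex_nxt]
  generalize (∃ a ∈ K, lab (T.src d) = some a) = p1
  generalize (∃ a ∈ K, lab (T.tgt d) = some a) = p2
  generalize (∃ a ∈ K, lab (T.apex d) = some a) = p3
  tauto

theorem pvdl_star_faceSet : T.FaceSet (pvdlStar T lab K) := fun _ => pvdl_star_nxt

/-- the faces of the star are Delaunay triangles, in coordinates -/
theorem pvdl_star_tri (hL : ArmtLoc Y K T lab) {d : D} (hd : d ∈ pvdlStar T lab K) :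
    ∃ a b c : ℂ, lab (T.src d) = some a ∧ lab (T.tgt d) = some b ∧ lab (T.apex d) = some c ∧ DelTri Y a b c ∧ (a ∈ K ∨ b ∈ K ∨ c ∈ K) := by
  rcases hd with ⟨a, ha, h1⟩ | ⟨b, hb, h1⟩ | ⟨c, hc, h1⟩
  · obtain ⟨b, c, h2, h3, ht⟩ := hL.del d a h1 ha
    exact ⟨a, b, c, h1, h2, h3, ht, Or.inl ha⟩
  · obtain ⟨c, a, h2, h3, ht⟩ := hL.del (T.nxt d) b h1 hb
    rw [PvMap.tgt_nxt] at h2; rw [PvMap.apex_nxt] at h3
    exact ⟨a, b, c, h3, h1, h2, del_tri_cyc (del_tri_cyc ht), Or.inr (Or.inl hb)⟩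
  · obtain ⟨a, b, h2, h3, ht⟩ := hL.del (T.nxt (T.nxt d)) c h1 hc
    rw [PvMap.tgt_nxt2] at h2; rw [PvMap.apex_nxt2] at h3
    exact ⟨a, b, c, h2, h3, h1, del_tri_cyc ht, Or.inr (Or.inr hc)⟩

variable {h : DelGood Y}

theorem pvdl_rd_fun {d : D} {e e' : DelDart h} (h1 : PvdlRd T lab h d e) (h2 : PvdlRd T lab h d e') : e = e' :=
  dls_ext (Option.some.inj (h1.1.symm.trans h2.1)) (Option.some.inj (h1.2.symm.trans h2.2))

theorem pvdl_rd_inj (hL : ArmtLoc Y K T lab) {d d' : D} {e : DelDart h} (h1 : PvdlRd T lab h d e) (h2 : PvdlRd T lab h d' e) : d = d' :=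
  hL.simple _ _ (hL.inj _ _ _ h1.1 h2.1) (hL.inj _ _ _ h1.2 h2.2)

theorem pvdl_rd_opp {d : D} {e : DelDart h} (h1 : PvdlRd T lab h d e) : PvdlRd T lab h (T.opp d) ((delMap h).opp e) := by
  unfold PvdlRd
  rw [T.src_opp', T.tgt_opp, (delMap h).src_opp', (delMap h).tgt_opp]
  exact ⟨h1.2, h1.1⟩

theorem pvdl_rd_opp_iff {d : D} {e : DelDart h} : PvdlRd T lab h (T.opp d) ((delMap h).opp e) ↔ PvdlRd T lab h d e := by
  refine ⟨fun h1 => ?_, pvdl_rd_opp⟩
  have := pvdl_rd_opp h1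
  rwa [T.opp_opp, (delMap h).opp_opp] at this

/-- the apex through the dictionary -/
theorem pvdl_rd_apex (hL : ArmtLoc Y K T lab) {d : D} {e : DelDart h} (h1 : PvdlRd T lab h d e) (hd : d ∈ pvdlStar T lab K) :
    lab (T.apex d) = some (((delMap h).apex e : Y) : ℂ) := by
  obtain ⟨a, b, c, k1, k2, k3, ht, -⟩ := pvdl_star_tri hL hd
  have ea : a = (((delMap h).src e : Y) : ℂ) := Option.some.inj (k1.symm.trans h1.1)
  have eb : b = (((delMap h).tgt e : Y) : ℂ) := Option.some.inj (k2.symm.trans h1.2)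
  subst ea eb
  rw [k3, del_tri_unique h.gp ht (dls_face e)]

theorem pvdl_rd_nxt (hL : ArmtLoc Y K T lab) {d : D} {e : DelDart h} (h1 : PvdlRd T lab h d e) (hd : d ∈ pvdlStar T lab K) :
    PvdlRd T lab h (T.nxt d) ((delMap h).nxt e) := ⟨h1.2, pvdl_rd_apex hL h1 hd⟩

/-- the star goes to the star -/
theorem pvdl_rd_star (hL : ArmtLoc Y K T lab) {d : D} {e : DelDart h} (h1 : PvdlRd T lab h d e) (hd : d ∈ pvdlStar T lab K) : e ∈ delbStar h K := by
  have h3 := pvdl_rd_apex hL h1 hd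
  rcases hd with ⟨a, ha, k⟩ | ⟨a, ha, k⟩ | ⟨a, ha, k⟩
  · exact Or.inl (Option.some.inj (k.symm.trans h1.1) ▸ ha)
  · exact Or.inr (Or.inl (Option.some.inj (k.symm.trans h1.2) ▸ ha))
  · exact Or.inr (Or.inr (Option.some.inj (k.symm.trans h3) ▸ ha))

/-- **TOTAL** on the star -/
theorem pvdl_rd_total (hL : ArmtLoc Y K T lab) (h : DelGood Y) {d : D} (hd : d ∈ pvdlStar T lab K) : ∃ e : DelDart h, PvdlRd T lab h d e ∧ e ∈ delbStar h K := by
  obtain ⟨a, b, c, k1, k2, k3, ht, -⟩ := pvdl_star_tri hL hd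
  have hr : PvdlRd T lab h d (dlsD h (del_tri_adj ht).1) := ⟨k1, k2⟩
  exact ⟨_, hr, pvdl_rd_star hL hr hd⟩

/-- **ONTO** the star of the plane -/
theorem pvdl_rd_onto (hL : ArmtLoc Y K T lab) {e : DelDart h} (he : e ∈ delbStar h K) : ∃ d, PvdlRd T lab h d e ∧ d ∈ pvdlStar T lab K := by
  have ht := dls_face e
  rcases he with he | he | he
  · obtain ⟨d, k1, k2, k3⟩ := hL.face _ _ _ ht he
    exact ⟨d, ⟨k1, k2⟩, Or.inl ⟨_, he, k1⟩⟩
  · obtain ⟨d, k1, k2, k3⟩ := hL.face _ _ _ (del_tri_cyc ht) he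
    refine ⟨T.nxt (T.nxt d), ⟨?_, ?_⟩, ?_⟩
    · rw [PvMap.src_nxt2]; exact k3
    · rw [PvMap.tgt_nxt2]; exact k1
    · exact pvdl_star_nxt.2 (pvdl_star_nxt.2 (Or.inl ⟨_, he, k1⟩))
  · obtain ⟨d, k1, k2, k3⟩ := hL.face _ _ _ (del_tri_cyc (del_tri_cyc ht)) he
    refine ⟨T.nxt d, ⟨?_, ?_⟩, ?_⟩
    · rw [PvMap.src_nxt]; exact k2
    · rw [PvMap.tgt_nxt]; exact k3
    · exact pvdl_star_nxt.2 (Or.inl ⟨_, he, k1⟩)

/-- the star comes from the star -/
theorem pvdl_rd_star' (hL : ArmtLoc Y K T lab) {d : D} {e : DelDart h} (h1 : PvdlRd T lab h d e) (he : e ∈ delbStar h K) : d ∈ pvdlStar T lab K := by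
  obtain ⟨d', h2, hd'⟩ := pvdl_rd_onto hL he
  rwa [pvdl_rd_inj hL h1 h2]

theorem pvdl_rd_star_iff (hL : ArmtLoc Y K T lab) {d : D} {e : DelDart h} (h1 : PvdlRd T lab h d e) : d ∈ pvdlStar T lab K ↔ e ∈ delbStar h K :=
  ⟨pvdl_rd_star hL h1, pvdl_rd_star' hL h1⟩

theorem pvdl_rv_fun {v : V} {w w' : Y} (h1 : PvdlRv lab v w) (h2 : PvdlRv lab v w') : w = w' := Subtype.ext (Option.some.inj (h1.symm.trans h2))

theorem pvdl_rv_inj (hL : ArmtLoc Y K T lab) {v v' : V} {w : Y} (h1 : PvdlRv lab v w) (h2 : PvdlRv lab v' w) : v = v' := hL.inj _ _ _ h1 h2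

theorem pvdl_rd_src {d : D} {e : DelDart h} (h1 : PvdlRd T lab h d e) : PvdlRv lab (T.src d) ((delMap h).src e) := h1.1

theorem pvdl_rd_tgt {d : D} {e : DelDart h} (h1 : PvdlRd T lab h d e) : PvdlRv lab (T.tgt d) ((delMap h).tgt e) := h1.2

/-- **THE INSTANCE**: a local model and the Delaunay plane are locally isomorphic on the stars of `K` -/
theorem pvdl_loc (hL : ArmtLoc Y K T lab) (h : DelGood Y) :
    PvdqIso T (delMap h) (pvdlStar T lab K) (delbStar h K) (PvdlRd T lab h) (PvdlRv lab) where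
  fn := pvdl_rd_fun
  inj := pvdl_rd_inj hL
  vfn := pvdl_rv_fun
  vinj := pvdl_rv_inj hL
  src := fun h1 => h1.1
  opp := pvdl_rd_opp
  nxt := pvdl_rd_nxt hL
  mem := pvdl_rd_star_iff hL
  tot := fun hd => (pvdl_rd_total hL h hd).imp fun _ h1 => h1.1
  tot' := fun he => (pvdl_rd_onto hL he).imp fun _ h1 => h1.1
  fs := pvdl_star_faceSet
  fs' := delb_star_faceSet

/-- the same, read from the plane -/
theorem pvdl_loc' (hL : ArmtLoc Y K T lab) (h : DelGood Y) :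
    PvdqIso (delMap h) T (delbStar h K) (pvdlStar T lab K) (fun e d => PvdlRd T lab h d e) (fun w v => PvdlRv lab v w) := (pvdl_loc hL h).symm

/-- colours -/
theorem pvdl_col {col : V → Bool} {σ : ℂ → Bool} (hc : ∀ v p, lab v = some p → col v = σ p) : ∀ (v : V) (w : Y), PvdlRv lab v w → col v = (fun u : Y => σ u) w :=
  fun v _ hvw => hc v _ hvw

/-! ### positions -/

/-- a disc of the plane all of whose vertices are in `K` lies in the star -/
theorem pvdl_left_star {A : Set (DelDart h)} (hA : ∀ v ∈ (delMap h).VOf A, (v : ℂ) ∈ K) : A ⊆ delbStar h K :=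
  fun e he => Or.inl (hA _ ⟨e, he, rfl⟩)

/-- transfer of a cycle of the plane to the local model -/
theorem pvdl_cyc (hL : ArmtLoc Y K T lab) (c : (delMap h).Cyc) (hc : c.Left ⊆ delbStar h K) : ∃ c' : T.Cyc, PvdqCyc (fun e d => PvdlRd T lab h d e) c c' :=
  pvdq_cyc (pvdl_loc' hL h) c fun i => Or.inl (hc ((pl_jordan (dls_isSph h) c).2.1 i))

/-- a vertex of the model which is a site of `K` is the source of related darts -/
theorem pvdl_dart_of_src (hL : ArmtLoc Y K T lab) (h : DelGood Y) {d : D} {p : ℂ} (hp : lab (T.src d) = some p) (hpK : p ∈ K) :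
    ∃ e : DelDart h, PvdlRd T lab h d e ∧ (((delMap h).src e : Y) : ℂ) = p := by
  obtain ⟨e, he, -⟩ := pvdl_rd_total hL h (d := d) (Or.inl ⟨p, hpK, hp⟩)
  exact ⟨e, he, Option.some.inj (he.1.symm.trans hp)⟩

/-- **a near vertex is an interior vertex of the transferred disc** -/
theorem pvdl_near_int (hL : ArmtLoc Y K T lab) {c : (delMap h).Cyc} {c' : T.Cyc} (hcc : PvdqCyc (fun e d => PvdlRd T lab h d e) c c') (hG : c.Left ⊆ delbStar h K)
    {z : ℂ} {ρ : ℝ} (hK : closedBall z ρ ⊆ K) (hin : ∀ w : Y, ‖(w : ℂ) - z‖ ≤ ρ → w ∈ (delMap h).Int c.Left) {d : D} (hd : ArmtNear lab z ρ (T.src d)) :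
    T.src d ∈ T.Int c'.Left := by
  obtain ⟨p, hp, hpz⟩ := hd
  have hpK : p ∈ K := hK (by rw [mem_closedBall, dist_eq_norm]; exact hpz)
  obtain ⟨e, he, hep⟩ := pvdl_dart_of_src hL h hp hpK
  have hv : (delMap h).src e ∈ (delMap h).Int c.Left := hin _ (by rw [hep]; exact hpz)
  exact pvdq_int (pvdl_loc' hL h) hL.sph hG (pvdq_left (pvdl_loc' hL h) hcc hG) he hv

/-- **a far vertex is not a vertex of the transferred disc** -/
theorem pvdl_far_out (hL : ArmtLoc Y K T lab) {c : (delMap h).Cyc} {c' : T.Cyc} (hcc : PvdqCyc (fun e d => PvdlRd T lab h d e) c c') (hG : c.Left ⊆ delbStar h K)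
    {z : ℂ} {ρ : ℝ} (hout : ∀ w ∈ (delMap h).VOf c.Left, ‖(w : ℂ) - z‖ < ρ) {v : V} (hv : ArmtFar lab z ρ v) : v ∉ T.VOf c'.Left := by
  intro hmem
  obtain ⟨w, hw, hvw⟩ := pvdq_vof (pvdl_loc' hL h) hcc hG hmem
  exact absurd (hout w hw) (not_lt.2 (hv _ hvw))

/-- a vertex which is not a vertex of the closed disc is an interior vertex of the right side -/
theorem pvdl_int_right (hT : T.IsSph) (c : T.Cyc) {v : V} (hv : v ∉ T.VOf c.Left) : v ∈ T.Int c.Right := by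
  intro d hd
  rw [(pl_jordan hT c).1]
  exact fun hmem => hv ⟨d, hmem, hd⟩

theorem pvdl_far_right (hL : ArmtLoc Y K T lab) {c : (delMap h).Cyc} {c' : T.Cyc} (hcc : PvdqCyc (fun e d => PvdlRd T lab h d e) c c') (hG : c.Left ⊆ delbStar h K)
    {z : ℂ} {ρ : ℝ} (hout : ∀ w ∈ (delMap h).VOf c.Left, ‖(w : ℂ) - z‖ < ρ) {v : V} (hv : ArmtFar lab z ρ v) : v ∈ T.Int c'.Right :=
  pvdl_int_right hL.sph c' (pvdl_far_out hL hcc hG hout hv)

theorem pvdl_far_mono {z : ℂ} {ρ ρ' : ℝ} (hρ : ρ' ≤ ρ) {v : V} (hv : ArmtFar lab z ρ v) : ArmtFar lab z ρ' v := fun p hp => hρ.trans (hv p hp)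

end loc

/-! ### near return in some local model ⟹ CONFIG6 in the plane -/

/-- **FIRST HALF OF `armt_nr_cfg`**, for five nested cycles of the plane -/
theorem pvdl_cfg6 {Y : Set ℂ} (h : DelGood Y) (σ : ℂ → Bool) {c0 cm c1 c2 c3 : (delMap h).Cyc} (hfin : c0.Left.Finite)
    (h12 : c1.Inside c2) (h23 : c2.Inside c3) (h3m : c3.Inside cm) (hm0 : cm.Inside c0) {z : ℂ} {s S R : ℝ} (hs : 0 < s) (hsS : s ≤ S) (hSR : S ≤ R)
    (hin : ∀ w : Y, ‖(w : ℂ) - z‖ ≤ s → w ∈ (delMap h).Int c1.Left) (hmid : ∀ w ∈ (delMap h).VOf c0.Left, ‖(w : ℂ) - z‖ < S) (hN : ArmtNR Y σ z s S R) :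
    (∃ x x2 x4 n1 n2 n4, PvatCfg (delMap h) c0 c1 c2 (fun v : Y => σ v) x x2 x4 n1 n2 n4 ∧
      PvaxCr (delMap h) c3 cm (pvatLay (delMap h) (fun v : Y => σ v) x n1 ∪ pvatLay (delMap h) (pvasNot fun v : Y => σ v) x2 n2 ∪ pvatLay (delMap h) (pvasNot fun v : Y => σ v) x4 n4)ᶜ true (fun v : Y => σ v)) ∨
    (∃ x x2 x4 n1 n2 n4, PvatCfg (delMap h) c0 c1 c2 (pvasNot fun v : Y => σ v) x x2 x4 n1 n2 n4 ∧
      PvaxCr (delMap h) c3 cm (pvatLay (delMap h) (pvasNot fun v : Y => σ v) x n1 ∪ pvatLay (delMap h) (pvasNot (pvasNot fun v : Y => σ v)) x2 n2 ∪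
        pvatLay (delMap h) (pvasNot (pvasNot fun v : Y => σ v)) x4 n4)ᶜ true (pvasNot fun v : Y => σ v)) := by
  obtain ⟨V, D, T, lab, col, hL, hcol, P, hP, k, i, k', i', l1, l2, l3, l4, n1, n2, f1, f2⟩ := hN
  have hR : 0 < R := lt_of_lt_of_le (lt_of_lt_of_le hs hsS) hSR
  have hTp := dls_isSph h
  have I := pvdl_loc hL h
  have I' := pvdl_loc' hL h
  -- the discs lie in the star
  have hG0 : c0.Left ⊆ delbStar h (closedBall z (4 * R)) := pvdl_left_star fun v hv => by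
    rw [mem_closedBall, dist_eq_norm]
    linarith [hmid v hv]
  have hGm : cm.Left ⊆ delbStar h (closedBall z (4 * R)) := hm0.2.trans hG0
  have hG3 : c3.Left ⊆ delbStar h (closedBall z (4 * R)) := h3m.2.trans hGm
  have hG2 : c2.Left ⊆ delbStar h (closedBall z (4 * R)) := h23.2.trans hG3
  have hG1 : c1.Left ⊆ delbStar h (closedBall z (4 * R)) := h12.2.trans hG2
  obtain ⟨c0', e0⟩ := pvdl_cyc hL c0 hG0
  obtain ⟨cm', em⟩ := pvdl_cyc hL cm hGm
  obtain ⟨c3', e3⟩ := pvdl_cyc hL c3 hG3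
  obtain ⟨c2', e2⟩ := pvdl_cyc hL c2 hG2
  obtain ⟨c1', e1⟩ := pvdl_cyc hL c1 hG1
  have hfin' : c0'.Left.Finite := pvdq_left_fin I' e0 hG0 hfin
  have h12' := pvdq_inside I' hL.sph e1 e2 hG2 h12
  have h23' := pvdq_inside I' hL.sph e2 e3 hG3 h23
  have h3m' := pvdq_inside I' hL.sph e3 em hGm h3m
  have hm0' := pvdq_inside I' hL.sph em e0 hG0 hm0
  have hKs : closedBall z s ⊆ closedBall z (4 * R) := closedBall_subset_closedBall (by linarith)
  have v0 := pvdl_near_int hL e1 hG1 hKs hin n1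
  have v2 := pvdl_near_int hL e1 hG1 hKs hin n2
  have v1 := pvdl_far_right hL e0 hG0 hmid f1
  have v3 := pvdl_far_right hL e0 hG0 hmid (pvdl_far_mono (by linarith) f2)
  have key := pvnr_cfg6_rim hL.sph hfin' h12' h23' h3m' hm0' (pvnr_of_isRim hP) l1 l2 l3 l4 v0 v2 v1 v3
  have hc := pvdl_col (Y := Y) hcol
  have g0 := pvdq_left_sub I' e0 hG0
  have gm := pvdq_left_sub I' em hGm
  have g3 := pvdq_left_sub I' e3 hG3
  have g2 := pvdq_left_sub I' e2 hG2
  have g1 := pvdq_left_sub I' e1 hG1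
  rcases key with key | key
  · exact Or.inl (pvdq_cfg6 I hc e0.symm em.symm e1.symm e2.symm e3.symm g0 gm g1 g2 g3 key)
  · exact Or.inr (pvdq_cfg6 I (pvdq_not hc) e0.symm em.symm e1.symm e2.symm e3.symm g0 gm g1 g2 g3 key)

/-! ### the record `ArmtGeo` -/

section geo

variable {V D : Type} [DecidableEq V] {T : PvMap V D} {ι : Type} {q : ℝ} {m m' Cl : ℕ}

/-- the cycles round a box are nested -/
theorem pvdl_nest_γ (hT : T.IsSph) (G : ArmtGeo T ι q m m' Cl) (b : ι) (i j : ℕ) (hj : i + (j + 1) ≤ 7 + 2 * m) : (G.γ b i).Inside (G.γ b (i + (j + 1))) := by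
  induction j with
  | zero => exact (G.γ_blk b i (by omega)).1
  | succ j ih => exact pvat_inside_trans hT (ih (by omega)) (G.γ_blk b (i + (j + 1)) (by omega)).1

/-- the cycles round a box are inside the first common cycle -/
theorem pvdl_nest_γδ (hT : T.IsSph) (G : ArmtGeo T ι q m m' Cl) (b : ι) (i : ℕ) (hi : i ≤ 7 + 2 * m) : (G.γ b i).Inside (G.δ 0) := by
  rcases Nat.lt_or_ge i (7 + 2 * m) with h | h
  · have h1 := pvdl_nest_γ hT G b i (7 + 2 * m - i - 1) (by omega)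
    rw [show i + (7 + 2 * m - i - 1 + 1) = 7 + 2 * m by omega] at h1
    exact pvat_inside_trans hT h1 (G.γ_top b)
  · rw [show i = 7 + 2 * m by omega]
    exact G.γ_top b

end geo

/-- **THE FIRST CONJUNCT OF `armt_nr_cfg`** -/
theorem pvdl_nr_cfg6 {Y : Set ℂ} (h : DelGood Y) [DecidableEq Y] (σ : ℂ → Bool) {ι : Type} {q : ℝ} {m m' Cl : ℕ} (G : ArmtGeo (delMap h) ι q m m' Cl) {ζ : ι → ℂ} {s S R : ℝ}
    (hG : G.At (dlsPos Y) ζ s S R) (hs : 0 < s) (hsS : s ≤ S) (hSR : S ≤ R) (b : ι) (hN : ArmtNR Y σ (ζ b) s S R) :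
    G.Cfg6 b (fun v => σ v) ∨ G.Cfg6 b (pvasNot fun v => σ v) := by
  have hT := dls_isSph h
  exact pvdl_cfg6 h σ (G.fin 1) (pvdl_nest_γ hT G b 0 2 (by omega)) (pvdl_nest_γ hT G b 3 2 (by omega)) (pvdl_nest_γδ hT G b 6 (by omega)) (G.δ_blk 0 (by omega)).1
    hs hsS hSR (fun w hw => hG.inn b w hw) (fun w hw => hG.mid b w hw) hN

open Classical in
/-- **`armt_nr_cfg` of `Arm/Top`, verbatim** -/
theorem pvdl_nr_cfg {Y : Set ℂ} (h : DelGood Y) (σ : ℂ → Bool) {ι : Type} {q : ℝ} {m m' Cl : ℕ} (G : ArmtGeo (delMap h) ι q m m' Cl) {ζ : ι → ℂ} {s S R : ℝ}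
    (hG : G.At (dlsPos Y) ζ s S R) (hs : 0 < s) (hsS : s ≤ S) (hSR : S ≤ R) (b : ι) (hN : ArmtNR Y σ (ζ b) s S R) :
    (G.Cfg6 b (fun v => σ v) ∨ G.Cfg6 b (pvasNot fun v => σ v)) ∧ G.Out (fun v => σ v) :=
  ⟨pvdl_nr_cfg6 h σ G hG hs hsS hSR b hN, pvao_out h σ G hG hs hsS hSR b hN⟩

end Claimed.Agent.R289
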