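-- KEEP
import Claimed.Agent.R289.Arm.Dict
import Claimed.Agent.R289.Arm.NearRet
import Claimed.Agent.R289.Arm.Top
import Claimed.Agent.R289.Arm.Outer

/-!
# Row 289 (S0537), box ARM, block DICT, file Arm/DictNr : NEAR RETURN IN A LOCAL MODEL  ⟹  CONFIG6 + OUTER ARM IN THE PLANE, MODEL FREE      (owner helper33; prefix `pvdq_`)

`I : PvdqIso T T' G G' r rv` (`Arm/Dict`): `T` = the model which carries the rim `P`, `T'` = the plane which carries the frame cycles (all of them with their left side in `G'`).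
* `pvdq_path_cr`     (one map) a walk in a vertex class `Y` from the closed disc of `a` to a vertex off the closed disc of `o` contains a crossing of the annulus `(a, o)`
* `pvdq_pull`        a cycle of `T'` with left side in `G'` is pulled back to `T`
* **`pvdq_nr`**      rim of `T`, two visits to the open disc of `c1'`, both complementary arcs leave the closed disc of `c0'`  ⟹  the body of `ArmtGeo.Cfg6` in `T'`, for `s'` or for `pvasNot s'`      (NR-DET of helper228 in `T`, carried over)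
* **`pvdq_out`**     rim of `T` with a visit to the open disc of `a'` and a vertex off the closed disc of `o'`  ⟹  a crossing of `(a', o')` in `T'` of the colour of the rim
* **`pvdq_loc`**     THE INSTANCE: a local model `ArmtLoc Y K T lab` (`Arm/Top`, helper186) and the Delaunay plane `delMap h` are locally isomorphic over the star of `K`
* **`pvdq_nr_cfg`**  = the contract `armt_nr_cfg` of `Arm/Top`, verbatim      (second conjunct: `pvao_out` of helper112)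
-/

set_option autoImplicit false
set_option linter.unusedSectionVars false
set_option linter.unusedVariables false

namespace Claimed.Agent.R289

open Relation Set

/-! ## 1. a walk which leaves a disc crosses the annulus -/

section one

variable {V D : Type} {T : PvMap V D}

/-- **a walk in `Y` from the closed disc of `a` to a vertex off the closed disc of `o` contains a crossing of the annulus** -/
theorem pvdq_path_cr (hT : T.IsSph) {a o : T.Cyc} (h : a.Inside o) {Y : Set V} {u w : V} (hu : u ∈ T.VOf a.Left) (huY : u ∈ Y)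
    (hp : ReflTransGen (fun x y => T.Adj x y ∧ y ∈ Y) u w) (hw : w ∉ T.VOf o.Left) : ∃ u₁ ∈ a.verts, ∃ w₁ ∈ o.verts, T.Join (a.Ann o) Y u₁ w₁ := by
  by_contra hG
  have key : ∀ v, ReflTransGen (fun x y => T.Adj x y ∧ y ∈ Y) u v → v ∈ T.Int a.Left ∨ (v ∈ T.Int o.Left ∧ ∃ u₁ ∈ a.verts, T.Join (a.Ann o) Y u₁ v) := by
    intro v hv
    induction hv with
    | refl =>
      rw [pl_VOf_left hT a] at hu
      rcases hu with hu | hu
      · exact Or.inr ⟨h.1 hu, u, hu, huY, ReflTransGen.refl⟩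
      · exact Or.inl hu
    | @tail v v' _ hstep ih =>
      obtain ⟨⟨d, rfl, rfl⟩, hv'Y⟩ := hstep
      have hin : T.tgt d ∈ T.VOf a.Left → T.tgt d ∈ T.Int a.Left ∨ (T.tgt d ∈ T.Int o.Left ∧ ∃ u₁ ∈ a.verts, T.Join (a.Ann o) Y u₁ (T.tgt d)) := by
        intro h'
        rw [pl_VOf_left hT a] at h'
        rcases h' with h' | h'
        · exact Or.inr ⟨h.1 h', _, h', hv'Y, ReflTransGen.refl⟩
        · exact Or.inl h'
      rcases ih with ih | ⟨ih1, u₁, hu₁, hj⟩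
      · exact hin (pl_int_edge hT a ih).2.2
      · obtain ⟨e1, e2, e3⟩ := pl_int_edge hT o ih1
        by_cases hboth : d ∈ a.Left ∧ T.opp d ∈ a.Left
        · exact hin ⟨T.opp d, hboth.2, T.src_opp' d⟩
        · have hedge : T.EdgeIn (a.Ann o) (T.src d) (T.tgt d) := by
            refine ⟨d, ?_, rfl, rfl⟩
            by_cases hd : d ∈ a.Left
            · exact Or.inr ⟨e2, fun h' => hboth ⟨hd, h'⟩⟩
            · exact Or.inl ⟨e1, hd⟩
          have hj' : T.Join (a.Ann o) Y u₁ (T.tgt d) := ⟨hj.1, hj.2.tail ⟨hedge, hv'Y⟩⟩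
          rw [pl_VOf_left hT o] at e3
          rcases e3 with e3 | e3
          · exact absurd ⟨u₁, hu₁, _, e3, hj'⟩ hG
          · exact Or.inr ⟨e3, u₁, hu₁, hj'⟩
  apply hw
  rw [pl_VOf_left hT o]
  rcases key w hp with h' | ⟨h', -⟩
  · exact Or.inr ((pl_nested_vert hT o a h.2).2 h')
  · exact Or.inr h'

/-- the walk along a cycle -/
theorem pvdq_cyc_walk (P : T.Cyc) {Y : Set V} (hY : ∀ i, T.src (P.e i) ∈ Y) (i n : ℕ) :
    ReflTransGen (fun x y => T.Adj x y ∧ y ∈ Y) (T.src (P.e i)) (T.src (P.e (i + n))) := by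
  induction n with
  | zero => exact ReflTransGen.refl
  | succ n ih => exact ih.tail ⟨⟨P.e (i + n), rfl, P.chain (i + n)⟩, hY _⟩

/-- **a monochromatic cycle with a vertex in the closed disc of `a` and a vertex off the closed disc of `o` crosses the annulus** -/
theorem pvdq_cyc_cr (hT : T.IsSph) {a o : T.Cyc} (h : a.Inside o) {s : V → Bool} {κ : Bool} (P : T.Cyc) (hκ : ∀ i, s (T.src (P.e i)) = κ) {i j : ℕ} (hij : i ≤ j)
    (hi : T.src (P.e i) ∈ T.VOf a.Left) (hj : T.src (P.e j) ∉ T.VOf o.Left) : PvaxCr T a o Set.univ κ s := by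
  have hY : ∀ i, T.src (P.e i) ∈ {v | v ∈ (Set.univ : Set V) ∧ s v = κ} := fun i => ⟨Set.mem_univ _, hκ i⟩
  have hw := pvdq_cyc_walk P hY i (j - i)
  rw [Nat.add_sub_cancel' hij] at hw
  exact pvdq_path_cr hT h hi (hY i) hw hj

end one

/-! ## 2. the model-free core -/

section core

variable {V V' D D' : Type} {T : PvMap V D} {T' : PvMap V' D'} {G : Set D} {G' : Set D'} {r : D → D' → Prop} {rv : V → V' → Prop} {s : V → Bool} {s' : V' → Bool}

/-- pull back of a cycle of `T'` whose left side lies in `G'` -/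
theorem pvdq_pull (I : PvdqIso T T' G G' r rv) (hT' : T'.IsSph) (c' : T'.Cyc) (hG : c'.Left ⊆ G') : ∃ c : T.Cyc, PvdqCyc r c c' := by
  obtain ⟨c, hc⟩ := pvdq_cyc I.symm c' fun i => Or.inl (hG ((pl_jordan hT' c').2.1 i))
  exact ⟨c, hc.symm⟩

/-- a visit to the open disc -/
theorem pvdq_visit (I : PvdqIso T T' G G' r rv) (hT : T.IsSph) {c : T.Cyc} {c' : T'.Cyc} (hc : PvdqCyc r c c') (hG : c'.Left ⊆ G') {d : D} {e : D'} (h : r d e)
    (hv : T'.src e ∈ T'.Int c'.Left) : T.src d ∈ T.Int c.Left :=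
  pvdq_int I.symm hT hG (pvdq_left I.symm hc.symm hG) h hv

/-- a vertex off the closed disc -/
theorem pvdq_far (I : PvdqIso T T' G G' r rv) {c : T.Cyc} {c' : T'.Cyc} (hc : PvdqCyc r c c') (hG : c'.Left ⊆ G') {v : V}
    (hv : ∀ w, rv v w → w ∉ T'.VOf c'.Left) : v ∉ T.VOf c.Left := by
  intro h
  obtain ⟨w, hw, hvw⟩ := pvdq_vof I.symm hc.symm hG h
  exact hv w hvw hw

theorem pvdq_far_int (hT : T.IsSph) {c : T.Cyc} {v : V} (hv : v ∉ T.VOf c.Left) : v ∈ T.Int c.Right := by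
  intro d hd
  rw [(pl_jordan hT c).1]
  exact fun h => hv ⟨d, h, hd⟩

/-- **NEAR RETURN IN THE MODEL ⟹ CONFIG6 IN THE PLANE** -/
theorem pvdq_nr (I : PvdqIso T T' G G' r rv) (hT : T.IsSph) (hT' : T'.IsSph) (hc : ∀ v w, rv v w → s v = s' w) {c0 cm c1 c2 c3 : T'.Cyc} (hG : c0.Left ⊆ G') (hfin : c0.Left.Finite)
    (h12 : c1.Inside c2) (h23 : c2.Inside c3) (h3m : c3.Inside cm) (hm0 : cm.Inside c0)
    {P : T.Cyc} (hP : PvnrRim T s P) {i₀ i₁ i₂ i₃ : ℕ} (l01 : i₀ < i₁) (l12 : i₁ < i₂) (l23 : i₂ < i₃) (l30 : i₃ < i₀ + P.n)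
    (hv0 : ∃ e, r (P.e i₀) e ∧ T'.src e ∈ T'.Int c1.Left) (hv2 : ∃ e, r (P.e i₂) e ∧ T'.src e ∈ T'.Int c1.Left)
    (hv1 : ∀ w, rv (T.src (P.e i₁)) w → w ∉ T'.VOf c0.Left) (hv3 : ∀ w, rv (T.src (P.e i₃)) w → w ∉ T'.VOf c0.Left) :
    (∃ x x2 x4 n1 n2 n4, PvatCfg T' c0 c1 c2 s' x x2 x4 n1 n2 n4 ∧
      PvaxCr T' c3 cm (pvatLay T' s' x n1 ∪ pvatLay T' (pvasNot s') x2 n2 ∪ pvatLay T' (pvasNot s') x4 n4)ᶜ true s') ∨
    (∃ x x2 x4 n1 n2 n4, PvatCfg T' c0 c1 c2 (pvasNot s') x x2 x4 n1 n2 n4 ∧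
      PvaxCr T' c3 cm (pvatLay T' (pvasNot s') x n1 ∪ pvatLay T' (pvasNot (pvasNot s')) x2 n2 ∪ pvatLay T' (pvasNot (pvasNot s')) x4 n4)ᶜ true (pvasNot s')) := by
  have hGm : cm.Left ⊆ G' := hm0.2.trans hG
  have hG3 : c3.Left ⊆ G' := h3m.2.trans hGm
  have hG2 : c2.Left ⊆ G' := h23.2.trans hG3
  have hG1 : c1.Left ⊆ G' := h12.2.trans hG2
  obtain ⟨d0, k0⟩ := pvdq_pull I hT' c0 hG
  obtain ⟨dm, km⟩ := pvdq_pull I hT' cm hGm
  obtain ⟨d1, k1⟩ := pvdq_pull I hT' c1 hG1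
  obtain ⟨d2, k2⟩ := pvdq_pull I hT' c2 hG2
  obtain ⟨d3, k3⟩ := pvdq_pull I hT' c3 hG3
  have J := I.symm
  have g12 : d1.Inside d2 := pvdq_inside J hT k1.symm k2.symm hG2 h12
  have g23 : d2.Inside d3 := pvdq_inside J hT k2.symm k3.symm hG3 h23
  have g3m : d3.Inside dm := pvdq_inside J hT k3.symm km.symm hGm h3m
  have gm0 : dm.Inside d0 := pvdq_inside J hT km.symm k0.symm hG hm0
  have gfin : d0.Left.Finite := pvdq_left_fin J k0.symm hG hfin
  have s0 : d0.Left ⊆ G := pvdq_left_sub J k0.symm hG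
  have sm : dm.Left ⊆ G := pvdq_left_sub J km.symm hGm
  have s1 : d1.Left ⊆ G := pvdq_left_sub J k1.symm hG1
  have s2 : d2.Left ⊆ G := pvdq_left_sub J k2.symm hG2
  have s3 : d3.Left ⊆ G := pvdq_left_sub J k3.symm hG3
  obtain ⟨e0, r0, w0⟩ := hv0
  obtain ⟨e2, r2, w2⟩ := hv2
  rcases pvnr_cfg6_rim hT gfin g12 g23 g3m gm0 hP l01 l12 l23 l30 (pvdq_visit I hT k1 hG1 r0 w0) (pvdq_visit I hT k1 hG1 r2 w2)
    (pvdq_far_int hT (pvdq_far I k0 hG hv1)) (pvdq_far_int hT (pvdq_far I k0 hG hv3)) with h | h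
  · exact Or.inl (pvdq_cfg6 I hc k0 km k1 k2 k3 s0 sm s1 s2 s3 h)
  · exact Or.inr (pvdq_cfg6 I (pvdq_not hc) k0 km k1 k2 k3 s0 sm s1 s2 s3 h)

/-- **THE OUTER ARM** -/
theorem pvdq_out (I : PvdqIso T T' G G' r rv) (hT : T.IsSph) (hT' : T'.IsSph) (hc : ∀ v w, rv v w → s v = s' w) {a o : T'.Cyc} (hG : o.Left ⊆ G') (hao : a.Inside o)
    {κ : Bool} {P : T.Cyc} (hκ : ∀ i, s (T.src (P.e i)) = κ) {i j : ℕ} (hij : i ≤ j)
    (hi : ∃ e, r (P.e i) e ∧ T'.src e ∈ T'.Int a.Left) (hj : ∀ w, rv (T.src (P.e j)) w → w ∉ T'.VOf o.Left) : PvaxCr T' a o Set.univ κ s' := by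
  have hGa : a.Left ⊆ G' := hao.2.trans hG
  obtain ⟨da, ka⟩ := pvdq_pull I hT' a hGa
  obtain ⟨dz, ko⟩ := pvdq_pull I hT' o hG
  have J := I.symm
  obtain ⟨e, re, we⟩ := hi
  have h1 : T.src (P.e i) ∈ T.VOf da.Left := by
    rw [pl_VOf_left hT da]
    exact Or.inr (pvdq_visit I hT ka hGa re we)
  have h2 := pvdq_cyc_cr hT (pvdq_inside J hT ka.symm ko.symm hG hao) P hκ hij h1 (pvdq_far I ko hG hj)
  exact pvdq_cr I hc ka ko (pvdq_left_sub J ka.symm hGa) (pvdq_left_sub J ko.symm hG) (fun _ _ _ _ => Set.mem_univ _) h2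

end core

/-! ## 3. the instance: a local model and the Delaunay plane -/

section loc

variable {Y K : Set ℂ} {V D : Type}

/-- the dart `d` of the model and the plane dart `e` have the same end points -/
def pvdqRel (T : PvMap V D) (lab : V → Option ℂ) (h : DelGood Y) (d : D) (e : (delPl h).Dart) : Prop :=
  lab (T.src d) = some ((delPl h).toMap.src e : ℂ) ∧ lab (T.tgt d) = some ((delPl h).toMap.tgt e : ℂ)

/-- the darts of the model over the star of `K` -/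
def pvdqLG (T : PvMap V D) (lab : V → Option ℂ) (h : DelGood Y) (K : Set ℂ) : Set D := {d | ∃ e ∈ delbStar h K, pvdqRel T lab h d e}

/-- a vertex of the model and the site which is its name -/
def pvdqLv (lab : V → Option ℂ) (v : V) (w : Y) : Prop := lab v = some (w : ℂ)

theorem pvdq_eqns_cite3 : True := by
  have := @pvdqRel.eq_1
  have := @pvdqLG.eq_1
  have := @pvdqLv.eq_1
  trivial

variable {T : PvMap V D} {lab : V → Option ℂ} {h : DelGood Y}

theorem pvdq_rel_fn {d : D} {e e' : (delPl h).Dart} (h1 : pvdqRel T lab h d e) (h2 : pvdqRel T lab h d e') : e = e' :=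
  delb_P_ext (Option.some.inj (h1.1.symm.trans h2.1)) (Option.some.inj (h1.2.symm.trans h2.2))

theorem pvdq_rel_inj (hL : ArmtLoc Y K T lab) {d d' : D} {e : (delPl h).Dart} (h1 : pvdqRel T lab h d e) (h2 : pvdqRel T lab h d' e) : d = d' :=
  hL.simple d d' (hL.inj _ _ _ h1.1 h2.1) (hL.inj _ _ _ h1.2 h2.2)

theorem pvdq_rel_opp {d : D} {e : (delPl h).Dart} (h1 : pvdqRel T lab h d e) : pvdqRel T lab h (T.opp d) ((delPl h).toMap.opp e) := by
  refine ⟨?_, ?_⟩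
  · rw [PvMap.src_opp', PvMap.src_opp']; exact h1.2
  · rw [PvMap.tgt_opp, PvMap.tgt_opp]; exact h1.1

/-- ONTO, with the label of the apex -/
theorem pvdq_rel_onto (hL : ArmtLoc Y K T lab) {e : (delPl h).Dart} (he : e ∈ delbStar h K) :
    ∃ d, pvdqRel T lab h d e ∧ lab (T.apex d) = some ((delPl h).toMap.apex e : ℂ) := by
  have ht := delb_plane_tri e
  rcases he with he | he | he
  · obtain ⟨d, k1, k2, k3⟩ := hL.face _ _ _ ht he
    exact ⟨d, ⟨k1, k2⟩, k3⟩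
  · obtain ⟨d, k1, k2, k3⟩ := hL.face _ _ _ (del_tri_cyc ht) he
    refine ⟨T.nxt (T.nxt d), ⟨?_, ?_⟩, ?_⟩
    · rw [PvMap.src_nxt2]; exact k3
    · rw [PvMap.tgt_nxt2]; exact k1
    · rw [PvMap.apex_nxt2]; exact k2
  · obtain ⟨d, k1, k2, k3⟩ := hL.face _ _ _ (del_tri_cyc (del_tri_cyc ht)) he
    refine ⟨T.nxt d, ⟨?_, ?_⟩, ?_⟩
    · rw [PvMap.src_nxt]; exact k2
    · rw [PvMap.tgt_nxt]; exact k3
    · rw [PvMap.apex_nxt]; exact k1

theorem pvdq_rel_nxt (hL : ArmtLoc Y K T lab) {d : D} {e : (delPl h).Dart} (h1 : pvdqRel T lab h d e) (he : e ∈ delbStar h K) :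
    pvdqRel T lab h (T.nxt d) ((delPl h).toMap.nxt e) := by
  obtain ⟨d', h2, h3⟩ := pvdq_rel_onto hL he
  rw [pvdq_rel_inj hL h2 h1] at h3
  refine ⟨?_, ?_⟩
  · rw [PvMap.src_nxt, PvMap.src_nxt]; exact h1.2
  · rw [PvMap.tgt_nxt, PvMap.tgt_nxt]; exact h3

theorem pvdq_LG_nxt (hL : ArmtLoc Y K T lab) {d : D} (hd : d ∈ pvdqLG T lab h K) : T.nxt d ∈ pvdqLG T lab h K := by
  obtain ⟨e, he, hr⟩ := hd
  exact ⟨_, delb_star_nxt.2 he, pvdq_rel_nxt hL hr he⟩

/-- **THE INSTANCE** -/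
theorem pvdq_loc (hL : ArmtLoc Y K T lab) (h : DelGood Y) : PvdqIso T (delMap h) (pvdqLG T lab h K) (delbStar h K) (pvdqRel T lab h) (pvdqLv lab) where
  fn := fun h1 h2 => pvdq_rel_fn h1 h2
  inj := fun h1 h2 => pvdq_rel_inj hL h1 h2
  vfn := fun {v w w'} h1 h2 => Subtype.ext (Option.some.inj ((show lab v = some (w : ℂ) from h1).symm.trans h2))
  vinj := fun {v v' w} h1 h2 => hL.inj _ _ _ h1 h2
  src := fun h1 => h1.1
  opp := fun h1 => pvdq_rel_opp h1
  nxt := fun {d e} h1 hd => by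
    obtain ⟨e', he', hr⟩ := hd
    rw [pvdq_rel_fn hr h1] at he'
    exact pvdq_rel_nxt hL h1 he'
  mem := fun {d e} h1 => ⟨fun ⟨e', he', hr⟩ => by rwa [pvdq_rel_fn hr h1] at he', fun he => ⟨e, he, h1⟩⟩
  tot := fun ⟨e, _, hr⟩ => ⟨e, hr⟩
  tot' := fun he => (pvdq_rel_onto hL he).imp fun _ hd => hd.1
  fs := fun d => ⟨fun hd => by
    have := pvdq_LG_nxt hL (pvdq_LG_nxt hL hd)
    rwa [T.nxt3] at this, pvdq_LG_nxt hL⟩
  fs' := delb_star_faceSet

/-- a dart of the model which starts at a site of `K` has a plane twin which starts at this site -/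
theorem pvdq_loc_src (hL : ArmtLoc Y K T lab) (h : DelGood Y) {d : D} {a : ℂ} (ha : lab (T.src d) = some a) (haK : a ∈ K) :
    ∃ e : (delPl h).Dart, pvdqRel T lab h d e ∧ ((delPl h).toMap.src e : ℂ) = a := by
  obtain ⟨b, c, k2, -, ht⟩ := hL.del d a ha haK
  exact ⟨delbP h ht.adj, ⟨ha, k2⟩, rfl⟩

end loc

/-! ## 4. chains of the record `ArmtGeo` -/

section geo

variable {V D : Type} [DecidableEq V] {T : PvMap V D} {ι : Type} {q : ℝ} {m m' Cl : ℕ}

theorem pvdq_geo_g (hT : T.IsSph) (G : ArmtGeo T ι q m m' Cl) (b : ι) (i j : ℕ) (hj : i + j + 1 ≤ 7 + 2 * m) : (G.γ b i).Inside (G.γ b (i + j + 1)) := by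
  induction j with
  | zero => exact (G.γ_blk b i (by omega)).1
  | succ j ih => exact pvat_inside_trans hT (ih (by omega)) (G.γ_blk b (i + j + 1) (by omega)).1

theorem pvdq_geo_gd (hT : T.IsSph) (G : ArmtGeo T ι q m m' Cl) (b : ι) : (G.γ b 6).Inside (G.δ 0) := by
  have h := pvdq_geo_g hT G b 6 (2 * m) (by omega)
  rw [show 6 + 2 * m + 1 = 7 + 2 * m by omega] at h
  exact pvat_inside_trans hT h (G.γ_top b)

end geo

/-! ## 5. the contract `armt_nr_cfg` -/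

open Classical in
/-- **NEAR RETURN IN SOME MODEL ⟹ CONFIG6 + OUTER ARM IN THE PLANE MODEL** (= `armt_nr_cfg` of `Arm/Top`, verbatim) -/
theorem pvdq_nr_cfg {Y : Set ℂ} (h : DelGood Y) (σ : ℂ → Bool) {ι : Type} {q : ℝ} {m m' Cl : ℕ} (G : ArmtGeo (delMap h) ι q m m' Cl) {ζ : ι → ℂ} {s S R : ℝ}
    (hG : G.At (dlsPos Y) ζ s S R) (hs : 0 < s) (hsS : s ≤ S) (hSR : S ≤ R) (b : ι) (hN : ArmtNR Y σ (ζ b) s S R) :
    (G.Cfg6 b (fun v => σ v) ∨ G.Cfg6 b (pvasNot fun v => σ v)) ∧ G.Out (fun v => σ v) := by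
  refine ⟨?_, pvao_out h σ G hG hs hsS hSR b hN⟩
  obtain ⟨V', D', T', lab, col, hL, hcol, P, hP, k, i, k', i', l1, l2, l3, l4, hk, hk', hi, hi'⟩ := hN
  have I := pvdq_loc hL h
  have hT := dls_isSph h
  have hstar : (G.δ 1).Left ⊆ delbStar h (Metric.closedBall (ζ b) (4 * R)) := by
    intro d hd
    refine Or.inl ?_
    have h1 := hG.mid b _ ⟨d, hd, rfl⟩
    rw [Metric.mem_closedBall, dist_eq_norm]
    have h2 : ‖dlsPos Y ((delMap h).src d) - ζ b‖ = ‖(((delPl h).toMap.src d : Y) : ℂ) - ζ b‖ := rfl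
    rw [h2] at h1
    linarith
  have hvis : ∀ j, ArmtNear lab (ζ b) s (T'.src (P.e j)) → ∃ e, pvdqRel T' lab h (P.e j) e ∧ (delMap h).src e ∈ (delMap h).Int (G.γ b 0).Left := by
    rintro j ⟨p, hp, hps⟩
    obtain ⟨e, he, hep⟩ := pvdq_loc_src hL h hp (by rw [Metric.mem_closedBall, dist_eq_norm]; linarith)
    refine ⟨e, he, hG.inn b _ ?_⟩
    have h2 : ‖dlsPos Y ((delMap h).src e) - ζ b‖ = ‖(((delPl h).toMap.src e : Y) : ℂ) - ζ b‖ := rfl
    rw [h2, hep]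
    exact hps
  have hfar : ∀ j ρ, S ≤ ρ → ArmtFar lab (ζ b) ρ (T'.src (P.e j)) → ∀ w, pvdqLv lab (T'.src (P.e j)) w → w ∉ (delMap h).VOf (G.δ 1).Left := by
    intro j ρ hρ hj w hw hmem
    have h1 := hG.mid b w hmem
    have h2 := hj _ hw
    have h3 : ‖dlsPos Y w - ζ b‖ = ‖(w : ℂ) - ζ b‖ := rfl
    rw [h3] at h1
    linarith
  exact pvdq_nr I hL.sph hT (fun v w hvw => hcol v _ hvw) hstar (G.fin 1) (pvdq_geo_g hT G b 0 2 (by omega)) (pvdq_geo_g hT G b 3 2 (by omega)) (pvdq_geo_gd hT G b)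
    (G.δ_blk 0 (by omega)).1 (pvnr_of_isRim hP) l1 l2 l3 l4 (hvis k hk) (hvis k' hk') (hfar i S le_rfl hi) (hfar i' (2 * R) (by linarith) hi')

end Claimed.Agent.R289
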