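import Claimed.Agent.R289.Arm.BxpPv
import Claimed.Agent.R289.Exit.Qbx
import Claimed.Agent.R289.PppCnt
import Claimed.Agent.R289.Ppp.Ind

/-!
# Row 289 (S0537, Cardy for Poisson-Voronoi), box ARM, file Arm/FrameLoc : THE FAILURE OF THE FRAME IS A LOCAL EVENT OF SMALL PROBABILITY      (owner helper196; prefix `pvay_`, `pvay`, `Pvay`)

WHY.   `pvax_frame` (`Arm/BxpPv`) says `P(not PvaxFrame q Z Rs) → 0`, as an OUTER probability of a set of samples.      The Peierls count of the wall (`pvtd_dense_main`, 101, `Tr/Dense`) wants its static BAD block as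
ONE event `B : Set (Conf PvPt)` READ FROM A WINDOW (`Conf.ReadsSet`), with `pvP ε B` small.      `PvaxFrame` speaks of the Delaunay triangulation of the WHOLE plane and of quenched probabilities: it is not visibly local, not visibly measurable.
This file produces the local bad event.      Consumers: A6 (281, STATIC BAD block), PINS (roof 12), 101.

ROAD.
* sec. 1  `pvayQ F 𝒜` = THE LABEL-FREE QUENCHED PROBABILITY: fair colours `σ : ℂ → Bool`, event `cfOf F σ ∈ 𝒜`.      Monotone, subadditive, invariant under the flip of the colours; if `𝒜` is read in `O` only `F ∩ O` matters (`pvay_Q_loc`).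
* sec. 2  `pvay_Q_idx`: relabelling.   For a finite `F` and ANY injective labelling `idx` of `F` by a type `I`, the colours may be drawn on `I`.      `pvay_Qc_eq`: `pvQc 𝒜 g = pvayQ (pvgSites g ∩ O) 𝒜` at a good labelled geometry.
* sec. 3  `pvay_fun`: A MEASURABLE FUNCTION OF THE CONFIGURATION which is `pvayQ (cfSites η ∩ O) 𝒜` at every configuration with finitely many points in the window and one colour per site (measurable enumeration `pvcn_enum` of 261 + Fubini).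
* sec. 4  `pvay_bad`: for a measurable `𝒜` read in a bounded `O` and a Borel set `T` of values: a MEASURABLE event `B` read in `O` with `pvP ε B ≤ pvGeo ε {g | pvQc 𝒜 g ∈ T}`, off which `pvayQ (cfSites η) 𝒜 ∉ T`.
* sec. 5  `pvay_quenched`: the quenched step of `Arm/BxpPv` for an arbitrary good site set, from `pvayQ`.
* sec. 6  the two geometry limits of QBX for the WINDOWED blocking event `pvqxBlk` of 298 and the grid event `pvqcG` of 167.
* sec. 7  `pvay_pair` (one centre, one radius), **`pvay_frame_loc`** = THE EXIT.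
-/

set_option autoImplicit false
set_option linter.unusedSectionVars false
set_option linter.unusedVariables false

namespace Claimed.Agent.R289

open Relation MeasureTheory Filter Topology Set Claims.C0465
open scoped ENNReal

/-! ## 1. the label-free quenched probability -/

/-- **the quenched probability of the event `𝒜` at the site set `F`**: the colours of all the points of the plane are fair independent bits, the configuration is `F` with these colours -/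
noncomputable def pvayQ (F : Set ℂ) (𝒜 : Set (Conf PvPt)) : ℝ≥0∞ := colLaw ℂ {σ | cfOf F σ ∈ 𝒜}

theorem pvay_eqns_cite : True := by
  have := @pvayQ.eq_1
  trivial

theorem pvay_of_congr {F : Set ℂ} {σ σ' : ℂ → Bool} (h : ∀ z ∈ F, σ z = σ' z) : cfOf F σ = cfOf F σ' := by
  ext p
  simp only [cfOf, mem_ofPred_eq]
  constructor
  · rintro ⟨h1, h2⟩
    exact ⟨h1, h2.trans (h _ h1)⟩
  · rintro ⟨h1, h2⟩
    exact ⟨h1, h2.trans (h _ h1).symm⟩

theorem pvay_of_restr (Y O : Set ℂ) (σ : ℂ → Bool) : Conf.restr (O ×ˢ (univ : Set Bool)) (cfOf Y σ) = cfOf (Y ∩ O) σ := by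
  ext p
  simp only [Conf.restr, cfOf, mem_inter_iff, mem_ofPred_eq, mem_prod, mem_univ, and_true]
  tauto

theorem pvay_Q_le_one (F : Set ℂ) (𝒜 : Set (Conf PvPt)) : pvayQ F 𝒜 ≤ 1 := prob_le_one

theorem pvay_Q_mono (F : Set ℂ) {𝒜 ℬ : Set (Conf PvPt)} (h : 𝒜 ⊆ ℬ) : pvayQ F 𝒜 ≤ pvayQ F ℬ := measure_mono fun _ hσ => h hσ

theorem pvay_Q_union_le (F : Set ℂ) (𝒜 ℬ : Set (Conf PvPt)) : pvayQ F (𝒜 ∪ ℬ) ≤ pvayQ F 𝒜 + pvayQ F ℬ := measure_union_le _ _

/-- an event read in `O` sees the sites of `O` only -/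
theorem pvay_Q_loc {O : Set ℂ} {𝒜 : Set (Conf PvPt)} (h : Conf.ReadsSet (O ×ˢ (univ : Set Bool)) 𝒜) (Y : Set ℂ) : pvayQ (Y ∩ O) 𝒜 = pvayQ Y 𝒜 := by
  unfold pvayQ
  congr 1
  ext σ
  simp only [mem_ofPred_eq]
  rw [← pvay_of_restr]
  exact h _

theorem pvay_flip_of (Y : Set ℂ) (σ : ℂ → Bool) : cfFlip (cfOf Y σ) = cfOf Y (pvfFlip univ σ) := by
  ext p
  obtain ⟨z, b⟩ := p
  simp only [cfFlip, Conf.image, cfOf, mem_image, mem_ofPred_eq, Prod.exists, Prod.map_apply, id_eq, Prod.mk.injEq, pvfFlip, mem_univ, if_true]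
  constructor
  · rintro ⟨a, b', ⟨h1, h2⟩, rfl, rfl⟩
    exact ⟨h1, by rw [h2]⟩
  · rintro ⟨h1, h2⟩
    exact ⟨z, σ z, ⟨h1, rfl⟩, rfl, h2.symm⟩

/-- the flip of all the colours -/
theorem pvay_Q_flip (F : Set ℂ) (𝒜 : Set (Conf PvPt)) : pvayQ F (cfFlip ⁻¹' 𝒜) = pvayQ F 𝒜 := by
  unfold pvayQ
  rw [← pvf_colLaw_flip_preimage univ {σ | cfOf F σ ∈ 𝒜}]
  congr 1
  ext σ
  simp only [mem_ofPred_eq, mem_preimage, pvay_flip_of]

/-! ## 2. relabelling -/

/-- **RELABELLING**: the colours of a finite set of sites may be drawn on any set of labels -/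
theorem pvay_Q_idx {I : Type} {F : Set ℂ} (hF : F.Finite) (idx : ℂ → I) (hi : InjOn idx F) (𝒜 : Set (Conf PvPt)) :
    colLaw I {c | cfOf F (fun z => c (idx z)) ∈ 𝒜} = pvayQ F 𝒜 := by
  classical
  have key : ∀ (J : Type) (jd : ℂ → J), InjOn jd F →
      colLaw J {c | cfOf F (fun z => c (jd z)) ∈ 𝒜} = colLaw ↥F {x | cfOf F (fun z => if h : z ∈ F then x ⟨z, h⟩ else false) ∈ 𝒜} := by
    intro J jd hj
    have hfin : Finite ↥F := hF.to_subtype
    let e : ↥F → J := fun v => jd v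
    have he : Function.Injective e := fun v w hvw => Subtype.ext (hj v.2 w.2 hvw)
    have hm : Measurable (fun s : J → Bool => s ∘ e) := measurable_pi_lambda _ fun v => measurable_pi_apply (e v)
    rw [← pvf_colLaw_comp e he, Measure.map_apply hm (Set.toFinite _).measurableSet]
    congr 1
    ext c
    simp only [mem_ofPred_eq, mem_preimage]
    rw [pvay_of_congr (σ := fun z => c (jd z)) (σ' := fun z => if h : z ∈ F then (c ∘ e) ⟨z, h⟩ else false)]
    intro z hz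
    simp [hz, e]
  rw [key I idx hi]
  exact (key ℂ id (injOn_id F)).symm

/-- **the quenched probability of 261 is label free**: at a good labelled geometry, for an event read in a bounded window -/
theorem pvay_Qc_eq {O : Set ℂ} (hO : Bornology.IsBounded O) {𝒜 : Set (Conf PvPt)} (h : Conf.ReadsSet (O ×ˢ (univ : Set Bool)) 𝒜) {g : PvGeoT} (hg : PvgOk g) :
    pvQc 𝒜 g = pvayQ (pvgSites g ∩ O) 𝒜 := by
  rw [← pvay_Q_idx (hg.sites_finite hO) (pvgIdx g) ((pvqu_idx_injOn g).mono inter_subset_left), pvqu_Qc_eq]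
  show colLaw PvIx _ = _
  congr 1
  ext c
  simp only [mem_ofPred_eq]
  rw [hg.conf_eq c, ← h, pvay_of_restr]
  rfl

/-! ## 3. a measurable function of the configuration -/

/-- what the window of a configuration has to satisfy: finitely many points, one colour per site -/
def PvayWin (O : Set ℂ) (η : Conf PvPt) : Prop := (η.pts ∩ O ×ˢ (univ : Set Bool)).Finite ∧ ∀ p ∈ η.pts, ∀ q ∈ η.pts, p.1 = q.1 → p = q

theorem pvay_eqns_cite2 : True := by
  have := @PvayWin.eq_1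
  trivial

theorem pvay_sites_restr (O : Set ℂ) (η : Conf PvPt) : cfSites (Conf.restr (O ×ˢ (univ : Set Bool)) η) = cfSites η ∩ O := by
  ext z
  simp only [cfSites, Conf.restr, mem_image, mem_inter_iff, mem_prod, mem_univ, and_true, Prod.exists, exists_and_right, exists_eq_right]

theorem PvayWin.restr {O : Set ℂ} {η : Conf PvPt} (h : PvayWin O η) : PvayWin O (Conf.restr (O ×ˢ (univ : Set Bool)) η) :=
  ⟨h.1.subset fun p hp => ⟨hp.1.1, hp.2⟩, fun p hp q hq => h.2 p hp.1 q hq.1⟩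

/-- a good configuration has a good window -/
theorem pvay_win_of_ok {η : Conf PvPt} (h : CfOK η) {O : Set ℂ} (hO : Bornology.IsBounded O) : PvayWin O η := by
  refine ⟨?_, h.col⟩
  obtain ⟨R, hR⟩ := hO.subset_closedBall (0 : ℂ)
  refine ((h.del.lf R).prod (finite_univ : (univ : Set Bool).Finite)).subset ?_
  rintro p ⟨hp, hpO⟩
  exact ⟨⟨⟨p, hp, rfl⟩, hR hpO.1⟩, mem_univ _⟩

/-- **THE MEASURABLE VERSION OF THE QUENCHED PROBABILITY** -/
theorem pvay_fun {O : Set ℂ} (hOm : MeasurableSet O) {𝒜 : Set (Conf PvPt)} (hA : MeasurableSet 𝒜) :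
    ∃ f : Conf PvPt → ℝ≥0∞, Measurable f ∧ ∀ η, PvayWin O η → f η = pvayQ (cfSites η ∩ O) 𝒜 := by
  classical
  have hN : MeasurableSet (O ×ˢ (univ : Set Bool)) := hOm.prod MeasurableSet.univ
  obtain ⟨X, hXm, hX⟩ := pvcn_enum hN
  let Φ : Conf PvPt × (ℕ → Bool) → Conf PvPt := fun x => Conf.cell ((x.1.pts ∩ O ×ˢ (univ : Set Bool)).ncard, fun j => ((X x.1 j).1, x.2 j))
  have hΦ : Measurable Φ := by
    refine Conf.measurable_cell.comp (Measurable.prodMk ((pvcn_ncard hN).comp measurable_fst) (measurable_pi_lambda _ fun j => ?_))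
    exact Measurable.prodMk (measurable_fst.comp ((measurable_pi_apply j).comp (hXm.comp measurable_fst))) ((measurable_pi_apply j).comp measurable_snd)
  refine ⟨fun η => colLaw ℕ (Prod.mk η ⁻¹' (Φ ⁻¹' 𝒜)), measurable_measure_prodMk_left (hΦ hA), fun η hη => ?_⟩
  set n : ℕ := (η.pts ∩ O ×ˢ (univ : Set Bool)).ncard with hn
  have hS : η.pts ∩ O ×ˢ (univ : Set Bool) = ↑((Finset.range n).image (X η)) := by
    have h1 := congrArg Conf.pts (hX η hη.1)
    simp only [Conf.restr, Conf.cell] at h1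
    rw [h1]
    ext p
    simp only [mem_ofPred_eq, Finset.coe_image, Finset.coe_range, mem_image, mem_Iio]
    exact ⟨fun ⟨j, hj, e⟩ => ⟨j, hj, e.symm⟩, fun ⟨j, hj, e⟩ => ⟨j, hj, e.symm⟩⟩
  have hinj : InjOn (X η) (Finset.range n) := by
    refine Finset.card_image_iff.1 ?_
    rw [Finset.card_range, ← ncard_coe_finset, ← hS]
  have hmem : ∀ j < n, X η j ∈ η.pts ∩ O ×ˢ (univ : Set Bool) := by
    intro j hj
    rw [hS]
    exact Finset.mem_coe.2 (Finset.mem_image_of_mem _ (Finset.mem_range.2 hj))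
  have hinj1 : ∀ i < n, ∀ j < n, (X η i).1 = (X η j).1 → i = j := by
    intro i hi j hj hij
    exact hinj (Finset.mem_coe.2 (Finset.mem_range.2 hi)) (Finset.mem_coe.2 (Finset.mem_range.2 hj)) (hη.2 _ (hmem i hi).1 _ (hmem j hj).1 hij)
  have hF : ∀ z, z ∈ cfSites η ∩ O ↔ ∃ j < n, (X η j).1 = z := by
    intro z
    constructor
    · rintro ⟨⟨p, hp, rfl⟩, hz⟩
      have hp' : p ∈ η.pts ∩ O ×ˢ (univ : Set Bool) := ⟨hp, hz, mem_univ _⟩
      rw [hS] at hp'
      obtain ⟨j, hj, e⟩ := Finset.mem_image.1 (Finset.mem_coe.1 hp')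
      exact ⟨j, Finset.mem_range.1 hj, by rw [e]⟩
    · rintro ⟨j, hj, rfl⟩
      exact ⟨⟨_, (hmem j hj).1, rfl⟩, (hmem j hj).2.1⟩
  let idx : ℂ → ℕ := fun z => if h : ∃ j < n, (X η j).1 = z then h.choose else 0
  have hidx : ∀ z, z ∈ cfSites η ∩ O → idx z < n ∧ (X η (idx z)).1 = z := by
    intro z hz
    have h := (hF z).1 hz
    simp only [idx, dif_pos h]
    exact h.choose_spec
  have hidx' : ∀ j < n, idx (X η j).1 = j := by
    intro j hj
    have h := hidx _ ((hF _).2 ⟨j, hj, rfl⟩)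
    exact hinj1 _ h.1 _ hj h.2
  have hfin : (cfSites η ∩ O).Finite := by
    refine ((Finset.range n).image fun j => (X η j).1).finite_toSet.subset fun z hz => ?_
    obtain ⟨j, hj, e⟩ := (hF z).1 hz
    exact Finset.mem_coe.2 (Finset.mem_image.2 ⟨j, Finset.mem_range.2 hj, e⟩)
  have hio : InjOn idx (cfSites η ∩ O) := by
    intro z hz w hw hzw
    rw [← (hidx z hz).2, ← (hidx w hw).2, hzw]
  rw [← pvay_Q_idx hfin idx hio]
  show colLaw ℕ (Prod.mk η ⁻¹' (Φ ⁻¹' 𝒜)) = _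
  congr 1
  ext c
  simp only [mem_preimage, mem_ofPred_eq]
  have e : Φ (η, c) = cfOf (cfSites η ∩ O) (fun z => c (idx z)) := by
    ext p
    simp only [Φ, Conf.cell, cfOf, mem_ofPred_eq]
    constructor
    · rintro ⟨j, hj, rfl⟩
      exact ⟨(hF _).2 ⟨j, hj, rfl⟩, by rw [hidx' j hj]⟩
    · rintro ⟨h1, h2⟩
      exact ⟨idx p.1, (hidx _ h1).1, Prod.ext (hidx _ h1).2.symm h2⟩
  rw [e]

/-! ## 4. the local bad event of a quenched probability -/

/-- **THE LOCAL BAD EVENT**: `𝒜` measurable, read in the bounded window `O`; `T` a Borel set of values.      The event "the quenched probability of `𝒜` lies in `T`" has a version which is measurable, read in `O`,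
no more probable than the set of the labelled geometries `g` with `pvQc 𝒜 g ∈ T`. -/
theorem pvay_bad {O : Set ℂ} (hOm : MeasurableSet O) (hO : Bornology.IsBounded O) {𝒜 : Set (Conf PvPt)} (hA : MeasurableSet 𝒜)
    (hr : Conf.ReadsSet (O ×ˢ (univ : Set Bool)) 𝒜) {T : Set ℝ≥0∞} (hT : MeasurableSet T) :
    ∃ B : Set (Conf PvPt), MeasurableSet B ∧ Conf.ReadsSet (O ×ˢ (univ : Set Bool)) B ∧ (∀ ε : ℝ, 0 < ε → pvP ε B ≤ pvGeo ε {g | pvQc 𝒜 g ∈ T}) ∧
      ∀ η, CfOK η → η ∉ B → pvayQ (cfSites η) 𝒜 ∉ T := by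
  obtain ⟨f, hf, hfe⟩ := pvay_fun hOm hA
  have hN : MeasurableSet (O ×ˢ (univ : Set Bool)) := hOm.prod MeasurableSet.univ
  have key : ∀ η, CfOK η → f (Conf.restr (O ×ˢ (univ : Set Bool)) η) = pvayQ (cfSites η) 𝒜 := by
    intro η hη
    rw [hfe _ (pvay_win_of_ok hη hO).restr, pvay_sites_restr, inter_assoc, inter_self, pvay_Q_loc hr]
  refine ⟨Conf.restr (O ×ˢ (univ : Set Bool)) ⁻¹' (f ⁻¹' T), Conf.measurable_restr hN (hf hT), Conf.readsSet_preimage _ _, fun ε hε => ?_, fun η hη hB hT' => ?_⟩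
  · unfold pvP
    rw [Measure.map_apply measurable_pvConf (Conf.measurable_restr hN (hf hT)), ← pvax_geo_eq]
    refine measure_mono_ae ?_
    filter_upwards [dls_ae hε, pvqu_ae_geo ε (pvqu_ok_ae ε)] with ω h1 h2 h3
    show pvQc 𝒜 (pvGeoOf ω) ∈ T
    rw [pvay_Qc_eq hO hr h2, pvay_Q_loc hr, ← pvax_sites, ← key _ h1]
    exact h3
  · refine hB ?_
    show f _ ∈ T
    rw [key η hη]
    exact hT'

/-! ## 5. the quenched step at an arbitrary good site set -/

/-- **the quenched step**: at a good site set `Y`, the label-free blocking bound for both colours gives BXP(q)      (`pvax_quenched` without labels) -/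
theorem pvay_quenched {Y : Set ℂ} (hd : DelGood Y) {q : ℝ} {z : ℂ} {u : ℝ} (hu : 0 < u)
    (hq : ∀ b : Bool, ENNReal.ofReal q ≤ pvayQ Y {η | ¬ (rswArm z.re z.im (u / 2) (5 * u / 2)).Holds (pvaxReg b η)}) :
    PvaxBxp (delMap hd) (dlsPos Y) q z (u / 2) (5 * u) := by
  intro c' c hin hfin hc' hc A ξ b hA
  have hT : (delMap hd).IsSph := dls_isSph hd
  have hK := pvax_cr_loc hT hin A hA b
  have h1 := pval_measure hK ξ
  let f : ↥Y → ℂ := Subtype.val
  have hf : Function.Injective f := Subtype.val_injective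
  have hm : Measurable (fun s : ℂ → Bool => s ∘ f) := measurable_pi_lambda _ fun v => measurable_pi_apply (f v)
  have h2 : colLaw ℂ {c₀ | ¬ PvaxCr (delMap hd) c' c Set.univ b (c₀ ∘ f)} = colLaw _ {s | ¬ PvaxCr (delMap hd) c' c Set.univ b s} := by
    rw [← pvf_colLaw_comp f hf, Measure.map_apply hm (pval_loc_measurableSet hK)]
    rfl
  have h3 : {σ : ℂ → Bool | cfOf Y σ ∈ {η | ¬ (rswArm z.re z.im (u / 2) (5 * u / 2)).Holds (pvaxReg b η)}} ⊆
      {c₀ | ¬ PvaxCr (delMap hd) c' c Set.univ b (c₀ ∘ f)} := by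
    intro σ hσ hcr
    apply hσ
    exact pvax_det hd σ hu (pvax_cr_arm hc' hc hcr)
  have h4 : ENNReal.ofReal q ≤ ENNReal.ofReal (pvaP A ξ (fun s => ¬ PvaxCr (delMap hd) c' c Set.univ b s)) := by
    calc ENNReal.ofReal q ≤ pvayQ Y {η | ¬ (rswArm z.re z.im (u / 2) (5 * u / 2)).Holds (pvaxReg b η)} := hq b
      _ ≤ colLaw ℂ {c₀ | ¬ PvaxCr (delMap hd) c' c Set.univ b (c₀ ∘ f)} := measure_mono h3
      _ = _ := by rw [h2, h1]
  exact (ENNReal.ofReal_le_ofReal_iff (pva_P_nonneg _ _ _)).1 h4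

/-! ## 6. the two limits of QBX for the windowed events -/

/-- **QBX, WINDOWED FORM**: the quenched probability of the windowed blocking event of 298 is `≥ c/2`, the quenched probability of the failure of the grid event of 167 is `< c/4`, off geometry events of probability `o(1)` -/
theorem pvay_blk_lim : ∃ c : ℝ, 0 < c ∧ ∀ (z : ℂ) (u : ℝ), 0 < u →
    Tendsto (fun ε : ℝ => pvGeo ε {g | pvQc (pvqxBlk z u) g ∈ Iio (ENNReal.ofReal (c / 2))}) (𝓝[>] 0) (𝓝 0) ∧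
    Tendsto (fun ε : ℝ => pvGeo ε {g | pvQc (pvqcG z u)ᶜ g ∈ Ici (ENNReal.ofReal (c / 4))}) (𝓝[>] 0) (𝓝 0) := by
  obtain ⟨c, hC⟩ := pvqc_C0
  obtain ⟨hc, hC⟩ := hC 0
  have h1 : PvqxS1 := exit_pv_qbx_s1
  refine ⟨c, hc, fun z u hu => ⟨?_, ?_⟩⟩
  · rw [ENNReal.tendsto_nhds_zero]
    intro δ hδ
    obtain ⟨r, hr0, hr1, hr2⟩ := ENNReal.lt_iff_exists_real_btwn.1 hδ
    have hr : 0 < r := ENNReal.ofReal_pos.1 hr1
    obtain ⟨u1, hu1⟩ := h1 (r * c ^ 2 / 4) (by positivity)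
    have ev1 : ∀ᶠ ε : ℝ in 𝓝[>] 0, u1 ≤ u / ε := (pvqx_tendsto_div hu).eventually_ge_atTop u1
    filter_upwards [ev1, self_mem_nhdsWithin] with ε e1 hε
    have hε' : 0 < ε := hε
    have huε : 0 < u / ε := div_pos hu hε'
    have h := pvqx_transfer (pvqc_O_meas 0 (u / ε)) (pvqc_O_fin 0 (u / ε)) (pvqc_blk_meas 0 (u / ε)) hε'.ne' z (pvqx_blk_meas z u)
      (by rw [pvqx_blk_pull hε', pvqx_blk_eq]) hc (by rw [← pvqx_F_eq]; exact hC _ huε)
    rw [← pvqx_F_eq] at h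
    refine le_trans h (le_trans (ENNReal.ofReal_le_ofReal ?_) hr2.le)
    rw [div_le_iff₀ (by positivity)]
    have := hu1 _ e1
    linarith
  · have hb : ∀ ε : ℝ, pvGeo ε {g | pvQc (pvqcG z u)ᶜ g ∈ Ici (ENNReal.ofReal (c / 4))} ≤
        ENNReal.ofReal (8 * 53 ^ 2 * Real.exp (-(u ^ 2 / (512 * ε ^ 2)))) / ENNReal.ofReal (c / 4) := fun ε =>
      (pvqx_markov ε (pvqc_G_meas z u).compl (by positivity)).trans (ENNReal.div_le_div_right (pvqc_G_prob hu (pv_isPpp ε) z) _)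
    have h2 : Tendsto (fun ε : ℝ => ENNReal.ofReal (8 * 53 ^ 2 * Real.exp (-(u ^ 2 / (512 * ε ^ 2))))) (𝓝[>] 0) (𝓝 0) := by
      have := (pvqx_tendsto_exp hu).const_mul (8 * 53 ^ 2 : ℝ)
      rw [mul_zero] at this
      simpa using ENNReal.tendsto_ofReal this
    have h3 := ENNReal.Tendsto.div_const h2 (Or.inr (ENNReal.ofReal_pos.2 (show (0 : ℝ) < c / 4 by positivity)).ne')
    rw [ENNReal.zero_div] at h3
    exact tendsto_of_tendsto_of_tendsto_of_le_of_le tendsto_const_nhds h3 (fun _ => zero_le) hb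

/-! ## 7. the frame -/

theorem pvay_O_ball (z : ℂ) {r : ℝ} (hr : 0 < r) : pvqcO z (5 * r / 2) ⊆ Metric.closedBall z (100 * r) := by
  intro w hw
  rw [Metric.mem_closedBall, dist_eq_norm]
  have h1 := Complex.norm_le_abs_re_add_abs_im (w - z)
  have h2 := hw.1.1
  have h3 := hw.1.2
  simp only [Complex.sub_re, Complex.sub_im] at h1
  linarith

theorem pvay_nbd_ball (z : ℂ) {r : ℝ} (hr : 0 < r) : vorNbd (Metric.closedBall z (r + 3 * (r / 16))) (r / 16) ⊆ Metric.closedBall z (100 * r) := by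
  rintro w ⟨x, hx, hw⟩
  rw [Metric.mem_closedBall, dist_eq_norm] at hx ⊢
  have h1 : ‖w - z‖ ≤ ‖w - x‖ + ‖x - z‖ := by
    have := norm_add_le (w - x) (x - z)
    rwa [sub_add_sub_cancel] at this
  linarith

/-- the blocking bound from the two windowed bounds, both colours -/
theorem pvay_blk_both {Y : Set ℂ} {c : ℝ} (hc : 0 < c) {z : ℂ} {u : ℝ} (hu : 0 < u) (h1 : pvayQ Y (pvqxBlk z u) ∉ Iio (ENNReal.ofReal (c / 2)))
    (h2 : pvayQ Y (pvqcG z u)ᶜ ∉ Ici (ENNReal.ofReal (c / 4))) (b : Bool) :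
    ENNReal.ofReal (c / 4) ≤ pvayQ Y {η | ¬ (rswArm z.re z.im (u / 2) (5 * u / 2)).Holds (pvaxReg b η)} := by
  have hB : ENNReal.ofReal (c / 4) ≤ pvayQ Y {η | PvqcBlk z u η} := by
    by_contra hcon
    have hg : pvayQ Y {η | PvqcBlk z u η} < ENNReal.ofReal (c / 4) := not_le.1 hcon
    have h1' : ENNReal.ofReal (c / 2) ≤ pvayQ Y (pvqxBlk z u) := not_lt.1 h1
    have h2' : pvayQ Y (pvqcG z u)ᶜ < ENNReal.ofReal (c / 4) := not_le.1 h2
    have h3 : pvayQ Y (pvqxBlk z u) ≤ pvayQ Y {η | PvqcBlk z u η} + pvayQ Y (pvqcG z u)ᶜ :=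
      (pvay_Q_mono Y (pvqx_blk_sub hu)).trans (pvay_Q_union_le _ _ _)
    have h4 : pvayQ Y {η | PvqcBlk z u η} + pvayQ Y (pvqcG z u)ᶜ < ENNReal.ofReal (c / 4) + ENNReal.ofReal (c / 4) := ENNReal.add_lt_add hg h2'
    rw [← ENNReal.ofReal_add (by positivity) (by positivity)] at h4
    have e : c / 4 + c / 4 = c / 2 := by ring
    rw [e] at h4
    exact absurd (h1'.trans h3) (not_le.2 h4)
  cases b
  · have e : {η : Conf PvPt | ¬ (rswArm z.re z.im (u / 2) (5 * u / 2)).Holds (pvaxReg false η)} = cfFlip ⁻¹' {η | PvqcBlk z u η} := by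
      ext η
      have e1 : pvaxReg false η = cfW η := rfl
      simp only [mem_ofPred_eq, mem_preimage, e1, pvr_W_eq]
      rfl
    rw [e, pvay_Q_flip]
    exact hB
  · exact hB

/-- **ONE CENTRE, ONE RADIUS** -/
theorem pvay_pair : ∃ q : ℝ, 0 < q ∧ q < 1 ∧ ∀ (z : ℂ) (r : ℝ), 0 < r → ∃ B : Set (Conf PvPt), MeasurableSet B ∧
    Conf.ReadsSet (Metric.closedBall z (100 * r) ×ˢ (univ : Set Bool)) B ∧ Tendsto (fun ε : ℝ => pvP ε B) (𝓝[>] 0) (𝓝 0) ∧
    ∀ η, CfOK η → η ∉ B → PvaxCirc z r (5 / 4 * r) (cfSites η) ∧ PvaxOk q z (5 / 4 * r) (25 / 2 * r) (cfSites η) := by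
  obtain ⟨c, hc, hlim⟩ := pvay_blk_lim
  refine ⟨min (c / 4) (1 / 2), lt_min (by positivity) (by norm_num), (min_le_right _ _).trans_lt (by norm_num), fun z r hr => ?_⟩
  have hu : 0 < 5 * r / 2 := by positivity
  have hρ : 0 < r / 16 := by positivity
  have hOm := pvqc_O_meas z (5 * r / 2)
  have hOb := pvqx_O_bdd z (5 * r / 2)
  have hr1 : Conf.ReadsSet (pvqcO z (5 * r / 2) ×ˢ (univ : Set Bool)) (pvqxBlk z (5 * r / 2)) := by
    rw [← pvqc_N_eq]
    exact Conf.readsSet_preimage _ _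
  have hr2 : Conf.ReadsSet (pvqcO z (5 * r / 2) ×ˢ (univ : Set Bool)) (pvqcG z (5 * r / 2))ᶜ := by
    rw [← pvqc_N_eq]
    exact Conf.ReadsSet.compl fun η => pvqc_G_restr hu η
  obtain ⟨B1, hB1m, hB1r, hB1p, hB1d⟩ := pvay_bad hOm hOb (pvqx_blk_meas z (5 * r / 2)) hr1 (T := Iio (ENNReal.ofReal (c / 2))) measurableSet_Iio
  obtain ⟨B2, hB2m, hB2r, hB2p, hB2d⟩ := pvay_bad hOm hOb (pvqc_G_meas z (5 * r / 2)).compl hr2 (T := Ici (ENNReal.ofReal (c / 4))) measurableSet_Ici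
  have hsub : pvqcO z (5 * r / 2) ×ˢ (univ : Set Bool) ⊆ Metric.closedBall z (100 * r) ×ˢ (univ : Set Bool) := prod_mono (pvay_O_ball z hr) subset_rfl
  have hr3 : Conf.ReadsSet (Metric.closedBall z (100 * r) ×ˢ (univ : Set Bool)) (vormG (Metric.closedBall z (r + 3 * (r / 16))) (r / 16))ᶜ := by
    rw [prod_univ]
    exact Conf.ReadsSet.compl fun η => vorm_G_restr (pvay_nbd_ball z hr) η
  refine ⟨B1 ∪ B2 ∪ (vormG (Metric.closedBall z (r + 3 * (r / 16))) (r / 16))ᶜ, (hB1m.union hB2m).union (vorm_G_meas _ _).compl,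
    ((hB1r.mono hsub).union (hB2r.mono hsub)).union hr3, ?_, fun η hη hB => ?_⟩
  · have h3 := ((hlim z (5 * r / 2) hu).1.add (hlim z (5 * r / 2) hu).2).add (vorm_G_tendsto (K := Metric.closedBall z (r + 3 * (r / 16))) Metric.isBounded_closedBall hρ)
    simp only [add_zero] at h3
    refine tendsto_of_tendsto_of_tendsto_of_le_of_le' tendsto_const_nhds h3 (Eventually.of_forall fun _ => zero_le) ?_
    filter_upwards [self_mem_nhdsWithin] with ε hε
    exact (measure_union_le _ _).trans (add_le_add ((measure_union_le _ _).trans (add_le_add (hB1p ε hε) (hB2p ε hε))) le_rfl)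
  · simp only [mem_union, not_or, mem_compl_iff, not_not] at hB
    obtain ⟨⟨hb1, hb2⟩, hG⟩ := hB
    refine ⟨⟨hη.del, pvax_circ_det hη.del hr.le hρ (vorm_G_dense hρ hG) (by linarith)⟩, hη.del, ?_⟩
    have e1 : 5 / 4 * r = 5 * r / 2 / 2 := by ring
    have e2 : 25 / 2 * r = 5 * (5 * r / 2) := by ring
    rw [e1, e2]
    refine pvay_quenched hη.del hu fun b => ?_
    exact (ENNReal.ofReal_le_ofReal (min_le_left _ _)).trans (pvay_blk_both hc hu (hB1d η hη hb1) (hB2d η hη hb2) b)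

/-- **THE EXIT: THE FAILURE OF THE FRAME IS CONTAINED IN A MEASURABLE EVENT, READ FROM ANY WINDOW WHICH CONTAINS THE BALLS `B(z, 100 r)`, OF PROBABILITY `o(1)`**      (colour blind in its conclusion: `PvaxFrame` speaks of the sites only) -/
theorem pvay_frame_loc : ∃ q : ℝ, 0 < q ∧ q < 1 ∧ ∀ (Z : Finset ℂ) (Rs : Finset ℝ), (∀ r ∈ Rs, 0 < r) → ∀ W : Set ℂ, (∀ z ∈ Z, ∀ r ∈ Rs, Metric.closedBall z (100 * r) ⊆ W) →
    ∃ B : Set (Conf PvPt), MeasurableSet B ∧ Conf.ReadsSet (W ×ˢ (univ : Set Bool)) B ∧ Tendsto (fun ε : ℝ => pvP ε B) (𝓝[>] 0) (𝓝 0) ∧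
      ∀ η, CfOK η → η ∉ B → PvaxFrame q Z Rs (cfSites η) := by
  obtain ⟨q, hq0, hq1, hq⟩ := pvay_pair
  refine ⟨q, hq0, hq1, fun Z Rs hRs W hW => ?_⟩
  have hex : ∀ p : ℂ × ℝ, ∃ B : Set (Conf PvPt), 0 < p.2 → MeasurableSet B ∧
      Conf.ReadsSet (Metric.closedBall p.1 (100 * p.2) ×ˢ (univ : Set Bool)) B ∧ Tendsto (fun ε : ℝ => pvP ε B) (𝓝[>] 0) (𝓝 0) ∧
      ∀ η, CfOK η → η ∉ B → PvaxCirc p.1 p.2 (5 / 4 * p.2) (cfSites η) ∧ PvaxOk q p.1 (5 / 4 * p.2) (25 / 2 * p.2) (cfSites η) := by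
    intro p
    by_cases hp : 0 < p.2
    · obtain ⟨B, hB⟩ := hq p.1 p.2 hp
      exact ⟨B, fun _ => hB⟩
    · exact ⟨∅, fun h => absurd h hp⟩
  choose Bp hBp using hex
  have hpos : ∀ p ∈ Z ×ˢ Rs, 0 < p.2 := fun p hp => hRs p.2 (Finset.mem_product.1 hp).2
  refine ⟨⋃ p ∈ Z ×ˢ Rs, Bp p, Finset.measurableSet_biUnion _ fun p hp => (hBp p (hpos p hp)).1, ?_, ?_, fun η hη hB => ⟨hη.del, fun z hz r hr => ?_⟩⟩
  · refine Conf.ReadsSet.iUnion fun p => Conf.ReadsSet.iUnion fun hp => ?_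
    exact (hBp p (hpos p hp)).2.1.mono (prod_mono (hW p.1 (Finset.mem_product.1 hp).1 p.2 (Finset.mem_product.1 hp).2) subset_rfl)
  · have h1 : Tendsto (fun ε : ℝ => ∑ p ∈ Z ×ˢ Rs, pvP ε (Bp p)) (𝓝[>] 0) (𝓝 (∑ p ∈ Z ×ˢ Rs, 0)) :=
      tendsto_finsetSum _ fun p hp => (hBp p (hpos p hp)).2.2.1
    rw [Finset.sum_const_zero] at h1
    exact tendsto_of_tendsto_of_tendsto_of_le_of_le tendsto_const_nhds h1 (fun _ => zero_le) fun ε => measure_biUnion_finset_le _ _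
  · have hp : (z, r) ∈ Z ×ˢ Rs := Finset.mem_product.2 ⟨hz, hr⟩
    refine (hBp (z, r) (hpos _ hp)).2.2.2 η hη fun hmem => hB ?_
    exact mem_iUnion₂.2 ⟨(z, r), hp, hmem⟩

/-- consumer form: eventually below any positive threshold -/
theorem pvay_frame_loc_le : ∃ q : ℝ, 0 < q ∧ q < 1 ∧ ∀ (Z : Finset ℂ) (Rs : Finset ℝ), (∀ r ∈ Rs, 0 < r) → ∀ W : Set ℂ, (∀ z ∈ Z, ∀ r ∈ Rs, Metric.closedBall z (100 * r) ⊆ W) →
    ∃ B : Set (Conf PvPt), MeasurableSet B ∧ Conf.ReadsSet (W ×ˢ (univ : Set Bool)) B ∧ (∀ t : ℝ≥0∞, 0 < t → ∀ᶠ ε in 𝓝[>] (0 : ℝ), pvP ε B ≤ t) ∧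
      ∀ η, CfOK η → η ∉ B → PvaxFrame q Z Rs (cfSites η) := by
  obtain ⟨q, hq0, hq1, hq⟩ := pvay_frame_loc
  refine ⟨q, hq0, hq1, fun Z Rs hRs W hW => ?_⟩
  obtain ⟨B, h1, h2, h3, h4⟩ := hq Z Rs hRs W hW
  exact ⟨B, h1, h2, fun t ht => (ENNReal.tendsto_nhds_zero.1 h3) t ht, h4⟩

end Claimed.Agent.R289
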