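import Claimed.Agent.R289.Arm.GateD
import Claimed.Agent.R289.Arm.Fresh
import Claimed.Agent.R289.Arm.Trap

/-!
# Row 289 (S0537, Cardy for Poisson-Voronoi), box ARM, block A6 = GATE DENSITY, file Arm/GateA : THE DETERMINISTIC ASSEMBLY (G9, hypothesis `hDI` of `pvtd_dense_ord`)      (owner helper281; prefix `pvaga_`, defs `Pvaga…` / `pvaga…`)

Blueprint: `origin/helper281:notes/R289/A6_281.md` v2.      Everything here is deterministic on ONE `PvMap T` (`IsSph`, `Simple`), colouring `s`, `true` = black.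

* sec. 0  **`pvaga_noshare`**   a black vertex is not seen by the chord both before and after a carried dart of the rim      (`pvt_s_keep` of 64: the loop erasure of a closed bank walk is empty)
* sec. 1  `PvagaXp` crossing piece of a chord (time interval), `PvagaCG` = (CG) in time-interval form: visibly a function of the explored chord (`pvaga_cg_meas`);      `pvaga_str` : a crossing piece is a `PvanStr` with `PvagdX`
* sec. 2  **`pvaga_gate`**   (CG) + (FG) ⟹ gate circuit      (`pvagd_cg_vert`, `pvagd_gate` of 116)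
* sec. 3  `pvaga_star` : no CONFIG5 in a buffer ⟹ ONE excursion of the chord in `k0.Left` contains all its visits to `k1.Left` (`pvat_cfg3`, `pvat_same_disj`, `pvat_back_run` of 249 + `pvaga_noshare`);      **`pvaga_D14`** = (D1) + (D4) fused: no CONFIG5 in the two buffers ⟹ (CG)
* sec. 4  `PvagaGeo` the cycles of the trials and of the count, `PvagaF` flags, **`pvaga_good`**   a passage of a carried arc with large displacement through light cells has a c-good time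
* sec. 5  **`pvaga_DI`**   the passage carries a centre with `g` gates unless its block is c-bad or adaptively bad
* sec. 6  THE RIM-FREE FORM (of record for the instance): **`pvaga_ns`** (sec. 0) every dart of `Γ(χ_e)` is carried at a CUT TIME of the chord, so (D14) holds at every dart of `Γ(χ_e)` (`pvaga_D14G`): NO RIM, NO COMPLETION;
          `pvaga_gateG` (`PvgGate`), `PvagaTri` (cycles of the trials), `PvagaTri.Good/.Gd` + `good_meas`, `gd_meas`, `pvaga_goodG` (abstract flags `F` + `hbuf`), **`pvaga_main`** = (DI) on the passages of `Γ(χ_e)` with the selection `pvafZ` of 13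
-/

set_option autoImplicit false
set_option linter.unusedSectionVars false
set_option linter.unusedVariables false

namespace Claimed.Agent.R289

variable {V D : Type} [DecidableEq V] {T : PvMap V D}

/-! ## 0. NOSHARE -/

/-- **NOSHARE**: `c` a black rim which leaves `B`; the dart `c.e τ` is carried by the chord of `e` at the time `k`.   A position before (`a ≤ k`) and a position after (`k < b`) do not have the same black vertex.
Plan: the bank walk `pvtBank T s (pvasIt T s e a) (b - a)` goes from `src (It a)` to `src (It b)` (`pvt_s_bank_walk`), contains `c.e τ`; `pvt_s_keep` (as in `pvaf_on_gam`) keeps `c.e τ` in its loop erasure, which is a simple path from `src (It a)` to `src (It b)`: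
it is empty if the two ends coincide. -/
theorem pvaga_noshare (hT : T.IsSph) (hS : T.Simple) {B : Set D} (hB : T.FaceSet B) (hfin : B.Finite) {s : V → Bool} {c : T.Cyc} (hP : PvafRim T s c) {e : D} (he : pvasIn T B s e)
    {τ w : ℕ} (hw : T.opp (c.e w) ∉ B) {a k b : ℕ} (hak : a ≤ k) (hkb : k < b) (hb : b ≤ pvasTime T e Bᶜ s) (hk : pvasIt T s e k = T.rotInv (c.e τ)) :
    T.src (pvasIt T s e a) ≠ T.src (pvasIt T s e b) := by
  intro heq
  have hwalk := pvt_s_bank_walk (T := T) (s := s) (pvasIt T s e a) (b - a)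
  have e1 : pvasIt T s (pvasIt T s e a) (b - a) = pvasIt T s e b := by
    rw [← pvas_it_add]; congr 1; omega
  rw [e1, ← heq] at hwalk
  have hmem : c.e τ ∈ pvtBank T s (pvasIt T s e a) (b - a) := by
    refine pvt_s_bank_mem.2 ⟨k - a, by omega, ?_, ?_⟩
    · rw [← pvas_it_add, show a + (k - a) = k by omega, hk, pvaf_apex_rotInv]
      exact hP.tgt_black τ
    · rw [← pvas_it_add, show a + (k - a) = k by omega, hk, T.rot_rotInv]
  have hkeep : c.e τ ∈ pvtLE T (pvtBank T s (pvasIt T s e a) (b - a)) := by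
    refine pvt_s_keep hT hS hwalk (fun f hf => pvt_s_bank_bk (pvas_it_bw he.2.2 a) hf) hmem
      ((pvt_s_recog' hT c hP.tag hP.wall τ (T.opp (c.e w))).2 ⟨w, rfl⟩) ?_
    rw [T.opp_opp]
    exact fun hc => hw (pvaf_on_mem hB hfin he (pvaf_piece_on (by omega) hc))
  rw [pvt_s_s_closed (pvt_s_le_path hwalk)] at hkeep
  simp at hkeep

/-- **CUT TIMES**: every dart `g` of `Γ(χ_e)` is carried at a CUT TIME of the black bank of the chord: a position before and a position after do not have the same black vertex.   NO RIM.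
(`pvt_s_kept` of 64: the label class of a kept dart is not inside the bank walk, a fortiori not inside a piece of it; then as in `pvaga_noshare`.) -/
theorem pvaga_ns (hT : T.IsSph) (hS : T.Simple) {B : Set D} (hB : T.FaceSet B) (hfin : B.Finite) {s : V → Bool} {e : D} (he : pvasIn T B s e)
    {g : D} (hg : g ∈ pvafGam T B e s) {a k b : ℕ} (hak : a ≤ k) (hkb : k < b) (hb : b ≤ pvasTime T e Bᶜ s) (hk : pvasIt T s e k = T.rotInv g) :
    T.src (pvasIt T s e a) ≠ T.src (pvasIt T s e b) := by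
  intro heq
  have hnd : (pvafBank T B e s).Nodup := pvt_s_bank_nodup fun i j hi hj h => pvaf_it_inj hB hfin he hi.le hj.le h
  obtain ⟨d', hl, hd'⟩ := pvt_s_kept hT hS (pvt_s_bank_walk e _) (fun f hf => pvt_s_bank_bk he.2.2 hf) hnd hg
  have hwalk := pvt_s_bank_walk (T := T) (s := s) (pvasIt T s e a) (b - a)
  have e1 : pvasIt T s (pvasIt T s e a) (b - a) = pvasIt T s e b := by
    rw [← pvas_it_add]; congr 1; omega
  rw [e1, ← heq] at hwalk
  obtain ⟨k', -, hk1, hk2⟩ := pvt_s_bank_mem.1 ((pvt_s_le_sub _).subset hg)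
  have hkk : pvasIt T s e k = pvasIt T s e k' := by rw [hk, hk2, T.rotInv_rot]
  have hmem : g ∈ pvtBank T s (pvasIt T s e a) (b - a) := by
    refine pvt_s_bank_mem.2 ⟨k - a, by omega, ?_, ?_⟩
    · rw [← pvas_it_add, show a + (k - a) = k by omega, hkk]
      exact hk1
    · rw [← pvas_it_add, show a + (k - a) = k by omega, hk, T.rot_rotInv]
  have hkeep : g ∈ pvtLE T (pvtBank T s (pvasIt T s e a) (b - a)) := by
    refine pvt_s_keep hT hS hwalk (fun f hf => pvt_s_bank_bk (pvas_it_bw he.2.2 a) hf) hmem hl fun hc => hd' ?_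
    obtain ⟨κ, hκ, h1, h2⟩ := pvt_s_bank_mem.1 hc
    rw [← pvas_it_add] at h1 h2
    exact pvt_s_bank_mem.2 ⟨a + κ, by omega, h1, h2⟩
  rw [pvt_s_s_closed (pvt_s_le_path hwalk)] at hkeep
  simp at hkeep
/-! ### extremal times -/

theorem pvaga_up {P : ℕ → Prop} {k N : ℕ} (hk : P k) (hkN : k ≤ N) (hN : ¬ P N) : ∃ β, k < β ∧ β ≤ N ∧ ¬ P β ∧ ∀ u, k ≤ u → u < β → P u := by
  classical
  have hex : ∃ β, k ≤ β ∧ ¬ P β := ⟨N, hkN, hN⟩
  refine ⟨Nat.find hex, ?_, Nat.find_min' hex ⟨hkN, hN⟩, (Nat.find_spec hex).2, fun u h1 h2 => ?_⟩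
  · rcases Nat.eq_or_lt_of_le (Nat.find_spec hex).1 with h | h
    · exact absurd (h ▸ hk) (Nat.find_spec hex).2
    · exact h
  · by_contra hc
    exact Nat.find_min hex h2 ⟨h1, hc⟩

theorem pvaga_first {P : ℕ → Prop} {α k : ℕ} (hαk : α ≤ k) (hk : P k) : ∃ h, α ≤ h ∧ h ≤ k ∧ P h ∧ ∀ u, α ≤ u → u < h → ¬ P u := by
  classical
  have hex : ∃ h, α ≤ h ∧ P h := ⟨k, hαk, hk⟩
  exact ⟨Nat.find hex, (Nat.find_spec hex).1, Nat.find_min' hex ⟨hαk, hk⟩, (Nat.find_spec hex).2, fun u h1 h2 hc => Nat.find_min hex h2 ⟨h1, hc⟩⟩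

theorem pvaga_down {P : ℕ → Prop} {k : ℕ} (hk : P k) : ∃ α, α ≤ k ∧ (∀ u, α ≤ u → u ≤ k → P u) ∧ (α = 0 ∨ ¬ P (α - 1)) := by
  classical
  have hex : ∃ α, α ≤ k ∧ ∀ u, α ≤ u → u ≤ k → P u := ⟨k, le_rfl, fun u h1 h2 => by rw [le_antisymm h2 h1]; exact hk⟩
  refine ⟨Nat.find hex, (Nat.find_spec hex).1, (Nat.find_spec hex).2, ?_⟩
  by_contra hc
  push Not at hc
  obtain ⟨h0, h1⟩ := hc
  refine Nat.find_min hex (m := Nat.find hex - 1) (by omega) ⟨by have := (Nat.find_spec hex).1; omega, fun u g1 g2 => ?_⟩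
  rcases Nat.eq_or_lt_of_le g1 with h | h
  · rw [← h]; exact h1
  · exact (Nat.find_spec hex).2 u (by omega) g2

theorem pvaga_last {P : ℕ → Prop} {k β : ℕ} (hkβ : k < β) (hk : P k) : ∃ l, k ≤ l ∧ l < β ∧ P l ∧ ∀ u, l < u → u < β → ¬ P u := by
  induction β with
  | zero => omega
  | succ β ih =>
    by_cases hβ : P β
    · exact ⟨β, by omega, by omega, hβ, fun u h1 h2 => by omega⟩
    · have hlt : k < β := by
        rcases Nat.eq_or_lt_of_le (Nat.lt_succ_iff.1 hkβ) with h | h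
        · exact absurd (h ▸ hk) hβ
        · exact h
      obtain ⟨l, h1, h2, h3, h4⟩ := ih hlt
      refine ⟨l, h1, by omega, h3, fun u g1 g2 => ?_⟩
      rcases Nat.eq_or_lt_of_le (Nat.lt_succ_iff.1 g2) with h | h
      · rw [h]; exact hβ
      · exact h4 u g1 h

/-! ### runs of a strand, in terms of its times -/

/-- forward run on the times `α..h` -/
theorem pvaga_fwd {K0 K1 : Set D} {s : V → Bool} {e : D} (he : pvasBW T s e) {α h : ℕ} (hαh : α ≤ h) (h0 : pvasIt T s e α ∈ K0) (hα : T.opp (pvasIt T s e α) ∉ K0)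
    (hmid : ∀ u, α ≤ u → u < h → pvasIt T s e u ∈ K0 ∧ pvasIt T s e u ∉ K1) (hh : pvasIt T s e h ∈ K1) :
    PvatRun T K0 K1 s (pvasIt T s e α) (h - α) ∧ ∀ v ∈ pvatLay T s (pvasIt T s e α) (h - α), s v = true → ∃ u, α ≤ u ∧ u ≤ h ∧ v = T.src (pvasIt T s e u) := by
  refine ⟨⟨⟨h0, hα, pvas_it_bw he α⟩, fun k hk => ?_, ?_⟩, ?_⟩
  · rw [← pvas_it_add]; exact hmid _ (by omega) (by omega)
  · rw [← pvas_it_add, show α + (h - α) = h by omega]; exact hh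
  · rintro v (⟨i, hi, rfl⟩ | ⟨i, hi, rfl⟩) hv
    · exact ⟨α + i, by omega, by omega, by rw [← pvas_it_add]⟩
    · rw [← pvas_it_add, (pvas_it_bw he _).2] at hv
      exact absurd hv (by simp)

/-- backward run on the times `l+1..β` -/
theorem pvaga_bwd {K0 K1 : Set D} (hK0 : T.FaceSet K0) (hK1 : T.FaceSet K1) {s : V → Bool} {e : D} (he : pvasBW T s e) {l β : ℕ} (hlβ : l < β) (hβ : pvasIt T s e β ∉ K0)
    (hl0 : pvasIt T s e l ∈ K0) (hmid : ∀ u, l < u → u < β → pvasIt T s e u ∈ K0 ∧ pvasIt T s e u ∉ K1) (hl : pvasIt T s e l ∈ K1) :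
    PvatRun T K0 K1 (pvasNot s) (T.opp (pvasIt T s e β)) (β - l - 1) ∧
      ∀ v ∈ pvatLay T (pvasNot s) (T.opp (pvasIt T s e β)) (β - l - 1), s v = true → ∃ u, l < u ∧ u ≤ β ∧ v = T.src (pvasIt T s e u) := by
  have hface : ∀ u, T.opp (pvasIt T s e (u + 1)) ∈ K0 ↔ pvasIt T s e u ∈ K0 := fun u => by rw [pvas_it_succ]; exact pvas_step_opp_mem hK0 s
  have hface1 : ∀ u, T.opp (pvasIt T s e (u + 1)) ∈ K1 ↔ pvasIt T s e u ∈ K1 := fun u => by rw [pvas_it_succ]; exact pvas_step_opp_mem hK1 s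
  have hin : ∀ u, l ≤ u → u < β → pvasIt T s e u ∈ K0 := fun u h1 h2 => by
    rcases Nat.eq_or_lt_of_le h1 with h | h
    · rw [← h]; exact hl0
    · exact (hmid u h h2).1
  refine ⟨⟨⟨?_, ?_, ?_⟩, fun k hk => ?_, ?_⟩, ?_⟩
  · obtain ⟨b', rfl⟩ : ∃ b', β = b' + 1 := ⟨β - 1, by omega⟩
    exact (hface b').2 (hin b' (by omega) (by omega))
  · rw [T.opp_opp]; exact hβ
  · exact pvas_bw_not.2 (pvas_it_bw he β)
  · rw [pvas_it_rev he (by omega)]
    obtain ⟨b', hb'⟩ : ∃ b', β - k = b' + 1 := ⟨β - k - 1, by omega⟩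
    rw [hb', hface, hface1]
    exact hmid b' (by omega) (by omega)
  · rw [pvas_it_rev he (by omega), show β - (β - l - 1) = l + 1 by omega, hface1]
    exact hl
  · rintro v (⟨i, hi, rfl⟩ | ⟨i, hi, rfl⟩) hv
    · rw [pvas_it_rev he (by omega), T.src_opp', (pvas_it_bw he _).2] at hv
      exact absurd hv (by simp)
    · refine ⟨β - i, by omega, by omega, ?_⟩
      rw [pvas_it_rev he (by omega), T.tgt_opp]

/-- the excursion of the chord in `K0` round a visit to `K1` -/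
theorem pvaga_exc {K0 K1 B : Set D} (hK0 : T.FaceSet K0) (h10 : K1 ⊆ K0) (h0B : K0 ⊆ B) {s : V → Bool} {e : D} (he' : T.opp e ∉ B) {N k : ℕ} (hkN : k < N)
    (hN : pvasIt T s e N ∉ B) (hk : pvasIt T s e k ∈ K1) :
    ∃ α h l β, α ≤ h ∧ h ≤ k ∧ k ≤ l ∧ l < β ∧ β ≤ N ∧ T.opp (pvasIt T s e α) ∉ K0 ∧ (∀ u, α ≤ u → u < β → pvasIt T s e u ∈ K0) ∧ pvasIt T s e β ∉ K0 ∧
      pvasIt T s e h ∈ K1 ∧ (∀ u, α ≤ u → u < h → pvasIt T s e u ∉ K1) ∧ pvasIt T s e l ∈ K1 ∧ ∀ u, l < u → u < β → pvasIt T s e u ∉ K1 := by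
  obtain ⟨β, b1, b2, b3, b4⟩ := pvaga_up (P := fun u => pvasIt T s e u ∈ K0) (h10 hk) hkN.le (fun h => hN (h0B h))
  obtain ⟨α, a1, a2, a3⟩ := pvaga_down (P := fun u => pvasIt T s e u ∈ K0) (h10 hk)
  obtain ⟨h, c1, c2, c3, c4⟩ := pvaga_first (P := fun u => pvasIt T s e u ∈ K1) a1 hk
  obtain ⟨l, d1, d2, d3, d4⟩ := pvaga_last (P := fun u => pvasIt T s e u ∈ K1) b1 hk
  refine ⟨α, h, l, β, c1, c2, d1, d2, b2, ?_, fun u g1 g2 => ?_, b3, c3, c4, d3, d4⟩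
  · rcases a3 with rfl | a3
    · exact fun hc => he' (h0B hc)
    · obtain ⟨a', rfl⟩ : ∃ a', α = a' + 1 := by
        rcases Nat.eq_zero_or_pos α with h0 | h0
        · subst h0
          exact absurd (a2 0 le_rfl (Nat.zero_le _)) a3
        · exact ⟨α - 1, by omega⟩
      rw [pvas_it_succ, pvas_step_opp_mem hK0 s]
      exact a3
  · rcases Nat.lt_or_ge u k with g | g
    · exact a2 u g1 g.le
    · exact b4 u g g2


/-! ## 1. crossing pieces of a chord, (CG) -/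

/-- CROSSING PIECE: the positions `i ≤ k < j` of the strand of `e` are in the annulus between `c'` and `c`; it comes in through one of the two cycles and goes out through the other one -/
def PvagaXp (T : PvMap V D) (s : V → Bool) (e : D) (c' c : T.Cyc) (i j : ℕ) : Prop :=
  i < j ∧ (∀ k, i ≤ k → k < j → pvasIt T s e k ∈ c'.Ann c) ∧
    ((T.opp (pvasIt T s e i) ∉ c.Left ∧ pvasIt T s e j ∈ c'.Left) ∨ (T.opp (pvasIt T s e i) ∈ c'.Left ∧ pvasIt T s e j ∉ c.Left))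

/-- **(CG)**: the chord (positions `< N` of the strand of `e`) is c-good for the trial `c0 < c1 < c2 < c3`: two crossing pieces of the big annulus contain all its positions in the middle annulus -/
def PvagaCG (T : PvMap V D) (s : V → Bool) (e : D) (N : ℕ) (c0 c1 c2 c3 : T.Cyc) : Prop :=
  ∃ i1 j1 i2 j2, j1 ≤ N ∧ j2 ≤ N ∧ PvagaXp T s e c0 c3 i1 j1 ∧ PvagaXp T s e c0 c3 i2 j2 ∧
    ∀ k < N, pvasIt T s e k ∈ c1.Ann c2 → (i1 ≤ k ∧ k < j1) ∨ (i2 ≤ k ∧ k < j2)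

theorem pvaga_eqns_cite : True := by
  have := @PvagaXp.eq_1; have := @PvagaCG.eq_1
  trivial

/-- a crossing piece is a crossing strand of the annulus -/
theorem pvaga_str {s : V → Bool} {e : D} (he : pvasBW T s e) {c' c : T.Cyc} {i j : ℕ} (h : PvagaXp T s e c' c i j) :
    ∃ γ : PvanStr T s (c'.Ann c), PvagdX c' c γ ∧ γ.n = j - i ∧ ∀ k, γ.e k = pvasIt T s e (i + k) := by
  exact pvagd_piece_str (l := pvasIt T s e) (n := j) he (fun k _ => pvas_it_succ s e k) ⟨h.1, le_rfl, h.2.1, h.2.2⟩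

/-- (CG) reads the positions `≤ N` only -/
theorem pvaga_cg_congr {s s' : V → Bool} {e : D} {N : ℕ} (h : ∀ i, i ≤ N → pvasIt T s' e i = pvasIt T s e i) {c0 c1 c2 c3 : T.Cyc}
    (hc : PvagaCG T s e N c0 c1 c2 c3) : PvagaCG T s' e N c0 c1 c2 c3 := by
  have hx : ∀ i j, j ≤ N → PvagaXp T s e c0 c3 i j → PvagaXp T s' e c0 c3 i j := by
    rintro i j hj ⟨h1, h2, h3⟩
    refine ⟨h1, fun k hk1 hk2 => ?_, ?_⟩
    · rw [h k (by omega)]; exact h2 k hk1 hk2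
    · rw [h i (by omega), h j hj]; exact h3
  obtain ⟨i1, j1, i2, j2, hj1, hj2, x1, x2, hk⟩ := hc
  refine ⟨i1, j1, i2, j2, hj1, hj2, hx _ _ hj1 x1, hx _ _ hj2 x2, fun k hkN hkA => hk k hkN ?_⟩
  rw [← h k hkN.le]; exact hkA

/-- (CG) is a function of the explored chord -/
theorem pvaga_cg_meas {B : Set D} (hB : T.FaceSet B) (hfin : B.Finite) {e : D} (he : e ∈ B) (he' : T.opp e ∉ B) (c0 c1 c2 c3 : T.Cyc) :
    PvaMeas (pvasExpl T e Bᶜ) (fun s => PvagaCG T s e (pvasTime T e Bᶜ s) c0 c1 c2 c3) := by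
  have hex : ∀ s, pvasBW T s e → ∃ n, pvasIt T s e n ∈ Bᶜ := fun s hs => pvas_exit_exists hB hfin ⟨he, he', hs⟩
  intro s s' hs
  have ht := pvas_time_meas e Bᶜ hex s s' hs
  have hit : ∀ i, i ≤ pvasTime T e Bᶜ s → pvasIt T s' e i = pvasIt T s e i := pvas_it_congr (fun v hv => hs v (pvas_mem_lay.2 hv))
  show PvagaCG T s' e (pvasTime T e Bᶜ s') c0 c1 c2 c3 = PvagaCG T s e (pvasTime T e Bᶜ s) c0 c1 c2 c3
  rw [ht]
  exact propext ⟨pvaga_cg_congr fun i hi => (hit i hi).symm, pvaga_cg_congr hit⟩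

/-! ## 2. (CG) + (FG) ⟹ gate -/

/-- **GATE**: the chord of `e` is c-good for the trial, and one annulus `cJ' < cJ`, one layer inside the middle annulus, has no black crossing through the vertices of `X`, where `X` contains the unexplored vertices of this annulus -/
theorem pvaga_gate (hT : T.IsSph) (hS : T.Simple) {B : Set D} (hB : T.FaceSet B) (hfin : B.Finite) {s : V → Bool} {e : D} (he : pvasIn T B s e)
    {c0 c1 c2 c3 cJ' cJ : T.Cyc} (h01 : c0.Inside c1) (h1J : c1.Inside cJ') (hJ : cJ'.Inside cJ) (hJ2 : cJ.Inside c2) (h23 : c2.Inside c3) (h3B : c3.Left ⊆ B)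
    (hCG : PvagaCG T s e (pvasTime T e Bᶜ s) c0 c1 c2 c3) {X : Set V} (hX : ∀ v ∈ T.VOf (cJ'.Ann cJ), v ∉ X → v ∈ pvasExpl T e Bᶜ s)
    (hFG : ¬ PvaxCr T cJ' cJ X true s) :
    ∃ c'' : T.Cyc, (c''.verts ∩ {v | s v = true}).ncard ≤ 2 ∧ c0.Left ⊆ c''.Left ∧ c''.Left ⊆ c3.Left ∧ ∀ i, c''.e i ∈ c0.Ann c3 ∨ T.opp (c''.e i) ∈ c0.Ann c3 := by
  obtain ⟨i1, j1, i2, j2, hj1, hj2, x1, x2, hk⟩ := hCG
  obtain ⟨γ₁, g1, n1, e1⟩ := pvaga_str he.2.2 x1
  obtain ⟨γ₂, g2, n2, e2⟩ := pvaga_str he.2.2 x2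
  have h12 : c1.Left ⊆ c2.Left := fun d hd => hJ2.2 (hJ.2 (h1J.2 hd))
  have hIO : c0.Inside c3 := ⟨fun v hv => (pl_nested_vert hT c3 c1 fun d hd => h23.2 (h12 hd)).2 (h01.1 hv), fun d hd => h23.2 (h12 (h01.2 hd))⟩
  have hN : pvasTime T e Bᶜ s = pvasHit T s e Bᶜ := pvas_time_bw he.2.2
  have hout : pvasIt T s e (pvasTime T e Bᶜ s) ∉ B := by
    rw [hN]; exact pvas_hit_mem (pvas_exit_exists hB hfin he)
  refine pvagd_gate hT hS hIO (hfin.subset h3B) (fun d hd => h1J.2 (h01.2 hd)) hJ (fun d hd => h23.2 (hJ2.2 hd)) γ₁ γ₂ g1 g2 (S := Xᶜ) ?_ (by rw [compl_compl]; exact hFG)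
  intro v hv hvX hb
  have hvE := hX v hv hvX
  unfold pvasExpl at hvE
  rw [pvas_mem_lay] at hvE
  rcases hvE with ⟨i, hi, rfl⟩ | hw
  · have hA : pvasIt T s e i ∈ c1.Ann c2 := pvagd_layer hT h1J hJ2 hv _ rfl
    have hlt : i < pvasTime T e Bᶜ s := by
      rcases Nat.eq_or_lt_of_le hi with rfl | h
      · exact absurd (h3B (h23.2 hA.1)) hout
      · exact h
    rcases hk i hlt hA with ⟨a, b⟩ | ⟨a, b⟩
    · exact Or.inl (pvagd_vis_layB γ₁ ⟨i - i1, by omega, by rw [e1, show i1 + (i - i1) = i by omega]; exact T.sf_refl _⟩ hb)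
    · exact Or.inr (pvagd_vis_layB γ₂ ⟨i - i2, by omega, by rw [e2, show i2 + (i - i2) = i by omega]; exact T.sf_refl _⟩ hb)
  · rw [pvas_layW_white he.2.2 hw] at hb
    exact absurd hb Bool.false_ne_true

/-! ## 3. (D1) + (D4) -/

/-- FLAG: CONFIG5 of 249 for one of the two colourings -/
def PvagaFl (T : PvMap V D) (s : V → Bool) (k0 k1 k2 : T.Cyc) : Prop :=
  (∃ (x x2 x4 : D) (n1 n2 n4 : ℕ), PvatCfg T k0 k1 k2 s x x2 x4 n1 n2 n4) ∨ ∃ (x x2 x4 : D) (n1 n2 n4 : ℕ), PvatCfg T k0 k1 k2 (pvasNot s) x x2 x4 n1 n2 n4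

/-- the count cycles `k1 < k2 < k0` sit in the buffer between `cin` and `cout` -/
def PvagaBuf (T : PvMap V D) (cin cout k0 k1 k2 : T.Cyc) : Prop := cin.Left ⊆ k1.Left ∧ k1.Inside k2 ∧ k2.Inside k0 ∧ k0.Left ⊆ cout.Left

theorem pvaga_eqns_cite2 : True := by
  have := @PvagaFl.eq_1; have := @PvagaBuf.eq_1
  trivial

/-- **ONE EXCURSION** ((D4)).   `k` is a CUT TIME of the chord (`ns`; e.g. a dart of a rim, or of `Γ(χ_e)`, is carried at the time `k`), the position at the time `k` is in `k1.Left`; no CONFIG5 for `(k0; k1, k2)`, for `s` and for `pvasNot s`.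
Then the excursion `[α, β)` of the chord in `k0.Left` which contains `k` contains all the visits of the chord to `k1.Left`.
Plan: another excursion which reaches `k1.Left`, LATER: forward run of the first one, backward runs of both (`pvat_back_run`), `pvat_cfg3` with `b = true`, `d12 d14` by `pvaga_noshare` (the time `k` lies between), `d24` by `pvat_same_disj`.   EARLIER: the same for `pvasNot s` (reversed chord), `b = false`. -/
theorem pvaga_star0 (hT : T.IsSph) {B : Set D} (hB : T.FaceSet B) (hfin : B.Finite) {s : V → Bool} {e : D} (he : pvasIn T B s e)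
    {k : ℕ} (hkN : k < pvasTime T e Bᶜ s) (ns : ∀ u1 u2, u1 ≤ k → k < u2 → u2 ≤ pvasTime T e Bᶜ s → T.src (pvasIt T s e u1) ≠ T.src (pvasIt T s e u2))
    {k0 k1 k2 : T.Cyc} (h12 : k1.Inside k2) (h20 : k2.Inside k0) (h0B : k0.Left ⊆ B) (hk1 : pvasIt T s e k ∈ k1.Left) (hF : ¬ PvagaFl T s k0 k1 k2) :
    ∃ α β, α ≤ k ∧ k < β ∧ β ≤ pvasTime T e Bᶜ s ∧ (∀ u, α ≤ u → u < β → pvasIt T s e u ∈ k0.Left) ∧ ∀ u < pvasTime T e Bᶜ s, pvasIt T s e u ∈ k1.Left → α ≤ u ∧ u < β := by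
  have hK0 := pl_left_face k0
  have hK1 := pl_left_face k1
  have h10 : k1.Left ⊆ k0.Left := h12.2.trans h20.2
  have hc10 : k1.Inside k0 := pvat_inside_trans hT h12 h20
  have hN := (pvaf_time_spec hB hfin he).2
  have hbw := he.2.2
  obtain ⟨α, h, l, β, a1, a2, a3, a4, a5, a6, a7, a8, a9, a10, a11, a12⟩ := pvaga_exc hK0 h10 h0B he.2.1 hkN hN hk1
  refine ⟨α, β, a1.trans a2, lt_of_le_of_lt a3 a4, a5, a7, fun u huN hu1 => ?_⟩
  by_contra hcon
  obtain ⟨α', h', l', β', b1, b2, b3, b4, b5, b6, b7, b8, b9, b10, b11, b12⟩ := pvaga_exc hK0 h10 h0B he.2.1 huN hN hu1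
  have F := pvaga_fwd hbw a1 (a7 α le_rfl (by omega)) a6 (fun u g1 g2 => ⟨a7 u g1 (by omega), a10 u g1 g2⟩) a9
  have Bk := pvaga_bwd hK0 hK1 hbw a4 a8 (a7 l (by omega) a4) (fun u g1 g2 => ⟨a7 u (by omega) g2, a12 u g1 g2⟩) a11
  have F' := pvaga_fwd hbw b1 (b7 α' le_rfl (by omega)) b6 (fun u g1 g2 => ⟨b7 u g1 (by omega), b10 u g1 g2⟩) b9
  have Bk' := pvaga_bwd hK0 hK1 hbw b4 b8 (b7 l' (by omega) b4) (fun u g1 g2 => ⟨b7 u (by omega) g2, b12 u g1 g2⟩) b11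
  rcases Nat.lt_or_ge u α with hlt | hge
  · -- the other excursion is EARLIER
    have hβ' : β' ≤ α := by
      by_contra hc
      obtain ⟨a', rfl⟩ : ∃ a', α = a' + 1 := ⟨α - 1, by omega⟩
      apply a6
      rw [pvas_it_succ, pvas_step_opp_mem hK0 s]
      exact b7 a' (by omega) (by omega)
    have hne : pvasIt T s e α ≠ pvasIt T s e α' := fun hc => by
      have := pvaf_it_inj hB hfin he (by omega) (by omega) hc
      omega
    have r2 : PvatRun T k0.Left k1.Left (pvasNot (pvasNot s)) (pvasIt T s e α) (h - α) := by rw [pvas_not_not]; exact F.1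
    have r4 : PvatRun T k0.Left k1.Left (pvasNot (pvasNot s)) (pvasIt T s e α') (h' - α') := by rw [pvas_not_not]; exact F'.1
    have hbl : ∀ v, pvasNot s v = false → s v = true := fun v hv => by
      unfold pvasNot at hv
      simpa using hv
    have := pvat_cfg3 hT h12 h20 Bk.1 r2 r4 hne false
      (fun v g1 g2 hv => by
        rw [pvas_not_not] at g2
        obtain ⟨u2, c1, c2, rfl⟩ := Bk.2 v g1 (hbl v hv)
        obtain ⟨u1, d1, d2, d3⟩ := F.2 _ g2 (hbl _ hv)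
        exact ns u1 u2 (by omega) (by omega) (by omega) d3.symm)
      (fun v g1 g2 hv => by
        rw [pvas_not_not] at g2
        obtain ⟨u2, c1, c2, rfl⟩ := Bk.2 v g1 (hbl v hv)
        obtain ⟨u1, d1, d2, d3⟩ := F'.2 _ g2 (hbl _ hv)
        exact ns u1 u2 (by omega) (by omega) (by omega) d3.symm)
      (fun v g1 g2 _ => Set.disjoint_left.1 (pvat_same_disj hT hc10 Bk.1 r2 r4 hne) g1 g2)
    rcases this with ⟨m, -, hm⟩ | ⟨m, -, hm⟩
    · exact hF (Or.inr ⟨_, _, _, _, _, _, hm⟩)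
    · exact hF (Or.inr ⟨_, _, _, _, _, _, hm⟩)
  · -- the other excursion is LATER
    have hub : β ≤ u := by
      by_contra hc
      exact hcon ⟨hge, by omega⟩
    have hα' : β < α' := by
      by_contra hc
      exact a8 (b7 β (by omega) (by omega))
    have hne : T.opp (pvasIt T s e β) ≠ T.opp (pvasIt T s e β') := fun hc => by
      have := pvaf_it_inj hB hfin he (by omega) (by omega) (T.opp_injective hc)
      omega
    have := pvat_cfg3 hT h12 h20 F.1 Bk.1 Bk'.1 hne true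
      (fun v g1 g2 hv => by
        obtain ⟨u1, c1, c2, rfl⟩ := F.2 v g1 hv
        obtain ⟨u2, d1, d2, d3⟩ := Bk.2 _ g2 hv
        exact ns u1 u2 (by omega) (by omega) (by omega) d3)
      (fun v g1 g2 hv => by
        obtain ⟨u1, c1, c2, rfl⟩ := F.2 v g1 hv
        obtain ⟨u2, d1, d2, d3⟩ := Bk'.2 _ g2 hv
        exact ns u1 u2 (by omega) (by omega) (by omega) d3)
      (fun v g1 g2 _ => Set.disjoint_left.1 (pvat_same_disj hT hc10 F.1 Bk.1 Bk'.1 hne) g1 g2)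
    rcases this with ⟨m, -, hm⟩ | ⟨m, -, hm⟩
    · exact hF (Or.inl ⟨_, _, _, _, _, _, hm⟩)
    · exact hF (Or.inl ⟨_, _, _, _, _, _, hm⟩)

/-- the same at a time at which the chord carries a dart of a rim -/
theorem pvaga_star (hT : T.IsSph) (hS : T.Simple) {B : Set D} (hB : T.FaceSet B) (hfin : B.Finite) {s : V → Bool} {c : T.Cyc} (hP : PvafRim T s c) {e : D} (he : pvasIn T B s e)
    {τ w k : ℕ} (hw : T.opp (c.e w) ∉ B) (hkN : k < pvasTime T e Bᶜ s) (hk : pvasIt T s e k = T.rotInv (c.e τ))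
    {k0 k1 k2 : T.Cyc} (h12 : k1.Inside k2) (h20 : k2.Inside k0) (h0B : k0.Left ⊆ B) (hk1 : pvasIt T s e k ∈ k1.Left) (hF : ¬ PvagaFl T s k0 k1 k2) :
    ∃ α β, α ≤ k ∧ k < β ∧ β ≤ pvasTime T e Bᶜ s ∧ (∀ u, α ≤ u → u < β → pvasIt T s e u ∈ k0.Left) ∧ ∀ u < pvasTime T e Bᶜ s, pvasIt T s e u ∈ k1.Left → α ≤ u ∧ u < β :=
  pvaga_star0 hT hB hfin he hkN (fun _ _ g1 g2 g3 => pvaga_noshare hT hS hB hfin hP he hw g1 g2 g3 hk) h12 h20 h0B hk1 hF

/-- the other side of an edge of the closed inner disc is in the outer disc -/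
theorem pvaga_opp_mem (hT : T.IsSph) {c c' : T.Cyc} (h : c.Inside c') {d : D} (hd : d ∈ c.Left) : T.opp d ∈ c'.Left := by
  have h1 : T.tgt d ∈ T.VOf c.Left := ⟨T.nxt d, (pl_left_face c d).2 hd, T.src_nxt d⟩
  exact pvat_VOf_int hT h h1 (T.opp d) (T.src_opp' d)

/-- **(D14)** = (D1) + (D4) of `A6_281.md`.   `k` a CUT TIME of the chord of `e` (`ns`), the position at the time `k` is inside `c0`; no CONFIG5 in the two buffers.   Then the chord is c-good for the trial.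
Plan: `pvaga_star` for the two buffers: excursions `E ⊆ k0.Left ⊆ c1.Left` (contains the visits to `c0.Left`) and `E' ⊆ k0'.Left ⊆ c3.Left` (contains the visits to `c2.Left`).   `[i1, j2)` := the excursion in `c3.Left` round the time `k`, `j1` := the first visit to `c0.Left` in it,
`i2` := the last one `+ 1`.   A position in `c1.Ann c2` has its time in `E' ⊆ [i1, j2)`, not in `[j1, i2) ⊆ E`. -/
theorem pvaga_D140 (hT : T.IsSph) {B : Set D} (hB : T.FaceSet B) (hfin : B.Finite) {s : V → Bool} {e : D} (he : pvasIn T B s e)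
    {k : ℕ} (hkN : k < pvasTime T e Bᶜ s) (ns : ∀ u1 u2, u1 ≤ k → k < u2 → u2 ≤ pvasTime T e Bᶜ s → T.src (pvasIt T s e u1) ≠ T.src (pvasIt T s e u2))
    {c0 c1 c2 c3 : T.Cyc} (h01 : c0.Inside c1) (h12 : c1.Inside c2) (h23 : c2.Inside c3) (h3B : c3.Left ⊆ B) (hk0 : pvasIt T s e k ∈ c0.Left)
    {k0 k1 k2 k0' k1' k2' : T.Cyc} (hb : PvagaBuf T c0 c1 k0 k1 k2) (hb' : PvagaBuf T c2 c3 k0' k1' k2')
    (hF : ¬ PvagaFl T s k0 k1 k2) (hF' : ¬ PvagaFl T s k0' k1' k2') :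
    PvagaCG T s e (pvasTime T e Bᶜ s) c0 c1 c2 c3 := by
  have h03 : c0.Inside c3 := pvat_inside_trans hT h01 (pvat_inside_trans hT h12 h23)
  have hN := (pvaf_time_spec hB hfin he).2
  obtain ⟨α, β, a1, a2, a3, a4, a5⟩ := pvaga_star0 hT hB hfin he hkN ns hb.2.1 hb.2.2.1
    (hb.2.2.2.trans (h12.2.trans (h23.2.trans h3B))) (hb.1 hk0) hF
  obtain ⟨α', β', b1, b2, b3, b4, b5⟩ := pvaga_star0 hT hB hfin he hkN ns hb'.2.1 hb'.2.2.1
    (hb'.2.2.2.trans h3B) (hb'.1 (h12.2 (h01.2 hk0))) hF'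
  obtain ⟨i1, j1, l, j2, d1, d2, d3, d4, d5, d6, d7, d8, d9, d10, d11, d12⟩ := pvaga_exc (pl_left_face c3) h03.2 h3B he.2.1 hkN hN hk0
  have hface0 : ∀ u, T.opp (pvasIt T s e (u + 1)) ∈ c0.Left ↔ pvasIt T s e u ∈ c0.Left := fun u => by rw [pvas_it_succ]; exact pvas_step_opp_mem (pl_left_face c0) s
  have hface3 : ∀ u, T.opp (pvasIt T s e (u + 1)) ∈ c3.Left ↔ pvasIt T s e u ∈ c3.Left := fun u => by rw [pvas_it_succ]; exact pvas_step_opp_mem (pl_left_face c3) s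
  refine ⟨i1, j1, l + 1, j2, by omega, d5, ⟨?_, fun u g1 g2 => ⟨d7 u g1 (by omega), d10 u g1 g2⟩, Or.inl ⟨d6, d9⟩⟩,
    ⟨?_, fun u g1 g2 => ⟨d7 u (by omega) g2, d12 u (by omega) g2⟩, Or.inr ⟨(hface0 l).2 d11, d8⟩⟩, fun u huN hu => ?_⟩
  · rcases Nat.eq_or_lt_of_le d1 with h | h
    · exact absurd (pvaga_opp_mem hT h03 (h ▸ d9)) d6
    · exact h
  · rcases Nat.eq_or_lt_of_le (Nat.succ_le_of_lt d4) with h | h
    · have h1 := pvaga_opp_mem hT h03 ((hface0 l).2 d11)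
      rw [T.opp_opp] at h1
      exact absurd (h ▸ h1) d8
    · exact h
  · obtain ⟨g1, g2⟩ := b5 u huN (hb'.1 hu.1)
    have hi1 : i1 ≤ u := by
      by_contra hc
      obtain ⟨a', rfl⟩ : ∃ a', i1 = a' + 1 := ⟨i1 - 1, by omega⟩
      exact d6 ((hface3 a').2 (hb'.2.2.2 (b4 a' (by omega) (by omega))))
    have hj2 : u < j2 := by
      by_contra hc
      exact d8 (hb'.2.2.2 (b4 j2 (by omega) (by omega)))
    by_contra hcon
    push Not at hcon
    have e1 := a5 j1 (by omega) (hb.1 d9)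
    have e2 := a5 l (by omega) (hb.1 d11)
    have e3 : j1 ≤ u := by
      by_contra hc
      exact absurd (hcon.1 hi1) (by omega)
    have e4 : u ≤ l := by
      by_contra hc
      exact absurd (hcon.2 (by omega)) (by omega)
    exact hu.2 (hb.2.2.2 (a4 u (by omega) (by omega)))

/-- (D14) at a dart of a rim: `c` a black rim which leaves `B`, the dart `c.e τ` is carried by the chord of `e` and starts inside `c0` -/
theorem pvaga_D14 (hT : T.IsSph) (hS : T.Simple) {B : Set D} (hB : T.FaceSet B) (hfin : B.Finite) {s : V → Bool} {c : T.Cyc} (hP : PvafRim T s c) {e : D} (he : pvasIn T B s e)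
    {τ w : ℕ} (hw : T.opp (c.e w) ∉ B) (hon : PvafOn T s B e (c.e τ))
    {c0 c1 c2 c3 : T.Cyc} (h01 : c0.Inside c1) (h12 : c1.Inside c2) (h23 : c2.Inside c3) (h3B : c3.Left ⊆ B) (hτ : T.src (c.e τ) ∈ T.Int c0.Left)
    {k0 k1 k2 k0' k1' k2' : T.Cyc} (hb : PvagaBuf T c0 c1 k0 k1 k2) (hb' : PvagaBuf T c2 c3 k0' k1' k2')
    (hF : ¬ PvagaFl T s k0 k1 k2) (hF' : ¬ PvagaFl T s k0' k1' k2') :
    PvagaCG T s e (pvasTime T e Bᶜ s) c0 c1 c2 c3 := by
  obtain ⟨k, hkN, hk⟩ := hon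
  exact pvaga_D140 hT hB hfin he hkN (fun _ _ g1 g2 g3 => pvaga_noshare hT hS hB hfin hP he hw g1 g2 g3 hk) h01 h12 h23 h3B
    (hτ _ (by rw [hk, T.src_rotInv])) hb hb' hF hF'

/-- (D14) at a dart of `Γ(χ_e)`: NO RIM -/
theorem pvaga_D14G (hT : T.IsSph) (hS : T.Simple) {B : Set D} (hB : T.FaceSet B) (hfin : B.Finite) {s : V → Bool} {e : D} (he : pvasIn T B s e)
    {f : D} (hf : f ∈ pvafGam T B e s)
    {c0 c1 c2 c3 : T.Cyc} (h01 : c0.Inside c1) (h12 : c1.Inside c2) (h23 : c2.Inside c3) (h3B : c3.Left ⊆ B) (hτ : T.src f ∈ T.Int c0.Left)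
    {k0 k1 k2 k0' k1' k2' : T.Cyc} (hb : PvagaBuf T c0 c1 k0 k1 k2) (hb' : PvagaBuf T c2 c3 k0' k1' k2')
    (hF : ¬ PvagaFl T s k0 k1 k2) (hF' : ¬ PvagaFl T s k0' k1' k2') :
    PvagaCG T s e (pvasTime T e Bᶜ s) c0 c1 c2 c3 := by
  obtain ⟨k, hkN, hk⟩ := pvaf_gam_on hf
  exact pvaga_D140 hT hB hfin he hkN (fun _ _ g1 g2 g3 => pvaga_ns hT hS hB hfin he hf g1 g2 g3 hk) h01 h12 h23 h3B
    (hτ _ (by rw [hk, T.src_rotInv])) hb hb' hF hF'

/-! ## 4. the cycles of the trials and of the count; existence of a c-good time -/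

/-- the cycles: `g` trials at every centre `z ∈ Zs` (unit boxes), trial `k` has the buffers number `2 k` and `2 k + 1`; level `i`: boxes `b` of side `A i` (cycles `k1 i b < k2 i b`), cells `Q` of side `M i * A i` (cycle `k0 i Q`) -/
structure PvagaGeo (T : PvMap V D) (B : Set D) (Zs : Set (ℤ × ℤ)) (g : ℕ) (A M : ℕ → ℕ) where
  box : V → ℤ × ℤ
  c0 : ℤ × ℤ → ℕ → T.Cyc
  c1 : ℤ × ℤ → ℕ → T.Cyc
  c2 : ℤ × ℤ → ℕ → T.Cyc
  c3 : ℤ × ℤ → ℕ → T.Cyc
  k0 : ℕ → ℤ × ℤ → T.Cyc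
  k1 : ℕ → ℤ × ℤ → T.Cyc
  k2 : ℕ → ℤ × ℤ → T.Cyc
  h01 : ∀ z ∈ Zs, ∀ k < g, (c0 z k).Inside (c1 z k)
  h12 : ∀ z ∈ Zs, ∀ k < g, (c1 z k).Inside (c2 z k)
  h23 : ∀ z ∈ Zs, ∀ k < g, (c2 z k).Inside (c3 z k)
  h3B : ∀ z ∈ Zs, ∀ k < g, (c3 z k).Left ⊆ B
  hin : ∀ z ∈ Zs, ∀ k < g, ∀ v, box v = z → v ∈ T.Int (c0 z k).Left
  buf : ∀ z ∈ Zs, ∀ k < g, ∀ Q b, PvagNear 1 (pvagCg (M (2 * k)) b) Q → PvagNear 1 (pvagCg (A (2 * k)) z) b →
    PvagaBuf T (c0 z k) (c1 z k) (k0 (2 * k) Q) (k1 (2 * k) b) (k2 (2 * k) b)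
  buf' : ∀ z ∈ Zs, ∀ k < g, ∀ Q b, PvagNear 1 (pvagCg (M (2 * k + 1)) b) Q → PvagNear 1 (pvagCg (A (2 * k + 1)) z) b →
    PvagaBuf T (c2 z k) (c3 z k) (k0 (2 * k + 1) Q) (k1 (2 * k + 1) b) (k2 (2 * k + 1) b)

variable {B : Set D} {Zs : Set (ℤ × ℤ)} {g : ℕ} {A M : ℕ → ℕ}

/-- the flags of the level `i` -/
def PvagaGeo.F (G : PvagaGeo T B Zs g A M) (s : V → Bool) (i : ℕ) (Q b : ℤ × ℤ) : Prop := PvagaFl T s (G.k0 i Q) (G.k1 i b) (G.k2 i b)

/-- the chord of `e` is c-good for the `g` trials at `z` -/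
def PvagaGeo.Good (G : PvagaGeo T B Zs g A M) (s : V → Bool) (e : D) (z : ℤ × ℤ) : Prop :=
  ∀ k < g, PvagaCG T s e (pvasTime T e Bᶜ s) (G.c0 z k) (G.c1 z k) (G.c2 z k) (G.c3 z k)

theorem pvaga_eqns_cite3 : True := by
  have := @PvagaGeo.F.eq_1; have := @PvagaGeo.Good.eq_1
  trivial

/-- **EXISTENCE OF A c-GOOD TIME** ((H) + (D14)).   A passage `j..j'` of an arc of the rim carried by ONE chord, king walk on the unit boxes, displacement `≥ A (2 g)`, all the visited boxes are centres of `Zs`,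
every simple `*`-chain of `n0 + 1` visited cells contains a light cell: at some time of the passage the chord is c-good for the `g` trials at the box of the rim. -/
theorem pvaga_good (hT : T.IsSph) (hS : T.Simple) (hB : T.FaceSet B) (hfin : B.Finite) (G : PvagaGeo T B Zs g A M) (n0 : ℕ)
    (hsc : ∀ i < 2 * g, 0 < A i ∧ 0 < M i ∧ (n0 + 4) * (M i * A i) ≤ A (i + 1))
    {s : V → Bool} {c : T.Cyc} (hP : PvafRim T s c) {e : D} (he : pvasIn T B s e)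
    {w j j' : ℕ} (h2 : j ≤ j') (hw : T.opp (c.e w) ∉ B) (hon : ∀ u, j ≤ u → u ≤ j' → PvafOn T s B e (c.e u))
    (hwalk : PvagWalk (fun u => G.box (T.src (c.e u))) j j') (hZ : ∀ u, j ≤ u → u ≤ j' → G.box (T.src (c.e u)) ∈ Zs)
    (hfar : PvagFar (A (2 * g)) (G.box (T.src (c.e j))) (G.box (T.src (c.e j'))))
    (hlight : ∀ i < 2 * g, ∀ q, Pv5Chain n0 q → (∀ l ≤ n0, ∃ u, j ≤ u ∧ u ≤ j' ∧ q l = pvagCg (M i * A i) (G.box (T.src (c.e u)))) → ∃ l ≤ n0, PvagLight (M i) (G.F s i) (q l)) :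
    ∃ τ, j ≤ τ ∧ τ ≤ j' ∧ G.Good s e (G.box (T.src (c.e τ))) := by
  obtain ⟨τ, h1, h2', h3⟩ := pvag_select n0 A M (G.F s) (fun u => G.box (T.src (c.e u))) (2 * g) j j' h2 hwalk hsc hfar hlight
  refine ⟨τ, h1, h2', fun k hk => ?_⟩
  obtain ⟨Q, b, -, hF, hQ, hb⟩ := h3 (2 * k) (by omega)
  obtain ⟨Q', b', -, hF', hQ', hb'⟩ := h3 (2 * k + 1) (by omega)
  have hz := hZ τ h1 h2'
  exact pvaga_D14 hT hS hB hfin hP he hw (hon τ h1 h2') (G.h01 _ hz k hk) (G.h12 _ hz k hk) (G.h23 _ hz k hk) (G.h3B _ hz k hk) (G.hin _ hz k hk _ rfl)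
    (G.buf _ hz k hk Q b hQ hb) (G.buf' _ hz k hk Q' b' hQ' hb') hF hF'

/-! ## 5. (DI) on the map -/

/-- **(DI), deterministic core.**   `Zc` = the selected centres (first c-good time of each minimal crossing of `Γ(χ_e)`: sec. 8 of Arm/Fresh, 13): `hsel` says that a passage which has a c-good time has a SELECTED c-good time.
`a o` = towers of the trials, one layer inside the middle annuli.   If no selected trial fails (`PvafFail`: all the `m` annuli of its tower are crossed by black paths of `X`), the passage carries a centre with `g` gates. -/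
theorem pvaga_DI (hT : T.IsSph) (hS : T.Simple) (hB : T.FaceSet B) (hfin : B.Finite) (G : PvagaGeo T B Zs g A M) (n0 : ℕ)
    (hsc : ∀ i < 2 * g, 0 < A i ∧ 0 < M i ∧ (n0 + 4) * (M i * A i) ≤ A (i + 1))
    {s : V → Bool} {c : T.Cyc} (hP : PvafRim T s c) {e : D} (he : pvasIn T B s e)
    {w j j' : ℕ} (h2 : j ≤ j') (hw : T.opp (c.e w) ∉ B) (hon : ∀ u, j ≤ u → u ≤ j' → PvafOn T s B e (c.e u))
    (hwalk : PvagWalk (fun u => G.box (T.src (c.e u))) j j') (hZ : ∀ u, j ≤ u → u ≤ j' → G.box (T.src (c.e u)) ∈ Zs)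
    (hfar : PvagFar (A (2 * g)) (G.box (T.src (c.e j))) (G.box (T.src (c.e j'))))
    (hlight : ∀ i < 2 * g, ∀ q, Pv5Chain n0 q → (∀ l ≤ n0, ∃ u, j ≤ u ∧ u ≤ j' ∧ q l = pvagCg (M i * A i) (G.box (T.src (c.e u)))) → ∃ l ≤ n0, PvagLight (M i) (G.F s i) (q l))
    (Zc : Finset (ℤ × ℤ))
    (hsel : (∃ τ, j ≤ τ ∧ τ ≤ j' ∧ G.Good s e (G.box (T.src (c.e τ)))) → ∃ τ, j ≤ τ ∧ τ ≤ j' ∧ G.Good s e (G.box (T.src (c.e τ))) ∧ G.box (T.src (c.e τ)) ∈ Zc)
    (m : ℕ) (a o : (ℤ × ℤ) × ℕ → ℕ → T.Cyc)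
    (htow : ∀ z ∈ Zs, ∀ k < g, ∀ l < m, (G.c1 z k).Inside (a (z, k) l) ∧ (a (z, k) l).Inside (o (z, k) l) ∧ (o (z, k) l).Inside (G.c2 z k))
    {X : Set V} (hX : ∀ v ∈ T.VOf B, v ∉ X → v ∈ pvasExpl T e Bᶜ s)
    (hnf : ∀ z ∈ Zc, ∀ k < g, ¬ PvafFail T m (a (z, k)) (o (z, k)) X true s) :
    ∃ τ, j ≤ τ ∧ τ ≤ j' ∧ ∀ k < g, ∃ c'' : T.Cyc, (c''.verts ∩ {v | s v = true}).ncard ≤ 2 ∧
      (G.c0 (G.box (T.src (c.e τ))) k).Left ⊆ c''.Left ∧ c''.Left ⊆ (G.c3 (G.box (T.src (c.e τ))) k).Left ∧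
      ∀ i, c''.e i ∈ (G.c0 (G.box (T.src (c.e τ))) k).Ann (G.c3 (G.box (T.src (c.e τ))) k) ∨ T.opp (c''.e i) ∈ (G.c0 (G.box (T.src (c.e τ))) k).Ann (G.c3 (G.box (T.src (c.e τ))) k) := by
  obtain ⟨τ, h1, h2', hG, hZc⟩ := hsel (pvaga_good hT hS hB hfin G n0 hsc hP he h2 hw hon hwalk hZ hfar hlight)
  refine ⟨τ, h1, h2', fun k hk => ?_⟩
  have hz := hZ τ h1 h2'
  have hnf' := hnf _ hZc k hk
  unfold PvafFail at hnf'
  push Not at hnf'
  obtain ⟨l, hl, hFG⟩ := hnf'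
  obtain ⟨t1, t2, t3⟩ := htow _ hz k hk l hl
  refine pvaga_gate hT hS hB hfin he (G.h01 _ hz k hk) t1 t2 t3 (G.h23 _ hz k hk) (G.h3B _ hz k hk) (hG k hk) (fun v hv hvX => hX v ?_ hvX) hFG
  obtain ⟨d, hd, rfl⟩ := hv
  exact ⟨d, G.h3B _ hz k hk ((G.h23 _ hz k hk).2 (t3.2 hd.1)), rfl⟩

/-! ## 6. THE RIM-FREE FORM: passages of `Γ(χ_e)`      (vocabulary of the selection of 13, `Arm/Fresh` sec. 8-9) -/

/-- **GATE, face set form** (`PvgGate` of 190, through `pvagd_pvgGate` of 116) -/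
theorem pvaga_gateG (hT : T.IsSph) {B : Set D} (hB : T.FaceSet B) (hfin : B.Finite) {s : V → Bool} {e : D} (he : pvasIn T B s e)
    {c0 c1 c2 c3 cJ' cJ : T.Cyc} (h01 : c0.Inside c1) (h1J : c1.Inside cJ') (hJ : cJ'.Inside cJ) (hJ2 : cJ.Inside c2) (h23 : c2.Inside c3) (h3B : c3.Left ⊆ B)
    (hCG : PvagaCG T s e (pvasTime T e Bᶜ s) c0 c1 c2 c3) {X : Set V} (hX : ∀ v ∈ T.VOf (cJ'.Ann cJ), v ∉ X → v ∈ pvasExpl T e Bᶜ s)
    (hFG : ¬ PvaxCr T cJ' cJ X true s) :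
    ∃ G Y, PvgGate T s true c0.Left c3.Left G Y := by
  obtain ⟨i1, j1, i2, j2, hj1, hj2, x1, x2, hk⟩ := hCG
  obtain ⟨γ₁, g1, n1, e1⟩ := pvaga_str he.2.2 x1
  obtain ⟨γ₂, g2, n2, e2⟩ := pvaga_str he.2.2 x2
  have h12 : c1.Left ⊆ c2.Left := fun d hd => hJ2.2 (hJ.2 (h1J.2 hd))
  have hIO : c0.Inside c3 := ⟨fun v hv => (pl_nested_vert hT c3 c1 fun d hd => h23.2 (h12 hd)).2 (h01.1 hv), fun d hd => h23.2 (h12 (h01.2 hd))⟩
  have hout : pvasIt T s e (pvasTime T e Bᶜ s) ∉ B := (pvaf_time_spec hB hfin he).2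
  refine pvagd_pvgGate hT hIO (hfin.subset h3B) (pvagd_three hT hIO (fun d hd => h1J.2 (h01.2 hd)) hJ (fun d hd => h23.2 (hJ2.2 hd)) γ₁ γ₂ g1 g2 (S := Xᶜ) ?_
    (by rw [compl_compl]; exact hFG))
  intro v hv hvX hb
  have hvE := hX v hv hvX
  unfold pvasExpl at hvE
  rw [pvas_mem_lay] at hvE
  rcases hvE with ⟨i, hi, rfl⟩ | hw
  · have hA : pvasIt T s e i ∈ c1.Ann c2 := pvagd_layer hT h1J hJ2 hv _ rfl
    have hlt : i < pvasTime T e Bᶜ s := by
      rcases Nat.eq_or_lt_of_le hi with rfl | h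
      · exact absurd (h3B (h23.2 hA.1)) hout
      · exact h
    rcases hk i hlt hA with ⟨a, b⟩ | ⟨a, b⟩
    · exact Or.inl (pvagd_vis_layB γ₁ ⟨i - i1, by omega, by rw [e1, show i1 + (i - i1) = i by omega]; exact T.sf_refl _⟩ hb)
    · exact Or.inr (pvagd_vis_layB γ₂ ⟨i - i2, by omega, by rw [e2, show i2 + (i - i2) = i by omega]; exact T.sf_refl _⟩ hb)
  · rw [pvas_layW_white he.2.2 hw] at hb
    exact absurd hb Bool.false_ne_true

/-- the cycles of the `g` trials at the centres `z ∈ Zs` (unit boxes) -/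
structure PvagaTri (T : PvMap V D) (B : Set D) (Zs : Set (ℤ × ℤ)) (g : ℕ) where
  box : V → ℤ × ℤ
  c0 : ℤ × ℤ → ℕ → T.Cyc
  c1 : ℤ × ℤ → ℕ → T.Cyc
  c2 : ℤ × ℤ → ℕ → T.Cyc
  c3 : ℤ × ℤ → ℕ → T.Cyc
  h01 : ∀ z ∈ Zs, ∀ k < g, (c0 z k).Inside (c1 z k)
  h12 : ∀ z ∈ Zs, ∀ k < g, (c1 z k).Inside (c2 z k)
  h23 : ∀ z ∈ Zs, ∀ k < g, (c2 z k).Inside (c3 z k)
  h3B : ∀ z ∈ Zs, ∀ k < g, (c3 z k).Left ⊆ B
  hin : ∀ z ∈ Zs, ∀ k < g, ∀ v, box v = z → v ∈ T.Int (c0 z k).Left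

variable {B : Set D} {Zs : Set (ℤ × ℤ)} {g : ℕ}

/-- the chord of `e` is c-good for the `g` trials at `z` -/
def PvagaTri.Good (G : PvagaTri T B Zs g) (s : V → Bool) (e : D) (z : ℤ × ℤ) : Prop :=
  ∀ k < g, PvagaCG T s e (pvasTime T e Bᶜ s) (G.c0 z k) (G.c1 z k) (G.c2 z k) (G.c3 z k)

/-- the good times of `Γ(χ_e)` (format of `pvafZ`) -/
def PvagaTri.Gd (G : PvagaTri T B Zs g) (s : V → Bool) (e : D) (_ _ t : ℕ) : Prop :=
  ∃ d, (pvafGam T B e s)[t]? = some d ∧ G.Good s e (G.box (T.src d))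

theorem pvaga_eqns_cite6 : True := by
  have := @PvagaTri.Good.eq_1; have := @PvagaTri.Gd.eq_1
  trivial

/-- c-goodness is read off the explored chord -/
theorem PvagaTri.good_meas (G : PvagaTri T B Zs g) (hB : T.FaceSet B) (hfin : B.Finite) {e : D} (he : e ∈ B) (he' : T.opp e ∉ B) (z : ℤ × ℤ) :
    PvaMeas (pvasExpl T e Bᶜ) (fun s => G.Good s e z) := by
  intro s s' hs
  unfold PvagaTri.Good
  refine propext (forall_congr' fun k => forall_congr' fun _ => ?_)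
  exact iff_of_eq (pvaga_cg_meas hB hfin he he' (G.c0 z k) (G.c1 z k) (G.c2 z k) (G.c3 z k) s s' hs)

theorem PvagaTri.gd_meas (G : PvagaTri T B Zs g) (hB : T.FaceSet B) (hfin : B.Finite) {e : D} (he : e ∈ B) (he' : T.opp e ∉ B) :
    PvaMeas (pvasExpl T e Bᶜ) (fun s => G.Gd s e) := by
  intro s s' hs
  funext i i' t
  show (∃ d, (pvafGam T B e s')[t]? = some d ∧ G.Good s' e (G.box (T.src d))) = ∃ d, (pvafGam T B e s)[t]? = some d ∧ G.Good s e (G.box (T.src d))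
  rw [pvaf_gam_meas hB hfin he he' s s' hs]
  refine propext (exists_congr fun d => and_congr_right fun _ => ?_)
  exact iff_of_eq (G.good_meas hB hfin he he' _ s s' hs)

/-- **EXISTENCE OF A c-GOOD TIME ON `Γ(χ_e)`** ((H) + (D14), NO RIM, abstract flags).   `f j, …, f j'` darts of `Γ(χ_e)`, king walk on the unit boxes, displacement `≥ A (2 g)`, the visited boxes are centres of `Zs`,
every simple `*`-chain of `n0 + 1` visited cells contains a light cell;   `hbuf`: a box which is not flagged gives count cycles without CONFIG5 in the buffer. -/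
theorem pvaga_goodG (hT : T.IsSph) (hS : T.Simple) (hB : T.FaceSet B) (hfin : B.Finite) (G : PvagaTri T B Zs g) (n0 : ℕ) {A M : ℕ → ℕ}
    (hsc : ∀ i < 2 * g, 0 < A i ∧ 0 < M i ∧ (n0 + 4) * (M i * A i) ≤ A (i + 1))
    {s : V → Bool} {e : D} (he : pvasIn T B s e) (F : ℕ → ℤ × ℤ → ℤ × ℤ → Prop)
    (hbuf : ∀ z ∈ Zs, ∀ k < g, ∀ Q b, ¬ F (2 * k) Q b → PvagNear 1 (pvagCg (M (2 * k)) b) Q → PvagNear 1 (pvagCg (A (2 * k)) z) b →
      ∃ k0 k1 k2, PvagaBuf T (G.c0 z k) (G.c1 z k) k0 k1 k2 ∧ ¬ PvagaFl T s k0 k1 k2)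
    (hbuf' : ∀ z ∈ Zs, ∀ k < g, ∀ Q b, ¬ F (2 * k + 1) Q b → PvagNear 1 (pvagCg (M (2 * k + 1)) b) Q → PvagNear 1 (pvagCg (A (2 * k + 1)) z) b →
      ∃ k0 k1 k2, PvagaBuf T (G.c2 z k) (G.c3 z k) k0 k1 k2 ∧ ¬ PvagaFl T s k0 k1 k2)
    (f : ℕ → D) {j j' : ℕ} (h2 : j ≤ j') (hf : ∀ u, j ≤ u → u ≤ j' → f u ∈ pvafGam T B e s)
    (hwalk : PvagWalk (fun u => G.box (T.src (f u))) j j') (hZ : ∀ u, j ≤ u → u ≤ j' → G.box (T.src (f u)) ∈ Zs)
    (hfar : PvagFar (A (2 * g)) (G.box (T.src (f j))) (G.box (T.src (f j'))))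
    (hlight : ∀ i < 2 * g, ∀ q, Pv5Chain n0 q → (∀ l ≤ n0, ∃ u, j ≤ u ∧ u ≤ j' ∧ q l = pvagCg (M i * A i) (G.box (T.src (f u)))) → ∃ l ≤ n0, PvagLight (M i) (F i) (q l)) :
    ∃ τ, j ≤ τ ∧ τ ≤ j' ∧ G.Good s e (G.box (T.src (f τ))) := by
  obtain ⟨τ, h1, h2', h3⟩ := pvag_select n0 A M F (fun u => G.box (T.src (f u))) (2 * g) j j' h2 hwalk hsc hfar hlight
  refine ⟨τ, h1, h2', fun k hk => ?_⟩
  obtain ⟨Q, b, -, hF, hQ, hb⟩ := h3 (2 * k) (by omega)
  obtain ⟨Q', b', -, hF', hQ', hb'⟩ := h3 (2 * k + 1) (by omega)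
  have hz := hZ τ h1 h2'
  obtain ⟨k0, k1, k2, p1, p2⟩ := hbuf _ hz k hk Q b hF hQ hb
  obtain ⟨k0', k1', k2', p1', p2'⟩ := hbuf' _ hz k hk Q' b' hF' hQ' hb'
  exact pvaga_D14G hT hS hB hfin he (hf τ h1 h2') (G.h01 _ hz k hk) (G.h12 _ hz k hk) (G.h23 _ hz k hk) (G.h3B _ hz k hk) (G.hin _ hz k hk _ rfl) p1 p1' p2 p2'

/-- **(DI) ON `Γ(χ_e)`: THE DETERMINISTIC EXIT OF A6.**   `L = Γ(χ_e)`; a passage `j ≤ j'` of `L` from the block `b` to a block at sup-distance `≥ en`; at most `J` minimal crossings; king walk, light chains, centres in `Zs`;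
`a o` = the towers of the trials, one layer inside the middle annuli.   If no trial selected by `pvafZ` (13) fails through the unexplored vertices, the passage visits a box with gates in the `g` trial annuli. -/
theorem pvaga_main (hT : T.IsSph) (hS : T.Simple) (hB : T.FaceSet B) (hfin : B.Finite) (G : PvagaTri T B Zs g) (n0 : ℕ) {A M : ℕ → ℕ}
    (hsc : ∀ i < 2 * g, 0 < A i ∧ 0 < M i ∧ (n0 + 4) * (M i * A i) ≤ A (i + 1))
    {s : V → Bool} {e : D} (he : pvasIn T B s e) (F : ℕ → ℤ × ℤ → ℤ × ℤ → Prop)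
    (hbuf : ∀ z ∈ Zs, ∀ k < g, ∀ Q b, ¬ F (2 * k) Q b → PvagNear 1 (pvagCg (M (2 * k)) b) Q → PvagNear 1 (pvagCg (A (2 * k)) z) b →
      ∃ k0 k1 k2, PvagaBuf T (G.c0 z k) (G.c1 z k) k0 k1 k2 ∧ ¬ PvagaFl T s k0 k1 k2)
    (hbuf' : ∀ z ∈ Zs, ∀ k < g, ∀ Q b, ¬ F (2 * k + 1) Q b → PvagNear 1 (pvagCg (M (2 * k + 1)) b) Q → PvagNear 1 (pvagCg (A (2 * k + 1)) z) b →
      ∃ k0 k1 k2, PvagaBuf T (G.c2 z k) (G.c3 z k) k0 k1 k2 ∧ ¬ PvagaFl T s k0 k1 k2)
    (blk : D → ℤ × ℤ) {en J : ℕ} (hen : 0 < en) (b : ℤ × ℤ)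
    (hJ : (pvafCrs (pvafGam T B e s).length (PvafIn (pvafGam T B e s) blk b) (PvafFar (pvafGam T B e s) blk en b)).card ≤ J)
    {j j' : ℕ} (hjj : j ≤ j') (hj : PvafIn (pvafGam T B e s) blk b j) (hj' : PvafFar (pvafGam T B e s) blk en b j')
    (hwalk : ∀ t d d', j ≤ t → t < j' → (pvafGam T B e s)[t]? = some d → (pvafGam T B e s)[t + 1]? = some d' → PvagNear 1 (G.box (T.src d)) (G.box (T.src d')))
    (hZ : ∀ t d, j ≤ t → t ≤ j' → (pvafGam T B e s)[t]? = some d → G.box (T.src d) ∈ Zs)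
    (hfar : ∀ d d', blk d = b → (en : ℤ) ≤ pv5Dist b (blk d') → PvagFar (A (2 * g)) (G.box (T.src d)) (G.box (T.src d')))
    (hlight : ∀ i < 2 * g, ∀ q, Pv5Chain n0 q → (∀ l ≤ n0, ∃ t d, j ≤ t ∧ t ≤ j' ∧ (pvafGam T B e s)[t]? = some d ∧ q l = pvagCg (M i * A i) (G.box (T.src d))) →
      ∃ l ≤ n0, PvagLight (M i) (F i) (q l))
    (m : ℕ) (a o : (ℤ × ℤ) × ℕ → ℕ → T.Cyc)
    (htow : ∀ z ∈ Zs, ∀ k < g, ∀ l < m, (G.c1 z k).Inside (a (z, k) l) ∧ (a (z, k) l).Inside (o (z, k) l) ∧ (o (z, k) l).Inside (G.c2 z k))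
    (Ok : (ℤ × ℤ) × ℕ → Prop) (hOk : ∀ t d, j ≤ t → t ≤ j' → (pvafGam T B e s)[t]? = some d → ∀ k < g, Ok (G.box (T.src d), k))
    (hnf : ∀ i ∈ pvafZ (pvafGam T B e s) blk (fun d => G.box (T.src d)) en J g Ok (G.Gd s e) b, ¬ PvafFail T m (a i) (o i) (↑(pvasExpl T e Bᶜ s) : Set V)ᶜ true s) :
    ∃ τ d, j ≤ τ ∧ τ ≤ j' ∧ (pvafGam T B e s)[τ]? = some d ∧ G.box (T.src d) ∈ Zs ∧
      ∀ k < g, ∃ G' Y, PvgGate T s true (G.c0 (G.box (T.src d)) k).Left (G.c3 (G.box (T.src d)) k).Left G' Y := by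
  set L := pvafGam T B e s with hL
  have hlen : j' < L.length := by
    obtain ⟨d, hd, -⟩ := hj'
    exact (List.getElem?_eq_some_iff.1 hd).1
  have hget : ∀ u, u ≤ j' → L[u]? = some (L.getD u e) := fun u hu => by
    rw [List.getD_eq_getElem?_getD, List.getElem?_eq_getElem (lt_of_le_of_lt hu hlen)]
    rfl
  obtain ⟨τ, d, t1, t2, t3, ⟨i, i', -, -, -, hfirst⟩, t5⟩ := pvaf_Z_exists (box := fun d => G.box (T.src d)) (J := J) (g := g) (Ok := Ok) (G := G.Gd s e) hen hJ hjj hj hj'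
    (fun i i' hi hi' hmin => by
      obtain ⟨d0, hd0, hb0⟩ := hmin.2.1
      obtain ⟨d1, hd1, hb1⟩ := hmin.2.2.1
      have e0 : L.getD i e = d0 := Option.some.inj ((hget i (by have := hmin.1; omega)).symm.trans hd0)
      have e1 : L.getD i' e = d1 := Option.some.inj ((hget i' hi').symm.trans hd1)
      obtain ⟨t, g1, g2, g3⟩ := pvaga_goodG hT hS hB hfin G n0 hsc he F hbuf hbuf' (fun u => L.getD u e) hmin.1.le
        (fun u _ h2 => List.mem_of_getElem? (hget u (h2.trans hi')))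
        (fun u h1 h2 => hwalk u _ _ (hi.trans h1) (by omega) (hget u (by omega)) (hget (u + 1) (by omega)))
        (fun u h1 h2 => hZ u _ (hi.trans h1) (h2.trans hi') (hget u (h2.trans hi')))
        (by rw [e0, e1]; exact hfar d0 d1 hb0 hb1)
        (fun i₀ hi₀ q hq hv => hlight i₀ hi₀ q hq fun l hl => by
          obtain ⟨u, h1, h2, h3⟩ := hv l hl
          exact ⟨u, _, hi.trans h1, h2.trans hi', hget u (h2.trans hi'), h3⟩)
      exact ⟨t, g1, g2, _, hget t (g2.trans hi'), g3⟩)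
    (fun i i' τ d hi hi' _ h1 h2 hd k hk => hOk τ d (hi.trans h1) (h2.trans hi') hd k hk)
  have hz := hZ τ d t1 t2 t3
  obtain ⟨d₁, hd₁, hgood⟩ := hfirst.2.2.1
  obtain rfl : d₁ = d := Option.some.inj (hd₁.symm.trans t3)
  refine ⟨τ, d₁, t1, t2, t3, hz, fun k hk => ?_⟩
  have hnf' := hnf _ (t5 k hk)
  unfold PvafFail at hnf'
  push Not at hnf'
  obtain ⟨l, hl, hFG⟩ := hnf'
  obtain ⟨u1, u2, u3⟩ := htow _ hz k hk l hl
  exact pvaga_gateG hT hB hfin he (G.h01 _ hz k hk) u1 u2 u3 (G.h23 _ hz k hk) (G.h3B _ hz k hk) (hgood k hk) (fun v _ hvX => not_not.1 hvX) hFG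

end Claimed.Agent.R289
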