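import Claimed.Agent.R289.Arm.GateA
import Claimed.Agent.R289.Arm.AdaptAB

/-!
# Row 289 (S0537, Cardy for Poisson-Voronoi), box ARM, block A6 = GATE DENSITY, file Arm/GateB : (DI) AGAINST THE ADAPTIVE BAD BLOCKS OF 237      (owner helper281; prefix `pvagb_`, defs `pvagb…`)

ONE map `T` (in the instance: the Delaunay PLANE), `B = C0.Left`.      `Arm/GateA` sec. 6 (`pvaga_main`: rim free) + the selection `pvafZ` of 13 (`Arm/Fresh` sec. 9) + `PvaaBad`, `pvaaZ`, `PvaaAdm` of 237 (`Arm/AdaptAB`).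

* `pvagbSel G a o pos ℓ w mt q blk en J e x s`      THE SELECTION OF RECORD (a legal `Sel` of `pvaa_hab`, `pvaa_hab_rims`): the towers `(a i, o i)` of the trials `i = (box, k)` selected by `pvafZ` on `Γ(χ_e)`, good times = `G.Gd s e`, filter = admissibility
* `pvagb_sel_meas`   it is read off the explored chord (= `hSel` of 237)            `pvagb_sel_card`   at most `J * g` trials
* **`pvagb_DI`**     a passage of `Γ(χ_e)` from a block which is not adaptively bad (`¬ PvaaBad`) visits a box with `g` gates (`PvgGate`)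
-/

set_option autoImplicit false
set_option linter.unusedSectionVars false
set_option linter.unusedVariables false

namespace Claimed.Agent.R289

variable {V D : Type} [DecidableEq V] {T : PvMap V D} {C0 : T.Cyc} {Zs : Set (ℤ × ℤ)} {g : ℕ}

open Classical in
/-- **THE SELECTION OF RECORD** -/
noncomputable def pvagbSel (G : PvagaTri T C0.Left Zs g) (a o : (ℤ × ℤ) × ℕ → ℕ → T.Cyc) (pos : V → ℂ) (ℓ : ℝ) (w mt : ℕ) (q : ℝ) (blk : D → ℤ × ℤ) (en J : ℕ)
    (e : D) (x : ℤ × ℤ) (s : V → Bool) : Finset (PvaaTrial T) :=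
  (pvafZ (pvafGam T C0.Left e s) blk (fun d => G.box (T.src d)) en J g (fun i => PvaaAdm T pos C0 ℓ w mt q x (a i, o i)) (G.Gd s e) x).image fun i => (a i, o i)

theorem pvagb_eqns_cite : True := by
  have := @pvagbSel.eq_1
  trivial

variable (G : PvagaTri T C0.Left Zs g) (a o : (ℤ × ℤ) × ℕ → ℕ → T.Cyc) (pos : V → ℂ) (ℓ : ℝ) (w mt : ℕ) (q : ℝ) (blk : D → ℤ × ℤ) (en J : ℕ)

/-- the selection is read off the explored chord: `hSel` of `pvaa_hab` -/
theorem pvagb_sel_meas (hfin : C0.Left.Finite) {e : D} (he : e ∈ C0.Left) (he' : T.opp e ∉ C0.Left) (x : ℤ × ℤ) :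
    PvaMeas (pvasExpl T e C0.Leftᶜ) (pvagbSel G a o pos ℓ w mt q blk en J e x) := by
  intro s s' hs
  unfold pvagbSel
  have h1 : G.Gd s' e = G.Gd s e := G.gd_meas (pl_left_face C0) hfin he he' s s' hs
  rw [pvaf_gam_meas (pl_left_face C0) hfin he he' s s' hs, h1]

theorem pvagb_sel_card (e : D) (x : ℤ × ℤ) (s : V → Bool) : (pvagbSel G a o pos ℓ w mt q blk en J e x s).card ≤ J * g := by
  classical
  unfold pvagbSel
  exact Finset.card_image_le.trans (pvaf_Z_card _ _ _ _ _ _ _ _ _)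

/-- **(DI) AGAINST `PvaaBad`.**   `L = Γ(χ_e)`, chord of the entrance `e` of `C0.Left`; a passage `j ≤ j'` of `L` from the block `b` to a block at sup-distance `≥ en`; at most `J` minimal crossings, `J * g ≤ N`; king walk on the unit boxes,
centres in `Zs`, light chains for the abstract flags `F` (`hbuf`, `hbuf'`), towers one layer inside the middle annuli, admissible along the passage.   If `b` is not adaptively bad for the chord of `e`, the passage visits a box with gates in the `g` trial annuli. -/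
theorem pvagb_DI (hT : T.IsSph) (hS : T.Simple) (hfin : C0.Left.Finite) (n0 : ℕ) {A M : ℕ → ℕ}
    (hsc : ∀ i < 2 * g, 0 < A i ∧ 0 < M i ∧ (n0 + 4) * (M i * A i) ≤ A (i + 1))
    {s : V → Bool} {e : D} (he : pvasIn T C0.Left s e) (F : ℕ → ℤ × ℤ → ℤ × ℤ → Prop)
    (hbuf : ∀ z ∈ Zs, ∀ k < g, ∀ Q b, ¬ F (2 * k) Q b → PvagNear 1 (pvagCg (M (2 * k)) b) Q → PvagNear 1 (pvagCg (A (2 * k)) z) b →
      ∃ k0 k1 k2, PvagaBuf T (G.c0 z k) (G.c1 z k) k0 k1 k2 ∧ ¬ PvagaFl T s k0 k1 k2)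
    (hbuf' : ∀ z ∈ Zs, ∀ k < g, ∀ Q b, ¬ F (2 * k + 1) Q b → PvagNear 1 (pvagCg (M (2 * k + 1)) b) Q → PvagNear 1 (pvagCg (A (2 * k + 1)) z) b →
      ∃ k0 k1 k2, PvagaBuf T (G.c2 z k) (G.c3 z k) k0 k1 k2 ∧ ¬ PvagaFl T s k0 k1 k2)
    (hen : 0 < en) (b : ℤ × ℤ)
    (hJ : (pvafCrs (pvafGam T C0.Left e s).length (PvafIn (pvafGam T C0.Left e s) blk b) (PvafFar (pvafGam T C0.Left e s) blk en b)).card ≤ J)
    {j j' : ℕ} (hjj : j ≤ j') (hj : PvafIn (pvafGam T C0.Left e s) blk b j) (hj' : PvafFar (pvafGam T C0.Left e s) blk en b j')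
    (hwalk : ∀ t d d', j ≤ t → t < j' → (pvafGam T C0.Left e s)[t]? = some d → (pvafGam T C0.Left e s)[t + 1]? = some d' → PvagNear 1 (G.box (T.src d)) (G.box (T.src d')))
    (hZ : ∀ t d, j ≤ t → t ≤ j' → (pvafGam T C0.Left e s)[t]? = some d → G.box (T.src d) ∈ Zs)
    (hfar : ∀ d d', blk d = b → (en : ℤ) ≤ pv5Dist b (blk d') → PvagFar (A (2 * g)) (G.box (T.src d)) (G.box (T.src d')))
    (hlight : ∀ i < 2 * g, ∀ c, Pv5Chain n0 c → (∀ l ≤ n0, ∃ t d, j ≤ t ∧ t ≤ j' ∧ (pvafGam T C0.Left e s)[t]? = some d ∧ c l = pvagCg (M i * A i) (G.box (T.src d))) →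
      ∃ l ≤ n0, PvagLight (M i) (F i) (c l))
    (htow : ∀ z ∈ Zs, ∀ k < g, ∀ l < mt, (G.c1 z k).Inside (a (z, k) l) ∧ (a (z, k) l).Inside (o (z, k) l) ∧ (o (z, k) l).Inside (G.c2 z k))
    (hAdm : ∀ t d, j ≤ t → t ≤ j' → (pvafGam T C0.Left e s)[t]? = some d → ∀ k < g, PvaaAdm T pos C0 ℓ w mt q b (a (G.box (T.src d), k), o (G.box (T.src d), k)))
    {N : ℕ} (hN : J * g ≤ N) (hnb : ¬ PvaaBad T pos C0 ℓ w mt N q (pvagbSel G a o pos ℓ w mt q blk en J) s e b) :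
    ∃ τ d, j ≤ τ ∧ τ ≤ j' ∧ (pvafGam T C0.Left e s)[τ]? = some d ∧ G.box (T.src d) ∈ Zs ∧
      ∀ k < g, ∃ G' Y, PvgGate T s true (G.c0 (G.box (T.src d)) k).Left (G.c3 (G.box (T.src d)) k).Left G' Y := by
  classical
  refine pvaga_main hT hS (pl_left_face C0) hfin G n0 hsc he F hbuf hbuf' blk hen b hJ hjj hj hj' hwalk hZ hfar hlight mt a o htow
    (fun i => PvaaAdm T pos C0 ℓ w mt q b (a i, o i)) hAdm fun i hi hfail => ?_
  have hadm : PvaaAdm T pos C0 ℓ w mt q b (a i, o i) := (pvaf_mem_Z.1 (show (i.1, i.2) ∈ _ from hi)).2.2.2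
  obtain ⟨l, hl, hncr⟩ := pvaa_not_bad hnb (i := (a i, o i)) (Finset.mem_image_of_mem _ hi) hadm ((pvagb_sel_card G a o pos ℓ w mt q blk en J e b s).trans hN)
  exact hncr (hfail l hl)

end Claimed.Agent.R289
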