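import Claimed.Agent.R289.Arm.Strand
import Claimed.Agent.R289.Pl.Hex

/-!
# Row 289 (S0537, Cardy for Poisson-Voronoi), box ARM, block A4-D1, file Arm/StrandCh : STRANDS IN CHAIN FORM (mod 2)      (owner helper158; leaves D1 of `origin/helper228:notes/R289/A4_referee2_228.md`; prefix `pvas_`)

Vocabulary of chains = `Pl/Hex` of helper168: `plEps T d` (the edge of `d` as a chain mod 2), `PlCh T a b z` (`z` = chain of a primal WALK `a → b`, repetitions allowed), `plFaceBd`, `PlIsBd`, `pl_hx_fill`.

sec. 1 KIT for walk chains: `pvas_ch_edge`, `pvas_ch_trans` (concatenation = sum), `pvas_ch_symm` (reversal = same chain), `pvas_isBd_set` (potential -> finite face set `A`, `T.Bd A d ↔ z d = 1`),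
       **`pvas_ch_fill`** (a closed walk bounds), `pvas_ch_fill2` (two walks with the same ends), supports
sec. 2 the strand: `pvasMono T s d` = the monochromatic side of the face of `d`; `pvasChB / pvasChW T s d n` = the LAYER CHAINS of the steps `0..n-1`;  `pvas_chB_walk`, `pvas_chW_walk` (they are walks `src d → src d_n`, `tgt d → tgt d_n`), supports;
       `pvasStrip T s d n` = potential of the crossed faces;   **`pvas_strip`**: `bd (strip) = e_0 + e_n + Lay^B + Lay^W` EXACTLY mod 2;   `pvas_strip_last` (form (a1) of 228: the last triangle contributes its two other sides);   set forms `pvas_strip_ind`, `pvas_strip_bd`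
sec. 3 SIDE for strands: `pvas_side` (a strand which crosses no boundary edge of a face set stays on one side), `pvas_side_mono` (boundary made of monochromatic edges and edges which are not crossed)
-/

set_option autoImplicit false
set_option linter.unusedSectionVars false
set_option linter.unusedVariables false

namespace Claimed.Agent.R289

open Relation

variable {V D : Type} {T : PvMap V D}

/-! ## 1. kit for walk chains -/

theorem pvas_z2_cases (x : ZMod 2) : x = 0 ∨ x = 1 := by revert x; decide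

theorem pvas_ch_edge (d : D) : PlCh T (T.src d) (T.tgt d) (plEps T d) := by
  have := PlCh.cons d (PlCh.nil (T := T) (T.src d))
  rwa [zero_add] at this

/-- concatenation of walks = sum of the chains -/
theorem pvas_ch_trans {a b c : V} {z z' : D →₀ ZMod 2} (h : PlCh T a b z) (h' : PlCh T b c z') : PlCh T a c (z + z') := by
  induction h' with
  | nil => rw [add_zero]; exact h
  | cons d _ ih => rw [← add_assoc]; exact PlCh.cons d ih

/-- the reversed walk has the same chain -/
theorem pvas_ch_symm {a b : V} {z : D →₀ ZMod 2} (h : PlCh T a b z) : PlCh T b a z := by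
  induction h with
  | nil => exact PlCh.nil _
  | cons d _ ih =>
    have e := pvas_ch_edge (T := T) (T.opp d)
    rw [T.src_opp', T.tgt_opp, pl_hx_eps_opp] at e
    have := pvas_ch_trans e ih
    rwa [add_comm] at this

theorem pvas_ch_cast {a b a' b' : V} {z z' : D →₀ ZMod 2} (h : PlCh T a b z) (ha : a = a') (hb : b = b') (hz : z = z') : PlCh T a' b' z' := by
  subst ha hb hz; exact h

theorem pvas_eps_sym (d f : D) : plEps T d (T.opp f) = plEps T d f := by
  classical
  unfold plEps
  simp only [Finsupp.add_apply, Finsupp.single_apply]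
  have e1 : (d = T.opp f) ↔ (T.opp d = f) := ⟨fun h => by rw [h, T.opp_opp], fun h => by rw [← h, T.opp_opp]⟩
  have e2 : (T.opp d = T.opp f) ↔ (d = f) := T.opp_injective.eq_iff
  simp only [e1, e2]
  exact add_comm _ _

/-- the chain of a walk is an edge function -/
theorem pvas_ch_sym {a b : V} {z : D →₀ ZMod 2} (h : PlCh T a b z) (f : D) : z (T.opp f) = z f := by
  induction h with
  | nil => rfl
  | cons d _ ih => rw [Finsupp.add_apply, Finsupp.add_apply, ih, pvas_eps_sym]

theorem pvas_eps_apply (d f : D) : plEps T d f = 1 ↔ (f = d ∨ f = T.opp d) := by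
  constructor
  · intro h
    exact pl_hx_eps_apply_ne (by rw [h]; exact one_ne_zero)
  · rintro (rfl | rfl)
    · exact pl_hx_eps_self _
    · rw [pvas_eps_sym]; exact pl_hx_eps_self _

/-- from a face potential to a finite face set -/
theorem pvas_isBd_set {z : D →₀ ZMod 2} (h : PlIsBd T z) : ∃ A : Set D, A.Finite ∧ T.FaceSet A ∧ ∀ d, T.Bd A d ↔ z d = 1 := by
  obtain ⟨ψ, h1, h2⟩ := h
  refine ⟨{d | ψ d = 1}, ?_, fun d => ?_, fun d => ?_⟩
  · refine ψ.support.finite_toSet.subset fun d hd => ?_
    have hd' : ψ d = 1 := hd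
    exact Finset.mem_coe.2 (Finsupp.mem_support_iff.2 (by rw [hd']; exact one_ne_zero))
  · show ψ (T.nxt d) = 1 ↔ ψ d = 1
    rw [h1]
  · unfold PvMap.Bd
    show ¬ (ψ d = 1 ↔ ψ (T.opp d) = 1) ↔ z d = 1
    rw [← h2]
    rcases pvas_z2_cases (ψ d) with e | e <;> rcases pvas_z2_cases (ψ (T.opp d)) with e' | e' <;> rw [e, e'] <;> decide

/-- **FILL**: a closed primal walk bounds a finite face set (mod 2) -/
theorem pvas_ch_fill (hT : T.IsSph) {a : V} {z : D →₀ ZMod 2} (h : PlCh T a a z) : ∃ A : Set D, A.Finite ∧ T.FaceSet A ∧ ∀ d, T.Bd A d ↔ z d = 1 := by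
  have := pl_hx_fill hT h (PlCh.nil a)
  rw [add_zero] at this
  exact pvas_isBd_set this

/-- **FILL**: two primal walks with the same ends -/
theorem pvas_ch_fill2 (hT : T.IsSph) {a b : V} {z z' : D →₀ ZMod 2} (h : PlCh T a b z) (h' : PlCh T a b z') :
    ∃ A : Set D, A.Finite ∧ T.FaceSet A ∧ ∀ d, T.Bd A d ↔ (z + z') d = 1 :=
  pvas_isBd_set (pl_hx_fill hT h h')

/-- supports add up -/
theorem pvas_supp_add {z z' : D →₀ ZMod 2} {P : D → Prop} (h : ∀ d, z d ≠ 0 → P d) (h' : ∀ d, z' d ≠ 0 → P d) : ∀ d, (z + z') d ≠ 0 → P d := by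
  intro d hd
  by_cases hz : z d = 0
  · rw [Finsupp.add_apply, hz, zero_add] at hd
    exact h' d hd
  · exact h d hz

theorem pvas_supp_sum {ι : Type} (I : Finset ι) (z : ι → D →₀ ZMod 2) {P : D → Prop} (h : ∀ i ∈ I, ∀ d, z i d ≠ 0 → P d) : ∀ d, (∑ i ∈ I, z i) d ≠ 0 → P d := by
  classical
  induction I using Finset.induction_on with
  | empty => intro d hd; exact absurd (by simp) hd
  | insert a I ha ih =>
    rw [Finset.sum_insert ha]
    exact pvas_supp_add (h a (Finset.mem_insert_self _ _)) (ih fun i hi => h i (Finset.mem_insert_of_mem hi))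

/-! ## 2. the strand in chain form -/

variable (T)

/-- the monochromatic side of the face of `d` -/
def pvasMono (s : V → Bool) (d : D) : D := if s (T.apex d) = true then T.nxt (T.nxt d) else T.nxt d

/-- the black layer chain of the steps `0..n-1` -/
noncomputable def pvasChB (s : V → Bool) (d : D) (n : ℕ) : D →₀ ZMod 2 :=
  ∑ i ∈ Finset.range n, if s (T.apex (pvasIt T s d i)) = true then plEps T (pvasMono T s (pvasIt T s d i)) else 0

/-- the white layer chain of the steps `0..n-1` -/
noncomputable def pvasChW (s : V → Bool) (d : D) (n : ℕ) : D →₀ ZMod 2 :=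
  ∑ i ∈ Finset.range n, if s (T.apex (pvasIt T s d i)) = true then 0 else plEps T (pvasMono T s (pvasIt T s d i))

/-- the potential of one face -/
noncomputable def pvasFaceInd (d : D) : D →₀ ZMod 2 := Finsupp.single d 1 + Finsupp.single (T.nxt d) 1 + Finsupp.single (T.nxt (T.nxt d)) 1

/-- the potential of the faces crossed by the steps `0..n-1` (with multiplicity mod 2) -/
noncomputable def pvasStrip (s : V → Bool) (d : D) (n : ℕ) : D →₀ ZMod 2 := ∑ i ∈ Finset.range n, pvasFaceInd T (pvasIt T s d i)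

theorem pvas_ch_eqns_cite : True := by
  have := @pvasMono.eq_1; have := @pvasChB.eq_1; have := @pvasChW.eq_1; have := @pvasFaceInd.eq_1; have := @pvasStrip.eq_1
  trivial

variable {T}
variable {s : V → Bool} {d : D}

theorem pvas_mono_black (h : s (T.apex d) = true) : pvasMono T s d = T.nxt (T.nxt d) := by
  unfold pvasMono; rw [if_pos h]

theorem pvas_mono_white (h : s (T.apex d) = false) : pvasMono T s d = T.nxt d := by
  unfold pvasMono; rw [if_neg (by rw [h]; exact Bool.false_ne_true)]

theorem pvas_mono_sf (s : V → Bool) (d : D) : T.SF d (pvasMono T s d) := by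
  unfold pvasMono
  split_ifs
  · exact T.sf_nxt2 d
  · exact T.sf_nxt d

/-- the side `pvasMono` of the face of a position is monochromatic -/
theorem pvas_mono_not_occ (h : pvasBW T s d) : ¬ T.Occ s (pvasMono T s d) := by
  unfold PvMap.Occ
  rw [not_not]
  cases ha : s (T.apex d)
  · rw [pvas_mono_white ha, T.src_nxt, T.tgt_nxt, h.2, ha]
  · rw [pvas_mono_black ha, T.src_nxt2, T.tgt_nxt2, h.1, ha]

/-- the three sides of the face of `d`: the edge of entrance, the edge of exit, the monochromatic side -/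
theorem pvas_face_bd (s : V → Bool) (d : D) : plFaceBd T d = plEps T d + plEps T (pvasStep T s d) + plEps T (pvasMono T s d) := by
  unfold plFaceBd
  cases ha : s (T.apex d)
  · rw [pvas_mono_white ha, pvas_step_white ha, pl_hx_eps_opp]
    exact add_right_comm _ _ _
  · rw [pvas_mono_black ha, pvas_step_black ha, pl_hx_eps_opp]

theorem pvas_chB_succ (s : V → Bool) (d : D) (n : ℕ) : pvasChB T s d (n + 1) =
    pvasChB T s d n + if s (T.apex (pvasIt T s d n)) = true then plEps T (pvasMono T s (pvasIt T s d n)) else 0 := by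
  unfold pvasChB; rw [Finset.sum_range_succ]

theorem pvas_chW_succ (s : V → Bool) (d : D) (n : ℕ) : pvasChW T s d (n + 1) =
    pvasChW T s d n + if s (T.apex (pvasIt T s d n)) = true then 0 else plEps T (pvasMono T s (pvasIt T s d n)) := by
  unfold pvasChW; rw [Finset.sum_range_succ]

/-- **the black layer chain is the chain of a walk** from the black end of the first position to the black end of the last one -/
theorem pvas_chB_walk (s : V → Bool) (d : D) (n : ℕ) : PlCh T (T.src d) (T.src (pvasIt T s d n)) (pvasChB T s d n) := by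
  induction n with
  | zero => exact PlCh.nil _
  | succ n ih =>
    rw [pvas_chB_succ, pvas_it_succ]
    rcases pvas_step_ends s (pvasIt T s d n) with ⟨a, e, _⟩ | ⟨a, e, _⟩
    · rw [if_pos a, e, pvas_mono_black a]
      have h1 := PlCh.cons (T.opp (T.nxt (T.nxt (pvasIt T s d n)))) (a := T.src d) (z := pvasChB T s d n) (by rw [T.src_opp', T.tgt_nxt2]; exact ih)
      rwa [T.tgt_opp, T.src_nxt2, pl_hx_eps_opp] at h1
    · rw [if_neg (by rw [a]; exact Bool.false_ne_true), e, add_zero]
      exact ih

/-- **the white layer chain is the chain of a walk** from the white end of the first position to the white end of the last one -/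
theorem pvas_chW_walk (s : V → Bool) (d : D) (n : ℕ) : PlCh T (T.tgt d) (T.tgt (pvasIt T s d n)) (pvasChW T s d n) := by
  induction n with
  | zero => exact PlCh.nil _
  | succ n ih =>
    rw [pvas_chW_succ, pvas_it_succ]
    rcases pvas_step_ends s (pvasIt T s d n) with ⟨a, _, e⟩ | ⟨a, _, e⟩
    · rw [if_pos a, e, add_zero]
      exact ih
    · rw [if_neg (by rw [a]; exact Bool.false_ne_true), e, pvas_mono_white a]
      have h1 := PlCh.cons (T.nxt (pvasIt T s d n)) (a := T.tgt d) (z := pvasChW T s d n) (by rw [T.src_nxt]; exact ih)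
      rwa [T.tgt_nxt] at h1

/-- the support of the black layer chain: sides of crossed faces, both ends in the black layer -/
theorem pvas_chB_supp (s : V → Bool) (d : D) (n : ℕ) (f : D) (h : pvasChB T s d n f ≠ 0) :
    (f ∈ pvasFc T s d n ∨ T.opp f ∈ pvasFc T s d n) ∧ T.src f ∈ pvasLayB T s d n ∧ T.tgt f ∈ pvasLayB T s d n := by
  revert f
  unfold pvasChB
  refine pvas_supp_sum _ _ fun i hi f hf => ?_
  have hi' : i < n := Finset.mem_range.1 hi
  by_cases a : s (T.apex (pvasIt T s d i)) = true
  · rw [if_pos a, pvas_mono_black a] at hf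
    have e1 : T.src (pvasIt T s d (i + 1)) = T.apex (pvasIt T s d i) := by
      rw [pvas_it_succ, pvas_step_black a, T.src_opp', T.tgt_nxt]
    rcases pl_hx_eps_apply_ne hf with rfl | rfl
    · exact ⟨Or.inl ⟨i, hi', T.sf_nxt2 _⟩, ⟨i + 1, hi', by rw [e1, T.src_nxt2]⟩, ⟨i, hi'.le, by rw [T.tgt_nxt2]⟩⟩
    · refine ⟨Or.inr ⟨i, hi', by rw [T.opp_opp]; exact T.sf_nxt2 _⟩, ⟨i, hi'.le, by rw [T.src_opp', T.tgt_nxt2]⟩, ⟨i + 1, hi', by rw [e1, T.tgt_opp, T.src_nxt2]⟩⟩
  · rw [if_neg a] at hf
    exact absurd rfl hf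

/-- the support of the white layer chain -/
theorem pvas_chW_supp (s : V → Bool) (d : D) (n : ℕ) (f : D) (h : pvasChW T s d n f ≠ 0) :
    (f ∈ pvasFc T s d n ∨ T.opp f ∈ pvasFc T s d n) ∧ T.src f ∈ pvasLayW T s d n ∧ T.tgt f ∈ pvasLayW T s d n := by
  revert f
  unfold pvasChW
  refine pvas_supp_sum _ _ fun i hi f hf => ?_
  have hi' : i < n := Finset.mem_range.1 hi
  by_cases a : s (T.apex (pvasIt T s d i)) = true
  · rw [if_pos a] at hf
    exact absurd rfl hf
  · have a' : s (T.apex (pvasIt T s d i)) = false := Bool.eq_false_iff.2 a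
    rw [if_neg a, pvas_mono_white a'] at hf
    have e1 : T.tgt (pvasIt T s d (i + 1)) = T.apex (pvasIt T s d i) := by
      rw [pvas_it_succ, pvas_step_white a', T.tgt_opp, T.src_nxt2]
    rcases pl_hx_eps_apply_ne hf with rfl | rfl
    · exact ⟨Or.inl ⟨i, hi', T.sf_nxt _⟩, ⟨i, hi'.le, by rw [T.src_nxt]⟩, ⟨i + 1, hi', by rw [e1, T.tgt_nxt]⟩⟩
    · refine ⟨Or.inr ⟨i, hi', by rw [T.opp_opp]; exact T.sf_nxt _⟩, ⟨i + 1, hi', by rw [e1, T.src_opp', T.tgt_nxt]⟩, ⟨i, hi'.le, by rw [T.tgt_opp, T.src_nxt]⟩⟩

theorem pvas_faceInd_nxt (d₀ f : D) : pvasFaceInd T d₀ (T.nxt f) = pvasFaceInd T d₀ f := by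
  classical
  unfold pvasFaceInd
  simp only [Finsupp.add_apply, Finsupp.single_apply]
  have e1 : (d₀ = T.nxt f) ↔ (T.nxt (T.nxt d₀) = f) := by
    constructor
    · rintro rfl; exact T.nxt3 f
    · rintro rfl; exact (T.nxt3 d₀).symm
  have e2 : (T.nxt d₀ = T.nxt f) ↔ (d₀ = f) := T.nxt_injective.eq_iff
  have e3 : (T.nxt (T.nxt d₀) = T.nxt f) ↔ (T.nxt d₀ = f) := T.nxt_injective.eq_iff
  simp only [e1, e2, e3]
  ring

theorem pvas_faceInd_bd (d₀ f : D) : pvasFaceInd T d₀ f + pvasFaceInd T d₀ (T.opp f) = plFaceBd T d₀ f := by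
  classical
  unfold pvasFaceInd plFaceBd plEps
  simp only [Finsupp.add_apply, Finsupp.single_apply]
  have e : ∀ x, (T.opp x = f) ↔ (x = T.opp f) := by
    intro x
    constructor
    · rintro rfl; exact (T.opp_opp x).symm
    · rintro rfl; exact T.opp_opp f
  simp only [e]
  ring

open Classical in
theorem pvas_faceInd_apply (d₀ f : D) : pvasFaceInd T d₀ f = if T.SF d₀ f then 1 else 0 := by
  unfold pvasFaceInd
  simp only [Finsupp.add_apply, Finsupp.single_apply]
  by_cases h0 : d₀ = f
  · subst h0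
    rw [if_pos rfl, if_neg (T.nxt_ne_self d₀), if_neg (T.nxt2_ne_self d₀), if_pos (T.sf_refl d₀)]
    rfl
  by_cases h1 : T.nxt d₀ = f
  · subst h1
    rw [if_neg h0, if_pos rfl, if_neg (T.nxt_ne_self (T.nxt d₀)), if_pos (T.sf_nxt d₀)]
    rfl
  by_cases h2 : T.nxt (T.nxt d₀) = f
  · subst h2
    rw [if_neg h0, if_neg h1, if_pos rfl, if_pos (T.sf_nxt2 d₀)]
    rfl
  · rw [if_neg h0, if_neg h1, if_neg h2, if_neg]
    · rfl
    · rintro (h | h | h)
      · exact h0 h.symm
      · exact h1 h.symm
      · exact h2 h.symm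

theorem pvas_strip_nxt (s : V → Bool) (d : D) (n : ℕ) (f : D) : pvasStrip T s d n (T.nxt f) = pvasStrip T s d n f := by
  unfold pvasStrip
  rw [Finsupp.finsetSum_apply, Finsupp.finsetSum_apply]
  exact Finset.sum_congr rfl fun i _ => pvas_faceInd_nxt _ _

theorem pvas_z2_self (z : D →₀ ZMod 2) : z + z = 0 := by
  ext f
  rw [Finsupp.add_apply]
  exact pl_z2_add_self _

/-- telescoping of the face boundaries along the strand -/
theorem pvas_strip_sum (s : V → Bool) (d : D) (n : ℕ) :
    ∑ i ∈ Finset.range n, plFaceBd T (pvasIt T s d i) = plEps T d + plEps T (pvasIt T s d n) + pvasChB T s d n + pvasChW T s d n := by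
  induction n with
  | zero =>
    show (0 : D →₀ ZMod 2) = plEps T d + plEps T d + 0 + 0
    rw [pvas_z2_self, add_zero, add_zero]
  | succ n ih =>
    rw [Finset.sum_range_succ, ih, pvas_face_bd s, pvas_chB_succ, pvas_chW_succ, ← pvas_it_succ]
    have hz := pvas_z2_self (plEps T (pvasIt T s d n))
    by_cases a : s (T.apex (pvasIt T s d n)) = true
    · rw [if_pos a, if_pos a]
      calc _ = plEps T d + plEps T (pvasIt T s d (n + 1)) + (pvasChB T s d n + plEps T (pvasMono T s (pvasIt T s d n))) + (pvasChW T s d n + 0)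
            + (plEps T (pvasIt T s d n) + plEps T (pvasIt T s d n)) := by abel
        _ = _ := by rw [hz, add_zero]
    · rw [if_neg a, if_neg a]
      calc _ = plEps T d + plEps T (pvasIt T s d (n + 1)) + (pvasChB T s d n + 0) + (pvasChW T s d n + plEps T (pvasMono T s (pvasIt T s d n)))
            + (plEps T (pvasIt T s d n) + plEps T (pvasIt T s d n)) := by abel
        _ = _ := by rw [hz, add_zero]

/-- **`bd (strip) = e_0 + e_n + Lay^B + Lay^W`, exactly mod 2** (potential form; no hypothesis at all) -/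
theorem pvas_strip (s : V → Bool) (d : D) (n : ℕ) (f : D) :
    pvasStrip T s d n f + pvasStrip T s d n (T.opp f) = (plEps T d + plEps T (pvasIt T s d n) + pvasChB T s d n + pvasChW T s d n) f := by
  rw [← pvas_strip_sum]
  unfold pvasStrip
  rw [Finsupp.finsetSum_apply, Finsupp.finsetSum_apply, Finsupp.finsetSum_apply, ← Finset.sum_add_distrib]
  exact Finset.sum_congr rfl fun i _ => pvas_faceInd_bd _ _

theorem pvas_strip_isBd (s : V → Bool) (d : D) (n : ℕ) : PlIsBd T (plEps T d + plEps T (pvasIt T s d n) + pvasChB T s d n + pvasChW T s d n) :=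
  ⟨pvasStrip T s d n, pvas_strip_nxt s d n, pvas_strip s d n⟩

/-- form (a1) of 228: the layer chains stop BEFORE the last triangle, which contributes its two other sides -/
theorem pvas_strip_last (s : V → Bool) (d : D) (n : ℕ) (f : D) :
    pvasStrip T s d (n + 1) f + pvasStrip T s d (n + 1) (T.opp f) =
      (plEps T d + pvasChB T s d n + pvasChW T s d n + plEps T (T.nxt (pvasIt T s d n)) + plEps T (T.nxt (T.nxt (pvasIt T s d n)))) f := by
  have h1 := pvas_strip (T := T) s d n f
  have h2 := pvas_faceInd_bd (T := T) (pvasIt T s d n) f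
  have e : ∀ g, pvasStrip T s d (n + 1) g = pvasStrip T s d n g + pvasFaceInd T (pvasIt T s d n) g := by
    intro g
    unfold pvasStrip
    rw [Finset.sum_range_succ, Finsupp.add_apply]
  rw [e, e]
  have hz := pl_z2_add_self (plEps T (pvasIt T s d n) f)
  unfold plFaceBd at h2
  simp only [Finsupp.add_apply] at h1 h2 ⊢
  linear_combination h1 + h2 + hz

/-- if the crossed faces are pairwise distinct, the potential is the indicator of `pvasFc` -/
theorem pvas_strip_ind {n : ℕ} (hinj : ∀ i j, i < n → j < n → T.SF (pvasIt T s d i) (pvasIt T s d j) → i = j) (f : D) :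
    pvasStrip T s d n f = 1 ↔ f ∈ pvasFc T s d n := by
  classical
  unfold pvasStrip
  rw [Finsupp.finsetSum_apply]
  simp only [pvas_faceInd_apply]
  constructor
  · intro h
    by_contra hn
    rw [Finset.sum_eq_zero] at h
    · exact zero_ne_one h
    · intro i hi
      rw [if_neg fun hf => hn ⟨i, Finset.mem_range.1 hi, hf⟩]
  · rintro ⟨i, hi, hf⟩
    rw [Finset.sum_eq_single i, if_pos hf]
    · intro j hj hji
      rw [if_neg]
      intro hf'
      exact hji (hinj j i (Finset.mem_range.1 hj) hi (T.sf_trans hf' (T.sf_symm hf)))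
    · intro hn
      exact absurd (Finset.mem_range.2 hi) hn

/-- **boundary of the strip, set form** -/
theorem pvas_strip_bd {n : ℕ} (hinj : ∀ i j, i < n → j < n → T.SF (pvasIt T s d i) (pvasIt T s d j) → i = j) (f : D) :
    T.Bd (pvasFc T s d n) f ↔ (plEps T d + plEps T (pvasIt T s d n) + pvasChB T s d n + pvasChW T s d n) f = 1 := by
  rw [← pvas_strip, PvMap.Bd, ← pvas_strip_ind hinj, ← pvas_strip_ind hinj]
  rcases pvas_z2_cases (pvasStrip T s d n f) with e | e <;> rcases pvas_z2_cases (pvasStrip T s d n (T.opp f)) with e' | e' <;> rw [e, e'] <;> decide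

/-- the faces crossed by a strand of `A` before its exit are pairwise distinct -/
theorem pvas_in_inj {A : Set D} (hA : T.FaceSet A) (h : pvasIn T A s d) {n : ℕ} (hn : ∀ i, i < n → pvasIt T s d i ∈ A) :
    ∀ i j, i < n → j < n → T.SF (pvasIt T s d i) (pvasIt T s d j) → i = j :=
  fun i j hi hj hf => (pvas_disjoint hA h h (fun k hk => hn k (hk.trans hi)) (fun k hk => hn k (hk.trans hj)) hf).2

/-! ## 3. SIDE for strands -/

/-- **SIDE-d for strands**: a strand which crosses no boundary edge of the face set `B` stays on one side of it -/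
theorem pvas_side {B : Set D} (hB : T.FaceSet B) (s : V → Bool) (d : D) (n : ℕ) (h : ∀ i, 1 ≤ i → i ≤ n → ¬ T.Bd B (pvasIt T s d i)) :
    pvasIt T s d n ∈ B ↔ d ∈ B := by
  induction n with
  | zero => exact Iff.rfl
  | succ n ih =>
    have h1 := h (n + 1) (by omega) le_rfl
    unfold PvMap.Bd at h1
    rw [not_not] at h1
    rw [h1, pvas_it_succ, pvas_step_opp_mem hB]
    exact ih fun i hi1 hi2 => h i hi1 (by omega)

/-- all the positions and all the crossed faces are on the side of the first position -/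
theorem pvas_side_all {B : Set D} (hB : T.FaceSet B) (s : V → Bool) (d : D) (n : ℕ) (h : ∀ i, 1 ≤ i → i ≤ n → ¬ T.Bd B (pvasIt T s d i)) (hd : d ∈ B) :
    (∀ i, i ≤ n → pvasIt T s d i ∈ B) ∧ pvasFc T s d (n + 1) ⊆ B := by
  have h1 : ∀ i, i ≤ n → pvasIt T s d i ∈ B := fun i hi => (pvas_side hB s d i fun j hj1 hj2 => h j hj1 (hj2.trans hi)).2 hd
  refine ⟨h1, ?_⟩
  rintro f ⟨i, hi, hf⟩
  exact (hB.sf T hf).2 (h1 i (Nat.lt_succ_iff.1 hi))

/-- a strand never crosses a monochromatic edge: a face set whose boundary edges are monochromatic contains the whole strand or nothing of it -/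
theorem pvas_side_mono {B : Set D} (hB : T.FaceSet B) (hbw : pvasBW T s d) (hmono : ∀ f, T.Bd B f → ¬ T.Occ s f) (n : ℕ) : pvasIt T s d n ∈ B ↔ d ∈ B :=
  pvas_side hB s d n fun i _ _ hb => hmono _ hb (pvas_bw_occ (pvas_it_bw hbw i))

/-- the same with exceptional boundary edges which the strand does not cross -/
theorem pvas_side_mono' {B : Set D} (hB : T.FaceSet B) (hbw : pvasBW T s d) {n : ℕ} {E : D → Prop} (hmono : ∀ f, T.Bd B f → ¬ T.Occ s f ∨ E f)
    (hE : ∀ i, 1 ≤ i → i ≤ n → ¬ E (pvasIt T s d i)) : pvasIt T s d n ∈ B ↔ d ∈ B :=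
  pvas_side hB s d n fun i h1 h2 hb => (hmono _ hb).elim (fun h => h (pvas_bw_occ (pvas_it_bw hbw i))) (hE i h1 h2)

end Claimed.Agent.R289
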