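import Claimed.Agent.R289.Pl.Path
import Claimed.Agent.R289.Pl.Gate
import Claimed.Agent.R289.Arm.Side
import Claimed.Agent.R289.Arm.StrandCh
import Claimed.Agent.R289.Arm.Bxp
import Claimed.Agent.R289.S2.Gate

/-!
# Row 289 (S0537, Cardy for Poisson-Voronoi), box ARM, block A6 (gate density, TR16), file Arm/GateD : THE DETERMINISTIC LEMMAS (D1)-(D3) OF A6      (owner helper116; blueprint `origin/helper281:notes/R289/A6_281.md` sec. 2; prefix `pvagd_`, defs `Pvagd…`)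

ANNULUS OF RECORD: `c' c : T.Cyc`, `c'.Inside c`, faces `c'.Ann c`.   STRANDS OF RECORD: `γ : PvanStr T s (c'.Ann c)` (helper42), black on the left; `γ.LayB`, `γ.LayW`, `γ.Vis`.   `true` = BLACK.   White rims: apply everything to `pvasNot s`.

* sec. 1  `pvagd_one`      a vertex carries no boundary dart of a face set if at most one of its darts can be one (`link`)
* sec. 2  `pvagdCh p i j`  the chain mod 2 of a piece of a simple path; walk, support
* sec. 3  `pvagd_fill`     FILL IN A SPHERE WITH TWO HOLES `P`, `Q`: a walk between two vertices of the cycle round `P`, drawn off the holes, bounds (modulo edges of this cycle) a face set which misses both holes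
* sec. 4  **`pvagd_pocket_abs`**  the pocket lemma without colours: a simple crossing `p`, a connected set `K` off `p` which touches both cycles, an edge `f` from `p` to `K`:
          a face of this edge is not joined to both holes by dual paths which cross no edge of `p ∪ K ∪ f`.      NO Jordan curve, NO sector, NO hypothesis on the visits of `p`, `K` to the two cycles:
          two fillings `Ψ`, `Ψ'`; the boundary of `Ψ ∩ Ψ'` lives on `p`, `f`, `K`; it is stripped off `p` from both ends (`pvagd_one`), so `f` is not a boundary edge.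
* sec. 5  `PvagdX c' c γ` (the strand crosses the annulus, either direction);   **`pvagd_pocket`** = (D2): two disjoint black crossings do not both touch the black bank of a crossing strand
* sec. 6  **`pvagd_three`** = (D3): (CG) + (FG) ⟹ no three disjoint black crossings;   **`pvagd_gate`**: a gate circuit (`pl_gate` of helper284);   `pvagd_cg_vert`: (CG) for faces ⟹ (CG) for vertices
* sec. 7  **`pvagd_pvgGate`**: exit `∃ G X, PvgGate T s true cI.Left cO.Left G X` (face set form of helper190, no `T.Simple`; helper212 widens it to his balls by `PvgGate.widen`)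
* sec. 8  RUN = positions `l 0 … l n` of one strand (a chord of a big disc, a period of a closed strand);   `PvagdPiece l n c' c α β` (crossing piece = time interval), `PvagdLe2 l n c' c` (`N ≤ 2`: no three crossing pieces);
          **`pvagd_cg_idx`**, **`pvagd_cg`** = (D1): both ends outside `cO`, a visit of `cI.Left`, `N ≤ 2` in both buffers ⟹ (CG) with the first descent and the last ascent
* sec. 9  **`pvagd_run_gate`**, **`pvagd_chord_gate`** = (D1) + (D3) for one trial (six nested cycles);   `pvagd_gate_not`, `pvagd_cr_not`: exchange of the colours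
* sec. 10 (CG) in TIME-INTERVAL form for a chord: `PvagdXp`, `PvagdCG` (same bodies as `PvagaXp`, `PvagaCG` of `Arm/GateA`), `pvagd_str`, **`pvagd_cg_meas`** ((CG) is read off the explored chord), **`pvagd_gateA`** ((CG) + (FG) ⟹ gate circuit)
-/

set_option autoImplicit false

namespace Claimed.Agent.R289

open Relation

variable {V D : Type} {T : PvMap V D}

/-! ## 1. One candidate at a vertex -/

/-- if at most the dart `d₁` at its source can be a boundary dart of the face set `A`, it is not one -/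
theorem pvagd_one (hT : T.IsSph) {A : Set D} (hA : T.FaceSet A) {d₁ : D} (hv : ∀ d, T.src d = T.src d₁ → T.Bd A d → d = d₁) : ¬ T.Bd A d₁ := by
  intro hb
  have hne : d₁ ≠ T.rot d₁ := by
    intro h
    have h1 : T.tgt (T.rot d₁) = T.apex d₁ := T.tgt_rot d₁
    rw [← h] at h1
    exact T.apex_ne_tgt d₁ h1.symm
  have h2 := pl_side_two hT hA rfl (T.src_rot d₁) hne (fun d hd hb => Or.inl (hv d hd hb))
  exact hne (hv _ (T.src_rot d₁) (h2.1 hb)).symm

theorem pvagd_z2_ne (x : ZMod 2) : x ≠ 0 ↔ x = 1 := by revert x; decide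

/-! ## 2. The chain of a piece of a simple path -/

/-- the chain mod 2 of the darts number `i, …, j - 1` of a path -/
noncomputable def pvagdCh (p : T.Pth) (i j : ℕ) : D →₀ ZMod 2 := ∑ t ∈ Finset.Ico i j, plEps T (p.e t)

theorem pvagd_eqns_cite : True := by
  have := @pvagdCh.eq_1
  trivial

theorem pvagd_ch_walk (p : T.Pth) {i j : ℕ} (hij : i ≤ j) (hj : j ≤ p.n) : PlCh T (p.v i) (p.v j) (pvagdCh p i j) := by
  unfold pvagdCh
  induction j, hij using Nat.le_induction with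
  | base => rw [Finset.Ico_self, Finset.sum_empty]; exact PlCh.nil _
  | succ j hij ih =>
    rw [Finset.sum_Ico_succ_top hij, ← p.tgt_e j (by omega)]
    refine PlCh.cons _ ?_
    rw [p.src_e j (by omega)]
    exact ih (by omega)

theorem pvagd_ch_supp (p : T.Pth) {i j : ℕ} (hj : j ≤ p.n) {d : D} (h : pvagdCh p i j d ≠ 0) : T.Edg p.darts d := by
  unfold pvagdCh at h
  rw [Finsupp.finsetSum_apply] at h
  obtain ⟨t, ht, ht'⟩ := Finset.exists_ne_zero_of_sum_ne_zero h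
  rw [Finset.mem_Ico] at ht
  rcases pl_hx_eps_apply_ne ht' with rfl | rfl
  · exact Or.inl ⟨t, by omega, rfl⟩
  · exact Or.inr (by rw [T.opp_opp]; exact ⟨t, by omega, rfl⟩)

/-- both ends of a path edge are vertices of the path -/
theorem pvagd_edg_verts (p : T.Pth) {d : D} (h : T.Edg p.darts d) : T.src d ∈ p.verts ∧ T.tgt d ∈ p.verts := by
  rcases h with ⟨k, hk, rfl⟩ | ⟨k, hk, hk'⟩
  · exact ⟨⟨k, hk.le, (p.src_e k hk).symm⟩, ⟨k + 1, hk, (p.tgt_e k hk).symm⟩⟩
  · refine ⟨⟨k + 1, hk, ?_⟩, ⟨k, hk.le, ?_⟩⟩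
    · rw [← p.tgt_e k hk, hk', T.tgt_opp]
    · rw [← p.src_e k hk, hk', T.src_opp']

theorem pvagd_edg_in (p : T.Pth) {A : Set D} (hp : p.In A) {d : D} (h : T.Edg p.darts d) : d ∈ A ∨ T.opp d ∈ A := by
  rcases h with ⟨k, hk, rfl⟩ | ⟨k, hk, hk'⟩
  · exact hp k hk
  · have := hp k hk
    rw [hk', T.opp_opp] at this
    exact this.symm

/-! ## 3. Fill in a sphere with two holes -/

/-- the outer hole `c.Leftᶜ` is solid: a face set no boundary edge of which lies inside the hole contains the hole or misses it -/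
theorem pvagd_solid_out (hT : T.IsSph) (c : T.Cyc) (A : Set D) (hA : T.FaceSet A) (h : ∀ d, T.Bd A d → d ∉ c.Leftᶜ ∨ T.opp d ∉ c.Leftᶜ) :
    A ⊆ c.Leftᶜᶜ ∨ Aᶜ ⊆ c.Leftᶜᶜ := by
  rw [compl_compl]
  refine pvad_in_disc hT c hA fun d hd => ?_
  rcases h d hd with h1 | h1
  · exact Or.inl (not_not.1 h1)
  · exact Or.inr (not_not.1 h1)

/-- the inner hole `c.Left` is solid -/
theorem pvagd_solid_in (hT : T.IsSph) (c : T.Cyc) (A : Set D) (hA : T.FaceSet A) (h : ∀ d, T.Bd A d → d ∉ c.Left ∨ T.opp d ∉ c.Left) :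
    A ⊆ c.Leftᶜ ∨ Aᶜ ⊆ c.Leftᶜ := by
  obtain ⟨c₁, -, -, -, hL, -⟩ := pl_cyc_rev hT c
  have hR := (pl_jordan hT c).1
  rw [← hR, ← hL]
  refine pvad_in_disc hT c₁ hA fun d hd => ?_
  rw [hL, hR]
  exact h d hd

/-- **FILL IN A SPHERE WITH TWO HOLES** `P` (bounded by the cycle `γ`) and `Q` (solid): a walk between two vertices of `γ` all of whose edges have a face off the holes bounds, modulo edges of `γ`, a face set which misses both holes -/
theorem pvagd_fill (hT : T.IsSph) (γ : T.Cyc) {P Q : Set D} (hP : T.FaceSet P) (hPbd : ∀ d, T.Bd P d → T.Edg γ.darts d)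
    (hQ : ∀ A : Set D, T.FaceSet A → (∀ d, T.Bd A d → d ∉ Q ∨ T.opp d ∉ Q) → A ⊆ Qᶜ ∨ Aᶜ ⊆ Qᶜ)
    (hγQ : ∀ i, γ.e i ∉ Q ∨ T.opp (γ.e i) ∉ Q) {a b : V} (ha : a ∈ γ.verts) (hb : b ∈ γ.verts) {z : D →₀ ZMod 2} (hz : PlCh T a b z)
    (hsupp : ∀ d, z d ≠ 0 → (d ∉ P ∧ d ∉ Q) ∨ (T.opp d ∉ P ∧ T.opp d ∉ Q)) :
    ∃ Ψ : Set D, T.FaceSet Ψ ∧ (∀ d ∈ Ψ, d ∉ P ∧ d ∉ Q) ∧ ∀ d, ¬ T.Edg γ.darts d → (T.Bd Ψ d ↔ z d ≠ 0) := by
  obtain ⟨i, rfl⟩ := ha
  obtain ⟨j, rfl⟩ := hb
  have hn := pl_cyc_pos γ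
  have hij : i ≤ j + i * γ.n := by nlinarith
  have hw := pl_hx_arc_ch γ hij
  rw [pl_cyc_per γ j i] at hw
  set w : D →₀ ZMod 2 := ∑ t ∈ Finset.Ico i (j + i * γ.n), plEps T (γ.e t) with hwdef
  obtain ⟨A₀, -, hA₀, hbd₀⟩ := pvas_ch_fill2 hT hz hw
  have hwsupp : ∀ d, w d ≠ 0 → T.Edg γ.darts d := fun d hd => pl_hx_arc_supp γ hd
  have hoff : ∀ d, T.Bd A₀ d → d ∉ Q ∨ T.opp d ∉ Q := by
    intro d hd
    have h1 : (z + w) d ≠ 0 := by rw [(hbd₀ d).1 hd]; exact one_ne_zero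
    by_cases hzd : z d = 0
    · rw [Finsupp.add_apply, hzd, zero_add] at h1
      rcases hwsupp d h1 with ⟨t, rfl⟩ | ⟨t, ht⟩
      · exact hγQ t
      · have := hγQ t
        rw [ht, T.opp_opp] at this
        exact this.symm
    · rcases hsupp d hzd with h2 | h2
      · exact Or.inl h2.2
      · exact Or.inr h2.2
  obtain ⟨A₁, hA₁, hsub, hbd₁⟩ : ∃ A₁ : Set D, T.FaceSet A₁ ∧ A₁ ⊆ Qᶜ ∧ ∀ d, T.Bd A₁ d ↔ (z + w) d = 1 := by
    rcases hQ A₀ hA₀ hoff with h | h
    · exact ⟨A₀, hA₀, h, hbd₀⟩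
    · exact ⟨A₀ᶜ, hA₀.compl T, h, fun d => T.bd_compl.trans (hbd₀ d)⟩
  refine ⟨A₁ \ P, fun d => ?_, fun d hd => ⟨hd.2, hsub hd.1⟩, fun d hd => ?_⟩
  · simp only [Set.mem_sdiff]
    rw [hA₁ d, hP d]
  · have hPd : d ∈ P ↔ T.opp d ∈ P := by
      by_contra hc
      exact hd (hPbd d hc)
    have hwd : w d = 0 := by
      by_contra hc
      exact hd (hwsupp d hc)
    have hzw : (z + w) d = z d := by rw [Finsupp.add_apply, hwd, add_zero]
    by_cases hdP : d ∈ P
    · have hoP := hPd.1 hdP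
      constructor
      · intro hb
        exact absurd ⟨fun h => absurd hdP h.2, fun h => absurd hoP h.2⟩ hb
      · intro hzd
        rcases hsupp d hzd with h2 | h2
        · exact absurd hdP h2.1
        · exact absurd hoP h2.1
    · have hoP : T.opp d ∉ P := fun h => hdP (hPd.2 h)
      rw [pvagd_z2_ne, ← hzw, ← hbd₁ d]
      unfold PvMap.Bd
      simp only [Set.mem_sdiff, hdP, hoP, not_false_eq_true, and_true]

/-! ## 4. The pocket lemma without colours -/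

theorem pvagd_edge_disj (hT : T.IsSph) {c' c : T.Cyc} (h : c'.Inside c) {d : D} (h1 : T.Edg c'.darts d) (h2 : T.Edg c.darts d) : False :=
  Set.disjoint_left.1 (pl_jordan_vert_disj hT c).1 (pl_cyc_edg_src c h2) (h.1 (pl_cyc_edg_src c' h1))

/-- **POCKET LEMMA, abstract form.**   `p` a simple path of the closed annulus from `c'` to `c`; `K` a set of vertices off `p`; `f` an edge from `p` to `K`; inside `K` the head of `f` is joined to `c'` and to `c`;
`g` = one of the two faces of `f`, in the annulus.   Then `g` is not joined both to the outer hole by a dual path which crosses no edge of `c'` and to the inner hole by a dual path which crosses no edge of `c`,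
if these dual paths cross no edge with both ends in `B ⊇ p ∪ K`. -/
theorem pvagd_pocket_abs (hT : T.IsSph) {c' c : T.Cyc} (h : c'.Inside c) (p : T.Pth) (hp : p.In (c'.Ann c)) (h0 : p.v 0 ∈ c'.verts) (h1 : p.v p.n ∈ c.verts)
    {K B : Set V} (hKp : ∀ v ∈ K, v ∉ p.verts) (hpB : p.verts ⊆ B) (hKB : K ⊆ B) {f g o ι : D} {a b : V} (hfs : T.src f ∈ p.verts) (hft : T.tgt f ∈ K)
    (hg : g = f ∨ g = T.opp f) (hgA : g ∈ c'.Ann c) (ha : a ∈ c'.verts) (hb : b ∈ c.verts) (hKa : T.Join (c'.Ann c) K (T.tgt f) a) (hKb : T.Join (c'.Ann c) K (T.tgt f) b)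
    (ho : o ∉ c.Left) (hι : ι ∈ c'.Left) (hgo : T.DJoin ({d | T.src d ∈ B ∧ T.tgt d ∈ B} ∪ c'.darts) g o)
    (hgι : T.DJoin ({d | T.src d ∈ B ∧ T.tgt d ∈ B} ∪ c.darts) g ι) : False := by
  obtain ⟨m, hm, hmf⟩ := hfs
  obtain ⟨-, jL', -, jbd'⟩ := pl_jordan hT c'
  obtain ⟨-, jL, jR, jbd⟩ := pl_jordan hT c
  have jRc : ∀ i, T.opp (c.e i) ∉ c.Left := fun i hi => by
    have := jR i
    rw [(pl_jordan hT c).1] at this
    exact this hi
  obtain ⟨za, hza, hzas⟩ := pl_hx_join_ch hKa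
  obtain ⟨zb, hzb, hzbs⟩ := pl_hx_join_ch hKb
  -- the two walks
  have wIn : PlCh T (p.v 0) a (pvagdCh p 0 m + plEps T f + za) :=
    pvas_ch_trans (PlCh.cons f (by rw [← hmf]; exact pvagd_ch_walk p (Nat.zero_le m) hm)) hza
  have wOut : PlCh T (p.v p.n) b (pvagdCh p m p.n + plEps T f + zb) :=
    pvas_ch_trans (PlCh.cons f (by rw [← hmf]; exact pvas_ch_symm (pvagd_ch_walk p hm le_rfl))) hzb
  set zi : D →₀ ZMod 2 := pvagdCh p 0 m + plEps T f + za with hzi
  set zo : D →₀ ZMod 2 := pvagdCh p m p.n + plEps T f + zb with hzo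
  have hfA : f ∈ c'.Ann c ∨ T.opp f ∈ c'.Ann c := by
    rcases hg with rfl | rfl
    · exact Or.inl hgA
    · exact Or.inr hgA
  -- supports
  have sup : ∀ (i j : ℕ) (zk : D →₀ ZMod 2), j ≤ p.n → (∀ d, zk d ≠ 0 → (d ∈ c'.Ann c ∨ T.opp d ∈ c'.Ann c) ∧ T.src d ∈ K ∧ T.tgt d ∈ K) →
      ∀ d, (pvagdCh p i j + plEps T f + zk) d ≠ 0 →
        (d ∈ c'.Ann c ∨ T.opp d ∈ c'.Ann c) ∧ (T.Edg p.darts d ∨ d = f ∨ d = T.opp f ∨ (T.src d ∈ K ∧ T.tgt d ∈ K)) := by
    intro i j zk hj hzk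
    refine pvas_supp_add (pvas_supp_add ?_ ?_) ?_
    · intro d hd
      have := pvagd_ch_supp p hj hd
      exact ⟨pvagd_edg_in p hp this, Or.inl this⟩
    · intro d hd
      rcases pl_hx_eps_apply_ne hd with rfl | rfl
      · exact ⟨hfA, Or.inr (Or.inl rfl)⟩
      · exact ⟨by rw [T.opp_opp]; exact hfA.symm, Or.inr (Or.inr (Or.inl rfl))⟩
    · intro d hd
      exact ⟨(hzk d hd).1, Or.inr (Or.inr (Or.inr (hzk d hd).2))⟩
  have supI := sup 0 m za hm hzas
  have supO := sup m p.n zb le_rfl hzbs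
  have hsrcf : T.src f ∈ p.verts := ⟨m, hm, hmf⟩
  have inB : ∀ d, (T.Edg p.darts d ∨ d = f ∨ d = T.opp f ∨ (T.src d ∈ K ∧ T.tgt d ∈ K)) → T.src d ∈ B ∧ T.tgt d ∈ B := by
    rintro d (hd | rfl | rfl | hd)
    · exact ⟨hpB (pvagd_edg_verts p hd).1, hpB (pvagd_edg_verts p hd).2⟩
    · exact ⟨hpB hsrcf, hKB hft⟩
    · rw [T.src_opp', T.tgt_opp]; exact ⟨hKB hft, hpB hsrcf⟩
    · exact ⟨hKB hd.1, hKB hd.2⟩
  -- the two fillings
  obtain ⟨Ψ, hΨ, hΨs, hΨb⟩ := pvagd_fill hT c' (P := c'.Left) (Q := c.Leftᶜ) (pl_left_face c') (fun d hd => (jbd' d).1 hd) (pvagd_solid_out hT c)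
    (fun i => Or.inl (not_not.2 (h.2 (jL' i)))) h0 ha wIn (fun d hd => by
      rcases (supI d hd).1 with h2 | h2
      · exact Or.inl ⟨h2.2, not_not.2 h2.1⟩
      · exact Or.inr ⟨h2.2, not_not.2 h2.1⟩)
  obtain ⟨Ψ', hΨ', hΨs', hΨb'⟩ := pvagd_fill hT c (P := c.Leftᶜ) (Q := c'.Left) ((pl_left_face c).compl T) (fun d hd => (jbd d).1 (T.bd_compl.1 hd))
    (pvagd_solid_in hT c') (fun i => Or.inr fun hi => jRc i (h.2 hi)) h1 hb wOut (fun d hd => by
      rcases (supO d hd).1 with h2 | h2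
      · exact Or.inl ⟨not_not.2 h2.1, h2.2⟩
      · exact Or.inr ⟨not_not.2 h2.1, h2.2⟩)
  have hΨA : ∀ d ∈ Ψ, d ∈ c.Left ∧ d ∉ c'.Left := fun d hd => ⟨not_not.1 (hΨs d hd).2, (hΨs d hd).1⟩
  have hΨA' : ∀ d ∈ Ψ', d ∈ c.Left ∧ d ∉ c'.Left := fun d hd => ⟨not_not.1 (hΨs' d hd).1, (hΨs' d hd).2⟩
  -- the face `g` is in none of them
  have hgΨ : g ∉ Ψ := by
    intro hgΨ
    refine ho (hΨA o ((pl_side_dual hΨ (Z := {d | T.src d ∈ B ∧ T.tgt d ∈ B} ∪ c'.darts) (fun d hd => ?_) hgo).1 hgΨ)).1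
    rw [pl_edg_union]
    by_cases hc : T.Edg c'.darts d
    · exact Or.inr hc
    · exact Or.inl (Or.inl (inB d (supI d ((hΨb d hc).1 hd)).2))
  have hgΨ' : g ∉ Ψ' := by
    intro hgΨ'
    refine (hΨA' ι ((pl_side_dual hΨ' (Z := {d | T.src d ∈ B ∧ T.tgt d ∈ B} ∪ c.darts) (fun d hd => ?_) hgι).1 hgΨ')).2 hι
    rw [pl_edg_union]
    by_cases hc : T.Edg c.darts d
    · exact Or.inr hc
    · exact Or.inl (Or.inl (inB d (supO d ((hΨb' d hc).1 hd)).2))
  -- the intersection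
  have hΦ : T.FaceSet (Ψ ∩ Ψ') := fun d => by
    simp only [Set.mem_inter_iff]
    rw [hΨ d, hΨ' d]
  have hΦb : ∀ d, T.Bd (Ψ ∩ Ψ') d → zi d ≠ 0 ∨ zo d ≠ 0 := by
    intro d hd
    by_contra hcon
    push Not at hcon
    obtain ⟨e1, e2⟩ := hcon
    have a1 : ¬ T.Edg c'.darts d → (d ∈ Ψ ↔ T.opp d ∈ Ψ) := fun hc => by
      by_contra hb
      exact (hΨb d hc).1 hb e1
    have a2 : ¬ T.Edg c.darts d → (d ∈ Ψ' ↔ T.opp d ∈ Ψ') := fun hc => by
      by_contra hb
      exact (hΨb' d hc).1 hb e2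
    apply hd
    simp only [Set.mem_inter_iff]
    by_cases hc' : T.Edg c'.darts d
    · have hc : ¬ T.Edg c.darts d := fun hc => pvagd_edge_disj hT h hc' hc
      have h3 := a2 hc
      have h4 : ¬ (d ∈ c'.Left ↔ T.opp d ∈ c'.Left) := (jbd' d).2 hc'
      have h5 : d ∉ Ψ' := fun h5 => h4 ⟨fun h6 => absurd h6 (hΨA' d h5).2, fun h6 => absurd h6 (hΨA' _ (h3.1 h5)).2⟩
      have h6 : T.opp d ∉ Ψ' := fun h6 => h5 (h3.2 h6)
      exact ⟨fun x => absurd x.2 h5, fun x => absurd x.2 h6⟩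
    · by_cases hc : T.Edg c.darts d
      · have h3 := a1 hc'
        have h4 : ¬ (d ∈ c.Left ↔ T.opp d ∈ c.Left) := (jbd d).2 hc
        have h5 : d ∉ Ψ := fun h5 => h4 ⟨fun _ => (hΨA _ (h3.1 h5)).1, fun _ => (hΨA d h5).1⟩
        have h6 : T.opp d ∉ Ψ := fun h6 => h5 (h3.2 h6)
        exact ⟨fun x => absurd x.1 h5, fun x => absurd x.1 h6⟩
      · rw [a1 hc', a2 hc]
  -- candidates at the vertices of `p`
  have cand : ∀ d, T.src d ∈ p.verts → T.Bd (Ψ ∩ Ψ') d → T.Edg p.darts d ∨ d = f := by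
    intro d hdp hd
    have h2 : T.Edg p.darts d ∨ d = f ∨ d = T.opp f ∨ (T.src d ∈ K ∧ T.tgt d ∈ K) := by
      rcases hΦb d hd with h3 | h3
      · exact (supI d h3).2
      · exact (supO d h3).2
    rcases h2 with h2 | h2 | rfl | h2
    · exact Or.inl h2
    · exact Or.inr h2
    · rw [T.src_opp'] at hdp
      exact absurd hdp (hKp _ hft)
    · exact absurd hdp (hKp _ h2.1)
  -- stripping from the inner end
  have stripL : ∀ t, t < m → ¬ T.Bd (Ψ ∩ Ψ') (p.e t) := by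
    intro t
    induction t with
    | zero =>
      intro ht
      refine pvagd_one hT hΦ fun d hd hb => ?_
      rw [p.src_e 0 (by omega)] at hd
      rcases cand d (hd ▸ ⟨0, Nat.zero_le _, rfl⟩) hb with h2 | rfl
      · rcases pl_pth_at p (Nat.zero_le _) hd h2 with h3 | h3
        · exact h3.2
        · exact absurd h3.1 (lt_irrefl 0)
      · have := p.inj _ _ hm (Nat.zero_le _) (hmf.trans hd)
        omega
    | succ t ih =>
      intro ht
      refine pvagd_one hT hΦ fun d hd hb => ?_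
      rw [p.src_e (t + 1) (by omega)] at hd
      rcases cand d (hd ▸ ⟨t + 1, by omega, rfl⟩) hb with h2 | rfl
      · rcases pl_pth_at p (by omega : t + 1 ≤ p.n) hd h2 with h3 | h3
        · exact h3.2
        · rw [h3.2, Nat.add_sub_cancel, T.bd_opp] at hb
          exact absurd hb (ih (by omega))
      · have := p.inj _ _ hm (by omega : t + 1 ≤ p.n) (hmf.trans hd)
        omega
  -- stripping from the outer end
  have stripR : ∀ k t, t + k + 1 = p.n → m ≤ t → ¬ T.Bd (Ψ ∩ Ψ') (p.e t) := by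
    intro k
    induction k with
    | zero =>
      intro t ht hmt hb
      rw [← T.bd_opp] at hb
      refine pvagd_one hT hΦ (fun d hd hb => ?_) hb
      rw [T.src_opp', p.tgt_e t (by omega)] at hd
      rcases cand d (hd ▸ ⟨t + 1, by omega, rfl⟩) hb with h2 | rfl
      · rcases pl_pth_at p (by omega : t + 1 ≤ p.n) hd h2 with h3 | h3
        · omega
        · rw [h3.2, Nat.add_sub_cancel]
      · have := p.inj _ _ hm (by omega : t + 1 ≤ p.n) (hmf.trans hd)
        omega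
    | succ k ih =>
      intro t ht hmt hb
      rw [← T.bd_opp] at hb
      refine pvagd_one hT hΦ (fun d hd hb => ?_) hb
      rw [T.src_opp', p.tgt_e t (by omega)] at hd
      rcases cand d (hd ▸ ⟨t + 1, by omega, rfl⟩) hb with h2 | rfl
      · rcases pl_pth_at p (by omega : t + 1 ≤ p.n) hd h2 with h3 | h3
        · rw [h3.2] at hb
          exact absurd hb (ih (t + 1) (by omega) (by omega))
        · rw [h3.2, Nat.add_sub_cancel]
      · have := p.inj _ _ hm (by omega : t + 1 ≤ p.n) (hmf.trans hd)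
        omega
  have hfΦ : ¬ T.Bd (Ψ ∩ Ψ') f := by
    refine pvagd_one hT hΦ fun d hd hb => ?_
    rcases cand d (hd ▸ hsrcf) hb with h2 | h2
    · rcases pl_pth_at p hm (hd.trans hmf.symm) h2 with h3 | h3
      · rw [h3.2] at hb
        exact absurd hb (stripR (p.n - m - 1) m (by omega) le_rfl)
      · rw [h3.2, T.bd_opp] at hb
        exact absurd hb (stripL (m - 1) (by omega))
    · exact h2
  -- the value of the two chains at `f`
  have val : ∀ (i j : ℕ) (zk : D →₀ ZMod 2), j ≤ p.n → (∀ d, zk d ≠ 0 → (d ∈ c'.Ann c ∨ T.opp d ∈ c'.Ann c) ∧ T.src d ∈ K ∧ T.tgt d ∈ K) →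
      (pvagdCh p i j + plEps T f + zk) f ≠ 0 := by
    intro i j zk hj hzk
    have e1 : pvagdCh p i j f = 0 := by
      by_contra hc
      exact hKp _ hft (pvagd_edg_verts p (pvagd_ch_supp p hj hc)).2
    have e2 : zk f = 0 := by
      by_contra hc
      exact hKp _ (hzk f hc).2.1 hsrcf
    rw [Finsupp.add_apply, Finsupp.add_apply, e1, e2, pl_hx_eps_self]
    decide
  have hzif : zi f ≠ 0 := val 0 m za hm hzas
  have hzof : zo f ≠ 0 := val m p.n zb le_rfl hzbs
  -- boundary at `f` in terms of `g`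
  have hbg : ∀ X : Set D, T.Bd X f ↔ ¬ (g ∈ X ↔ T.opp g ∈ X) := by
    intro X
    rcases hg with rfl | rfl
    · exact Iff.rfl
    · exact T.bd_opp.symm
  by_cases hc' : T.Edg c'.darts f
  · have hc : ¬ T.Edg c.darts f := fun hc => pvagd_edge_disj hT h hc' hc
    have h3 : T.opp g ∈ Ψ' := by
      by_contra h3
      exact ((hbg Ψ').1 ((hΨb' f hc).2 hzof)) ⟨fun x => absurd x hgΨ', fun x => absurd x h3⟩
    exact ((hbg c'.Left).1 ((jbd' f).2 hc')) ⟨fun x => absurd x hgA.2, fun x => absurd x (hΨA' _ h3).2⟩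
  · have h2 : T.opp g ∈ Ψ := by
      by_contra h2
      exact ((hbg Ψ).1 ((hΨb f hc').2 hzif)) ⟨fun x => absurd x hgΨ, fun x => absurd x h2⟩
    by_cases hc : T.Edg c.darts f
    · exact ((hbg c.Left).1 ((jbd f).2 hc)) ⟨fun _ => (hΨA _ h2).1, fun _ => hgA.1⟩
    · have h3 : T.opp g ∈ Ψ' := by
        by_contra h3
        exact ((hbg Ψ').1 ((hΨb' f hc).2 hzof)) ⟨fun x => absurd x hgΨ', fun x => absurd x h3⟩
      exact hfΦ ((hbg _).2 fun x => hgΨ (x.2 ⟨h2, h3⟩).1)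

/-! ## 5. (D2): the pocket lemma for a crossing strand -/

section strand

variable {s : V → Bool}

/-- the strand `γ` of the annulus CROSSES it: it comes in through `c` and goes out through `c'`, or the other way round -/
def PvagdX (c' c : T.Cyc) (γ : PvanStr T s (c'.Ann c)) : Prop :=
  (T.opp (γ.e 0) ∉ c.Left ∧ γ.e γ.n ∈ c'.Left) ∨ (T.opp (γ.e 0) ∈ c'.Left ∧ γ.e γ.n ∉ c.Left)

theorem pvagd_X_eqns_cite : True := by
  have := @PvagdX.eq_1
  trivial

/-- back along the strand: a dual path from the face of the position `i` to the face from which the strand came in -/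
theorem pvagd_back {A : Set D} (γ : PvanStr T s A) (Z : Set D) {i : ℕ} (hi : i ≤ γ.n) (h : ∀ k, k ≤ i → ¬ T.Edg Z (γ.e k)) : T.DJoin Z (γ.e i) (T.opp (γ.e 0)) := by
  induction i with
  | zero => exact ReflTransGen.single (Or.inr ⟨rfl, h 0 le_rfl⟩)
  | succ i ih =>
    have h1 : T.DJoin Z (γ.e (i + 1)) (T.opp (γ.e (i + 1))) := ReflTransGen.single (Or.inr ⟨rfl, h (i + 1) le_rfl⟩)
    have h2 : T.SF (γ.e i) (T.opp (γ.e (i + 1))) := by
      rw [γ.step i (by omega)]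
      exact pvan_step_sf (γ.e i)
    exact h1.trans ((T.djoin_sf (T.sf_symm h2)).trans (ih (by omega) fun k hk => h k (by omega)))

/-- forward along the strand -/
theorem pvagd_fwd {A : Set D} (γ : PvanStr T s A) (Z : Set D) {i j : ℕ} (hij : i ≤ j) (hj : j ≤ γ.n) (h : ∀ k, i < k → k ≤ j → ¬ T.Edg Z (γ.e k)) : T.DJoin Z (γ.e i) (γ.e j) := by
  induction j, hij using Nat.le_induction with
  | base => exact ReflTransGen.refl
  | succ j hij ih =>
    have h2 : T.SF (γ.e j) (T.opp (γ.e (j + 1))) := by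
      rw [γ.step j (by omega)]
      exact pvan_step_sf (γ.e j)
    have h3 : T.DJoin Z (T.opp (γ.e (j + 1))) (γ.e (j + 1)) :=
      ReflTransGen.single (Or.inr ⟨(T.opp_opp _).symm, fun hc => h (j + 1) (by omega) le_rfl (T.edg_opp.1 hc)⟩)
    exact (ih (by omega) fun k hk1 hk2 => h k hk1 (by omega)).trans ((T.djoin_sf h2).trans h3)

/-- the last index before `j` with a property -/
theorem pvagd_last {P : ℕ → Prop} {i j : ℕ} (hij : i < j) (hi : P i) (hj : ¬ P j) : ∃ i', i ≤ i' ∧ i' < j ∧ P i' ∧ ∀ k, i' < k → k ≤ j → ¬ P k := by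
  classical
  have hex : ∃ m, 1 ≤ m ∧ m ≤ j ∧ P (j - m) := ⟨j - i, by omega, by omega, by rw [show j - (j - i) = i by omega]; exact hi⟩
  obtain ⟨h1, h2, h3⟩ := Nat.find_spec hex
  have hle : Nat.find hex ≤ j - i := Nat.find_min' hex ⟨by omega, by omega, by rw [show j - (j - i) = i by omega]; exact hi⟩
  refine ⟨j - Nat.find hex, by omega, by omega, h3, fun k hk1 hk2 hk => ?_⟩
  rcases Nat.eq_or_lt_of_le hk2 with rfl | hk2
  · exact hj hk
  · exact Nat.find_min hex (m := j - k) (by omega) ⟨by omega, by omega, by rw [show j - (j - k) = k by omega]; exact hk⟩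

/-- a position of a strand is not an edge between two black vertices -/
theorem pvagd_not_black {d : D} (hd : pvanOk T s d) : ¬ T.Edg {d | T.src d ∈ {v | s v = true} ∧ T.tgt d ∈ {v | s v = true}} d := by
  rintro (h | h)
  · have h2 : s (T.tgt d) = true := h.2
    rw [hd.2] at h2
    exact Bool.false_ne_true h2
  · have h2 : s (T.src (T.opp d)) = true := h.1
    rw [T.src_opp', hd.2] at h2
    exact Bool.false_ne_true h2

/-- the black bank is a walk of the region -/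
theorem pvagd_bank {A : Set D} (hA : T.FaceSet A) (γ : PvanStr T s A) {K : Set V} {i j : ℕ} (hij : i ≤ j) (hj : j ≤ γ.n) (hK : ∀ k, i ≤ k → k ≤ j → T.src (γ.e k) ∈ K) :
    T.Join A K (T.src (γ.e i)) (T.src (γ.e j)) := by
  induction j, hij using Nat.le_induction with
  | base => exact pl_hx_join_refl (hK i le_rfl le_rfl)
  | succ j hij ih =>
    have h1 := ih (by omega) fun k hk1 hk2 => hK k hk1 (by omega)
    have h2 := hK (j + 1) (by omega) le_rfl
    rcases pvan_step_src (s := s) (γ.e j) with h3 | h3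
    · rw [γ.step j (by omega), h3]
      exact h1
    · rw [γ.step j (by omega), h3.1] at h2 ⊢
      exact pl_hx_join_tail h1 (pl_hx_edgeIn_symm (pl_hx_edgeIn_nxt2 hA (γ.mem j (by omega)))) h2

theorem pvagd_pocket_aux (hT : T.IsSph) {c' c : T.Cyc} (h : c'.Inside c) (γ : PvanStr T s (c'.Ann c)) (hγ : PvagdX c' c γ) (p q : T.Pth)
    (hp : p.In (c'.Ann c)) (hq : q.In (c'.Ann c)) (hpb : ∀ v ∈ p.verts, s v = true) (hqb : ∀ v ∈ q.verts, s v = true) (hp0 : p.v 0 ∈ c'.verts) (hp1 : p.v p.n ∈ c.verts)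
    (hq0 : q.v 0 ∈ c'.verts) (hq1 : q.v q.n ∈ c.verts) (hpq : Disjoint p.verts q.verts) {i j : ℕ} (hij : i < j) (hj : j ≤ γ.n) (hi : T.src (γ.e i) ∈ p.verts)
    (hjq : T.src (γ.e j) ∈ q.verts) : False := by
  have hA : T.FaceSet (c'.Ann c) := pl_ann_face c' c
  obtain ⟨-, -, -, jbd'⟩ := pl_jordan hT c'
  obtain ⟨-, -, -, jbd⟩ := pl_jordan hT c
  obtain ⟨i', -, hi'j, hi'p, hlast⟩ := pvagd_last (P := fun k => T.src (γ.e k) ∈ p.verts) hij hi (fun hc => Set.disjoint_left.1 hpq hc hjq)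
  set K : Set V := q.verts ∪ {v | ∃ k, i' < k ∧ k ≤ j ∧ T.src (γ.e k) = v} with hK
  have hKp : ∀ v ∈ K, v ∉ p.verts := by
    rintro v (hv | ⟨k, hk1, hk2, rfl⟩)
    · exact fun hc => Set.disjoint_left.1 hpq hc hv
    · exact hlast k hk1 hk2
  have hKB : K ⊆ {v | s v = true} := by
    rintro v (hv | ⟨k, hk1, hk2, rfl⟩)
    · exact hqb v hv
    · exact (pvan_ok γ k (by omega)).1
  have hin : i' < γ.n := by omega
  have hstep : T.src (γ.e (i' + 1)) = T.apex (γ.e i') := by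
    rcases pvan_step_src (s := s) (γ.e i') with h3 | h3
    · exfalso
      apply hlast (i' + 1) (by omega) (by omega)
      show T.src (γ.e (i' + 1)) ∈ p.verts
      rw [γ.step i' hin, h3]
      exact hi'p
    · rw [γ.step i' hin, h3.1]
  have hgA : T.nxt (T.nxt (γ.e i')) ∈ c'.Ann c := (hA.nxt2 T _).2 (γ.mem i' hin)
  have hfs : T.src (T.opp (T.nxt (T.nxt (γ.e i')))) ∈ p.verts := by rw [T.src_opp', T.tgt_nxt2]; exact hi'p
  have hft0 : T.tgt (T.opp (T.nxt (T.nxt (γ.e i')))) = T.src (γ.e (i' + 1)) := by rw [T.tgt_opp, T.src_nxt2, hstep]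
  have hbank : T.Join (c'.Ann c) K (T.src (γ.e (i' + 1))) (T.src (γ.e j)) :=
    pvagd_bank hA γ (by omega) hj fun k hk1 hk2 => Or.inr ⟨k, by omega, hk2, rfl⟩
  obtain ⟨l, hl, hlq⟩ := hjq
  have hKa : T.Join (c'.Ann c) K (T.src (γ.e (i' + 1))) (q.v 0) := by
    refine pl_hx_join_trans hbank ?_
    rw [← hlq]
    exact pl_pth_join q hq Set.subset_union_left hl (Nat.zero_le _)
  have hKb : T.Join (c'.Ann c) K (T.src (γ.e (i' + 1))) (q.v q.n) := by
    refine pl_hx_join_trans hbank ?_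
    rw [← hlq]
    exact pl_pth_join q hq Set.subset_union_left hl le_rfl
  -- membership of the positions
  have mem1 : ∀ k, k < γ.n → γ.e k ∈ c.Left ∧ γ.e k ∉ c'.Left := fun k hk => γ.mem k hk
  have mem2 : ∀ k, 0 < k → k ≤ γ.n → T.opp (γ.e k) ∈ c.Left ∧ T.opp (γ.e k) ∉ c'.Left := by
    intro k hk1 hk2
    obtain ⟨m, rfl⟩ : ∃ m, k = m + 1 := ⟨k - 1, by omega⟩
    exact pvan_opp_mem hA γ m (by omega)
  have noIn : ∀ x, x ∉ c'.Left → T.opp x ∉ c'.Left → ¬ T.Edg c'.darts x := fun x h1 h2 hc => (jbd' x).2 hc ⟨fun y => absurd y h1, fun y => absurd y h2⟩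
  have noOut : ∀ x, x ∈ c.Left → T.opp x ∈ c.Left → ¬ T.Edg c.darts x := fun x h1 h2 hc => (jbd x).2 hc ⟨fun _ => h2, fun _ => h1⟩
  have hge : ∀ Z : Set D, T.DJoin Z (T.nxt (T.nxt (γ.e i'))) (γ.e i') := fun Z => T.djoin_sf (T.sf_symm (T.sf_nxt2 _))
  have hnb : ∀ k, k ≤ γ.n → ¬ T.Edg {d | T.src d ∈ {v | s v = true} ∧ T.tgt d ∈ {v | s v = true}} (γ.e k) := fun k hk => pvagd_not_black (pvan_ok γ k hk)
  rcases hγ with ⟨g1, g2⟩ | ⟨g1, g2⟩
  · refine pvagd_pocket_abs hT h p hp hp0 hp1 hKp hpb hKB hfs (by rw [hft0]; exact Or.inr ⟨i' + 1, by omega, by omega, rfl⟩) (Or.inr (T.opp_opp _).symm) hgA hq0 hq1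
      (by rw [hft0]; exact hKa) (by rw [hft0]; exact hKb) g1 g2 ((hge _).trans (pvagd_back γ _ hin.le fun k hk => ?_)) ((hge _).trans (pvagd_fwd γ _ hin.le le_rfl fun k hk1 hk2 => ?_))
    · rw [pl_edg_union]
      rintro (hc | hc)
      · exact hnb k (by omega) hc
      · refine noIn _ (mem1 k (by omega)).2 ?_ hc
        rcases Nat.eq_zero_or_pos k with rfl | hk0
        · exact fun hx => g1 (h.2 hx)
        · exact (mem2 k hk0 (by omega)).2
    · rw [pl_edg_union]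
      rintro (hc | hc)
      · exact hnb k hk2 hc
      · refine noOut _ ?_ (mem2 k (by omega) hk2).1 hc
        rcases Nat.eq_or_lt_of_le hk2 with rfl | hk3
        · exact h.2 g2
        · exact (mem1 k hk3).1
  · refine pvagd_pocket_abs hT h p hp hp0 hp1 hKp hpb hKB hfs (by rw [hft0]; exact Or.inr ⟨i' + 1, by omega, by omega, rfl⟩) (Or.inr (T.opp_opp _).symm) hgA hq0 hq1
      (by rw [hft0]; exact hKa) (by rw [hft0]; exact hKb) g2 g1 ((hge _).trans (pvagd_fwd γ _ hin.le le_rfl fun k hk1 hk2 => ?_)) ((hge _).trans (pvagd_back γ _ hin.le fun k hk => ?_))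
    · rw [pl_edg_union]
      rintro (hc | hc)
      · exact hnb k hk2 hc
      · refine noIn _ ?_ (mem2 k (by omega) hk2).2 hc
        rcases Nat.eq_or_lt_of_le hk2 with rfl | hk3
        · exact fun hx => g2 (h.2 hx)
        · exact (mem1 k hk3).2
    · rw [pl_edg_union]
      rintro (hc | hc)
      · exact hnb k (by omega) hc
      · refine noOut _ (mem1 k (by omega)).1 ?_ hc
        rcases Nat.eq_zero_or_pos k with rfl | hk0
        · exact h.2 g1
        · exact (mem2 k hk0 (by omega)).1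

/-- **(D2) POCKET LEMMA**: two vertex-disjoint black crossings of the closed annulus do not both touch the black bank of a crossing strand.   (No hypothesis on the visits of the crossings to the two cycles.) -/
theorem pvagd_pocket (hT : T.IsSph) {c' c : T.Cyc} (h : c'.Inside c) (γ : PvanStr T s (c'.Ann c)) (hγ : PvagdX c' c γ) (p q : T.Pth)
    (hp : p.In (c'.Ann c)) (hq : q.In (c'.Ann c)) (hpb : ∀ v ∈ p.verts, s v = true) (hqb : ∀ v ∈ q.verts, s v = true) (hp0 : p.v 0 ∈ c'.verts) (hp1 : p.v p.n ∈ c.verts)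
    (hq0 : q.v 0 ∈ c'.verts) (hq1 : q.v q.n ∈ c.verts) (hpq : Disjoint p.verts q.verts) (hpγ : ∃ v ∈ p.verts, v ∈ γ.LayB) (hqγ : ∃ v ∈ q.verts, v ∈ γ.LayB) : False := by
  obtain ⟨_, hv, i, hi, rfl⟩ := hpγ
  obtain ⟨_, hw, j, hj, rfl⟩ := hqγ
  rcases lt_trichotomy i j with hij | rfl | hij
  · exact pvagd_pocket_aux hT h γ hγ p q hp hq hpb hqb hp0 hp1 hq0 hq1 hpq hij hj hv hw
  · exact Set.disjoint_left.1 hpq hv hw
  · exact pvagd_pocket_aux hT h γ hγ q p hq hp hqb hpb hq0 hq1 hp0 hp1 hpq.symm hij hi hw hv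

end strand

/-! ## 6. (D3): (CG) + (FG) ⟹ at most two disjoint black crossings ⟹ a gate -/

section gate

variable {s : V → Bool}

/-- a black crossing of the big annulus has a vertex in the explored set `S`, in the closed small annulus, if the small annulus has no black crossing inside the fresh region `Sᶜ` -/
theorem pvagd_hit (hT : T.IsSph) {cI cJ' cJ cO : T.Cyc} (h1 : cI.Left ⊆ cJ'.Left) (h2 : cJ'.Inside cJ) (h3 : cJ.Left ⊆ cO.Left) {S : Set V}
    (hFG : ¬ PvaxCr T cJ' cJ Sᶜ true s) (p : T.Pth) (hp : p.In (cI.Ann cO)) (hpb : ∀ v ∈ p.verts, s v = true) (hp0 : p.v 0 ∈ cI.verts) (hp1 : p.v p.n ∈ cO.verts) :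
    ∃ v ∈ p.verts, v ∈ T.VOf (cJ'.Ann cJ) ∧ v ∈ S := by
  classical
  by_contra hcon
  push Not at hcon
  have hc : PvaxCr T cI cO p.verts true s :=
    ⟨_, hp0, _, hp1, pl_pth_join p hp (X := {v | v ∈ p.verts ∧ s v = true}) (fun v hv => ⟨hv, hpb v hv⟩) (Nat.zero_le _) le_rfl⟩
  have hc1 := (pvax_cr_inter hT h2).1 (pvax_cr_sub hT h1 h2 h3 hc)
  exact hFG (pvax_cr_mono (fun v hv => hcon v hv.1 hv.2) hc1)

/-- **(D3)**: `γ₁`, `γ₂` crossing strands of the annulus between `cI` and `cO`; `S` = the explored vertices;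
(CG) every black explored vertex of the closed annulus between `cJ'` and `cJ` lies on the black bank of `γ₁` or of `γ₂`;   (FG) this annulus has no black crossing through fresh vertices only.
Then the big annulus has no three pairwise disjoint black crossings. -/
theorem pvagd_three (hT : T.IsSph) {cI cJ' cJ cO : T.Cyc} (hIO : cI.Inside cO) (h1 : cI.Left ⊆ cJ'.Left) (h2 : cJ'.Inside cJ) (h3 : cJ.Left ⊆ cO.Left)
    (γ₁ γ₂ : PvanStr T s (cI.Ann cO)) (hγ₁ : PvagdX cI cO γ₁) (hγ₂ : PvagdX cI cO γ₂) {S : Set V}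
    (hCG : ∀ v ∈ T.VOf (cJ'.Ann cJ), v ∈ S → s v = true → v ∈ γ₁.LayB ∨ v ∈ γ₂.LayB) (hFG : ¬ PvaxCr T cJ' cJ Sᶜ true s) :
    ¬ ∃ P : Fin 3 → Set V, (∀ i, P i ⊆ {v | s v = true}) ∧ (∀ i j, i ≠ j → Disjoint (P i) (P j)) ∧ ∀ i, ∃ a ∈ cI.verts, ∃ b ∈ cO.verts, T.Join (cI.Ann cO) (P i) a b := by
  classical
  rintro ⟨P, hPb, hdis, hj⟩
  have : Nonempty D := ⟨cI.e 0⟩
  have hpth : ∀ i, ∃ p : T.Pth, p.v 0 ∈ cI.verts ∧ p.v p.n ∈ cO.verts ∧ p.verts ⊆ P i ∧ p.In (cI.Ann cO) := by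
    intro i
    obtain ⟨a, ha, b, hb, hab⟩ := hj i
    obtain ⟨p, p0, p1, pX, pA⟩ := pl_pth_of_join hab
    exact ⟨p, p0 ▸ ha, p1 ▸ hb, pX, pA⟩
  choose p hp0 hp1 hpP hpA using hpth
  have hpb : ∀ i, ∀ v ∈ (p i).verts, s v = true := fun i v hv => hPb i (hpP i hv)
  have htouch : ∀ i, (∃ v ∈ (p i).verts, v ∈ γ₁.LayB) ∨ ∃ v ∈ (p i).verts, v ∈ γ₂.LayB := by
    intro i
    obtain ⟨v, hv, hvA, hvS⟩ := pvagd_hit hT h1 h2 h3 hFG (p i) (hpA i) (hpb i) (hp0 i) (hp1 i)
    rcases hCG v hvA hvS (hpb i v hv) with h | h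
    · exact Or.inl ⟨v, hv, h⟩
    · exact Or.inr ⟨v, hv, h⟩
  obtain ⟨i, j, hij, hfij⟩ := Fintype.exists_ne_map_eq_of_card_lt (fun i : Fin 3 => decide (∃ v ∈ (p i).verts, v ∈ γ₁.LayB)) (by simp)
  have hd : Disjoint (p i).verts (p j).verts := (hdis i j hij).mono (hpP i) (hpP j)
  by_cases hi : ∃ v ∈ (p i).verts, v ∈ γ₁.LayB
  · have hj' : ∃ v ∈ (p j).verts, v ∈ γ₁.LayB := by
      have : decide (∃ v ∈ (p j).verts, v ∈ γ₁.LayB) = true := by rw [← hfij]; exact decide_eq_true hi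
      exact of_decide_eq_true this
    exact pvagd_pocket hT hIO γ₁ hγ₁ (p i) (p j) (hpA i) (hpA j) (hpb i) (hpb j) (hp0 i) (hp1 i) (hp0 j) (hp1 j) hd hi hj'
  · have hj' : ¬ ∃ v ∈ (p j).verts, v ∈ γ₁.LayB := by
      have : decide (∃ v ∈ (p j).verts, v ∈ γ₁.LayB) = false := by rw [← hfij]; exact decide_eq_false hi
      exact of_decide_eq_false this
    exact pvagd_pocket hT hIO γ₂ hγ₂ (p i) (p j) (hpA i) (hpA j) (hpb i) (hpb j) (hp0 i) (hp1 i) (hp0 j) (hp1 j) hd ((htouch i).resolve_left hi) ((htouch j).resolve_left hj')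

/-- **(D3), gate form**: an essential simple circuit of the closed big annulus with at most two black vertices -/
theorem pvagd_gate (hT : T.IsSph) (hS : T.Simple) {cI cJ' cJ cO : T.Cyc} (hIO : cI.Inside cO) (hfin : cO.Left.Finite) (h1 : cI.Left ⊆ cJ'.Left) (h2 : cJ'.Inside cJ)
    (h3 : cJ.Left ⊆ cO.Left) (γ₁ γ₂ : PvanStr T s (cI.Ann cO)) (hγ₁ : PvagdX cI cO γ₁) (hγ₂ : PvagdX cI cO γ₂) {S : Set V}
    (hCG : ∀ v ∈ T.VOf (cJ'.Ann cJ), v ∈ S → s v = true → v ∈ γ₁.LayB ∨ v ∈ γ₂.LayB) (hFG : ¬ PvaxCr T cJ' cJ Sᶜ true s) :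
    ∃ c'' : T.Cyc, (c''.verts ∩ {v | s v = true}).ncard ≤ 2 ∧ cI.Left ⊆ c''.Left ∧ c''.Left ⊆ cO.Left ∧ ∀ i, c''.e i ∈ cI.Ann cO ∨ T.opp (c''.e i) ∈ cI.Ann cO :=
  pl_gate hT hS hIO hfin _ (pvagd_three hT hIO h1 h2 h3 γ₁ γ₂ hγ₁ hγ₂ hCG hFG)

/-- all the faces round a vertex of the closed annulus between `cJ'` and `cJ` lie in the annulus between `cM'` and `cM` (one layer) -/
theorem pvagd_layer (hT : T.IsSph) {cM' cJ' cJ cM : T.Cyc} (h1 : cM'.Inside cJ') (h2 : cJ.Inside cM) {v : V} (hv : v ∈ T.VOf (cJ'.Ann cJ)) : v ∈ T.Int (cM'.Ann cM) := by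
  obtain ⟨d, hd, rfl⟩ := hv
  intro x hx
  constructor
  · have h3 : T.src d ∈ T.VOf cJ.Left := ⟨d, hd.1, rfl⟩
    rw [pl_VOf_left hT cJ] at h3
    rcases h3 with h3 | h3
    · exact h2.1 h3 x hx
    · exact h2.2 (h3 x hx)
  · intro hxM
    have h3 : T.src d ∈ T.VOf cM'.Left := ⟨x, hxM, hx⟩
    rw [pl_VOf_left hT cM'] at h3
    have h4 : T.src d ∈ T.Int cJ'.Left := by
      rcases h3 with h3 | h3
      · exact h1.1 h3
      · exact (pl_nested_vert hT cJ' cM' h1.2).2 h3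
    exact hd.2 (h4 d rfl)

/-- a black vertex of a visited face lies on the black bank -/
theorem pvagd_vis_layB {A : Set D} (γ : PvanStr T s A) {d : D} (hd : γ.Vis d) (hb : s (T.src d) = true) : T.src d ∈ γ.LayB := by
  obtain ⟨k, hk, hsf⟩ := hd
  have hok := pvan_ok γ k hk.le
  rcases hsf with rfl | rfl | rfl
  · exact ⟨k, hk.le, rfl⟩
  · rw [T.src_nxt, hok.2] at hb
    exact absurd hb Bool.false_ne_true
  · refine ⟨k + 1, hk, ?_⟩
    rw [T.src_nxt2] at hb ⊢
    rcases pvan_step_src (s := s) (γ.e k) with h3 | h3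
    · rw [γ.step k hk]
      unfold pvanStep
      rw [if_pos hb, T.src_opp', T.tgt_nxt]
    · rw [γ.step k hk, h3.1]

/-- **(CG) for faces ⟹ (CG) for vertices**: `W` = the faces of the wall, `S = T.VOf W`;   if every face of the wall in the middle annulus (between `cM'` and `cM`) is visited by `γ₁` or `γ₂`,
then every black vertex of the wall in the closed annulus between `cJ'` and `cJ`, one layer inside, lies on the black bank of `γ₁` or of `γ₂` -/
theorem pvagd_cg_vert (hT : T.IsSph) {A : Set D} {cM' cJ' cJ cM : T.Cyc} (h1 : cM'.Inside cJ') (h2 : cJ.Inside cM) (γ₁ γ₂ : PvanStr T s A) {W : Set D}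
    (hCG : ∀ d ∈ W, d ∈ cM'.Ann cM → γ₁.Vis d ∨ γ₂.Vis d) : ∀ v ∈ T.VOf (cJ'.Ann cJ), v ∈ T.VOf W → s v = true → v ∈ γ₁.LayB ∨ v ∈ γ₂.LayB := by
  rintro v hv ⟨d, hdW, rfl⟩ hb
  rcases hCG d hdW (pvagd_layer hT h1 h2 hv d rfl) with h | h
  · exact Or.inl (pvagd_vis_layB γ₁ h hb)
  · exact Or.inr (pvagd_vis_layB γ₂ h hb)

end gate

/-! ## 7. (D3), exit `PvgGate` (face set form of helper190; no `T.Simple`) -/

section pvg

variable {s : V → Bool}

/-- the faces next to the inner disc lie in the outer disc -/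
theorem pvagd_sep (hT : T.IsSph) {c' c : T.Cyc} (h : c'.Inside c) {d : D} (hd : d ∈ c'.Left) : T.opp d ∈ c.Left := by
  have h1 : T.tgt d ∈ T.VOf c'.Left := ⟨T.nxt d, (pl_left_face c' d).2 hd, rfl⟩
  rw [pl_VOf_left hT c'] at h1
  rcases h1 with h1 | h1
  · exact h.1 h1 _ (T.src_opp' d)
  · exact h.2 (h1 _ (T.src_opp' d))

theorem pvagd_bdV (hT : T.IsSph) (c : T.Cyc) {v : V} (hv : v ∈ T.BdV c.Left) : v ∈ c.verts := by
  obtain ⟨d, rfl, hd⟩ := hv
  exact pl_cyc_edg_src c (((pl_jordan hT c).2.2.2 d).1 hd)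

/-- a chain of edges is a join inside any set which contains its vertices -/
theorem pvagd_chain_join {A : Set D} {X : Set V} : ∀ (l : List V) (a b : V), l.IsChain (T.EdgeIn A) → l.head? = some a → l.getLast? = some b → (∀ v ∈ l, v ∈ X) → T.Join A X a b
  | [], a, b, _, h, _, _ => by simp at h
  | [x], a, b, _, h1, h2, hX => by
    simp only [List.head?_cons, Option.some.injEq] at h1
    simp only [List.getLast?_singleton, Option.some.injEq] at h2
    subst h1
    subst h2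
    exact pl_hx_join_refl (hX x (by simp))
  | x :: y :: t, a, b, hc, h1, h2, hX => by
    rw [List.isChain_cons_cons] at hc
    simp only [List.head?_cons, Option.some.injEq] at h1
    subst h1
    rw [List.getLast?_cons_cons] at h2
    have ih := pvagd_chain_join (y :: t) y b hc.2 (by simp) h2 fun v hv => hX v (List.mem_cons_of_mem _ hv)
    exact pl_hx_join_trans ⟨hX x (by simp), ReflTransGen.single ⟨hc.1, hX y (by simp)⟩⟩ ih

/-- no three disjoint black crossings in SET form ⟹ a gate in FACE SET form -/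
theorem pvagd_pvgGate (hT : T.IsSph) {cI cO : T.Cyc} (hIO : cI.Inside cO) (hfin : cO.Left.Finite)
    (h3 : ¬ ∃ P : Fin 3 → Set V, (∀ i, P i ⊆ {v | s v = true}) ∧ (∀ i j, i ≠ j → Disjoint (P i) (P j)) ∧ ∀ i, ∃ a ∈ cI.verts, ∃ b ∈ cO.verts, T.Join (cI.Ann cO) (P i) a b) :
    ∃ G X, PvgGate T s true cI.Left cO.Left G X := by
  rcases pvg_gate s true (pl_left_face cI) (pl_left_face cO) hIO.2 (fun d hd => pvagd_sep hT hIO hd) (hfin.subset Set.sdiff_subset) with ⟨F, hF, hdis⟩ | h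
  · exfalso
    refine h3 ⟨fun i => {v | v ∈ F i}, fun i v hv => (hF i).2.1 v hv, fun i j hij => Set.disjoint_left.2 fun v hv hv' => hdis i j hij v hv hv', fun i => ?_⟩
    obtain ⟨hc, -, -, ⟨a, ha, hha⟩, b, hb, hhb⟩ := hF i
    exact ⟨a, pvagd_bdV hT cI ha, b, pvagd_bdV hT cO hb, pvagd_chain_join (F i) a b hc hha hhb fun v hv => hv⟩
  · exact h

end pvg

/-! ## 8. (D1): strand bookkeeping      (a RUN = positions `l 0, …, l n` of one strand: a chord of a big disc, or one period of a closed strand) -/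

section run

variable {s : V → Bool}

/-- `[α, β)` is a CROSSING PIECE of the run `l 0 … l n` in the annulus between `c'` and `c` -/
def PvagdPiece (l : ℕ → D) (n : ℕ) (c' c : T.Cyc) (α β : ℕ) : Prop :=
  α < β ∧ β ≤ n ∧ (∀ k, α ≤ k → k < β → l k ∈ c'.Ann c) ∧ ((T.opp (l α) ∉ c.Left ∧ l β ∈ c'.Left) ∨ (T.opp (l α) ∈ c'.Left ∧ l β ∉ c.Left))

/-- `N(AA) ≤ 2`: the run has no three crossing pieces in the annulus -/
def PvagdLe2 (l : ℕ → D) (n : ℕ) (c' c : T.Cyc) : Prop :=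
  ∀ α₁ β₁ α₂ β₂ α₃ β₃, PvagdPiece l n c' c α₁ β₁ → PvagdPiece l n c' c α₂ β₂ → PvagdPiece l n c' c α₃ β₃ → α₁ = α₂ ∨ α₁ = α₃ ∨ α₂ = α₃

theorem pvagd_run_eqns_cite : True := by
  have := @PvagdPiece.eq_1; have := @PvagdLe2.eq_1
  trivial

/-- the first index after `i` with a property -/
theorem pvagd_first {P : ℕ → Prop} {i j : ℕ} (hij : i < j) (hi : ¬ P i) (hj : P j) : ∃ j', i < j' ∧ j' ≤ j ∧ P j' ∧ ∀ k, i ≤ k → k < j' → ¬ P k := by
  classical
  have hex : ∃ m, i < m ∧ P m := ⟨j, hij, hj⟩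
  refine ⟨Nat.find hex, (Nat.find_spec hex).1, Nat.find_min' hex ⟨hij, hj⟩, (Nat.find_spec hex).2, fun k hk1 hk2 hk => ?_⟩
  rcases Nat.eq_or_lt_of_le hk1 with rfl | hk1
  · exact hi hk
  · exact Nat.find_min hex hk2 ⟨hk1, hk⟩

/-- the face behind a position is the face of the previous position -/
theorem pvagd_prev {l : ℕ → D} {n : ℕ} (hstep : ∀ k, k < n → l (k + 1) = pvanStep T s (l k)) {F : Set D} (hF : T.FaceSet F) {k : ℕ} (hk : k < n) :
    T.opp (l (k + 1)) ∈ F ↔ l k ∈ F := by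
  rw [hstep k hk]
  exact hF.sf T (pvan_step_sf (l k))

theorem pvagd_run_ok {l : ℕ → D} {n : ℕ} (hok : pvanOk T s (l 0)) (hstep : ∀ k, k < n → l (k + 1) = pvanStep T s (l k)) : ∀ k, k ≤ n → pvanOk T s (l k) := by
  intro k
  induction k with
  | zero => exact fun _ => hok
  | succ k ih =>
    intro hk
    rw [hstep k hk]
    exact pvan_step_ok (ih (by omega))

/-- a piece of a run as a strand of record -/
def pvagdStr {l : ℕ → D} {n : ℕ} (hok : pvanOk T s (l 0)) (hstep : ∀ k, k < n → l (k + 1) = pvanStep T s (l k)) {A : Set D} {α β : ℕ} (hαβ : α < β) (hβ : β ≤ n)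
    (hmem : ∀ k, α ≤ k → k < β → l k ∈ A) (hent : T.opp (l α) ∉ A) (hext : l β ∉ A) : PvanStr T s A where
  n := β - α
  e k := l (α + k)
  pos := by omega
  ok0 := pvagd_run_ok hok hstep α (by omega)
  step k hk := hstep (α + k) (by omega)
  mem k hk := hmem (α + k) (by omega) (by omega)
  ent := hent
  ext := by rw [show α + (β - α) = β by omega]; exact hext

theorem pvagd_str_eqns_cite : True := by
  have := @pvagdStr.eq_1
  trivial

/-- a crossing piece as a crossing strand of record -/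
theorem pvagd_piece_str {l : ℕ → D} {n : ℕ} (hok : pvanOk T s (l 0)) (hstep : ∀ k, k < n → l (k + 1) = pvanStep T s (l k)) {c' c : T.Cyc} {α β : ℕ}
    (h : PvagdPiece l n c' c α β) : ∃ γ : PvanStr T s (c'.Ann c), PvagdX c' c γ ∧ γ.n = β - α ∧ ∀ k, γ.e k = l (α + k) := by
  obtain ⟨h1, h2, h3, h4⟩ := h
  have hent : T.opp (l α) ∉ c'.Ann c := by
    rcases h4 with h4 | h4
    · exact fun hx => h4.1 hx.1
    · exact fun hx => hx.2 h4.1
  have hext : l β ∉ c'.Ann c := by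
    rcases h4 with h4 | h4
    · exact fun hx => hx.2 h4.2
    · exact fun hx => h4.2 hx.1
  refine ⟨pvagdStr hok hstep h1 h2 h3 hent hext, ?_, rfl, fun _ => rfl⟩
  have e : (pvagdStr hok hstep h1 h2 h3 hent hext).e (pvagdStr hok hstep h1 h2 h3 hent hext).n = l β := by
    show l (α + (β - α)) = l β
    rw [show α + (β - α) = β by omega]
  unfold PvagdX
  rw [e]
  exact h4

/-- **(D1)**: a run with both ends outside `cO` which visits `cI.Left` and has at most two crossing pieces in each of the two buffers (between `cI` and `cM'`, between `cM` and `cO`):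
its first descent `[α₁, β₁)` and its last ascent `[α₂, β₂)` are crossing pieces of the big annulus, and they contain all the times at which the run is in the middle annulus -/
theorem pvagd_cg_idx (hT : T.IsSph) {cI cM' cM cO : T.Cyc} (hI : cI.Inside cM') (hM : cM'.Left ⊆ cM.Left) (hO : cM.Inside cO) {l : ℕ → D} {n : ℕ}
    (hstep : ∀ k, k < n → l (k + 1) = pvanStep T s (l k)) (h0 : l 0 ∉ cO.Left) (hn : l n ∉ cO.Left) (hvis : ∃ t, t ≤ n ∧ l t ∈ cI.Left)
    (hN₁ : PvagdLe2 l n cI cM') (hN₂ : PvagdLe2 l n cM cO) :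
    ∃ α₁ β₁ α₂ β₂, PvagdPiece l n cI cO α₁ β₁ ∧ PvagdPiece l n cI cO α₂ β₂ ∧ ∀ t, t ≤ n → l t ∈ cM'.Ann cM → (α₁ ≤ t ∧ t < β₁) ∨ (α₂ ≤ t ∧ t < β₂) := by
  have fI := pl_left_face cI
  have fM' := pl_left_face cM'
  have fM := pl_left_face cM
  have fO := pl_left_face cO
  have sIM' : cI.Left ⊆ cM'.Left := hI.2
  have sMO : cM.Left ⊆ cO.Left := hO.2
  have sIO : cI.Left ⊆ cO.Left := fun d hd => sMO (hM (sIM' hd))
  have sepI : ∀ d, d ∈ cI.Left → T.opp d ∈ cM'.Left := fun d hd => pvagd_sep hT hI hd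
  have sepO : ∀ d, d ∈ cM.Left → T.opp d ∈ cO.Left := fun d hd => pvagd_sep hT hO hd
  have sepI' : ∀ d, T.opp d ∈ cI.Left → d ∈ cM'.Left := fun d hd => by have := sepI _ hd; rwa [T.opp_opp] at this
  have sepO' : ∀ d, T.opp d ∈ cM.Left → d ∈ cO.Left := fun d hd => by have := sepO _ hd; rwa [T.opp_opp] at this
  obtain ⟨t₀, ht₀, ht₀I⟩ := hvis
  have ht₀0 : 0 < t₀ := by
    rcases Nat.eq_zero_or_pos t₀ with rfl | h
    · exact absurd (sIO ht₀I) h0
    · exact h
  have ht₀n : t₀ < n := by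
    rcases Nat.eq_or_lt_of_le ht₀ with rfl | h
    · exact absurd (sIO ht₀I) hn
    · exact h
  -- first visit `b` of the inner disc, last visit `b'`
  obtain ⟨b, hb0, hbt, hbI, hbmin⟩ := pvagd_first (P := fun k => l k ∈ cI.Left) ht₀0 (fun hc => h0 (sIO hc)) ht₀I
  obtain ⟨b', hb't, hb'n, hb'I, hb'max⟩ := pvagd_last (P := fun k => l k ∈ cI.Left) ht₀n ht₀I (fun hc => hn (sIO hc))
  -- the first descent
  obtain ⟨a, -, hab, haO, hamax⟩ := pvagd_last (P := fun k => l k ∉ cO.Left) hb0 h0 (fun hc => hc (sIO hbI))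
  have hab1 : a + 1 < b := by
    by_contra hc
    have hba : b = a + 1 := by omega
    rw [hba] at hbI
    exact haO (sMO (hM ((pvagd_prev hstep fM' (by omega)).1 (sepI _ hbI))))
  have p1 : PvagdPiece l n cI cO (a + 1) b :=
    ⟨hab1, by omega, fun k hk1 hk2 => ⟨not_not.1 (hamax k (by omega) (by omega)), hbmin k (Nat.zero_le _) hk2⟩,
      Or.inl ⟨fun hc => haO ((pvagd_prev hstep fO (by omega)).1 hc), hbI⟩⟩
  -- the last ascent
  obtain ⟨c, hb'c, hcn, hcO, hcmin⟩ := pvagd_first (P := fun k => l k ∉ cO.Left) hb'n (fun hc => hc (sIO hb'I)) hn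
  have hb'c1 : b' + 1 < c := by
    by_contra hc
    have hcb : c = b' + 1 := by omega
    rw [hcb] at hcO
    exact hcO (sMO (hM (sepI' _ ((pvagd_prev hstep fI (by omega)).2 hb'I))))
  have p2 : PvagdPiece l n cI cO (b' + 1) c :=
    ⟨hb'c1, hcn, fun k hk1 hk2 => ⟨not_not.1 (hcmin k (by omega) hk2), hb'max k (by omega) (by omega)⟩,
      Or.inr ⟨(pvagd_prev hstep fI (by omega)).2 hb'I, hcO⟩⟩
  -- the crossing pieces of the outer buffer inside them
  have down : ∀ α t, α + 1 ≤ t → t ≤ n → l α ∉ cO.Left → (∀ k, α < k → k ≤ t → l k ∈ cO.Left) → l t ∈ cM.Left → ∃ β, PvagdPiece l n cM cO (α + 1) β := by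
    intro α t hαt htn hα hk ht
    have hα1 : l (α + 1) ∉ cM.Left := fun hc => hα ((pvagd_prev hstep fO (by omega)).1 (sepO _ hc))
    have hlt : α + 1 < t := by
      rcases Nat.eq_or_lt_of_le hαt with rfl | h
      · exact absurd ht hα1
      · exact h
    obtain ⟨β, h1, h2, h3, h4⟩ := pvagd_first (P := fun k => l k ∈ cM.Left) hlt hα1 ht
    exact ⟨β, h1, by omega, fun k hk1 hk2 => ⟨hk k (by omega) (by omega), h4 k hk1 hk2⟩, Or.inl ⟨fun hc => hα ((pvagd_prev hstep fO (by omega)).1 hc), h3⟩⟩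
  have up : ∃ α β, PvagdPiece l n cM cO (α + 1) β ∧ l α ∈ cM.Left := by
    obtain ⟨α, h1, h2, h3, h4⟩ := pvagd_last (P := fun k => l k ∈ cM.Left) hb'c (hM (sIM' hb'I)) (fun hc => hcO (sMO hc))
    have hα1 : α + 1 < c := by
      by_contra hc
      have hcα : c = α + 1 := by omega
      rw [hcα] at hcO
      exact hcO (sepO' _ ((pvagd_prev hstep fM (by omega)).2 h3))
    exact ⟨α, c, ⟨hα1, hcn, fun k hk1 hk2 => ⟨not_not.1 (hcmin k (by omega) hk2), h4 k (by omega) (by omega)⟩, Or.inr ⟨(pvagd_prev hstep fM (by omega)).2 h3, hcO⟩⟩, h3⟩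
  -- the crossing pieces of the inner buffer
  have up' : ∀ α t, α + 1 ≤ t → t ≤ n → l α ∈ cI.Left → (∀ k, α < k → k ≤ t → l k ∉ cI.Left) → l t ∉ cM'.Left → ∃ β, PvagdPiece l n cI cM' (α + 1) β := by
    intro α t hαt htn hα hk ht
    have hα1 : l (α + 1) ∈ cM'.Left := sepI' _ ((pvagd_prev hstep fI (by omega)).2 hα)
    have hlt : α + 1 < t := by
      rcases Nat.eq_or_lt_of_le hαt with rfl | h
      · exact absurd hα1 ht
      · exact h
    obtain ⟨β, h1, h2, h3, h4⟩ := pvagd_first (P := fun k => l k ∉ cM'.Left) hlt (not_not.2 hα1) ht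
    exact ⟨β, h1, by omega, fun k hk1 hk2 => ⟨not_not.1 (h4 k hk1 hk2), hk k (by omega) (by omega)⟩, Or.inr ⟨(pvagd_prev hstep fI (by omega)).2 hα, h3⟩⟩
  have down' : ∃ α β, PvagdPiece l n cI cM' (α + 1) β ∧ l α ∉ cM'.Left := by
    obtain ⟨α, h1, h2, h3, h4⟩ := pvagd_last (P := fun k => l k ∉ cM'.Left) hab (fun hc => haO (sMO (hM hc))) (fun hc => hc (sIM' hbI))
    have hα1 : α + 1 < b := by
      by_contra hc
      have hbα : b = α + 1 := by omega
      rw [hbα] at hbI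
      exact h3 ((pvagd_prev hstep fM' (by omega)).1 (sepI _ hbI))
    exact ⟨α, b, ⟨hα1, by omega, fun k hk1 hk2 => ⟨not_not.1 (h4 k (by omega) (by omega)), hbmin k (Nat.zero_le _) hk2⟩,
      Or.inl ⟨fun hc => h3 ((pvagd_prev hstep fM' (by omega)).1 hc), hbI⟩⟩, h3⟩
  refine ⟨a + 1, b, b' + 1, c, p1, p2, fun t htn ht => ?_⟩
  have htA : l t ∈ cI.Ann cO := ⟨sMO ht.1, fun hc => ht.2 (sIM' hc)⟩
  have ht0 : 0 < t := by
    rcases Nat.eq_zero_or_pos t with rfl | h
    · exact absurd htA.1 h0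
    · exact h
  obtain ⟨α, -, hαt, hαA, hαmax⟩ := pvagd_last (P := fun k => l k ∉ cI.Ann cO) ht0 (fun hc => h0 hc.1) (not_not.2 htA)
  have hin : ∀ k, α < k → k ≤ t → l k ∈ cI.Ann cO := fun k hk1 hk2 => not_not.1 (hαmax k hk1 hk2)
  by_cases hαO : l α ∈ cO.Left
  · -- the run came in from the inner disc
    right
    have hαI : l α ∈ cI.Left := by
      by_contra hc
      exact hαA ⟨hαO, hc⟩
    obtain ⟨β, q1⟩ := up' α t (by omega) htn hαI (fun k hk1 hk2 => (hin k hk1 hk2).2) ht.2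
    obtain ⟨β₂, q2⟩ := up' b' c (by omega) hcn hb'I (fun k hk1 hk2 => hb'max k hk1 (by omega)) (fun hc => hcO (sMO (hM hc)))
    obtain ⟨α₃, β₃, q3, hα₃⟩ := down'
    have hαb' : α = b' := by
      rcases hN₁ _ _ _ _ _ _ q1 q2 q3 with h | h | h
      · omega
      · have : α = α₃ := by omega
        exact absurd (sIM' (this ▸ hαI)) hα₃
      · have : b' = α₃ := by omega
        exact absurd (sIM' (this ▸ hb'I)) hα₃
    refine ⟨by omega, ?_⟩
    by_contra hc
    exact hcO (hin c (by omega) (by omega)).1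
  · -- the run came in from outside
    left
    obtain ⟨β, q1⟩ := down α t (by omega) htn hαO (fun k hk1 hk2 => (hin k hk1 hk2).1) ht.1
    obtain ⟨β₂, q2⟩ := down a b (by omega) (by omega) haO (fun k hk1 hk2 => not_not.1 (hamax k hk1 hk2)) (hM (sIM' hbI))
    obtain ⟨α₃, β₃, q3, hα₃⟩ := up
    have hαa : α = a := by
      rcases hN₂ _ _ _ _ _ _ q1 q2 q3 with h | h | h
      · omega
      · have : α = α₃ := by omega
        exact absurd (sMO (this ▸ hα₃)) hαO
      · have : a = α₃ := by omega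
        exact absurd (sMO (this ▸ hα₃)) haO
    refine ⟨by omega, ?_⟩
    by_contra hc
    exact (hin b (by omega) (by omega)).2 hbI

/-- **(D1), strand form** = (CG) -/
theorem pvagd_cg (hT : T.IsSph) {cI cM' cM cO : T.Cyc} (hI : cI.Inside cM') (hM : cM'.Left ⊆ cM.Left) (hO : cM.Inside cO) {l : ℕ → D} {n : ℕ} (hok : pvanOk T s (l 0))
    (hstep : ∀ k, k < n → l (k + 1) = pvanStep T s (l k)) (h0 : l 0 ∉ cO.Left) (hn : l n ∉ cO.Left) (hvis : ∃ t, t ≤ n ∧ l t ∈ cI.Left)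
    (hN₁ : PvagdLe2 l n cI cM') (hN₂ : PvagdLe2 l n cM cO) :
    ∃ γ₁ γ₂ : PvanStr T s (cI.Ann cO), PvagdX cI cO γ₁ ∧ PvagdX cI cO γ₂ ∧ ∀ t, t ≤ n → l t ∈ cM'.Ann cM → γ₁.Vis (l t) ∨ γ₂.Vis (l t) := by
  obtain ⟨α₁, β₁, α₂, β₂, p1, p2, h⟩ := pvagd_cg_idx hT hI hM hO hstep h0 hn hvis hN₁ hN₂
  obtain ⟨γ₁, x1, n1, e1⟩ := pvagd_piece_str hok hstep p1
  obtain ⟨γ₂, x2, n2, e2⟩ := pvagd_piece_str hok hstep p2
  refine ⟨γ₁, γ₂, x1, x2, fun t ht htA => ?_⟩
  rcases h t ht htA with ⟨a, b⟩ | ⟨a, b⟩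
  · exact Or.inl ⟨t - α₁, by omega, by rw [e1, show α₁ + (t - α₁) = t by omega]; exact T.sf_refl _⟩
  · exact Or.inr ⟨t - α₂, by omega, by rw [e2, show α₂ + (t - α₂) = t by omega]; exact T.sf_refl _⟩

/-! ## 9. (D1) + (D3): the gate of a trial -/

/-- **THE GATE OF A TRIAL.**   Six nested cycles `cI < cM' < cJ' < cJ < cM < cO` (buffer, middle annulus with the annulus `AA_j` one layer inside, buffer).   A run `l 0 … l n` (chord, or a period of a closed strand) with both ends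
outside `cO`, which visits `cI.Left` and has at most two crossing pieces in each buffer.   `X` = the allowed (fresh) vertices: every black vertex of the closed `AA_j` off `X` is the black end of a position of the run.
(FG): no black crossing of `AA_j` inside `X`.   Then the annulus between `cI` and `cO` carries a two-site gate for BLACK. -/
theorem pvagd_run_gate (hT : T.IsSph) {cI cM' cJ' cJ cM cO : T.Cyc} (hI : cI.Inside cM') (hMJ : cM'.Inside cJ') (hJ : cJ'.Inside cJ) (hJM : cJ.Inside cM) (hO : cM.Inside cO)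
    (hfin : cO.Left.Finite) {l : ℕ → D} {n : ℕ} (hok : pvanOk T s (l 0)) (hstep : ∀ k, k < n → l (k + 1) = pvanStep T s (l k)) (h0 : l 0 ∉ cO.Left) (hn : l n ∉ cO.Left)
    (hvis : ∃ t, t ≤ n ∧ l t ∈ cI.Left) (hN₁ : PvagdLe2 l n cI cM') (hN₂ : PvagdLe2 l n cM cO) {X : Set V}
    (hX : ∀ v ∈ T.VOf (cJ'.Ann cJ), v ∉ X → s v = true → ∃ k, k ≤ n ∧ T.src (l k) = v) (hFG : ¬ PvaxCr T cJ' cJ X true s) :
    ∃ G Y, PvgGate T s true cI.Left cO.Left G Y := by
  have hM : cM'.Left ⊆ cM.Left := fun d hd => hJM.2 (hJ.2 (hMJ.2 hd))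
  have hIO : cI.Inside cO := ⟨fun v hv => (pl_nested_vert hT cO cM' fun d hd => hO.2 (hM hd)).2 (hI.1 hv), fun d hd => hO.2 (hM (hI.2 hd))⟩
  obtain ⟨γ₁, γ₂, x1, x2, hcg⟩ := pvagd_cg hT hI hM hO hok hstep h0 hn hvis hN₁ hN₂
  refine pvagd_pvgGate hT hIO hfin (pvagd_three hT hIO (fun d hd => hMJ.2 (hI.2 hd)) hJ (fun d hd => hO.2 (hJM.2 hd)) γ₁ γ₂ x1 x2 (S := Xᶜ) ?_ (by rw [compl_compl]; exact hFG))
  intro v hv hvX hb
  obtain ⟨k, hk, rfl⟩ := hX v hv hvX hb
  rcases hcg k hk (pvagd_layer hT hMJ hJM hv (l k) rfl) with h | h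
  · exact Or.inl (pvagd_vis_layB γ₁ h hb)
  · exact Or.inr (pvagd_vis_layB γ₂ h hb)

/-- the same for a CHORD in the vocabulary of `Arm/Strand`: positions `pvasIt T s e k`, `k ≤ n`; explored vertices = the two layers -/
theorem pvagd_chord_gate (hT : T.IsSph) {cI cM' cJ' cJ cM cO : T.Cyc} (hI : cI.Inside cM') (hMJ : cM'.Inside cJ') (hJ : cJ'.Inside cJ) (hJM : cJ.Inside cM) (hO : cM.Inside cO)
    (hfin : cO.Left.Finite) {e : D} {n : ℕ} (hok : pvasBW T s e) (h0 : e ∉ cO.Left) (hn : pvasIt T s e n ∉ cO.Left) (hvis : ∃ t, t ≤ n ∧ pvasIt T s e t ∈ cI.Left)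
    (hN₁ : PvagdLe2 (pvasIt T s e) n cI cM') (hN₂ : PvagdLe2 (pvasIt T s e) n cM cO) {X : Set V}
    (hX : ∀ v ∈ T.VOf (cJ'.Ann cJ), v ∉ X → v ∈ pvasLayB T s e n ∨ v ∈ pvasLayW T s e n) (hFG : ¬ PvaxCr T cJ' cJ X true s) :
    ∃ G Y, PvgGate T s true cI.Left cO.Left G Y := by
  refine pvagd_run_gate hT hI hMJ hJ hJM hO hfin (l := pvasIt T s e) (n := n) hok (fun k _ => pvas_it_succ s e k) h0 hn hvis hN₁ hN₂ (X := X) (fun v hv hvX hb => ?_) hFG
  rcases hX v hv hvX with h | h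
  · exact h
  · rw [pvas_layW_white hok h] at hb
    exact absurd hb Bool.false_ne_true

/-- exchange of the colours: gates -/
theorem pvagd_gate_not {I O G : Set D} {Y : Finset V} (h : PvgGate T (pvasNot s) true I O G Y) : PvgGate T s false I O G Y := by
  have e : ∀ v, pvasNot s v = true ↔ s v = false := fun v => by unfold pvasNot; cases s v <;> simp
  exact ⟨h.face, h.inner, h.outer, h.card, fun v hv => (e v).1 (h.col v hv), fun v hv => (h.other v hv).imp (fun h1 h2 => h1 ((e v).2 h2)) id⟩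

/-- exchange of the colours: crossings -/
theorem pvagd_cr_not {c' c : T.Cyc} {X : Set V} : PvaxCr T c' c X true (pvasNot s) ↔ PvaxCr T c' c X false s := by
  have e : {v | v ∈ X ∧ pvasNot s v = true} = {v | v ∈ X ∧ s v = false} := by
    ext v
    have : pvasNot s v = true ↔ s v = false := by unfold pvasNot; cases s v <;> simp
    simp only [Set.mem_ofPred_eq, this]
  unfold PvaxCr
  rw [e]

end run

/-! ## 10. (CG) in TIME-INTERVAL FORM for a chord      (= `PvagaXp`, `PvagaCG`, `pvaga_str`, `pvaga_gate`, `pvaga_cg_meas` of `Arm/GateA`, helper281: same bodies, so the two vocabularies are definitionally equal) -/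

section chord

/-- CROSSING PIECE of the strand of `e`: the positions `i ≤ k < j` are in the annulus between `c'` and `c`; it comes in through one of the two cycles and goes out through the other one -/
def PvagdXp (T : PvMap V D) (s : V → Bool) (e : D) (c' c : T.Cyc) (i j : ℕ) : Prop :=
  i < j ∧ (∀ k, i ≤ k → k < j → pvasIt T s e k ∈ c'.Ann c) ∧
    ((T.opp (pvasIt T s e i) ∉ c.Left ∧ pvasIt T s e j ∈ c'.Left) ∨ (T.opp (pvasIt T s e i) ∈ c'.Left ∧ pvasIt T s e j ∉ c.Left))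

/-- **(CG)**, time-interval form: two crossing pieces of the big annulus contain all the positions `< N` of the strand of `e` in the middle annulus -/
def PvagdCG (T : PvMap V D) (s : V → Bool) (e : D) (N : ℕ) (c0 c1 c2 c3 : T.Cyc) : Prop :=
  ∃ i1 j1 i2 j2, j1 ≤ N ∧ j2 ≤ N ∧ PvagdXp T s e c0 c3 i1 j1 ∧ PvagdXp T s e c0 c3 i2 j2 ∧
    ∀ k < N, pvasIt T s e k ∈ c1.Ann c2 → (i1 ≤ k ∧ k < j1) ∨ (i2 ≤ k ∧ k < j2)

theorem pvagd_chord_eqns_cite : True := by
  have := @PvagdXp.eq_1; have := @PvagdCG.eq_1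
  trivial

/-- a crossing piece is a crossing strand of the annulus -/
theorem pvagd_str {s : V → Bool} {e : D} (he : pvasBW T s e) {c' c : T.Cyc} {i j : ℕ} (h : PvagdXp T s e c' c i j) :
    ∃ γ : PvanStr T s (c'.Ann c), PvagdX c' c γ ∧ γ.n = j - i ∧ ∀ k, γ.e k = pvasIt T s e (i + k) :=
  pvagd_piece_str (l := pvasIt T s e) (n := j) he (fun k _ => pvas_it_succ s e k) ⟨h.1, le_rfl, h.2.1, h.2.2⟩

/-- a crossing piece depends only on the positions `≤ j` -/
theorem pvagd_xp_congr {s s' : V → Bool} {e : D} {c' c : T.Cyc} {i j : ℕ} (h : ∀ k, k ≤ j → pvasIt T s' e k = pvasIt T s e k) (hx : PvagdXp T s e c' c i j) :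
    PvagdXp T s' e c' c i j := by
  obtain ⟨h1, h2, h3⟩ := hx
  refine ⟨h1, fun k a b => by rw [h k b.le]; exact h2 k a b, ?_⟩
  rw [h i h1.le, h j le_rfl]
  exact h3

theorem pvagd_cg_congr {s s' : V → Bool} {e : D} {N : ℕ} {c0 c1 c2 c3 : T.Cyc} (h : ∀ k, k ≤ N → pvasIt T s' e k = pvasIt T s e k) (hx : PvagdCG T s e N c0 c1 c2 c3) :
    PvagdCG T s' e N c0 c1 c2 c3 := by
  obtain ⟨i1, j1, i2, j2, a1, a2, x1, x2, h3⟩ := hx
  refine ⟨i1, j1, i2, j2, a1, a2, pvagd_xp_congr (fun k hk => h k (hk.trans a1)) x1, pvagd_xp_congr (fun k hk => h k (hk.trans a2)) x2, fun k hk hm => h3 k hk ?_⟩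
  rwa [h k hk.le] at hm

/-- (CG) is a function of the explored chord -/
theorem pvagd_cg_meas [DecidableEq V] {B : Set D} (hB : T.FaceSet B) (hfin : B.Finite) {e : D} (he : e ∈ B) (he' : T.opp e ∉ B) (c0 c1 c2 c3 : T.Cyc) :
    PvaMeas (pvasExpl T e Bᶜ) (fun s => PvagdCG T s e (pvasTime T e Bᶜ s) c0 c1 c2 c3) := by
  intro s s' hs
  have hex : ∀ s, pvasBW T s e → ∃ n, pvasIt T s e n ∈ Bᶜ := fun s hs => pvas_exit_exists hB hfin ⟨he, he', hs⟩
  have ht : pvasTime T e Bᶜ s' = pvasTime T e Bᶜ s := pvas_time_meas e Bᶜ hex s s' hs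
  have key : ∀ k, k ≤ pvasTime T e Bᶜ s → pvasIt T s' e k = pvasIt T s e k :=
    pvas_it_congr (T := T) (s := s) (s' := s') (d := e) (n := pvasTime T e Bᶜ s) fun v hv => hs v (pvas_mem_lay.2 hv)
  show PvagdCG T s' e (pvasTime T e Bᶜ s') c0 c1 c2 c3 = PvagdCG T s e (pvasTime T e Bᶜ s) c0 c1 c2 c3
  rw [ht]
  exact propext ⟨pvagd_cg_congr fun k hk => (key k hk).symm, pvagd_cg_congr key⟩

/-- **GATE**: the chord of `e` is c-good for the trial, and one annulus `cJ' < cJ`, one layer inside the middle annulus, has no black crossing through the vertices of `X`, where `X` contains the unexplored vertices of this annulus -/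
theorem pvagd_gateA [DecidableEq V] (hT : T.IsSph) (hS : T.Simple) {B : Set D} (hB : T.FaceSet B) (hfin : B.Finite) {s : V → Bool} {e : D} (he : pvasIn T B s e)
    {c0 c1 c2 c3 cJ' cJ : T.Cyc} (h01 : c0.Inside c1) (h1J : c1.Inside cJ') (hJ : cJ'.Inside cJ) (hJ2 : cJ.Inside c2) (h23 : c2.Inside c3) (h3B : c3.Left ⊆ B)
    (hCG : PvagdCG T s e (pvasTime T e Bᶜ s) c0 c1 c2 c3) {X : Set V} (hX : ∀ v ∈ T.VOf (cJ'.Ann cJ), v ∉ X → v ∈ pvasExpl T e Bᶜ s)
    (hFG : ¬ PvaxCr T cJ' cJ X true s) :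
    ∃ c'' : T.Cyc, (c''.verts ∩ {v | s v = true}).ncard ≤ 2 ∧ c0.Left ⊆ c''.Left ∧ c''.Left ⊆ c3.Left ∧ ∀ i, c''.e i ∈ c0.Ann c3 ∨ T.opp (c''.e i) ∈ c0.Ann c3 := by
  obtain ⟨i1, j1, i2, j2, a1, a2, x1, x2, h3⟩ := hCG
  obtain ⟨γ₁, g1, n1, e1⟩ := pvagd_str he.2.2 x1
  obtain ⟨γ₂, g2, n2, e2⟩ := pvagd_str he.2.2 x2
  have hM : c1.Left ⊆ c2.Left := fun d hd => hJ2.2 (hJ.2 (h1J.2 hd))
  have hIO : c0.Inside c3 := ⟨fun v hv => (pl_nested_vert hT c3 c1 fun d hd => h23.2 (hM hd)).2 (h01.1 hv), fun d hd => h23.2 (hM (h01.2 hd))⟩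
  have hN : pvasIt T s e (pvasTime T e Bᶜ s) ∉ B := by
    rw [pvas_time_bw he.2.2]
    exact (pvas_exit_spec hB hfin he).2.2.1
  refine pvagd_gate hT hS hIO (hfin.subset h3B) (fun d hd => h1J.2 (h01.2 hd)) hJ (fun d hd => h23.2 (hJ2.2 hd)) γ₁ γ₂ g1 g2 (S := Xᶜ) ?_ (by rw [compl_compl]; exact hFG)
  intro v hv hvX hb
  have hv' := hX v hv hvX
  unfold pvasExpl at hv'
  rcases pvas_mem_lay.1 hv' with h | h
  · obtain ⟨k, hk, rfl⟩ := h
    have hmid : pvasIt T s e k ∈ c1.Ann c2 := pvagd_layer hT h1J hJ2 hv _ rfl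
    have hkN : k < pvasTime T e Bᶜ s := by
      rcases Nat.eq_or_lt_of_le hk with rfl | h'
      · exact absurd (h3B (h23.2 hmid.1)) hN
      · exact h'
    rcases h3 k hkN hmid with ⟨a, b⟩ | ⟨a, b⟩
    · exact Or.inl (pvagd_vis_layB γ₁ ⟨k - i1, by omega, by rw [e1, show i1 + (k - i1) = k by omega]; exact T.sf_refl _⟩ hb)
    · exact Or.inr (pvagd_vis_layB γ₂ ⟨k - i2, by omega, by rw [e2, show i2 + (k - i2) = k by omega]; exact T.sf_refl _⟩ hb)
  · rw [pvas_layW_white he.2.2 h] at hb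
    exact absurd hb Bool.false_ne_true

end chord

end Claimed.Agent.R289
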