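import Claimed.Agent.R289.Arm.NearRet
import Claimed.Agent.R289.Arm.GateD

/-!
# Row 289 (S0537, Cardy for Poisson-Voronoi), box ARM, block A6 (gate density, TR16), file Arm/GateF : (D4) = FIVE ARMS FROM THREE CROSSING STRANDS OF ONE CHORD      (helper105; blueprint `origin/helper281:notes/R289/A6_281.md` sec. 2 (D4) = L6 of PIN_273; prefix `pvagf_`, defs `Pvagf…`)

INPUT   a CHORD `χ` of the big disc `B` (any face set; `PvagfCh`: the strand of the entrance `E`, positions `0..M`, the position `M` is outside), a rim `P` (`PvnrRim` of helper228: the right faces are tags of ONE wall) with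
        a right face number `i` DEEP (in `c'.Left`) which is a face of the chord (time `τ`), and a right face number `q` outside the big disc;
        THREE distinct crossing strands of the buffer `(c', c)` (format of helper116, `Arm/GateD` sec. 5: `γ : PvanStr T s (c'.Ann c)`, `PvagdX c' c γ`) which start at positions of the chord.
OUTPUT  `PvatCfg T c0 c1 c2 s x x2 x4 n1 n2 n4` (CONFIG5 of helper249, `Arm/Trap`) for ALL cycles with `c'.Left ⊆ c1.Left`, `c1.Inside c0`, `c1.Left ⊆ c2.Left`, `c0.Left ⊆ c.Left`.      Either colour of the rim.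

PROOF (no sector, no cyclic order, only the kit of helper228).
(1) WINDOW LEMMA `pvagf_run`: a strand which is outside `B` at the time `t0` and in `A ⊆ B` at the time `t1 ≥ t0` contains a RUN from `B` to `A` between these times;   `pvagf_out`: the same for the reversed strand.
(2) `pvnr_near` in the BIG disc: the part of the chord before the deep right face and the part after it have no common vertex of the colour of the rim (`pvagf_K`).
(3) `pvnr_third`: a run misses, in the other colour, one of two runs of the opposite type;   `pvnr_same_disj`: two runs of the same type are disjoint.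
    (A) one inward run before `τ`, two outward runs after `τ`;      (B) two inward runs before `τ`, one outward run after `τ`, one more outward run.      Both give CONFIG5.
(4) BOOKKEEPING: an inward strand after `τ` gives (A); an outward strand before `τ` gives (B); two outward strands after `τ` give (A); two inward strands before `τ` give (B);   three strands: pigeonhole.
-/

set_option autoImplicit false
set_option linter.unusedSectionVars false
set_option linter.unusedVariables false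

namespace Claimed.Agent.R289

open Relation

variable {V D : Type} {T : PvMap V D}

/-! ## 1. runs inside a strand -/

/-- **WINDOW LEMMA**: outside `B` at the time `t0`, in `A ⊆ B` at the time `t1`: a run from `B` to `A` in between -/
theorem pvagf_run {B A : Set D} (hB : T.FaceSet B) (hAB : A ⊆ B) {t : V → Bool} {d : D} (hd : pvasBW T t d) {t0 t1 : ℕ} (h01 : t0 ≤ t1)
    (h0 : T.opp (pvasIt T t d t0) ∉ B) (h1 : pvasIt T t d t1 ∈ A) :
    ∃ a n, t0 ≤ a ∧ a + n ≤ t1 ∧ PvatRun T B A t (pvasIt T t d a) n := by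
  classical
  have hex : ∃ k, t0 ≤ k ∧ pvasIt T t d k ∈ A := ⟨t1, h01, h1⟩
  set h := Nat.find hex with hh
  have hh1 : t0 ≤ h ∧ pvasIt T t d h ∈ A := Nat.find_spec hex
  have hle : h ≤ t1 := Nat.find_min' hex ⟨h01, h1⟩
  have hmin : ∀ k, t0 ≤ k → k < h → pvasIt T t d k ∉ A := fun k hk hkh hA => Nat.find_min hex hkh ⟨hk, hA⟩
  set Q : ℕ → Prop := fun k => t0 ≤ k ∧ T.opp (pvasIt T t d k) ∉ B with hQ
  set a := Nat.findGreatest Q h with ha
  have hQa : Q a := Nat.findGreatest_spec (P := Q) hh1.1 ⟨le_rfl, h0⟩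
  have hah : a ≤ h := Nat.findGreatest_le h
  have hgt : ∀ k, a < k → k ≤ h → T.opp (pvasIt T t d k) ∈ B := by
    intro k hak hkh
    by_contra hc
    exact Nat.findGreatest_is_greatest (P := Q) hak hkh ⟨hQa.1.trans hak.le, hc⟩
  have hin : ∀ j, a ≤ j → j < h → pvasIt T t d j ∈ B := by
    intro j haj hjh
    have := hgt (j + 1) (by omega) (by omega)
    rwa [pvas_it_succ, pvas_step_opp_mem hB] at this
  have hin' : ∀ j, a ≤ j → j ≤ h → pvasIt T t d j ∈ B := by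
    intro j haj hjh
    rcases Nat.lt_or_ge j h with h2 | h2
    · exact hin j haj h2
    · have : j = h := by omega
      rw [this]; exact hAB hh1.2
  refine ⟨a, h - a, hQa.1, by omega, ⟨hin' a le_rfl hah, hQa.2, pvas_it_bw hd a⟩, fun k hk => ?_, ?_⟩
  · rw [← pvas_it_add]
    exact ⟨hin _ (by omega) (by omega), hmin _ (by have := hQa.1; omega) (by omega)⟩
  · rw [← pvas_it_add]
    have : a + (h - a) = h := by omega
    rw [this]; exact hh1.2

/-- the layers of a piece of a strand -/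
theorem pvagf_lay_sub (t : V → Bool) (d : D) {a n k : ℕ} (h : a + n ≤ k) : pvatLay T t (pvasIt T t d a) n ⊆ pvatLay T t d k := by
  rintro v (⟨i, hi, rfl⟩ | ⟨i, hi, rfl⟩)
  · exact Or.inl ⟨a + i, by omega, by rw [pvas_it_add]⟩
  · exact Or.inr ⟨a + i, by omega, by rw [pvas_it_add]⟩

/-- a run to a larger target -/
theorem pvagf_run_big {B A A' : Set D} (hAA : A ⊆ A') {t : V → Bool} {x : D} {n : ℕ} (h : PvatRun T B A t x n) : ∃ m, m ≤ n ∧ PvatRun T B A' t x m := by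
  classical
  have hex : ∃ m, pvasIt T t x m ∈ A' := ⟨n, hAA h.hit⟩
  have hle : Nat.find hex ≤ n := Nat.find_min' hex (hAA h.hit)
  exact ⟨Nat.find hex, hle, h.ent, fun k hk => ⟨(h.mid k (by omega)).1, Nat.find_min hex hk⟩, Nat.find_spec hex⟩

/-- **WINDOW LEMMA, reversed**: in `A` at the time `t0`, outside `B` at the time `t1`: a backward run which starts at a time `b ≤ t1` and ends after `t0` -/
theorem pvagf_out {B A : Set D} (hB : T.FaceSet B) (hA : T.FaceSet A) (hAB : A ⊆ B) {s : V → Bool} {E : D} (hE : pvasBW T s E) {t0 t1 : ℕ} (h01 : t0 < t1)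
    (h0 : pvasIt T s E t0 ∈ A) (h1 : pvasIt T s E t1 ∉ B) :
    ∃ b m, t0 + m < b ∧ b ≤ t1 ∧ PvatRun T B A (pvasNot s) (T.opp (pvasIt T s E b)) m := by
  have hd : pvasBW T (pvasNot s) (T.opp (pvasIt T s E t1)) := pvas_bw_not.2 (pvas_it_bw hE t1)
  have e0 : T.opp (pvasIt T (pvasNot s) (T.opp (pvasIt T s E t1)) 0) ∉ B := by
    rw [pvas_it_zero, T.opp_opp]; exact h1
  have e1 : pvasIt T (pvasNot s) (T.opp (pvasIt T s E t1)) (t1 - t0 - 1) ∈ A := by
    rw [pvas_it_rev hE (by omega)]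
    have : t1 - (t1 - t0 - 1) = t0 + 1 := by omega
    rw [this, pvas_it_succ, pvas_step_opp_mem hA]
    exact h0
  obtain ⟨a, n, -, han, R⟩ := pvagf_run hB hAB hd (Nat.zero_le _) e0 e1
  rw [pvas_it_rev hE (by omega)] at R
  exact ⟨t1 - a, n, by omega, by omega, R⟩

/-! ## 2. CONFIG5 from three runs -/

/-- a forward run, two distinct backward runs, one of which does not see the forward run -/
theorem pvagf_cfg (hT : T.IsSph) {c0 c1 c2 : T.Cyc} (h10 : c1.Inside c0) (h12 : c1.Left ⊆ c2.Left) {s : V → Bool} {x y z : D} {n1 n4 n2 : ℕ}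
    (R1 : PvatRun T c0.Left c1.Left s x n1) (R4 : PvatRun T c0.Left c1.Left (pvasNot s) y n4) (R2 : PvatRun T c0.Left c1.Left (pvasNot s) z n2) (hyz : y ≠ z)
    (hd : Disjoint (pvatLay T (pvasNot s) y n4) (pvatLay T s x n1)) : ∃ x x2 x4 n1 n2 n4, PvatCfg T c0 c1 c2 s x x2 x4 n1 n2 n4 := by
  obtain ⟨m4, hm4, R4'⟩ := pvagf_run_big h12 R4
  exact ⟨x, z, y, n1, n2, m4, R1, R2, R4', Set.disjoint_of_subset_left (pvnr_lay_mono _ y hm4) hd,
    Set.disjoint_of_subset_left (pvnr_lay_mono _ y hm4) (pvnr_same_disj hT h10 (Or.inr rfl) R4 R2 hyz)⟩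

/-! ## 3. chords -/

/-- CHORD of the face set `B`: the strand enters at `E`, the positions `0..M-1` are in `B`, the position `M` is outside -/
structure PvagfCh (T : PvMap V D) (B : Set D) (s : V → Bool) (E : D) (M : ℕ) : Prop where
  ent : pvasIn T B s E
  mem : ∀ j, j < M → pvasIt T s E j ∈ B
  ext : pvasIt T s E M ∉ B

variable {B : Set D} {s : V → Bool} {E : D} {M : ℕ}

/-- the chord of an entrance of a finite face set -/
theorem pvagf_ch_exists (hB : T.FaceSet B) (hfin : B.Finite) (h : pvasIn T B s E) : ∃ M, PvagfCh T B s E M := by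
  classical
  have hex : ∃ n, pvasIt T s E n ∉ B := pvas_exit_exists hB hfin h
  exact ⟨Nat.find hex, h, fun j hj => not_not.1 (Nat.find_min hex hj), Nat.find_spec hex⟩

/-- the positions of a chord are pairwise distinct -/
theorem PvagfCh.inj (hB : T.FaceSet B) (h : PvagfCh T B s E M) {a b : ℕ} (ha : a ≤ M) (hb : b ≤ M) (e : pvasIt T s E a = pvasIt T s E b) : a = b := by
  have key : ∀ a b, a < b → b ≤ M → pvasIt T s E a = pvasIt T s E b → False := by
    intro a b hab hb e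
    have h1 := pvas_it_return h.ent.2.2 hab.le e
    have h2 := pvas_in_first hB h.ent h1 (fun i hi => h.mem i (by omega))
    omega
  rcases lt_trichotomy a b with hab | hab | hab
  · exact (key a b hab hb e).elim
  · exact hab
  · exact (key b a hab ha e.symm).elim

theorem PvagfCh.pos (h : PvagfCh T B s E M) : 0 < M := by
  rcases Nat.eq_zero_or_pos M with h0 | h0
  · exact absurd h.ent.1 (by have := h.ext; rwa [h0] at this)
  · exact h0

/-- the face behind a position -/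
theorem pvagf_prev {A : Set D} (hA : T.FaceSet A) (s : V → Bool) (E : D) (j : ℕ) : T.opp (pvasIt T s E (j + 1)) ∈ A ↔ pvasIt T s E j ∈ A := by
  rw [pvas_it_succ, pvas_step_opp_mem hA]

theorem PvagfCh.thruF (h : PvagfCh T B s E M) {f : D} {τ : ℕ} (hτ : τ < M) (hf : T.SF f (pvasIt T s E τ)) : PvnrThru T B s f E τ :=
  ⟨h.ent, fun i hi => h.mem i (by omega), hf⟩

theorem PvagfCh.thruB (hB : T.FaceSet B) (h : PvagfCh T B s E M) {f : D} {τ : ℕ} (hτ : τ < M) (hf : T.SF f (pvasIt T s E τ)) :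
    PvnrThru T B (pvasNot s) f (T.opp (pvasIt T s E M)) (M - τ - 1) := by
  have hE := h.ent.2.2
  refine ⟨pvas_out_not.2 ⟨h.ext, ?_, pvas_it_bw hE M⟩, fun i hi => ?_, ?_⟩
  · obtain ⟨k, rfl⟩ : ∃ k, M = k + 1 := ⟨M - 1, by omega⟩
    rw [pvagf_prev hB]
    exact h.mem k (by omega)
  · rw [pvas_it_rev hE (by omega)]
    obtain ⟨k, hk⟩ : ∃ k, M - i = k + 1 := ⟨M - i - 1, by omega⟩
    rw [hk, pvagf_prev hB]
    exact h.mem k (by omega)
  · rw [pvas_it_rev hE (by omega)]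
    have : M - (M - τ - 1) = τ + 1 := by omega
    rw [this, pvas_it_succ]
    exact T.sf_trans hf (pvas_step_sf s _)

/-- the layers of a backward run of the chord which starts at the time `b ≤ M` and ends after `τ` -/
theorem PvagfCh.lay_back (h : PvagfCh T B s E M) {τ b m : ℕ} (h1 : τ + m < b) (h2 : b ≤ M) :
    pvatLay T (pvasNot s) (T.opp (pvasIt T s E b)) m ⊆ pvatLay T (pvasNot s) (T.opp (pvasIt T s E M)) (M - τ - 1) := by
  have e : T.opp (pvasIt T s E b) = pvasIt T (pvasNot s) (T.opp (pvasIt T s E M)) (M - b) := by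
    rw [pvas_it_rev h.ent.2.2 (by omega)]
    have : M - (M - b) = b := by omega
    rw [this]
  rw [e]
  exact pvagf_lay_sub _ _ (by omega)

/-! ## 4. the data of (D4) -/

/-- **the data of (D4)**: the chord `(E, M)` of the big disc `B`; the rim `P`, its right face number `i` is deep (in `c'.Left`) and is the face of the chord at the time `τ`, its right face number `q` is outside the big disc;
the buffer `(c', c)` and the cycles `c1`, `c0` of CONFIG5 in between -/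
structure PvagfIn (T : PvMap V D) (B : Set D) (c c' c0 c1 : T.Cyc) (s : V → Bool) (P : T.Cyc) (E : D) (M τ i q : ℕ) : Prop where
  fB : T.FaceSet B
  ch : PvagfCh T B s E M
  rim : PvnrRim T s P
  lt : τ < M
  face : T.SF (T.opp (P.e i)) (pvasIt T s E τ)
  deep : T.opp (P.e i) ∈ c'.Left
  far : T.opp (P.e q) ∉ B
  sub1 : c'.Left ⊆ c1.Left
  ins : c1.Inside c0
  sub0 : c0.Left ⊆ c.Left
  subC : c.Left ⊆ B

/-- an INWARD crossing piece of the buffer: times `t .. t + n` of the chord -/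
def PvagfI (T : PvMap V D) (c' c : T.Cyc) (s : V → Bool) (E : D) (t n : ℕ) : Prop :=
  (∀ k, k < n → pvasIt T s E (t + k) ∈ c'.Ann c) ∧ T.opp (pvasIt T s E t) ∉ c.Left ∧ pvasIt T s E (t + n) ∈ c'.Left

/-- an OUTWARD crossing piece of the buffer -/
def PvagfO (T : PvMap V D) (c' c : T.Cyc) (s : V → Bool) (E : D) (t n : ℕ) : Prop :=
  (∀ k, k < n → pvasIt T s E (t + k) ∈ c'.Ann c) ∧ T.opp (pvasIt T s E t) ∈ c'.Left ∧ pvasIt T s E (t + n) ∉ c.Left

theorem pvagf_eqns_cite : True := by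
  have := @PvagfI.eq_1; have := @PvagfO.eq_1
  trivial

section ctx

variable {c c' c0 c1 c2 : T.Cyc} {P : T.Cyc} {τ i q : ℕ}

theorem PvagfIn.tau_mem (H : PvagfIn T B c c' c0 c1 s P E M τ i q) : pvasIt T s E τ ∈ c'.Left :=
  ((pl_left_face c').sf T H.face).2 H.deep

theorem PvagfIn.sub' (H : PvagfIn T B c c' c0 c1 s P E M τ i q) : c'.Left ⊆ c.Left := fun _ h => H.sub0 (H.ins.2 (H.sub1 h))

theorem PvagfIn.mod_ne (H : PvagfIn T B c c' c0 c1 s P E M τ i q) : i % P.n ≠ q % P.n := by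
  intro h
  have e : P.e i = P.e q := by rw [← pl_cyc_mod P i, h, pl_cyc_mod]
  exact H.far (e ▸ H.subC (H.sub' H.deep))

/-- **the part of the chord before the deep right face and the part after it have no common vertex of the colour of the rim** -/
theorem PvagfIn.K (hT : T.IsSph) (H : PvagfIn T B c c' c0 c1 s P E M τ i q) {a n b m : ℕ} (ha : a + n ≤ τ) (hb : τ + m < b) (hb' : b ≤ M) {v : V}
    (hv : v ∈ pvatLay T s (pvasIt T s E a) n) (hv' : v ∈ pvatLay T (pvasNot s) (T.opp (pvasIt T s E b)) m) : s v ≠ s (T.src (P.e 0)) :=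
  pvnr_near hT H.rim H.fB H.mod_ne H.far (H.ch.thruF H.lt H.face) (H.ch.thruB H.fB H.lt H.face)
    (pvagf_lay_sub s E ha hv) (H.ch.lay_back hb hb' hv')

/-- **(A)**: one inward run before `τ`, two outward runs after `τ` -/
theorem PvagfIn.caseA (hT : T.IsSph) (H : PvagfIn T B c c' c0 c1 s P E M τ i q) (h12 : c1.Left ⊆ c2.Left) {a n b₁ m₁ b₂ m₂ : ℕ}
    (Rx : PvatRun T c0.Left c1.Left s (pvasIt T s E a) n) (ha : a + n ≤ τ)
    (R₁ : PvatRun T c0.Left c1.Left (pvasNot s) (T.opp (pvasIt T s E b₁)) m₁) (h₁ : τ + m₁ < b₁) (h₁' : b₁ ≤ M)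
    (R₂ : PvatRun T c0.Left c1.Left (pvasNot s) (T.opp (pvasIt T s E b₂)) m₂) (h₂ : τ + m₂ < b₂) (h₂' : b₂ ≤ M) (hb : b₁ ≠ b₂) :
    ∃ x x2 x4 n1 n2 n4, PvatCfg T c0 c1 c2 s x x2 x4 n1 n2 n4 := by
  have hne : T.opp (pvasIt T s E b₁) ≠ T.opp (pvasIt T s E b₂) := fun e => hb (H.ch.inj H.fB h₁' h₂' (T.opp_injective e))
  rcases pvnr_third hT H.ins (Or.inr rfl) (Or.inl rfl) R₁ R₂ hne Rx (!(s (T.src (P.e 0)))) with hA | hA
  · refine pvagf_cfg hT H.ins h12 Rx R₁ R₂ hne ?_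
    rw [Set.disjoint_left]
    intro v hv hv'
    rcases pvnr_bool_cases (s v) (s (T.src (P.e 0))) with h | h
    · exact H.K hT ha h₁ h₁' hv' hv h
    · exact hA v hv hv' h
  · refine pvagf_cfg hT H.ins h12 Rx R₂ R₁ hne.symm ?_
    rw [Set.disjoint_left]
    intro v hv hv'
    rcases pvnr_bool_cases (s v) (s (T.src (P.e 0))) with h | h
    · exact H.K hT ha h₂ h₂' hv' hv h
    · exact hA v hv hv' h

/-- **(B)**: two inward runs before `τ`, one outward run after `τ`, one more outward run -/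
theorem PvagfIn.caseB (hT : T.IsSph) (H : PvagfIn T B c c' c0 c1 s P E M τ i q) (h12 : c1.Left ⊆ c2.Left) {a₁ n₁ a₂ n₂ b m b' m' : ℕ}
    (R₁ : PvatRun T c0.Left c1.Left s (pvasIt T s E a₁) n₁) (h₁ : a₁ + n₁ ≤ τ) (R₂ : PvatRun T c0.Left c1.Left s (pvasIt T s E a₂) n₂) (h₂ : a₂ + n₂ ≤ τ) (ha : a₁ ≠ a₂)
    (Rb : PvatRun T c0.Left c1.Left (pvasNot s) (T.opp (pvasIt T s E b)) m) (hb : τ + m < b) (hb' : b ≤ M)
    (Rb' : PvatRun T c0.Left c1.Left (pvasNot s) (T.opp (pvasIt T s E b')) m') (hbM : b' ≤ M) (hbb : b ≠ b') :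
    ∃ x x2 x4 n1 n2 n4, PvatCfg T c0 c1 c2 s x x2 x4 n1 n2 n4 := by
  have hτ := H.lt
  have hne : pvasIt T s E a₁ ≠ pvasIt T s E a₂ := fun e => ha (H.ch.inj H.fB (by omega) (by omega) e)
  have hne' : T.opp (pvasIt T s E b) ≠ T.opp (pvasIt T s E b') := fun e => hbb (H.ch.inj H.fB hb' hbM (T.opp_injective e))
  rcases pvnr_third hT H.ins (Or.inl rfl) (Or.inr rfl) R₁ R₂ hne Rb (!(s (T.src (P.e 0)))) with hA | hA
  · refine pvagf_cfg hT H.ins h12 R₁ Rb Rb' hne' ?_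
    rw [Set.disjoint_left]
    intro v hv hv'
    rcases pvnr_bool_cases (s v) (s (T.src (P.e 0))) with h | h
    · exact H.K hT h₁ hb hb' hv' hv h
    · exact hA v hv' hv h
  · refine pvagf_cfg hT H.ins h12 R₂ Rb Rb' hne' ?_
    rw [Set.disjoint_left]
    intro v hv hv'
    rcases pvnr_bool_cases (s v) (s (T.src (P.e 0))) with h | h
    · exact H.K hT h₂ hb hb' hv' hv h
    · exact hA v hv' hv h

/-- the inward run before the deep face -/
theorem PvagfIn.firstIn (H : PvagfIn T B c c' c0 c1 s P E M τ i q) : ∃ a n, a + n ≤ τ ∧ PvatRun T c0.Left c1.Left s (pvasIt T s E a) n := by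
  obtain ⟨a, n, -, h, R⟩ := pvagf_run (pl_left_face c0) H.ins.2 H.ch.ent.2.2 (Nat.zero_le τ)
    (by rw [pvas_it_zero]; exact fun h => H.ch.ent.2.1 (H.subC (H.sub0 h))) (H.sub1 H.tau_mem)
  exact ⟨a, n, h, R⟩

/-- the outward run after the deep face -/
theorem PvagfIn.lastOut (H : PvagfIn T B c c' c0 c1 s P E M τ i q) :
    ∃ b m, τ + m < b ∧ b ≤ M ∧ PvatRun T c0.Left c1.Left (pvasNot s) (T.opp (pvasIt T s E b)) m :=
  pvagf_out (pl_left_face c0) (pl_left_face c1) H.ins.2 H.ch.ent.2.2 H.lt (H.sub1 H.tau_mem) (fun h => H.ch.ext (H.subC (H.sub0 h)))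

/-! ## 5. bookkeeping -/

/-- an inward crossing piece after the deep face -/
theorem PvagfIn.IA (hT : T.IsSph) (H : PvagfIn T B c c' c0 c1 s P E M τ i q) (h12 : c1.Left ⊆ c2.Left) {t n : ℕ} (hp : PvagfI T c' c s E t n) (hτ : τ < t) (hM : t + n ≤ M) :
    ∃ x x2 x4 n1 n2 n4, PvatCfg T c0 c1 c2 s x x2 x4 n1 n2 n4 := by
  obtain ⟨hmid, h0, h1⟩ := hp
  have hE := H.ch.ent.2.2
  obtain ⟨u, rfl⟩ : ∃ u, t = u + 1 := ⟨t - 1, by omega⟩
  rw [pvagf_prev (pl_left_face c)] at h0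
  have hu : τ ≠ u := by
    rintro rfl
    exact h0 (H.sub' H.tau_mem)
  obtain ⟨a, n0, ha, Rx⟩ := H.firstIn
  obtain ⟨b₁, m₁, e1, e2, R₁⟩ := pvagf_out (pl_left_face c0) (pl_left_face c1) H.ins.2 hE (show τ < u by omega) (H.sub1 H.tau_mem) (fun h => h0 (H.sub0 h))
  have hne : u + 1 + n ≠ M := by
    intro e
    exact H.ch.ext (e ▸ H.subC (H.sub' h1))
  obtain ⟨b₂, m₂, e3, e4, R₂⟩ := pvagf_out (pl_left_face c0) (pl_left_face c1) H.ins.2 hE (show u + 1 + n < M by omega) (H.sub1 h1) (fun h => H.ch.ext (H.subC (H.sub0 h)))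
  exact H.caseA hT h12 Rx ha R₁ e1 (by omega) R₂ (by omega) e4 (by omega)

/-- an outward crossing piece before the deep face -/
theorem PvagfIn.OB (hT : T.IsSph) (H : PvagfIn T B c c' c0 c1 s P E M τ i q) (h12 : c1.Left ⊆ c2.Left) {t n : ℕ} (hp : PvagfO T c' c s E t n) (hτ : t + n ≤ τ) :
    ∃ x x2 x4 n1 n2 n4, PvatCfg T c0 c1 c2 s x x2 x4 n1 n2 n4 := by
  obtain ⟨hmid, h0, h1⟩ := hp
  have hE := H.ch.ent.2.2
  have hlt := H.lt
  have ht0 : t ≠ 0 := by
    rintro rfl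
    rw [pvas_it_zero] at h0
    exact H.ch.ent.2.1 (H.subC (H.sub' h0))
  obtain ⟨u, rfl⟩ : ∃ u, t = u + 1 := ⟨t - 1, by omega⟩
  rw [pvagf_prev (pl_left_face c')] at h0
  have hne : u + 1 + n ≠ τ := by
    intro e
    exact h1 (e ▸ H.sub' H.tau_mem)
  obtain ⟨a₁, n₁, -, e1, R₁⟩ := pvagf_run (pl_left_face c0) H.ins.2 hE (Nat.zero_le u)
    (by rw [pvas_it_zero]; exact fun h => H.ch.ent.2.1 (H.subC (H.sub0 h))) (H.sub1 h0)
  obtain ⟨a₂, n₂, e2, e3, R₂⟩ := pvagf_run (pl_left_face c0) H.ins.2 hE (show u + 1 + n + 1 ≤ τ by omega)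
    (by rw [pvagf_prev (pl_left_face c0)]; exact fun h => h1 (H.sub0 h)) (H.sub1 H.tau_mem)
  obtain ⟨b', m', e4, e5, Rb'⟩ := pvagf_out (pl_left_face c0) (pl_left_face c1) H.ins.2 hE (show u < u + 1 + n by omega) (H.sub1 h0) (fun h => h1 (H.sub0 h))
  obtain ⟨b, m, e6, e7, Rb⟩ := H.lastOut
  exact H.caseB hT h12 R₁ (by omega) R₂ e3 (by omega) Rb e6 e7 Rb' (by omega) (by omega)

/-- two outward crossing pieces after the deep face -/
theorem PvagfIn.OA2 (hT : T.IsSph) (H : PvagfIn T B c c' c0 c1 s P E M τ i q) (h12 : c1.Left ⊆ c2.Left) {t n t' n' : ℕ} (hp : PvagfO T c' c s E t n) (hp' : PvagfO T c' c s E t' n')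
    (hτ : τ < t) (htt : t < t') (hM : t' + n' ≤ M) : ∃ x x2 x4 n1 n2 n4, PvatCfg T c0 c1 c2 s x x2 x4 n1 n2 n4 := by
  obtain ⟨hmid, h0, h1⟩ := hp
  obtain ⟨hmid', h0', h1'⟩ := hp'
  have hE := H.ch.ent.2.2
  obtain ⟨u, rfl⟩ : ∃ u, t = u + 1 := ⟨t - 1, by omega⟩
  obtain ⟨u', rfl⟩ : ∃ u', t' = u' + 1 := ⟨t' - 1, by omega⟩
  rw [pvagf_prev (pl_left_face c')] at h0 h0'
  have hu' : u + 1 + n < u' := by
    by_contra hc
    rcases Nat.lt_or_ge u' (u + 1 + n) with h2 | h2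
    · have := (hmid (u' - (u + 1)) (by omega)).2
      rw [show u + 1 + (u' - (u + 1)) = u' by omega] at this
      exact this h0'
    · have : u' = u + 1 + n := by omega
      exact h1 (this ▸ H.sub' h0')
  obtain ⟨a, n0, ha, Rx⟩ := H.firstIn
  obtain ⟨b₁, m₁, e1, e2, R₁⟩ := pvagf_out (pl_left_face c0) (pl_left_face c1) H.ins.2 hE (show u < u + 1 + n by omega) (H.sub1 h0) (fun h => h1 (H.sub0 h))
  obtain ⟨b₂, m₂, e3, e4, R₂⟩ := pvagf_out (pl_left_face c0) (pl_left_face c1) H.ins.2 hE (show u' < u' + 1 + n' by omega) (H.sub1 h0') (fun h => h1' (H.sub0 h))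
  exact H.caseA hT h12 Rx ha R₁ (by omega) (by omega) R₂ (by omega) (by omega) (by omega)

/-- two inward crossing pieces before the deep face -/
theorem PvagfIn.IB2 (hT : T.IsSph) (H : PvagfIn T B c c' c0 c1 s P E M τ i q) (h12 : c1.Left ⊆ c2.Left) {t n t' n' : ℕ} (hp : PvagfI T c' c s E t n) (hp' : PvagfI T c' c s E t' n')
    (htt : t < t') (hτ : t' + n' ≤ τ) : ∃ x x2 x4 n1 n2 n4, PvatCfg T c0 c1 c2 s x x2 x4 n1 n2 n4 := by
  obtain ⟨hmid, h0, h1⟩ := hp
  obtain ⟨hmid', h0', h1'⟩ := hp'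
  have hE := H.ch.ent.2.2
  have hlt := H.lt
  obtain ⟨u', rfl⟩ : ∃ u', t' = u' + 1 := ⟨t' - 1, by omega⟩
  have h0'' := h0'
  rw [pvagf_prev (pl_left_face c)] at h0''
  have hu' : t + n < u' := by
    by_contra hc
    rcases Nat.lt_or_ge u' (t + n) with h2 | h2
    · have := (hmid (u' - t) (by omega)).1
      rw [show t + (u' - t) = u' by omega] at this
      exact h0'' this
    · have : u' = t + n := by omega
      exact h0'' (this ▸ H.sub' h1)
  obtain ⟨a₁, n₁, e0, e1, R₁⟩ := pvagf_run (pl_left_face c0) H.ins.2 hE (Nat.le_add_right t n) (fun h => h0 (H.sub0 h)) (H.sub1 h1)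
  obtain ⟨a₂, n₂, e2, e3, R₂⟩ := pvagf_run (pl_left_face c0) H.ins.2 hE (Nat.le_add_right (u' + 1) n') (fun h => h0' (H.sub0 h)) (H.sub1 h1')
  obtain ⟨b', m', e4, e5, Rb'⟩ := pvagf_out (pl_left_face c0) (pl_left_face c1) H.ins.2 hE hu' (H.sub1 h1) (fun h => h0'' (H.sub0 h))
  obtain ⟨b, m, e6, e7, Rb⟩ := H.lastOut
  exact H.caseB hT h12 R₁ (by omega) R₂ (by omega) (by omega) Rb e6 e7 Rb' (by omega) (by omega)

/-- **(D4), time form**: three crossing pieces of the chord at three distinct times -/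
theorem PvagfIn.three (hT : T.IsSph) (H : PvagfIn T B c c' c0 c1 s P E M τ i q) (h12 : c1.Left ⊆ c2.Left) (t n : Fin 3 → ℕ)
    (hp : ∀ j, PvagfI T c' c s E (t j) (n j) ∨ PvagfO T c' c s E (t j) (n j)) (hM : ∀ j, t j + n j ≤ M) (hne : ∀ j j', j ≠ j' → t j ≠ t j') :
    ∃ x x2 x4 n1 n2 n4, PvatCfg T c0 c1 c2 s x x2 x4 n1 n2 n4 := by
  classical
  by_contra hgoal
  have hmid : ∀ j k, k < n j → pvasIt T s E (t j + k) ∈ c'.Ann c := fun j => (hp j).elim (fun h => h.1) (fun h => h.1)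
  have hτ : ∀ j, τ < t j ∨ t j + n j ≤ τ := by
    intro j
    by_contra hc
    push Not at hc
    have := (hmid j (τ - t j) (by omega)).2
    rw [show t j + (τ - t j) = τ by omega] at this
    exact this H.tau_mem
  have hcl : ∀ j, (τ < t j ∧ PvagfO T c' c s E (t j) (n j)) ∨ (t j + n j ≤ τ ∧ PvagfI T c' c s E (t j) (n j)) := by
    intro j
    rcases hτ j with h1 | h1 <;> rcases hp j with h2 | h2
    · exact (hgoal (H.IA hT h12 h2 h1 (hM j))).elim
    · exact Or.inl ⟨h1, h2⟩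
    · exact Or.inr ⟨h1, h2⟩
    · exact (hgoal (H.OB hT h12 h2 h1)).elim
  obtain ⟨j, j', hjj, hf⟩ := Fintype.exists_ne_map_eq_of_card_lt (fun j : Fin 3 => decide (τ < t j)) (by simp)
  have hf' : τ < t j ↔ τ < t j' := by simpa using hf
  rcases hcl j with ⟨h1, h2⟩ | ⟨h1, h2⟩
  · rcases hcl j' with ⟨h1', h2'⟩ | ⟨h1', h2'⟩
    · rcases lt_or_gt_of_ne (hne j j' hjj) with h3 | h3
      · exact hgoal (H.OA2 hT h12 h2 h2' h1 h3 (hM j'))
      · exact hgoal (H.OA2 hT h12 h2' h2 h1' h3 (hM j))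
    · have := hf'.1 h1
      omega
  · rcases hcl j' with ⟨h1', h2'⟩ | ⟨h1', h2'⟩
    · have := hf'.2 h1'
      omega
    · rcases lt_or_gt_of_ne (hne j j' hjj) with h3 | h3
      · exact hgoal (H.IB2 hT h12 h2 h2' h3 h1')
      · exact hgoal (H.IB2 hT h12 h2' h2 h3 h1)

/-- a crossing strand of the buffer which starts at a position of the chord is a crossing piece -/
theorem PvagfIn.piece (H : PvagfIn T B c c' c0 c1 s P E M τ i q) (γ : PvanStr T s (c'.Ann c)) (hγ : PvagdX c' c γ) {t : ℕ} (ht : t ≤ M) (h0 : γ.e 0 = pvasIt T s E t) :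
    (PvagfI T c' c s E t γ.n ∨ PvagfO T c' c s E t γ.n) ∧ t + γ.n ≤ M := by
  have he : ∀ k, k ≤ γ.n → γ.e k = pvasIt T s E (t + k) := fun k hk => by rw [pvas_str_it γ k hk, h0, ← pvas_it_add]
  have hmid : ∀ k, k < γ.n → pvasIt T s E (t + k) ∈ c'.Ann c := fun k hk => by rw [← he k hk.le]; exact γ.mem k hk
  have hM : t + γ.n ≤ M := by
    by_contra hc
    have := (hmid (M - t) (by omega)).1
    rw [show t + (M - t) = M by omega] at this
    exact H.ch.ext (H.subC this)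
  refine ⟨?_, hM⟩
  rcases hγ with ⟨h1, h2⟩ | ⟨h1, h2⟩
  · exact Or.inl ⟨hmid, by rw [← h0]; exact h1, by rw [← he _ le_rfl]; exact h2⟩
  · exact Or.inr ⟨hmid, by rw [← h0]; exact h1, by rw [← he _ le_rfl]; exact h2⟩

/-- **(D4) FIVE ARMS** (format of `Arm/GateD`): three distinct crossing strands of the buffer `(c', c)` which start at positions of ONE chord, along a rim which is deep at a face of the chord and leaves the big disc ⟹ CONFIG5 -/
theorem pvagf_five (hT : T.IsSph) (H : PvagfIn T B c c' c0 c1 s P E M τ i q) (h12 : c1.Left ⊆ c2.Left) (γ : Fin 3 → PvanStr T s (c'.Ann c)) (hX : ∀ j, PvagdX c' c (γ j))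
    (hpos : ∀ j, ∃ t, t ≤ M ∧ (γ j).e 0 = pvasIt T s E t) (hne : ∀ j j', j ≠ j' → (γ j).e 0 ≠ (γ j').e 0) :
    ∃ x x2 x4 n1 n2 n4, PvatCfg T c0 c1 c2 s x x2 x4 n1 n2 n4 := by
  choose t ht he using hpos
  exact H.three hT h12 t (fun j => (γ j).n) (fun j => (H.piece (γ j) (hX j) (ht j) (he j)).1) (fun j => (H.piece (γ j) (hX j) (ht j) (he j)).2)
    (fun j j' hjj e => hne j j' hjj (by rw [he j, he j', e]))

/-- **contrapositive** (the form consumed by (D1)): no CONFIG5 ⟹ among three crossing strands of the buffer which start at positions of the chord two are equal -/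
theorem pvagf_two (hT : T.IsSph) (H : PvagfIn T B c c' c0 c1 s P E M τ i q) (h12 : c1.Left ⊆ c2.Left) (hno : ¬ ∃ x x2 x4 n1 n2 n4, PvatCfg T c0 c1 c2 s x x2 x4 n1 n2 n4)
    (γ : Fin 3 → PvanStr T s (c'.Ann c)) (hX : ∀ j, PvagdX c' c (γ j)) (hpos : ∀ j, ∃ t, t ≤ M ∧ (γ j).e 0 = pvasIt T s E t) : ∃ j j', j ≠ j' ∧ (γ j).e 0 = (γ j').e 0 := by
  by_contra hc
  push Not at hc
  exact hno (pvagf_five hT H h12 γ hX hpos hc)

/-- **the chord through the deep right face exists** -/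
theorem pvagf_in_exists (hB : T.FaceSet B) (hfin : B.Finite) (hP : PvnrRim T s P) (deep : T.opp (P.e i) ∈ c'.Left) (far : T.opp (P.e q) ∉ B)
    (sub1 : c'.Left ⊆ c1.Left) (ins : c1.Inside c0) (sub0 : c0.Left ⊆ c.Left) (subC : c.Left ⊆ B) : ∃ E M τ, PvagfIn T B c c' c0 c1 s P E M τ i q := by
  obtain ⟨E, τ, h⟩ := pvnr_thru hB hfin (hP.tag i) (subC (sub0 (ins.2 (sub1 deep)))) (hP.wall i q) far
  obtain ⟨M, hM⟩ := pvagf_ch_exists hB hfin h.ent
  refine ⟨E, M, τ, hB, hM, hP, ?_, h.face, deep, far, sub1, ins, sub0, subC⟩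
  by_contra hc
  exact hM.ext (h.mem M (by omega))

/-- a chord which visits the deep right face: the record -/
theorem pvagf_in_of_chord (hB : T.FaceSet B) (hch : PvagfCh T B s E M) (hP : PvnrRim T s P) (hτ : τ ≤ M) (face : T.SF (T.opp (P.e i)) (pvasIt T s E τ)) (deep : T.opp (P.e i) ∈ c'.Left)
    (far : T.opp (P.e q) ∉ B) (sub1 : c'.Left ⊆ c1.Left) (ins : c1.Inside c0) (sub0 : c0.Left ⊆ c.Left) (subC : c.Left ⊆ B) : PvagfIn T B c c' c0 c1 s P E M τ i q := by
  refine ⟨hB, hch, hP, ?_, face, deep, far, sub1, ins, sub0, subC⟩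
  rcases Nat.lt_or_ge τ M with h | h
  · exact h
  · have e : τ = M := by omega
    subst e
    exact absurd (subC (sub0 (ins.2 (sub1 (((pl_left_face c').sf T face).2 deep))))) hch.ext

/-- a crossing piece of `Arm/GateD` sec. 8 is a crossing piece in the time form -/
theorem pvagf_of_piece {α β : ℕ} (h : PvagdPiece (pvasIt T s E) M c' c α β) : (PvagfI T c' c s E α (β - α) ∨ PvagfO T c' c s E α (β - α)) ∧ α + (β - α) ≤ M := by
  obtain ⟨h1, h2, h3, h4⟩ := h
  have e : α + (β - α) = β := by omega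
  refine ⟨?_, by omega⟩
  rcases h4 with ⟨h5, h6⟩ | ⟨h5, h6⟩
  · exact Or.inl ⟨fun k hk => h3 _ (by omega) (by omega), h5, by rw [e]; exact h6⟩
  · exact Or.inr ⟨fun k hk => h3 _ (by omega) (by omega), h5, by rw [e]; exact h6⟩

/-- **(D4) in the vocabulary of (D1)** (`Arm/GateD` sec. 8, 9): no CONFIG5 ⟹ `N ≤ 2` in the buffer = the hypotheses `hN₁`, `hN₂` of `pvagd_chord_gate` -/
theorem pvagf_le2 (hT : T.IsSph) (H : PvagfIn T B c c' c0 c1 s P E M τ i q) (h12 : c1.Left ⊆ c2.Left) (hno : ¬ ∃ x x2 x4 n1 n2 n4, PvatCfg T c0 c1 c2 s x x2 x4 n1 n2 n4) :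
    PvagdLe2 (pvasIt T s E) M c' c := by
  intro α₁ β₁ α₂ β₂ α₃ β₃ p₁ p₂ p₃
  by_contra hc
  push Not at hc
  obtain ⟨c12, c13, c23⟩ := hc
  refine hno (H.three hT h12 ![α₁, α₂, α₃] ![β₁ - α₁, β₂ - α₂, β₃ - α₃] ?_ ?_ ?_)
  · intro j
    fin_cases j
    · exact (pvagf_of_piece p₁).1
    · exact (pvagf_of_piece p₂).1
    · exact (pvagf_of_piece p₃).1
  · intro j
    fin_cases j
    · exact (pvagf_of_piece p₁).2
    · exact (pvagf_of_piece p₂).2
    · exact (pvagf_of_piece p₃).2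
  · intro j j' hjj
    fin_cases j <;> fin_cases j' <;> first | exact absurd rfl hjj | exact c12 | exact c13 | exact c23 | exact c12.symm | exact c13.symm | exact c23.symm

/-! ## 6. (D1) + (D4) fused -/

/-- crossing pieces of a run which is shifted by one step -/
theorem pvagf_piece_shift {l l' : ℕ → D} (hl : ∀ j, l' (j + 1) = l j) {n : ℕ} (h0 : l' 0 ∉ c.Left) {α β : ℕ} (h : PvagdPiece l' (n + 1) c' c α β) :
    ∃ α' β', α = α' + 1 ∧ β = β' + 1 ∧ PvagdPiece l n c' c α' β' := by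
  obtain ⟨h1, h2, h3, h4⟩ := h
  have hα : α ≠ 0 := by
    rintro rfl
    exact h0 (h3 0 le_rfl h1).1
  obtain ⟨α', rfl⟩ : ∃ α', α = α' + 1 := ⟨α - 1, by omega⟩
  obtain ⟨β', rfl⟩ : ∃ β', β = β' + 1 := ⟨β - 1, by omega⟩
  refine ⟨α', β', rfl, rfl, by omega, by omega, fun k hk1 hk2 => ?_, ?_⟩
  · rw [← hl]; exact h3 _ (by omega) (by omega)
  · rw [← hl, ← hl]; exact h4

theorem pvagf_le2_shift {l l' : ℕ → D} (hl : ∀ j, l' (j + 1) = l j) {n : ℕ} (h0 : l' 0 ∉ c.Left) (h : PvagdLe2 l n c' c) : PvagdLe2 l' (n + 1) c' c := by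
  intro α₁ β₁ α₂ β₂ α₃ β₃ p₁ p₂ p₃
  obtain ⟨a₁, b₁, rfl, rfl, q₁⟩ := pvagf_piece_shift hl h0 p₁
  obtain ⟨a₂, b₂, rfl, rfl, q₂⟩ := pvagf_piece_shift hl h0 p₂
  obtain ⟨a₃, b₃, rfl, rfl, q₃⟩ := pvagf_piece_shift hl h0 p₃
  rcases h a₁ b₁ a₂ b₂ a₃ b₃ q₁ q₂ q₃ with e | e | e
  · exact Or.inl (by rw [e])
  · exact Or.inr (Or.inl (by rw [e]))
  · exact Or.inr (Or.inr (by rw [e]))

/-- **(D1) + (D4)**: a chord of `B` along a rim which leaves `B`, with a right face of the rim in `cI.Left`; no CONFIG5 in the two buffers `(cI, cM')`, `(cM, cO)`: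
two crossing pieces of the big annulus `(cI, cO)` contain all the times at which the chord is in the middle annulus `(cM', cM)` = (CG).      (`cO.Left ⊆ B` only: the chord may enter `B` and `cO.Left` through the same edge.) -/
theorem pvagf_D14 (hT : T.IsSph) (hB : T.FaceSet B) (hch : PvagfCh T B s E M) (hP : PvnrRim T s P) (hτ : τ ≤ M) (face : T.SF (T.opp (P.e i)) (pvasIt T s E τ)) (far : T.opp (P.e q) ∉ B)
    {cI cM' cM cO k0 k1 k2 k0' k1' k2' : T.Cyc} (hI : cI.Inside cM') (hM : cM'.Left ⊆ cM.Left) (hO : cM.Inside cO) (hOB : cO.Left ⊆ B) (deep : T.opp (P.e i) ∈ cI.Left)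
    (b1 : cI.Left ⊆ k1.Left) (b2 : k1.Inside k0) (b3 : k1.Left ⊆ k2.Left) (b4 : k0.Left ⊆ cM'.Left)
    (b1' : cM.Left ⊆ k1'.Left) (b2' : k1'.Inside k0') (b3' : k1'.Left ⊆ k2'.Left) (b4' : k0'.Left ⊆ cO.Left)
    (hF : ¬ ∃ x x2 x4 n1 n2 n4, PvatCfg T k0 k1 k2 s x x2 x4 n1 n2 n4) (hF' : ¬ ∃ x x2 x4 n1 n2 n4, PvatCfg T k0' k1' k2' s x x2 x4 n1 n2 n4) :
    ∃ α₁ β₁ α₂ β₂, PvagdPiece (pvasIt T s E) M cI cO α₁ β₁ ∧ PvagdPiece (pvasIt T s E) M cI cO α₂ β₂ ∧
      ∀ t, t ≤ M → pvasIt T s E t ∈ cM'.Ann cM → (α₁ ≤ t ∧ t < β₁) ∨ (α₂ ≤ t ∧ t < β₂) := by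
  have hE := hch.ent.2.2
  have sM'B : cM'.Left ⊆ B := fun d hd => hOB (hO.2 (hM hd))
  have H1 : PvagfIn T B cM' cI k0 k1 s P E M τ i q := pvagf_in_of_chord hB hch hP hτ face deep far b1 b2 b4 sM'B
  have H2 : PvagfIn T B cO cM k0' k1' s P E M τ i q := pvagf_in_of_chord hB hch hP hτ face (hM (hI.2 deep)) far b1' b2' b4' hOB
  have N1 := pvagf_le2 hT H1 b3 hF
  have N2 := pvagf_le2 hT H2 b3' hF'
  -- one step back
  set l' : ℕ → D := pvasIt T s (pvasBack T s E) with hl'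
  have hl : ∀ j, l' (j + 1) = pvasIt T s E j := fun j => by rw [hl', pvas_it_succ', pvas_step_back hE]
  have h0B : l' 0 ∉ B := by
    rw [hl', pvas_it_zero]
    exact fun h => hch.ent.2.1 ((hB.sf T (pvas_back_sf s E)).1 h)
  have h0O : l' 0 ∉ cO.Left := fun h => h0B (hOB h)
  have h0M : l' 0 ∉ cM'.Left := fun h => h0B (sM'B h)
  obtain ⟨α₁, β₁, α₂, β₂, p₁, p₂, hall⟩ := pvagd_cg_idx (s := s) hT hI hM hO (l := l') (n := M + 1) (fun k _ => pvas_it_succ s _ k) h0O
    (by rw [hl]; exact fun h => hch.ext (hOB h)) ⟨τ + 1, by omega, by rw [hl]; exact H1.tau_mem⟩ (pvagf_le2_shift hl h0M N1) (pvagf_le2_shift hl h0O N2)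
  obtain ⟨a₁, b₁, rfl, rfl, q₁⟩ := pvagf_piece_shift hl h0O p₁
  obtain ⟨a₂, b₂, rfl, rfl, q₂⟩ := pvagf_piece_shift hl h0O p₂
  refine ⟨a₁, b₁, a₂, b₂, q₁, q₂, fun t ht hA => ?_⟩
  rcases hall (t + 1) (by omega) (by rw [hl]; exact hA) with h | h
  · exact Or.inl (by omega)
  · exact Or.inr (by omega)

end ctx

end Claimed.Agent.R289
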