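import Claimed.Agent.R289.Arm.TopFrame
import Claimed.Agent.R289.Arm.Top
import Claimed.Agent.R289.Arm.GateA
import Claimed.Agent.R289.Arm.AdaptAB
import Claimed.Agent.R289.Tr.DenseM
import Claimed.Agent.R289.Tr.DiA
import Claimed.Agent.R289.Tr.Geo
import Claimed.Agent.R289.Del.Bulk

/-!
# Row 289 (S0537, Cardy for Poisson-Voronoi), THE WALL, A6 = GATE DENSITY, post D1 : THE FRAME AT THE MODEL      (helper54; prefix `pvkl_`, `Pvkl`, `pvkl`)

MODEL (architecture of 200, `Exit/PinsA6.lean`): the TOTAL PLANE `(delbPl Y).toMap`, `pos = Subtype.val`.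
* sec. 1  THIN ANNULI: `pvkl_cover` (a path from radius `≤ 5r/4` to radius `≥ 8r/5` crosses one of `41²` square annuli `(r/32, 5r/32)`), `pvklBlk`, `pvkl_block` (quenched Harris, `pvqy_family` of 298), `pvkl_quenched`
* sec. 2  **`PvklFrame q Z Rs Y`**: `DelGood Y`, for all centres `z ∈ Z`, radii `r ∈ Rs`: a cycle at radius `(r, 5r/4)` and `BXP(q)` between the radii `5r/4` and `8r/5`, ON THE TOTAL PLANE;
          `pvkl_frame_lim` (`pvGeo`), `pvkl_frame_up` (`pvhbUp`), `PvklFrame.armt` (`⟹ ArmtFrame`), `PvklFrame.pvax` (`⟹ PvaxFrame`)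
* sec. 3  KIT, model free (`T pos`): `pvkl_B_sub`, `pvkl_sub_B`, `pvkl_gate_wide`, **`pvkl_gate_disc`** (gate between two cycles of the frame ⟹ gate between two discs `pvdiB`, centres may differ),
          **`pvkl_buf`** (`¬ PvdnFive` (universal flag of 89/101) + positions ⟹ `∃ k0 k1 k2, PvagaBuf ∧ ¬ PvagaFl` = `hbuf`, `hbuf'` of `pvaga_main`), `pvkl_tower`, `pvkl_reg_sub`
* sec. 4  BOXES: `pvklBox h w` = index of the NEAREST grid point (`pvkl_box_near : ‖w - l9Pt h (box w)‖ ≤ h` = `PvX2At.near`), `pvkl_box_step` (king move), `pvkl_grid_finite`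
* sec. 5  **THE LEVEL**: `PvklPar` (numbers `x R h g mt r0 r1 r2 r3 t`, ABSOLUTE radii), `PvklPar.Ok` (inequalities), `P.Zs` (indices of the grid points of `clB(x, 2R + h)`), **`P.G q Y`** (the event: `Ok ∧ PvklFrame ∧ VorDense`);   for `hG : P.G q Y`:
          `hG.cy z r` + `hG.cy_at`, `hG.bxp`;   MACRO: `hG.C1` at `(2R, 5R/2)`, `hG.C0` at `(16R/5, 4R)`, **`hG.geo : PvaaGeo T C1 C0 q`**, `hG.C1_int`, `hG.C0_lt`, `hG.mesh : PvdiMesh T val x (4R) h`;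
          MICRO: **`hG.tri : PvagaTri T C0.Left P.Zs P.g`**, towers `hG.a hG.o`, **`hG.htow`**, **`hG.tower : PvaxTower`**, `hG.reg`, **`hG.adm : PvaaAdm`**, `PvklPar.box_mem` (`hZ`)
* sec. 6  PROBABILITY: `pvkl_G_lim` (`pvGeo`), `pvkl_G_up` (`pvhbUp`), **`pvkl_G_ord`** (`PvhbOrd`, for `Ex_ord`): ONE constant `q ∈ (0,1)` for all levels
-/

set_option autoImplicit false
set_option linter.unusedSectionVars false
set_option linter.unusedVariables false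

namespace Claimed.Agent.R289

open Relation MeasureTheory Filter Topology Claims.C0465
open scoped ENNReal

/-! ## 1. thin annuli -/

/-- the centres of the small annuli: a grid of mesh `r/16` -/
noncomputable def pvklCtr (z : ℂ) (r : ℝ) (i : ℕ) : ℂ :=
  ⟨z.re - 5 * r / 4 + r / 16 / 2 + ((i / 41 : ℕ) : ℝ) * (r / 16), z.im - 5 * r / 4 + r / 16 / 2 + ((i % 41 : ℕ) : ℝ) * (r / 16)⟩

/-- a path from radius `≤ 5r/4` to radius `≥ 8r/5` contains an arm across one of the `41²` square annuli `(r/32, 5r/32)` -/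
theorem pvkl_cover {F : Set ℂ} {z u v : ℂ} {r : ℝ} (hr : 0 < r) (hj : JoinedIn F u v) (hu : ‖u - z‖ ≤ 5 * r / 4) (hv : 8 * r / 5 ≤ ‖v - z‖) :
    ∃ i < 1681, (rswArm (pvklCtr z r i).re (pvklCtr z r i).im (r / 16 / 2) (5 * (r / 16) / 2)).Holds F := by
  have hre : |u.re - z.re| ≤ 5 * r / 4 := by
    have := Complex.abs_re_le_norm (u - z)
    rw [Complex.sub_re] at this
    exact this.trans hu
  have him : |u.im - z.im| ≤ 5 * r / 4 := by
    have := Complex.abs_im_le_norm (u - z)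
    rw [Complex.sub_im] at this
    exact this.trans hu
  rw [abs_le] at hre him
  have hw : 0 < r / 16 := by linarith
  obtain ⟨a, ha, a1, a2⟩ := pvqy_cover (x0 := z.re - 5 * r / 4) (x := u.re) (K := 41) hw (by linarith) (by push_cast; linarith)
  obtain ⟨b, hb, b1, b2⟩ := pvqy_cover (x0 := z.im - 5 * r / 4) (x := u.im) (K := 41) hw (by linarith) (by push_cast; linarith)
  have e1 : (41 * a + b) / 41 = a := by omega
  have e2 : (41 * a + b) % 41 = b := by omega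
  have c1 : (pvklCtr z r (41 * a + b)).re = z.re - 5 * r / 4 + r / 16 / 2 + (a : ℝ) * (r / 16) := by
    unfold pvklCtr; rw [e1]
  have c2 : (pvklCtr z r (41 * a + b)).im = z.im - 5 * r / 4 + r / 16 / 2 + (b : ℝ) * (r / 16) := by
    unfold pvklCtr; rw [e2]
  refine ⟨41 * a + b, by omega, pvre_arm_of_path (by linarith) hj ?_ ?_⟩
  · rw [c1, c2]
    exact ⟨a1, a2, b1, b2⟩
  · rw [c1, c2]
    rintro ⟨g1, g2, g3, g4⟩
    have k1 : |v.re - u.re| < 3 * r / 16 := by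
      rw [abs_lt]
      constructor <;> linarith
    have k2 : |v.im - u.im| < 3 * r / 16 := by
      rw [abs_lt]
      constructor <;> linarith
    have k3 : ‖v - u‖ ^ 2 = (v.re - u.re) ^ 2 + (v.im - u.im) ^ 2 := by
      rw [Complex.sq_norm, Complex.normSq_apply, Complex.sub_re, Complex.sub_im]; ring
    have k4 : (v.re - u.re) ^ 2 < (3 * r / 16) ^ 2 := sq_lt_sq' (abs_lt.1 k1).1 (abs_lt.1 k1).2
    have k5 : (v.im - u.im) ^ 2 < (3 * r / 16) ^ 2 := sq_lt_sq' (abs_lt.1 k2).1 (abs_lt.1 k2).2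
    have k6 : 7 * r / 20 ≤ ‖v - u‖ := by
      have h1 : v - z = (v - u) + (u - z) := by ring
      have h2 := norm_add_le (v - u) (u - z)
      rw [← h1] at h2
      linarith
    have k7 : (7 * r / 20) ^ 2 ≤ ‖v - u‖ ^ 2 := pow_le_pow_left₀ (by linarith) k6 2
    nlinarith

/-- no arm of colour `b` across any of the small annuli -/
def pvklBlk (z : ℂ) (r : ℝ) (b : Bool) : Set (Conf PvPt) :=
  {η | ∀ i < 1681, ¬ (rswArm (pvklCtr z r i).re (pvklCtr z r i).im (r / 16 / 2) (5 * (r / 16) / 2)).Holds (cfReg η b)}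

theorem pvkl_eqns_cite : True := by
  have := @pvklCtr.eq_1; have := @pvklBlk.eq_1
  trivial

/-- a vertex arm is excluded by the blocking event -/
theorem pvkl_det {η : Conf PvPt} {b : Bool} {z : ℂ} {r : ℝ} (hr : 0 < r) (h : PvArm1 η b z (5 * r / 4) (8 * r / 5)) : η ∉ pvklBlk z r b := by
  obtain ⟨u, v, hu, hv, hub, hch⟩ := h
  obtain ⟨-, hj⟩ := pvr_chain_joined hub hch
  obtain ⟨i, hi, ha⟩ := pvkl_cover hr hj hu hv
  exact fun hB => hB i hi ha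

theorem pvkl_blk_flip (z : ℂ) (r : ℝ) : pvklBlk z r true = cfFlip ⁻¹' pvklBlk z r false := by
  ext η
  have e : cfReg (cfFlip η) false = cfReg η true := by
    show cfW (cfFlip η) = cfB η
    rw [pvr_W_eq, pvr_flip_flip]
  show (∀ i < 1681, ¬ _) ↔ (∀ i < 1681, ¬ _)
  rw [e]

/-- **quenched blocking for the ratio 32/25** -/
theorem pvkl_block : ∃ q : ℝ, 0 < q ∧ q < 1 ∧ ∀ (z : ℂ) (r : ℝ) (b : Bool), 0 < r →
    Tendsto (fun ε : ℝ => pvGeo ε {g | pvQc (pvklBlk z r b) g < ENNReal.ofReal q}) (𝓝[>] 0) (𝓝 0) := by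
  obtain ⟨q, hq, H⟩ := pvqy_family exit_pv_qbx_s1
  have hqN : 0 < q ^ 1681 := by positivity
  refine ⟨min (q ^ 1681) (1 / 2), lt_min hqN (by norm_num), lt_of_le_of_lt (min_le_right _ _) (by norm_num), fun z r b hr => ?_⟩
  have key : Tendsto (fun ε : ℝ => pvGeo ε {g | pvQc (pvklBlk z r false) g < ENNReal.ofReal (q ^ 1681)}) (𝓝[>] 0) (𝓝 0) := by
    refine pvqy_tendsto_of_unif (s := r / 16) (by linarith) fun δ hδ => ?_
    obtain ⟨U, hU, H⟩ := H 1681 δ hδ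
    exact ⟨U, hU, fun ε hε hu => H ε hε (r / 16) hu (pvklCtr z r) (pvklBlk z r false) fun η _ h i hi => h i hi⟩
  have e : ∀ g, pvQc (pvklBlk z r b) g = pvQc (pvklBlk z r false) g := by
    intro g
    cases b
    · rfl
    · rw [pvkl_blk_flip, pvqu_Qc_flip]
  refine armtf_mono key fun g hg => ?_
  have hg' : pvQc (pvklBlk z r b) g < ENNReal.ofReal (min (q ^ 1681) (1 / 2)) := hg
  rw [e] at hg'
  exact hg'.trans_le (ENNReal.ofReal_le_ofReal (min_le_left _ _))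

/-- **the quenched step**: at a good labelled geometry the blocking events of both colours give `BXP(q)` between the radii `5r/4` and `8r/5` -/
theorem pvkl_quenched {g : PvGeoT} (hg : PvgOk g) (hd : DelGood (pvgSites g)) {q : ℝ} {z : ℂ} {r : ℝ} (hr : 0 < r)
    (hq : ∀ b : Bool, ENNReal.ofReal q ≤ pvQc (pvklBlk z r b) g) :
    PvaxBxp (delMap hd) (dlsPos (pvgSites g)) q z (5 * r / 4) (8 * r / 5) := by
  intro c' c hin hfin hc' hc A ξ b hA
  have hT : (delMap hd).IsSph := dls_isSph hd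
  have hK := pvax_cr_loc hT hin A hA b
  have h1 := pval_measure hK ξ
  let f : ↥(pvgSites g) → PvIx := fun v => pvgIdx g v
  have hf : Function.Injective f := fun v w hvw => Subtype.ext (pvqu_idx_injOn g v.2 w.2 hvw)
  have hm : Measurable (fun s : PvIx → Bool => s ∘ f) := measurable_pi_lambda _ fun v => measurable_pi_apply (f v)
  have h2 : colLaw PvIx {c₀ | ¬ PvaxCr (delMap hd) c' c Set.univ b (c₀ ∘ f)} = colLaw _ {s | ¬ PvaxCr (delMap hd) c' c Set.univ b s} := by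
    rw [← pvf_colLaw_comp f hf, Measure.map_apply hm (pval_loc_measurableSet hK)]
    rfl
  have h3 : {c₀ : PvColT | pvConf (pvMerge (g, c₀)) ∈ pvklBlk z r b} ⊆ {c₀ | ¬ PvaxCr (delMap hd) c' c Set.univ b (c₀ ∘ f)} := by
    intro c₀ hc₀ hcr
    have hc₁ : pvConf (pvMerge (g, c₀)) ∈ pvklBlk z r b := hc₀
    rw [hg.conf_eq c₀] at hc₁
    exact pvkl_det hr (pvax_arm1 hd (pvgColAt g c₀) (pvax_cr_arm hc' hc hcr)) hc₁
  have h4 : ENNReal.ofReal q ≤ ENNReal.ofReal (pvaP A ξ (fun s => ¬ PvaxCr (delMap hd) c' c Set.univ b s)) := by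
    calc ENNReal.ofReal q ≤ pvQc (pvklBlk z r b) g := hq b
      _ ≤ colLaw PvIx {c₀ | ¬ PvaxCr (delMap hd) c' c Set.univ b (c₀ ∘ f)} := measure_mono h3
      _ = _ := by rw [h2, h1]
  exact (ENNReal.ofReal_le_ofReal_iff (pva_P_nonneg _ _ _)).1 h4

/-! ## 2. the frame on the total plane      (GENERIC instance `[∀ Y : Set ℂ, DecidableEq ↥Y]`, as in `Arm/AdaptAB.lean`, `Exit/PinsA6.lean`) -/

section model

variable [I : ∀ Y : Set ℂ, DecidableEq ↥Y]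

/-- **THE FRAME AT THE MODEL**: on the TOTAL PLANE of the site set `Y`, for all centres `z ∈ Z` and radii `r ∈ Rs`, a cycle at radius `(r, 5r/4)` and `BXP(q)` between the radii `5r/4` and `8r/5` -/
def PvklFrame (q : ℝ) (Z : Finset ℂ) (Rs : Finset ℝ) (Y : Set ℂ) : Prop :=
  DelGood Y ∧ ∀ z ∈ Z, ∀ r ∈ Rs, (∃ c : (delbPl Y).toMap.Cyc, PvaxAt (delbPl Y).toMap Subtype.val z r (5 * r / 4) c) ∧
    PvaxBxp (delbPl Y).toMap Subtype.val q z (5 * r / 4) (8 * r / 5)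

omit I in
theorem pvkl_eqns_cite2 : True := by
  have := @PvklFrame.eq_1
  trivial

/-- the frame in the vocabulary of `delMap h` -/
theorem pvkl_frame_iff {q : ℝ} {Z : Finset ℂ} {Rs : Finset ℝ} {Y : Set ℂ} : PvklFrame q Z Rs Y ↔ ∃ h : DelGood Y, ∀ z ∈ Z, ∀ r ∈ Rs,
    (∃ c : (delMap h).Cyc, PvaxAt (delMap h) (dlsPos Y) z r (5 * r / 4) c) ∧ PvaxBxp (delMap h) (dlsPos Y) q z (5 * r / 4) (8 * r / 5) := by
  unfold PvklFrame
  constructor
  · rintro ⟨h, H⟩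
    rw [delb_pl_eq h] at H
    exact ⟨h, H⟩
  · rintro ⟨h, H⟩
    refine ⟨h, ?_⟩
    rw [delb_pl_eq h]
    exact H

theorem PvklFrame.mono {q : ℝ} {Z Z' : Finset ℂ} {Rs Rs' : Finset ℝ} {Y : Set ℂ} (hF : PvklFrame q Z Rs Y) (hZ : Z' ⊆ Z) (hR : Rs' ⊆ Rs) : PvklFrame q Z' Rs' Y :=
  ⟨hF.1, fun z hz r hr => hF.2 z (hZ hz) r (hR hr)⟩

/-- the frame of `Arm/Top.lean` -/
theorem PvklFrame.armt {q : ℝ} {Z : Finset ℂ} {Rs : Finset ℝ} {Y : Set ℂ} (hF : PvklFrame q Z Rs Y) (hRs : ∀ r ∈ Rs, 0 ≤ r) : ArmtFrame q Z Rs Y := by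
  obtain rfl : I = fun Y a b => Subtype.instDecidableEq a b := Subsingleton.elim _ _
  obtain ⟨h, H⟩ := pvkl_frame_iff.1 hF
  exact ⟨h, fun z hz r hr => ⟨(H z hz r hr).1, pvax_bxp_mono (H z hz r hr).2 le_rfl (by have := hRs r hr; linarith)⟩⟩

/-- the frame of `Arm/BxpPv.lean` -/
theorem PvklFrame.pvax {q : ℝ} {Z : Finset ℂ} {Rs : Finset ℝ} {Y : Set ℂ} (hF : PvklFrame q Z Rs Y) (hRs : ∀ r ∈ Rs, 0 ≤ r) : PvaxFrame q Z Rs Y := by
  obtain rfl : I = fun Y a b => Subtype.instDecidableEq a b := Subsingleton.elim _ _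
  obtain ⟨h, H⟩ := pvkl_frame_iff.1 hF
  refine ⟨h, fun z hz r hr => ⟨⟨h, ?_⟩, ⟨h, ?_⟩⟩⟩
  · obtain ⟨c, hc⟩ := (H z hz r hr).1
    exact ⟨c, pvax_at_mono hc le_rfl (by linarith)⟩
  · exact pvax_bxp_mono (H z hz r hr).2 (by linarith) (by have := hRs r hr; linarith)

/-- **THE FRAME HOLDS WITH PROBABILITY `→ 1`**, geometries -/
theorem pvkl_frame_lim : ∃ q : ℝ, 0 < q ∧ q < 1 ∧ ∀ (Z : Finset ℂ) (Rs : Finset ℝ), (∀ r ∈ Rs, 0 < r) →
    Tendsto (fun ε : ℝ => pvGeo ε {g | ¬ PvklFrame q Z Rs (pvgSites g)}) (𝓝[>] 0) (𝓝 0) := by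
  obtain rfl : I = fun Y a b => Subtype.instDecidableEq a b := Subsingleton.elim _ _
  obtain ⟨q, hq0, hq1, H⟩ := pvkl_block
  refine ⟨q, hq0, hq1, fun Z Rs hRs => ?_⟩
  have h1 : ∀ p ∈ Z ×ˢ Rs, Tendsto (fun ε : ℝ => pvGeo ε ({g | ¬ PvaxCirc p.1 p.2 (5 * p.2 / 4) (pvgSites g)} ∪
      ({g | pvQc (pvklBlk p.1 p.2 true) g < ENNReal.ofReal q} ∪ {g | pvQc (pvklBlk p.1 p.2 false) g < ENNReal.ofReal q}))) (𝓝[>] 0) (𝓝 0) := by
    intro p hp
    have hr := hRs p.2 (Finset.mem_product.1 hp).2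
    exact armtf_union2 (armtf_circ p.1 hr.le (by linarith)) (armtf_union2 (H p.1 p.2 true hr) (H p.1 p.2 false hr))
  refine armtf_mono (armtf_union2 armtf_good (armtf_union (Z ×ˢ Rs) (fun p => {g | ¬ PvaxCirc p.1 p.2 (5 * p.2 / 4) (pvgSites g)} ∪
      ({g | pvQc (pvklBlk p.1 p.2 true) g < ENNReal.ofReal q} ∪ {g | pvQc (pvklBlk p.1 p.2 false) g < ENNReal.ofReal q})) h1)) fun g hg => ?_
  by_contra hn
  simp only [Set.mem_union, Set.mem_ofPred_eq, Set.mem_iUnion, not_or, not_not, not_exists, not_lt] at hn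
  obtain ⟨⟨hok, hd⟩, hall⟩ := hn
  refine hg (pvkl_frame_iff.2 ⟨hd, fun z hz r hr => ?_⟩)
  obtain ⟨⟨_, c, hc⟩, ht, hf⟩ := hall (z, r) (Finset.mem_product.2 ⟨hz, hr⟩)
  refine ⟨⟨c, hc⟩, pvkl_quenched hok hd (hRs r hr) fun b => ?_⟩
  cases b
  · exact hf
  · exact ht

omit I in
/-- events of the geometry under the upper expectation of the hub -/
theorem pvkl_up_of_geo {P : Set ℂ → Prop} (h : Tendsto (fun ε : ℝ => pvGeo ε {g | ¬ P (pvgSites g)}) (𝓝[>] 0) (𝓝 0)) :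
    Tendsto (fun ε : ℝ => ((pvhbUp ε).P {p | ¬ P (cfSites (pvConf (pvMerge p)))}).toReal) (𝓝[>] 0) (𝓝 0) := by
  have h1 : Tendsto (fun ε : ℝ => (pvhbUp ε).P {p | ¬ P (cfSites (pvConf (pvMerge p)))}) (𝓝[>] 0) (𝓝 0) := by
    refine tendsto_of_tendsto_of_tendsto_of_le_of_le tendsto_const_nhds h (fun _ => zero_le) fun ε => ?_
    have e : {p : PvGeoT × PvColT | ¬ P (cfSites (pvConf (pvMerge p)))} = {p | p.1 ∈ {g | ¬ P (pvgSites g)}} := by
      ext ⟨g, c⟩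
      simp only [Set.mem_ofPred_eq, pvqu_cfSites]
    rw [e]
    exact pvhb_up_P_geo ε _
  have h2 := (ENNReal.tendsto_toReal ENNReal.zero_ne_top).comp h1
  rw [ENNReal.toReal_zero] at h2
  exact h2

/-- **THE FRAME HOLDS WITH PROBABILITY `→ 1`**, upper expectation of the hub -/
theorem pvkl_frame_up : ∃ q : ℝ, 0 < q ∧ q < 1 ∧ ∀ (Z : Finset ℂ) (Rs : Finset ℝ), (∀ r ∈ Rs, 0 < r) →
    Tendsto (fun ε : ℝ => ((pvhbUp ε).P {p | ¬ PvklFrame q Z Rs (cfSites (pvConf (pvMerge p)))}).toReal) (𝓝[>] 0) (𝓝 0) := by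
  obtain ⟨q, h0, h1, H⟩ := pvkl_frame_lim
  exact ⟨q, h0, h1, fun Z Rs hRs => pvkl_up_of_geo (H Z Rs hRs)⟩

omit I in
/-- **THE BLOCKING CONSTANT OF THE FRAMES** -/
noncomputable def pvklQ : ℝ := Classical.choose (pvkl_frame_lim (I := fun Y a b => Subtype.instDecidableEq a b))

omit I in
theorem pvkl_Q_pos : 0 < pvklQ := (Classical.choose_spec (pvkl_frame_lim (I := fun Y a b => Subtype.instDecidableEq a b))).1

omit I in
theorem pvkl_Q_lt : pvklQ < 1 := (Classical.choose_spec (pvkl_frame_lim (I := fun Y a b => Subtype.instDecidableEq a b))).2.1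

theorem pvkl_Q_lim (Z : Finset ℂ) (Rs : Finset ℝ) (hRs : ∀ r ∈ Rs, 0 < r) : Tendsto (fun ε : ℝ => pvGeo ε {g | ¬ PvklFrame pvklQ Z Rs (pvgSites g)}) (𝓝[>] 0) (𝓝 0) := by
  obtain rfl : I = fun Y a b => Subtype.instDecidableEq a b := Subsingleton.elim _ _
  exact (Classical.choose_spec (pvkl_frame_lim (I := fun Y a b => Subtype.instDecidableEq a b))).2.2 Z Rs hRs

end model

/-! ## 3. the kit: positions ⟹ nesting (model free) -/

section kit

variable {V D : Type} [DecidableEq V] {T : PvMap V D} {pos : V → ℂ}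

/-- the faces which touch `clB(z,a)` are on the left of a cycle at radius `≥ a` -/
theorem pvkl_B_sub {z : ℂ} {r r' a : ℝ} {c : T.Cyc} (h : PvaxAt T pos z r r' c) (ha : a ≤ r) : pvdiB T pos z a ⊆ c.Left := by
  intro d hd
  rw [pvdi_mem_B] at hd
  rcases hd with h1 | h1 | h1
  · exact h.inn _ (h1.trans ha) d rfl
  · exact (pl_left_face c d).1 (h.inn _ (h1.trans ha) (T.nxt d) rfl)
  · exact (pl_left_face c d).1 ((pl_left_face c _).1 (h.inn _ (h1.trans ha) (T.nxt (T.nxt d)) rfl))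

/-- the left side of a cycle at radius `< b` consists of faces which touch `clB(z,b)` -/
theorem pvkl_sub_B {z : ℂ} {r r' b : ℝ} {c : T.Cyc} (h : PvaxAt T pos z r r' c) (hb : r' ≤ b) : c.Left ⊆ pvdiB T pos z b := by
  intro d hd
  rw [pvdi_mem_B]
  exact Or.inl ((h.out _ ⟨d, hd, rfl⟩).le.trans hb)

/-- a gate between two face sets is a gate between a smaller inner and a larger outer face set -/
theorem pvkl_gate_wide {s : V → Bool} {c : Bool} {I O I' O' G : Set D} {X : Finset V} (h : PvgGate T s c I O G X) (hI : I' ⊆ I) (hO : O ⊆ O') : PvgGate T s c I' O' G X :=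
  ⟨h.face, hI.trans h.inner, h.outer.trans hO, h.card, h.col, h.other⟩

/-- **gate between two cycles ⟹ gate between two discs** (centres may differ) -/
theorem pvkl_gate_disc {s : V → Bool} {b : Bool} {z z' : ℂ} {r r' ρ ρ' α β : ℝ} {c c' : T.Cyc} {G : Set D} {X : Finset V} (hc : PvaxAt T pos z r r' c) (hc' : PvaxAt T pos z ρ ρ' c')
    (h : PvgGate T s b c.Left c'.Left G X) (hα : ‖z' - z‖ + α ≤ r) (hβ : ‖z' - z‖ + ρ' ≤ β) : PvgGate T s b (pvdiB T pos z' α) (pvdiB T pos z' β) G X := by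
  have t1 : ∀ w : ℂ, ‖w - z‖ ≤ ‖w - z'‖ + ‖z' - z‖ := fun w => by
    have := norm_add_le (w - z') (z' - z)
    rwa [sub_add_sub_cancel] at this
  have t2 : ∀ w : ℂ, ‖w - z'‖ ≤ ‖w - z‖ + ‖z' - z‖ := fun w => by
    have := norm_add_le (w - z) (z - z')
    rwa [sub_add_sub_cancel, norm_sub_rev z z'] at this
  refine pvkl_gate_wide h (fun d hd => pvkl_B_sub hc le_rfl ?_) fun d hd => ?_
  · rw [pvdi_mem_B] at hd ⊢
    rcases hd with h1 | h1 | h1
    · exact Or.inl (by linarith [t1 (pos (T.src d))])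
    · exact Or.inr (Or.inl (by linarith [t1 (pos (T.tgt d))]))
    · exact Or.inr (Or.inr (by linarith [t1 (pos (T.apex d))]))
  · rw [pvdi_mem_B]
    have := hc'.out _ ⟨d, hd, rfl⟩
    exact Or.inl (by linarith [t2 (pos (T.src d))])

/-- **THE BUFFER**: a box which is not flagged (UNIVERSAL flag `PvdnFive` of 89 / 101) gives count cycles in the buffer between two cycles of the frame -/
theorem pvkl_buf {s : V → Bool} {z ζ : ℂ} {r r' ρ ρ' r0 r1 : ℝ} {cin cout : T.Cyc} (hin : PvaxAt T pos z r r' cin) (hout : PvaxAt T pos z ρ ρ' cout)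
    (hF : ¬ PvdnFive T pos s ζ r0 r1) (h0 : ‖z - ζ‖ + r' ≤ r0) (h1 : ‖z - ζ‖ + r1 ≤ ρ) :
    ∃ k0 k1 k2, PvagaBuf T cin cout k0 k1 k2 ∧ ¬ PvagaFl T s k0 k1 k2 := by
  unfold PvdnFive at hF
  push Not at hF
  obtain ⟨k0, k1, k2, -, h12, h20, hi, ho, hn1, hn2⟩ := hF
  refine ⟨k0, k1, k2, ⟨fun d hd => ?_, h12, h20, fun d hd => ?_⟩, ?_⟩
  · refine hi _ ?_ d rfl
    have e1 := hin.out _ ⟨d, hd, rfl⟩
    have e2 := norm_add_le (pos (T.src d) - z) (z - ζ)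
    rw [sub_add_sub_cancel] at e2
    linarith
  · refine hout.inn _ ?_ d rfl
    have e1 := ho _ ⟨d, hd, rfl⟩
    have e2 := norm_add_le (pos (T.src d) - ζ) (ζ - z)
    rw [sub_add_sub_cancel, norm_sub_rev ζ z] at e2
    linarith
  · unfold PvagaFl
    rintro (⟨x, x2, x4, n1, n2, n4, hc⟩ | ⟨x, x2, x4, n1, n2, n4, hc⟩)
    · exact hn1 x x2 x4 n1 n2 n4 hc
    · exact hn2 x x2 x4 n1 n2 n4 hc

/-- **THE TOWER**: cycles at the radii `t 0 < t 1 < …`, ratio `≥ 8/5` -/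
theorem pvkl_tower (hT : T.IsSph) {q : ℝ} {z : ℂ} {m : ℕ} {t : ℕ → ℝ} {c : ℕ → T.Cyc} (hc : ∀ j < 2 * m, PvaxAt T pos z (t j) (5 * t j / 4) (c j))
    (hB : ∀ j < 2 * m, PvaxBxp T pos q z (5 * t j / 4) (8 * t j / 5)) (h0 : ∀ j < 2 * m, 0 ≤ t j) (ht : ∀ j, j + 1 < 2 * m → 8 * t j / 5 ≤ t (j + 1)) :
    PvaxTower T m (fun l => c (2 * l)) (fun l => c (2 * l + 1)) q := by
  have hin : ∀ j, j + 1 < 2 * m → (c j).Inside (c (j + 1)) := fun j hj =>
    pvax_at_inside hT (hc j (by omega)) (hc (j + 1) hj) (by rw [sub_self, norm_zero]; linarith [ht j hj, h0 j (by omega)])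
  refine ⟨fun i hi => (hc _ (by omega)).fin, fun i hi => hin _ (by omega), fun i hi => hin (2 * i + 1) (by omega), fun i hi => ?_⟩
  exact (pvax_at_blk hT (hc (2 * i) (by omega)) (hc (2 * i + 1) (by omega)) (pvax_bxp_mono (hB (2 * i) (by omega)) le_rfl (ht (2 * i) (by omega)))
    (by linarith [ht (2 * i) (by omega), h0 (2 * i) (by omega)])).2

/-- the vertices of a tower lie inside its last cycle -/
theorem pvkl_reg_sub {m : ℕ} {a o : ℕ → T.Cyc} {c : T.Cyc} (h : ∀ l < m, (o l).Left ⊆ c.Left) {v : V} (hv : v ∈ pvafReg T m a o) : v ∈ T.VOf c.Left := by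
  obtain ⟨j, hj, d, hd, rfl⟩ := hv
  exact ⟨d, h j hj hd.1, rfl⟩

end kit

/-! ## 4. boxes -/

/-- the box of a point: the index of the nearest point of the grid `h ℤ²` -/
noncomputable def pvklBox (h : ℝ) (w : ℂ) : ℤ × ℤ := pv5Blk h (w + ⟨h / 2, h / 2⟩)

theorem pvkl_floor_near {h : ℝ} (h0 : 0 < h) (u : ℝ) : |u - (⌊(u + h / 2) / h⌋ : ℝ) * h| ≤ h / 2 := by
  have h1 := Int.floor_le ((u + h / 2) / h)
  have h2 := Int.lt_floor_add_one ((u + h / 2) / h)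
  rw [le_div_iff₀ h0] at h1
  rw [div_lt_iff₀ h0] at h2
  rw [abs_le]
  constructor <;> nlinarith

/-- a point is within `h` of the centre of its box -/
theorem pvkl_box_near {h : ℝ} (h0 : 0 < h) (w : ℂ) : ‖w - l9Pt h (pvklBox h w)‖ ≤ h := by
  have h1 : |(w - l9Pt h (pvklBox h w)).re| ≤ h / 2 := by
    simpa [pvklBox, pv5Blk, l9Pt] using pvkl_floor_near h0 w.re
  have h2 : |(w - l9Pt h (pvklBox h w)).im| ≤ h / 2 := by
    simpa [pvklBox, pv5Blk, l9Pt] using pvkl_floor_near h0 w.im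
  have := Complex.norm_le_abs_re_add_abs_im (w - l9Pt h (pvklBox h w))
  linarith

/-- a step of length `≤ h` is a king move of the boxes -/
theorem pvkl_box_step {h : ℝ} (h0 : 0 < h) {w w' : ℂ} (hw : ‖w' - w‖ ≤ h) : PvagNear 1 (pvklBox h w) (pvklBox h w') := by
  have h1 : pv5Dist (pvklBox h w) (pvklBox h w') ≤ ((1 : ℕ) : ℤ) := by
    refine pvtd_blk_close h0 ?_
    rw [add_sub_add_right_eq_sub, norm_sub_rev]
    simpa using hw
  unfold pv5Dist at h1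
  exact ⟨(le_max_left _ _).trans (by simpa using h1), (le_max_right _ _).trans (by simpa using h1)⟩

/-- the grid points of a ball -/
theorem pvkl_grid_finite {h : ℝ} (h0 : 0 < h) (x : ℂ) (ρ : ℝ) : {p : ℤ × ℤ | ‖l9Pt h p - x‖ ≤ ρ}.Finite := by
  refine ((Finset.Icc ⌊(x.re - ρ) / h⌋ ⌈(x.re + ρ) / h⌉ ×ˢ Finset.Icc ⌊(x.im - ρ) / h⌋ ⌈(x.im + ρ) / h⌉ : Finset (ℤ × ℤ)).finite_toSet).subset ?_
  intro p hp
  have hp' : ‖l9Pt h p - x‖ ≤ ρ := hp
  have h1 := abs_le.1 ((Complex.abs_re_le_norm _).trans hp')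
  have h2 := abs_le.1 ((Complex.abs_im_le_norm _).trans hp')
  simp only [l9Pt, Complex.sub_re, Complex.sub_im] at h1 h2
  rw [Finset.mem_coe, Finset.mem_product, Finset.mem_Icc, Finset.mem_Icc]
  refine ⟨⟨?_, ?_⟩, ?_, ?_⟩
  · rw [Int.floor_le_iff, div_lt_iff₀ h0]; nlinarith
  · rw [Int.le_ceil_iff, lt_div_iff₀ h0]; nlinarith
  · rw [Int.floor_le_iff, div_lt_iff₀ h0]; nlinarith
  · rw [Int.le_ceil_iff, lt_div_iff₀ h0]; nlinarith

/-! ## 5. THE LEVEL: numbers, event, cycles -/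

/-- **the numbers of a level**: the ball `(x, R)`, the mesh `h` of the grid of the centres, `g` trials, towers of `mt` annuli;   ABSOLUTE radii: `r0 k < r1 k < t k 0 < … < t k (2 mt - 1) < r2 k < r3 k` -/
structure PvklPar where
  x : ℂ
  R : ℝ
  h : ℝ
  g : ℕ
  mt : ℕ
  r0 : ℕ → ℝ
  r1 : ℕ → ℝ
  r2 : ℕ → ℝ
  r3 : ℕ → ℝ
  t : ℕ → ℕ → ℝ

/-- the inequalities between the numbers of a level -/
structure PvklPar.Ok (P : PvklPar) : Prop where
  R0 : 0 < P.R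
  h0 : 0 < P.h
  hr0 : ∀ k < P.g, P.h ≤ P.r0 k
  h01 : ∀ k < P.g, 5 * P.r0 k / 4 ≤ P.r1 k
  h12 : ∀ k < P.g, 5 * P.r1 k / 4 ≤ P.r2 k
  h23 : ∀ k < P.g, 5 * P.r2 k / 4 ≤ P.r3 k
  h1t : ∀ k < P.g, ∀ j < 2 * P.mt, 5 * P.r1 k / 4 ≤ P.t k j
  htt : ∀ k < P.g, ∀ j, j + 1 < 2 * P.mt → 8 * P.t k j / 5 ≤ P.t k (j + 1)
  ht2 : ∀ k < P.g, ∀ j < 2 * P.mt, 5 * P.t k j / 4 ≤ P.r2 k
  h3R : ∀ k < P.g, P.h + 5 * P.r3 k / 4 ≤ 6 * P.R / 5
  hR : P.h ≤ P.R / 2

/-- the indices of the centres: the grid points of `clB(x, 2R + h)` -/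
def PvklPar.Zs (P : PvklPar) : Set (ℤ × ℤ) := {p | ‖l9Pt P.h p - P.x‖ ≤ 2 * P.R + P.h}

open Classical in
noncomputable def PvklPar.Zf (P : PvklPar) : Finset (ℤ × ℤ) := if h : P.Zs.Finite then h.toFinset else ∅

/-- the centres of the frame -/
noncomputable def PvklPar.Z (P : PvklPar) : Finset ℂ := insert P.x (P.Zf.image (l9Pt P.h))

/-- the radii of the frame -/
noncomputable def PvklPar.Rs (P : PvklPar) : Finset ℝ :=
  {2 * P.R, 16 * P.R / 5} ∪ (Finset.range P.g).biUnion fun k => {P.r0 k, P.r1 k, P.r2 k, P.r3 k} ∪ (Finset.range (2 * P.mt)).image (P.t k)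

section level

variable [I : ∀ Y : Set ℂ, DecidableEq ↥Y]

/-- **THE FRAME EVENT OF A LEVEL** (an event of the site set) -/
def PvklPar.G (P : PvklPar) (q : ℝ) (Y : Set ℂ) : Prop := P.Ok ∧ PvklFrame q P.Z P.Rs Y ∧ VorDense Y (Metric.closedBall P.x (5 * P.R)) (P.h / 2)

omit I in
theorem pvkl_eqns_cite3 : True := by
  have := @pvklQ.eq_1; have := @pvklBox.eq_1; have := @PvklPar.Zs.eq_1; have := @PvklPar.Zf.eq_1; have := @PvklPar.Z.eq_1; have := @PvklPar.Rs.eq_1; have := @PvklPar.G.eq_1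
  trivial

namespace PvklPar

variable {P : PvklPar} {q : ℝ} {Y : Set ℂ}

omit I in
theorem mem_Zf (hP : P.Ok) {p : ℤ × ℤ} : p ∈ P.Zf ↔ p ∈ P.Zs := by
  have hf : P.Zs.Finite := pvkl_grid_finite hP.h0 P.x _
  unfold PvklPar.Zf
  rw [dif_pos hf, Set.Finite.mem_toFinset]

omit I in
theorem x_mem : P.x ∈ P.Z := Finset.mem_insert_self _ _

omit I in
theorem ctr_mem (hP : P.Ok) {p : ℤ × ℤ} (hp : p ∈ P.Zs) : l9Pt P.h p ∈ P.Z := Finset.mem_insert_of_mem (Finset.mem_image_of_mem _ ((mem_Zf hP).2 hp))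

omit I in
theorem R1_mem : 2 * P.R ∈ P.Rs := Finset.mem_union_left _ (by simp)

omit I in
theorem R0_mem : 16 * P.R / 5 ∈ P.Rs := Finset.mem_union_left _ (by simp)

omit I in
theorem r0_mem {k : ℕ} (hk : k < P.g) : P.r0 k ∈ P.Rs :=
  Finset.mem_union_right _ (Finset.mem_biUnion.2 ⟨k, Finset.mem_range.2 hk, Finset.mem_union_left _ (by simp)⟩)

omit I in
theorem r1_mem {k : ℕ} (hk : k < P.g) : P.r1 k ∈ P.Rs :=
  Finset.mem_union_right _ (Finset.mem_biUnion.2 ⟨k, Finset.mem_range.2 hk, Finset.mem_union_left _ (by simp)⟩)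

omit I in
theorem r2_mem {k : ℕ} (hk : k < P.g) : P.r2 k ∈ P.Rs :=
  Finset.mem_union_right _ (Finset.mem_biUnion.2 ⟨k, Finset.mem_range.2 hk, Finset.mem_union_left _ (by simp)⟩)

omit I in
theorem r3_mem {k : ℕ} (hk : k < P.g) : P.r3 k ∈ P.Rs :=
  Finset.mem_union_right _ (Finset.mem_biUnion.2 ⟨k, Finset.mem_range.2 hk, Finset.mem_union_left _ (by simp)⟩)

omit I in
theorem t_mem {k j : ℕ} (hk : k < P.g) (hj : j < 2 * P.mt) : P.t k j ∈ P.Rs :=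
  Finset.mem_union_right _ (Finset.mem_biUnion.2 ⟨k, Finset.mem_range.2 hk, Finset.mem_union_right _ (Finset.mem_image_of_mem _ (Finset.mem_range.2 hj))⟩)

omit I in
theorem Rs_pos (hP : P.Ok) : ∀ r ∈ P.Rs, 0 < r := by
  intro r hr
  have hR := hP.R0
  have hh := hP.h0
  unfold PvklPar.Rs at hr
  simp only [Finset.mem_union, Finset.mem_insert, Finset.mem_singleton, Finset.mem_biUnion, Finset.mem_range, Finset.mem_image] at hr
  rcases hr with (rfl | rfl) | ⟨k, hk, (rfl | rfl | rfl | rfl) | ⟨j, hj, rfl⟩⟩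
  · linarith
  · linarith
  · linarith [hP.hr0 k hk]
  · linarith [hP.hr0 k hk, hP.h01 k hk]
  · linarith [hP.hr0 k hk, hP.h01 k hk, hP.h12 k hk]
  · linarith [hP.hr0 k hk, hP.h01 k hk, hP.h12 k hk, hP.h23 k hk]
  · linarith [hP.hr0 k hk, hP.h01 k hk, hP.h1t k hk j hj]

omit I in
/-- the box of a vertex of `clB(x, 2R)` is the index of a centre -/
theorem box_mem (hP : P.Ok) {w : ℂ} (hw : ‖w - P.x‖ ≤ 2 * P.R) : pvklBox P.h w ∈ P.Zs := by
  have h1 := pvkl_box_near hP.h0 w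
  have h2 := norm_add_le (l9Pt P.h (pvklBox P.h w) - w) (w - P.x)
  rw [sub_add_sub_cancel, norm_sub_rev _ w] at h2
  show ‖l9Pt P.h (pvklBox P.h w) - P.x‖ ≤ 2 * P.R + P.h
  linarith

namespace G

theorem ok (hG : P.G q Y) : P.Ok := hG.1

theorem frame (hG : P.G q Y) : PvklFrame q P.Z P.Rs Y := hG.2.1

theorem dense (hG : P.G q Y) : VorDense Y (Metric.closedBall P.x (5 * P.R)) (P.h / 2) := hG.2.2

theorem good (hG : P.G q Y) : DelGood Y := hG.2.1.1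

theorem isSph (hG : P.G q Y) : (delbPl Y).toMap.IsSph := delb_plane_isSph hG.good

open Classical in
/-- **the cycle of the frame** at the centre `z`, radius `(r, 5r/4)` -/
noncomputable def cy (hG : P.G q Y) (z : ℂ) (r : ℝ) : (delbPl Y).toMap.Cyc :=
  if h : z ∈ P.Z ∧ r ∈ P.Rs then Classical.choose (hG.frame.2 z h.1 r h.2).1 else Classical.choose (hG.frame.2 P.x x_mem (2 * P.R) R1_mem).1

theorem cy_at (hG : P.G q Y) {z : ℂ} (hz : z ∈ P.Z) {r : ℝ} (hr : r ∈ P.Rs) : PvaxAt (delbPl Y).toMap Subtype.val z r (5 * r / 4) (hG.cy z r) := by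
  unfold cy
  rw [dif_pos ⟨hz, hr⟩]
  exact Classical.choose_spec (hG.frame.2 z hz r hr).1

theorem bxp (hG : P.G q Y) {z : ℂ} (hz : z ∈ P.Z) {r : ℝ} (hr : r ∈ P.Rs) : PvaxBxp (delbPl Y).toMap Subtype.val q z (5 * r / 4) (8 * r / 5) := (hG.frame.2 z hz r hr).2

/-- the inner macroscopic cycle: radius `(2R, 5R/2)` -/
noncomputable def C1 (hG : P.G q Y) : (delbPl Y).toMap.Cyc := hG.cy P.x (2 * P.R)

/-- the outer macroscopic cycle: radius `(16R/5, 4R)` -/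
noncomputable def C0 (hG : P.G q Y) : (delbPl Y).toMap.Cyc := hG.cy P.x (16 * P.R / 5)

theorem C1_at (hG : P.G q Y) : PvaxAt (delbPl Y).toMap Subtype.val P.x (2 * P.R) (5 * P.R / 2) hG.C1 :=
  pvax_at_mono (hG.cy_at x_mem R1_mem) le_rfl (by linarith)

theorem C0_at (hG : P.G q Y) : PvaxAt (delbPl Y).toMap Subtype.val P.x (16 * P.R / 5) (4 * P.R) hG.C0 :=
  pvax_at_mono (hG.cy_at x_mem R0_mem) le_rfl (by linarith)

/-- **THE MACRO FRAME** (format of 237, `pvaa_hab_rims`) -/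
theorem geo (hG : P.G q Y) : PvaaGeo (delbPl Y).toMap hG.C1 hG.C0 q := by
  have h := pvax_at_blk hG.isSph hG.C1_at hG.C0_at (pvax_bxp_mono (hG.bxp x_mem R1_mem) (by linarith) (by linarith)) (by linarith [hG.ok.R0])
  exact ⟨hG.isSph, h.1, hG.C0_at.fin, h.2⟩

theorem C1_int (hG : P.G q Y) {v : ↥Y} (hv : ‖(v : ℂ) - P.x‖ ≤ 2 * P.R) : v ∈ (delbPl Y).toMap.Int hG.C1.Left := hG.C1_at.inn v hv

theorem C0_lt (hG : P.G q Y) {v : ↥Y} (hv : v ∈ (delbPl Y).toMap.VOf hG.C0.Left) : ‖(v : ℂ) - P.x‖ < 4 * P.R := hG.C0_at.out v hv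

/-- the edges with an end in `clB(x, 4R)` have length `≤ h` -/
theorem mesh (hG : P.G q Y) : PvdiMesh (delbPl Y).toMap Subtype.val P.x (4 * P.R) P.h := by
  intro u v huv hu
  have hh := hG.ok.h0
  have hadj : DelAdj Y u v := by
    obtain ⟨d, rfl, rfl⟩ := huv
    exact d.2.2
  have hm : PvtrMesh (P.h / 2) (Metric.closedBall P.x (5 * P.R)) Y := hG.dense.pvtrMesh (pvtr_core_subset (by linarith))
  have hc : (u : ℂ) ∈ pvtrCore (3 * (P.h / 2)) (Metric.closedBall P.x (5 * P.R)) := by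
    intro w hw
    rw [Metric.mem_closedBall, dist_eq_norm] at hw ⊢
    have := norm_add_le (w - u) ((u : ℂ) - P.x)
    rw [sub_add_sub_cancel] at this
    linarith [hG.ok.hR]
  have := pvge_adj_short (by linarith) hm hc hadj
  rw [norm_sub_rev]
  linarith

/-- nesting of two cycles of the frame -/
theorem cy_inside (hG : P.G q Y) {z z' : ℂ} (hz : z ∈ P.Z) (hz' : z' ∈ P.Z) {r r' : ℝ} (hr : r ∈ P.Rs) (hr' : r' ∈ P.Rs) (h : ‖z - z'‖ + 5 * r / 4 ≤ r') :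
    (hG.cy z r).Inside (hG.cy z' r') := pvax_at_inside hG.isSph (hG.cy_at hz hr) (hG.cy_at hz' hr') h

/-- a cycle of a trial lies inside the outer macroscopic cycle -/
theorem cy_C0 (hG : P.G q Y) {p : ℤ × ℤ} (hp : p ∈ P.Zs) {r : ℝ} (hr : r ∈ P.Rs) (h : P.h + 5 * r / 4 ≤ 6 * P.R / 5) : (hG.cy (l9Pt P.h p) r).Inside hG.C0 := by
  refine hG.cy_inside (ctr_mem hG.ok hp) x_mem hr R0_mem ?_
  have : ‖l9Pt P.h p - P.x‖ ≤ 2 * P.R + P.h := hp
  linarith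

/-- **THE CYCLES OF THE TRIALS** (format of 281, `pvaga_main`): face set `C0.Left`, centres `l9Pt h z`, `z ∈ Zs`; `box v` = the index of the grid point nearest to `v` -/
noncomputable def tri (hG : P.G q Y) : PvagaTri (delbPl Y).toMap hG.C0.Left P.Zs P.g where
  box v := pvklBox P.h v
  c0 z k := hG.cy (l9Pt P.h z) (P.r0 k)
  c1 z k := hG.cy (l9Pt P.h z) (P.r1 k)
  c2 z k := hG.cy (l9Pt P.h z) (P.r2 k)
  c3 z k := hG.cy (l9Pt P.h z) (P.r3 k)
  h01 z hz k hk := hG.cy_inside (ctr_mem hG.ok hz) (ctr_mem hG.ok hz) (r0_mem hk) (r1_mem hk) (by rw [sub_self, norm_zero]; linarith [hG.ok.h01 k hk])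
  h12 z hz k hk := hG.cy_inside (ctr_mem hG.ok hz) (ctr_mem hG.ok hz) (r1_mem hk) (r2_mem hk) (by rw [sub_self, norm_zero]; linarith [hG.ok.h12 k hk])
  h23 z hz k hk := hG.cy_inside (ctr_mem hG.ok hz) (ctr_mem hG.ok hz) (r2_mem hk) (r3_mem hk) (by rw [sub_self, norm_zero]; linarith [hG.ok.h23 k hk])
  h3B z hz k hk := (hG.cy_C0 hz (r3_mem hk) (hG.ok.h3R k hk)).2
  hin z hz k hk v hv := (hG.cy_at (ctr_mem hG.ok hz) (r0_mem hk)).inn v (by rw [← hv]; exact (pvkl_box_near hG.ok.h0 v).trans (hG.ok.hr0 k hk))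

/-- the inner cycles of the tower of the trial `(z, k)` -/
noncomputable def a (hG : P.G q Y) (i : (ℤ × ℤ) × ℕ) (l : ℕ) : (delbPl Y).toMap.Cyc := hG.cy (l9Pt P.h i.1) (P.t i.2 (2 * l))

/-- the outer cycles of the tower of the trial `(z, k)` -/
noncomputable def o (hG : P.G q Y) (i : (ℤ × ℤ) × ℕ) (l : ℕ) : (delbPl Y).toMap.Cyc := hG.cy (l9Pt P.h i.1) (P.t i.2 (2 * l + 1))

theorem t_nonneg (hG : P.G q Y) {k j : ℕ} (hk : k < P.g) (hj : j < 2 * P.mt) : 0 ≤ P.t k j := (Rs_pos hG.ok _ (t_mem hk hj)).le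

/-- `htow` of `pvaga_main` -/
theorem htow (hG : P.G q Y) : ∀ z ∈ P.Zs, ∀ k < P.g, ∀ l < P.mt, (hG.tri.c1 z k).Inside (hG.a (z, k) l) ∧ (hG.a (z, k) l).Inside (hG.o (z, k) l) ∧ (hG.o (z, k) l).Inside (hG.tri.c2 z k) := by
  intro z hz k hk l hl
  have hc := ctr_mem hG.ok hz
  refine ⟨hG.cy_inside hc hc (r1_mem hk) (t_mem hk (by omega)) ?_, hG.cy_inside hc hc (t_mem hk (by omega)) (t_mem hk (by omega)) ?_, hG.cy_inside hc hc (t_mem hk (by omega)) (r2_mem hk) ?_⟩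
  · rw [sub_self, norm_zero]; linarith [hG.ok.h1t k hk (2 * l) (by omega)]
  · rw [sub_self, norm_zero]; linarith [hG.ok.htt k hk (2 * l) (by omega), hG.t_nonneg hk (show 2 * l < 2 * P.mt by omega)]
  · rw [sub_self, norm_zero]; linarith [hG.ok.ht2 k hk (2 * l + 1) (by omega)]

/-- **THE TOWERS** block with the constant `q` of the frame -/
theorem tower (hG : P.G q Y) {z : ℤ × ℤ} (hz : z ∈ P.Zs) {k : ℕ} (hk : k < P.g) : PvaxTower (delbPl Y).toMap P.mt (hG.a (z, k)) (hG.o (z, k)) q :=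
  pvkl_tower hG.isSph (c := fun j => hG.cy (l9Pt P.h z) (P.t k j)) (fun j hj => hG.cy_at (ctr_mem hG.ok hz) (t_mem hk hj)) (fun j hj => hG.bxp (ctr_mem hG.ok hz) (t_mem hk hj))
    (fun j hj => hG.t_nonneg hk hj) (hG.ok.htt k hk)

/-- the vertices of a tower: in `C0.Left`, within `r2 k` of the centre -/
theorem reg (hG : P.G q Y) {z : ℤ × ℤ} (hz : z ∈ P.Zs) {k : ℕ} (hk : k < P.g) {v : ↥Y} (hv : v ∈ pvafReg (delbPl Y).toMap P.mt (hG.a (z, k)) (hG.o (z, k))) :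
    v ∈ (delbPl Y).toMap.VOf hG.C0.Left ∧ ‖(v : ℂ) - l9Pt P.h z‖ < P.r2 k := by
  obtain ⟨j, hj, d, hd, rfl⟩ := hv
  have h1 := (hG.htow z hz k hk j hj).2.2.2 hd.1
  refine ⟨⟨d, hG.tri.h3B z hz k hk ((hG.tri.h23 z hz k hk).2 h1), rfl⟩, ?_⟩
  have h2 := (hG.cy_at (ctr_mem hG.ok hz) (t_mem hk (show 2 * j + 1 < 2 * P.mt by omega))).out _ ⟨d, hd.1, rfl⟩
  exact h2.trans_le (hG.ok.ht2 k hk _ (by omega))

/-- **the trials are admissible** (format of 237, `PvaaAdm`): block side `ℓ ≥ r2 k`, the block `b` at sup-distance `≤ w` of the block of the centre -/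
theorem adm (hG : P.G q Y) {z : ℤ × ℤ} (hz : z ∈ P.Zs) {k : ℕ} (hk : k < P.g) {ℓ : ℝ} (hℓ : 0 < ℓ) (hr : P.r2 k ≤ ℓ) {w : ℕ} {b : ℤ × ℤ} (hb : pv5Dist (pv5Blk ℓ (l9Pt P.h z)) b ≤ w) :
    PvaaAdm (delbPl Y).toMap Subtype.val hG.C0 ℓ (w + 1) P.mt q b (hG.a (z, k), hG.o (z, k)) := by
  refine ⟨hG.tower hz hk, fun v hv => ⟨(hG.reg hz hk hv).1, ?_⟩⟩
  have h1 : pv5Dist (pv5Blk ℓ (v : ℂ)) (pv5Blk ℓ (l9Pt P.h z)) ≤ ((1 : ℕ) : ℤ) := pvtd_blk_close hℓ (by simpa using ((hG.reg hz hk hv).2.le.trans hr))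
  have h2 := pv5_dist_triangle (pv5Blk ℓ (v : ℂ)) (pv5Blk ℓ (l9Pt P.h z)) b
  push_cast at h1 ⊢
  linarith

end G

end PvklPar

omit I in
theorem pvkl_eqns_cite4 : True := by
  have := @PvklPar.G.cy.eq_1; have := @PvklPar.G.C0.eq_1; have := @PvklPar.G.C1.eq_1; have := @PvklPar.G.tri.eq_1; have := @PvklPar.G.a.eq_1; have := @PvklPar.G.o.eq_1
  trivial

/-! ## 6. probability -/

/-- **THE FRAME EVENT OF A LEVEL HAS PROBABILITY `→ 1`** as `ε ↓ 0` -/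
theorem pvkl_G_lim : ∃ q : ℝ, 0 < q ∧ q < 1 ∧ ∀ P : PvklPar, P.Ok → Tendsto (fun ε : ℝ => pvGeo ε {g | ¬ P.G q (pvgSites g)}) (𝓝[>] 0) (𝓝 0) := by
  obtain ⟨q, h0, h1, H⟩ := pvkl_frame_lim
  refine ⟨q, h0, h1, fun P hP => ?_⟩
  refine armtf_mono (armtf_union2 (H P.Z P.Rs (PvklPar.Rs_pos hP)) (armtf_dense (K := Metric.closedBall P.x (5 * P.R)) Metric.isBounded_closedBall (ρ := P.h / 2) (by linarith [hP.h0]))) fun g hg => ?_
  by_contra hn
  simp only [Set.mem_union, Set.mem_ofPred_eq, not_or, not_not] at hn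
  exact hg ⟨hP, hn.1, hn.2⟩

/-- the same under the upper expectation of the hub -/
theorem pvkl_G_up : ∃ q : ℝ, 0 < q ∧ q < 1 ∧ ∀ P : PvklPar, P.Ok →
    Tendsto (fun ε : ℝ => ((pvhbUp ε).P {p | ¬ P.G q (cfSites (pvConf (pvMerge p)))}).toReal) (𝓝[>] 0) (𝓝 0) := by
  obtain ⟨q, h0, h1, H⟩ := pvkl_G_lim
  exact ⟨q, h0, h1, fun P hP => pvkl_up_of_geo (H P hP)⟩

/-- **`Ex_ord`**: ordered limit, levels whose numbers are eventually in order -/
theorem pvkl_G_ord : ∃ q : ℝ, 0 < q ∧ q < 1 ∧ ∀ P : ℕ → PvklPar, (∀ᶠ m in atTop, (P m).Ok) →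
    PvhbOrd fun m ε => ((pvhbUp ε).P {p | ¬ (P m).G q (cfSites (pvConf (pvMerge p)))}).toReal := by
  obtain ⟨q, h0, h1, H⟩ := pvkl_G_up
  refine ⟨q, h0, h1, fun P hP η hη => ?_⟩
  filter_upwards [hP] with m hm
  exact (H (P m) hm).eventually (ge_mem_nhds hη)

/-- the same with THE constant `pvklQ` -/
theorem pvkl_G_limQ (P : PvklPar) (hP : P.Ok) : Tendsto (fun ε : ℝ => pvGeo ε {g | ¬ P.G pvklQ (pvgSites g)}) (𝓝[>] 0) (𝓝 0) := by
  refine armtf_mono (armtf_union2 (pvkl_Q_lim P.Z P.Rs (PvklPar.Rs_pos hP)) (armtf_dense (K := Metric.closedBall P.x (5 * P.R)) Metric.isBounded_closedBall (ρ := P.h / 2) (by linarith [hP.h0]))) fun g hg => ?_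
  by_contra hn
  simp only [Set.mem_union, Set.mem_ofPred_eq, not_or, not_not] at hn
  exact hg ⟨hP, hn.1, hn.2⟩

/-- **`Ex_ord` / `G_ord`** with THE constant `pvklQ` -/
theorem pvkl_G_ordQ (P : ℕ → PvklPar) (hP : ∀ᶠ m in atTop, (P m).Ok) :
    PvhbOrd fun m ε => ((pvhbUp ε).P {p | ¬ (P m).G pvklQ (cfSites (pvConf (pvMerge p)))}).toReal := by
  intro η hη
  filter_upwards [hP] with m hm
  exact (pvkl_up_of_geo (pvkl_G_limQ (P m) hm)).eventually (ge_mem_nhds hη)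

end level

end Claimed.Agent.R289
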