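import Claimed.Agent.R289.Arm.GateFrM
import Claimed.Agent.R289.Exit.PinsA6

/-!
# Row 289 (S0537, Cardy for Poisson-Voronoi), THE WALL, A6 = GATE DENSITY, post (D-FR) : THE PATCHES, THE FRAME EVENTS `G m Y`, THE TERM OF `PvX2Fr`      (helper54; prefix `pvkl_`, `Pvkl`, `pvkl`)

Format of 200 (`Exit/PinsA6.lean` sec. 5), ruling of 281 (11:18Z): the event `G m Y` of a patch contains the macroscopic cycles of the patch AND all the micro frames of the scale `m` (finite sets `Z m`, `Rs m`, chosen by the consumer: 75),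
and ANY further event `E m Y` of the site set which is small in the ordered limit (mesh, `m` large, …).      GENERIC instance `[∀ Y : Set ℂ, DecidableEq ↥Y]` in all the statements which have one.
* `pvklQ` : THE constant `q ∈ (0,1)` of all the frames (`pvkl_Q_pos`, `pvkl_Q_lt`, `pvkl_Q_lim`: in `Arm/GateFrM.lean` sec. 2)
* `PvklPG y ρ Z Rs E Y` : the event;   `.frame`, `.pvax : PvaxFrame pvklQ Z Rs Y` (input of `pvags_fr_model` of 75), `.armt : ArmtFrame pvklQ Z Rs Y` (input of 89 / 101), `.ev : E Y`, `.good`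
* `PvklPG.C1` at radius `(ρ, 5ρ/4)`, `PvklPG.C0` at radius `(8ρ/5, 2ρ)` round `y`;   `.C1_at`, `.C0_at` (`PvaxAt`), **`.mac : PvX2Mac x R pvklQ y ρ Y C0 C1`** (`‖y - x‖ + 2ρ ≤ 4R`)
* **`pvklFr`** : the term of `PvX2Fr x R y ρ` (fields `G C0 C1 q0` unfold by `rfl`);   **`pvklFrL`** : the term of `PvX2Fr x R y ρ` from the LEVELS `P m : PvklPar` of `Arm/GateFrM.lean` (`G m Y = (P m).G pvklQ Y`)
* `pvkl_net` : a finite net of `clB(x,2R)` with centres in `clB(x,2R)`: `ρ = R` fits (`‖ctr j - x‖ + 2R ≤ 4R`, `net` of `PvX2Pat` at `ρ / 2 = R / 2`)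
* `pvkl_dense_ord`, `pvkl_ev_ord` : the usual choices of `E`
-/

set_option autoImplicit false
set_option linter.unusedSectionVars false
set_option linter.unusedVariables false

namespace Claimed.Agent.R289

open Relation MeasureTheory Filter Topology Claims.C0465
open scoped ENNReal

section inst

variable [I : ∀ Y : Set ℂ, DecidableEq ↥Y]

/-! ## 2. the event of a patch -/

/-- **THE FRAME EVENT OF A PATCH** (centre `y`, core radius `ρ`) with the micro frames `Z`, `Rs` and one more event `E` of the site set -/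
def PvklPG (y : ℂ) (ρ : ℝ) (Z : Finset ℂ) (Rs : Finset ℝ) (E : Set ℂ → Prop) (Y : Set ℂ) : Prop :=
  PvklFrame pvklQ (insert y Z) ({ρ, 8 * ρ / 5} ∪ Rs) Y ∧ E Y

omit I in
theorem pvkl_eqns_cite5 : True := by
  have := @PvklPG.eq_1
  trivial

namespace PvklPG

variable {y : ℂ} {ρ : ℝ} {Z : Finset ℂ} {Rs : Finset ℝ} {E : Set ℂ → Prop} {Y : Set ℂ}

theorem good (hG : PvklPG y ρ Z Rs E Y) : DelGood Y := hG.1.1

theorem ev (hG : PvklPG y ρ Z Rs E Y) : E Y := hG.2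

theorem frame (hG : PvklPG y ρ Z Rs E Y) : PvklFrame pvklQ Z Rs Y := hG.1.mono (Finset.subset_insert _ _) Finset.subset_union_right

/-- the input of `pvags_fr_model` (75) -/
theorem pvax (hG : PvklPG y ρ Z Rs E Y) (hRs : ∀ r ∈ Rs, 0 ≤ r) : PvaxFrame pvklQ Z Rs Y := hG.frame.pvax hRs

/-- the input of the counts of 89 / 101 -/
theorem armt (hG : PvklPG y ρ Z Rs E Y) (hRs : ∀ r ∈ Rs, 0 ≤ r) : ArmtFrame pvklQ Z Rs Y := hG.frame.armt hRs

theorem isSph (hG : PvklPG y ρ Z Rs E Y) : (pvx2T Y).IsSph := delb_plane_isSph hG.good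

omit I in
theorem mem1 : ρ ∈ ({ρ, 8 * ρ / 5} ∪ Rs : Finset ℝ) := Finset.mem_union_left _ (by simp)

omit I in
theorem mem0 : 8 * ρ / 5 ∈ ({ρ, 8 * ρ / 5} ∪ Rs : Finset ℝ) := Finset.mem_union_left _ (by simp)

/-- the inner macroscopic cycle of the patch -/
noncomputable def C1 (hG : PvklPG y ρ Z Rs E Y) : (pvx2T Y).Cyc := Classical.choose (hG.1.2 y (Finset.mem_insert_self _ _) ρ mem1).1

/-- the outer macroscopic cycle of the patch -/
noncomputable def C0 (hG : PvklPG y ρ Z Rs E Y) : (pvx2T Y).Cyc := Classical.choose (hG.1.2 y (Finset.mem_insert_self _ _) (8 * ρ / 5) mem0).1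

theorem C1_at (hG : PvklPG y ρ Z Rs E Y) : PvaxAt (pvx2T Y) Subtype.val y ρ (5 * ρ / 4) hG.C1 := by
  exact Classical.choose_spec (hG.1.2 y (Finset.mem_insert_self _ _) ρ mem1).1

theorem C0_at (hG : PvklPG y ρ Z Rs E Y) : PvaxAt (pvx2T Y) Subtype.val y (8 * ρ / 5) (2 * ρ) hG.C0 := by
  exact pvax_at_mono (Classical.choose_spec (hG.1.2 y (Finset.mem_insert_self _ _) (8 * ρ / 5) mem0).1) le_rfl (by linarith)

theorem bxp (hG : PvklPG y ρ Z Rs E Y) : PvaxBxp (pvx2T Y) Subtype.val pvklQ y (5 * ρ / 4) (8 * ρ / 5) := by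
  exact (hG.1.2 y (Finset.mem_insert_self _ _) ρ mem1).2

theorem geo (hG : PvklPG y ρ Z Rs E Y) (hρ : 0 < ρ) : PvaaGeo (pvx2T Y) hG.C1 hG.C0 pvklQ := by
  have h := pvax_at_blk hG.isSph hG.C1_at hG.C0_at hG.bxp (by linarith)
  exact ⟨hG.isSph, h.1, hG.C0_at.fin, h.2⟩

/-- **THE MACROSCOPIC FRAME OF THE PATCH** (format of 200) -/
theorem mac (hG : PvklPG y ρ Z Rs E Y) (hρ : 0 < ρ) {x : ℂ} {R : ℝ} (hy : ‖y - x‖ + 2 * ρ ≤ 4 * R) : PvX2Mac x R pvklQ y ρ Y hG.C0 hG.C1 := by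
  refine ⟨hG.good, hG.geo hρ, fun v hv => hG.C1_at.inn v hv, fun v hv => ?_⟩
  have h1 := hG.C0_at.out v hv
  have h2 := norm_add_le ((v : ℂ) - y) (y - x)
  rw [sub_add_sub_cancel] at h2
  linarith

end PvklPG

omit I in
theorem pvkl_eqns_cite6 : True := by
  have := @PvklPG.C1.eq_1; have := @PvklPG.C0.eq_1
  trivial

/-! ## 3. probability, the term of `PvX2Fr` -/

theorem pvkl_pg_ord (y : ℂ) {ρ : ℝ} (hρ : 0 < ρ) (Z : ℕ → Finset ℂ) (Rs : ℕ → Finset ℝ) (hRs : ∀ m, ∀ r ∈ Rs m, 0 < r) (E : ℕ → Set ℂ → Prop)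
    (hE : PvhbOrd fun m ε => ((pvhbUp ε).P {p | ¬ E m (cfSites (pvConf (pvMerge p)))}).toReal) :
    PvhbOrd fun m ε => ((pvhbUp ε).P {p | ¬ PvklPG y ρ (Z m) (Rs m) (E m) (cfSites (pvConf (pvMerge p)))}).toReal := by
  have h1 : PvhbOrd fun m ε => ((pvhbUp ε).P {p | ¬ PvklFrame pvklQ (insert y (Z m)) ({ρ, 8 * ρ / 5} ∪ Rs m) (cfSites (pvConf (pvMerge p)))}).toReal := by
    refine PvhbOrd.of_tendsto fun m => pvkl_up_of_geo (pvkl_Q_lim _ _ fun r hr => ?_)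
    simp only [Finset.mem_union, Finset.mem_insert, Finset.mem_singleton] at hr
    rcases hr with (rfl | rfl) | hr
    · exact hρ
    · linarith
    · exact hRs m r hr
  refine (h1.add hE).mono fun m ε => ?_
  rw [← ENNReal.toReal_add ((pvhbUp ε).P_ne_top _) ((pvhbUp ε).P_ne_top _)]
  refine ENNReal.toReal_mono (ENNReal.add_ne_top.2 ⟨(pvhbUp ε).P_ne_top _, (pvhbUp ε).P_ne_top _⟩) (((pvhbUp ε).P_mono ?_).trans ((pvhbUp ε).P_union_le _ _))
  intro p hp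
  by_contra hn
  simp only [Set.mem_union, Set.mem_ofPred_eq, not_or, not_not] at hn
  exact hp ⟨hn.1, hn.2⟩

/-- **THE FRAME EVENTS OF ONE PATCH** (the term of `PvX2Fr` of 200) -/
noncomputable def pvklFr {x : ℂ} {R : ℝ} {y : ℂ} {ρ : ℝ} (hρ : 0 < ρ) (hy : ‖y - x‖ + 2 * ρ ≤ 4 * R) (Z : ℕ → Finset ℂ) (Rs : ℕ → Finset ℝ) (hRs : ∀ m, ∀ r ∈ Rs m, 0 < r) (E : ℕ → Set ℂ → Prop)
    (hE : PvhbOrd fun m ε => ((pvhbUp ε).P {p | ¬ E m (cfSites (pvConf (pvMerge p)))}).toReal) : PvX2Fr x R y ρ where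
  q0 := pvklQ
  q0_pos := pvkl_Q_pos
  q0_le := pvkl_Q_lt.le
  G m Y := PvklPG y ρ (Z m) (Rs m) (E m) Y
  C0 m Y h := h.C0
  C1 m Y h := h.C1
  mac m Y h := h.mac hρ hy
  G_ord := pvkl_pg_ord y hρ Z Rs hRs E hE

/-- **THE FRAME EVENTS OF ONE PATCH FROM THE LEVELS OF `Arm/GateFrM.lean`** (road B54 of 116): `(P m).x = y`, `2 (P m).R = ρ`;   `G m Y = (P m).G pvklQ Y`, `C0 m Y h = h.C0`, `C1 m Y h = h.C1` by `rfl` -/
noncomputable def pvklFrL {x : ℂ} {R : ℝ} {y : ℂ} {ρ : ℝ} (hy : ‖y - x‖ + 2 * ρ ≤ 4 * R) (P : ℕ → PvklPar) (hx : ∀ m, (P m).x = y) (hR : ∀ m, 2 * (P m).R = ρ) (hOk : ∀ᶠ m in atTop, (P m).Ok) :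
    PvX2Fr x R y ρ where
  q0 := pvklQ
  q0_pos := pvkl_Q_pos
  q0_le := pvkl_Q_lt.le
  G m Y := (P m).G pvklQ Y
  C0 m Y h := h.C0
  C1 m Y h := h.C1
  mac m Y h := ⟨h.good, h.geo, fun v hv => h.C1_int (by rw [hx m, hR m]; exact hv), fun v hv => by
    have h1 := h.C0_lt hv
    rw [hx m] at h1
    have h2 := norm_add_le ((v : ℂ) - y) (y - x)
    rw [sub_add_sub_cancel] at h2
    linarith [hR m]⟩
  G_ord := pvkl_G_ordQ P hOk

end inst

/-! ## 4. the net, the usual events `E` -/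

/-- a finite net of `clB(x,2R)`, centres in `clB(x,2R)`, mesh `R/2` -/
theorem pvkl_net (x : ℂ) {R : ℝ} (hR : 0 < R) : ∃ (nJ : ℕ) (ctr : Fin nJ → ℂ), (∀ j, ‖ctr j - x‖ ≤ 2 * R) ∧ ∀ z : ℂ, ‖z - x‖ ≤ 2 * R → ∃ j, ‖z - ctr j‖ ≤ R / 2 := by
  obtain ⟨t, ht, hfin, hcov⟩ := (isCompact_closedBall x (2 * R)).finite_cover_balls (e := R / 2) (by linarith)
  obtain ⟨n, f, -, hf⟩ := hfin.fin_param
  refine ⟨n, f, fun j => ?_, fun z hz => ?_⟩
  · have : f j ∈ t := hf ▸ Set.mem_range_self j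
    simpa [dist_eq_norm] using ht this
  · have hz' : z ∈ Metric.closedBall x (2 * R) := by simpa [dist_eq_norm] using hz
    obtain ⟨c, hc, hzc⟩ := Set.mem_iUnion₂.1 (hcov hz')
    rw [← hf] at hc
    obtain ⟨j, rfl⟩ := hc
    exact ⟨j, by simpa [dist_eq_norm] using (Metric.mem_ball.1 hzc).le⟩

/-- density of the sites at the scales `μ m` in a bounded set -/
theorem pvkl_dense_ord {K : Set ℂ} (hK : Bornology.IsBounded K) (μ : ℕ → ℝ) (hμ : ∀ m, 0 < μ m) :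
    PvhbOrd fun m ε => ((pvhbUp ε).P {p | ¬ VorDense (cfSites (pvConf (pvMerge p))) K (μ m)}).toReal :=
  PvhbOrd.of_tendsto fun m => pvkl_up_of_geo (P := fun Y => VorDense Y K (μ m)) (armtf_dense hK (hμ m))

/-- a condition on the level which holds eventually, and an event -/
theorem pvkl_ev_ord {c : ℕ → Prop} (hc : ∀ᶠ m in atTop, c m) {E : ℕ → Set ℂ → Prop} (hE : PvhbOrd fun m ε => ((pvhbUp ε).P {p | ¬ E m (cfSites (pvConf (pvMerge p)))}).toReal) :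
    PvhbOrd fun m ε => ((pvhbUp ε).P {p | ¬ (c m ∧ E m (cfSites (pvConf (pvMerge p))))}).toReal := by
  intro η hη
  filter_upwards [hc, hE η hη] with m h1 h2
  filter_upwards [h2] with ε h3
  refine le_trans (le_of_eq ?_) h3
  congr 2
  ext p
  simp only [Set.mem_ofPred_eq, h1, true_and]

end Claimed.Agent.R289
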