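import Claimed.Agent.R289.Tr.DenseS
import Claimed.Agent.R289.Arm.Fresh
import Claimed.Agent.R289.Del.Bulk

/-!
# Row 289 (S0537, Cardy for Poisson-Voronoi), box ARM, block A6 = GATE DENSITY, leaf (D-J) of the cut of `exit_pvx2_di` (post of helper281, 11:18Z), file Arm/GateJ      (owner helper237; prefix `pvagj_`)

**NOT J-BAD ⟹ AT MOST `J` MINIMAL CROSSINGS**, AT THE MODEL: the hypothesis `hJ` of `pvagm_DI` (116) / `pvagb_DI` (281) / `pvagt_DI` (13) on the TOTAL Delaunay plane `(delbPl Y).toMap` from `η ∉ P.SB u x` (static bad block of 101, `Tr/DenseS.lean`).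

* `pvagj_blk_near`, `pvagj_cross_of_disj`      kit
* `pvagj_cycles`       `η ∉ P.SB u x` ⟹ cycles `c' < c` of the plane: the closed ball of radius `2 L u` round the corner of the block `x` inside `c'`, `c` within `10 L u`, fewer than `J` disjoint crossings of each colour
* **`pvagj_hJ`**       for ANY cycle `C0`, ANY entrance `e`, ANY colour `bcol`, `12 ≤ en`:   `#pvafCrs (Γ(χ_e); x, en) ≤ P.J` (in fact `< P.J`: `pvagj_hJ_lt`)
-/

set_option autoImplicit false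
set_option linter.unusedSectionVars false
set_option linter.unusedVariables false

namespace Claimed.Agent.R289

open Set Metric Claims.C0465

/-- a point of the block `x` is within `2 ℓ` of its corner -/
theorem pvagj_blk_near {ℓ : ℝ} (hℓ : 0 < ℓ) {z : ℂ} {x : ℤ × ℤ} (h : pv5Blk ℓ z = x) : ‖z - pv5Ctr ℓ x‖ ≤ 2 * ℓ := by
  subst h
  have h1 := Int.floor_le (z.re / ℓ)
  have h2 := Int.lt_floor_add_one (z.re / ℓ)
  have h3 := Int.floor_le (z.im / ℓ)
  have h4 := Int.lt_floor_add_one (z.im / ℓ)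
  rw [le_div_iff₀ hℓ] at h1 h3
  rw [div_lt_iff₀ hℓ] at h2 h4
  refine (Complex.norm_le_abs_re_add_abs_im _).trans ?_
  have e1 : (z - pv5Ctr ℓ (pv5Blk ℓ z)).re = z.re - ℓ * ⌊z.re / ℓ⌋ := by simp [pv5Ctr, pv5Blk]
  have e2 : (z - pv5Ctr ℓ (pv5Blk ℓ z)).im = z.im - ℓ * ⌊z.im / ℓ⌋ := by simp [pv5Ctr, pv5Blk]
  rw [e1, e2, abs_of_nonneg (by linarith), abs_of_nonneg (by linarith)]
  linarith

/-- disjoint crossings: from the vocabulary of the BK kit to the vocabulary of 101; the colouring `σ == bcol` -/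
theorem pvagj_cross_of_disj {V D : Type} {T : PvMap V D} {c' c : T.Cyc} {J : ℕ} {σ : V → Bool} {bcol : Bool}
    (h : PvbkDisj (fun _ => pvakW c' c) true J (fun v => σ v == bcol)) : PvdsCross T c' c bcol J σ := by
  obtain ⟨f, hf, hd⟩ := h
  refine ⟨fun i => (↑(f i) : Set V), fun i hi => ⟨(f i).finite_toSet, (hf i hi).1, fun v hv => ?_⟩, fun i hi j hj hij => Finset.disjoint_coe.2 (hd i hi j hj hij)⟩
  have := (hf i hi).2 v (Finset.mem_coe.1 hv)
  simpa using this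

namespace PvdsPar

variable {P : PvdsPar}

/-- **NOT J-BAD, ON THE DELAUNAY PLANE** `delMap h` -/
theorem Wf.pvagj_cycles (hP : P.Wf) {u : ℝ} (hu : 0 < u) {Y : Set ℂ} (h : DelGood Y) {η : Conf PvPt} (hη : cfSites η = Y) {x : ℤ × ℤ} (hx : η ∉ P.SB u x) :
    ∃ c' c : (delMap h).Cyc, c.Left.Finite ∧ c'.Inside c ∧ (∀ v : ↥Y, ‖(v : ℂ) - pv5Ctr (P.L * u) x‖ ≤ 2 * (P.L * u) → v ∈ (delMap h).Int c'.Left) ∧
      (∀ v ∈ (delMap h).VOf c.Left, ‖(v : ℂ) - pv5Ctr (P.L * u) x‖ ≤ 5 * (2 * (P.L * u))) ∧ ∀ col, ¬ PvdsCross (delMap h) c' c col P.J (fun v => cfCol η v) := by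
  obtain ⟨hm, hnj, -⟩ := PvdsPar.use hx
  have hL : (1 : ℝ) ≤ P.L := by exact_mod_cast hP.L_pos
  have ht : 0 < 2 * ((P.L : ℝ) * u) := by positivity
  have hm' : PvtrMesh (P.ρ * (2 * (P.L * u))) (closedBall (pv5Ctr (P.L * u) x) ((5 + 3 * P.ρ) * (2 * (P.L * u)))) Y := by
    rw [← hη]
    refine pvds_mesh_mono hm ?_ ?_
    · refine mul_le_mul_of_nonneg_left ?_ hP.ρ_pos.le
      nlinarith
    · intro z hz
      exact (pvds_mem_sq _ _ _ _).2 (hP.jb_win hu x (Set.mk_mem_prod hz (mem_univ true)))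
  have hpl := (pvds_BJ_spec P.J hP.ρ_pos).plane (by norm_num : (1 : ℝ) ≤ 5) ht (pv5Ctr (P.L * u) x) h hη hm'
  have hnj' : η ∉ pvdsAt (pvdsBJ P.J P.ρ) (pv5Ctr (P.L * u) x) (2 * (P.L * u)) := hnj
  rw [hpl] at hnj'
  unfold pvdsJ at hnj'
  push Not at hnj'
  obtain ⟨c', c, h1, -, h3, h5, h6, h7⟩ := hnj'
  exact ⟨c', c, h1, h3, fun v hv => h5 v ((pvds_mark0 (by norm_num) ht _ _).2 hv), fun v hv => (pvds_mark1 (by norm_num) ht _ _).1 (h6 v hv), h7⟩

end PvdsPar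

section main

variable [∀ Y : Set ℂ, DecidableEq ↥Y]

/-- **(D-J), strict form** -/
theorem pvagj_hJ_lt {P : PvdsPar} (hP : P.Wf) {u : ℝ} (hu : 0 < u) {Y : Set ℂ} (h : DelGood Y) {η : Conf PvPt} (hη : cfSites η = Y) {x : ℤ × ℤ} (hx : η ∉ P.SB u x) {en : ℕ} (hen : 12 ≤ en)
    (B : Set (delbPl Y).Dart) (e : (delbPl Y).Dart) (bcol : Bool) (blk : (delbPl Y).Dart → ℤ × ℤ) (hblk : ∀ d, blk d = pv5Blk (P.L * u) ((delbPl Y).toMap.src d : ℂ)) :
    (pvafCrs (pvafGam (delbPl Y).toMap B e (fun v => cfCol η v == bcol)).length (PvafIn (pvafGam (delbPl Y).toMap B e (fun v => cfCol η v == bcol)) blk x)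
      (PvafFar (pvafGam (delbPl Y).toMap B e (fun v => cfCol η v == bcol)) blk en x)).card < P.J := by
  have hL : (0 : ℝ) < P.L := by exact_mod_cast hP.L_pos
  have hℓ : 0 < (P.L : ℝ) * u := by positivity
  have key : ∀ Pl : PlTri ↥Y, Pl = delPl h → ∀ (B : Set Pl.Dart) (e : Pl.Dart) (blk : Pl.Dart → ℤ × ℤ), (∀ d, blk d = pv5Blk (P.L * u) (Pl.toMap.src d : ℂ)) →
      (pvafCrs (pvafGam Pl.toMap B e (fun v => cfCol η v == bcol)).length (PvafIn (pvafGam Pl.toMap B e (fun v => cfCol η v == bcol)) blk x)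
        (PvafFar (pvafGam Pl.toMap B e (fun v => cfCol η v == bcol)) blk en x)).card < P.J := by
    rintro Pl rfl B e blk hblk
    obtain ⟨c', c, hfin, hin, h0, h1, hno⟩ := hP.pvagj_cycles hu h hη hx
    by_contra hcon
    refine hno bcol (pvagj_cross_of_disj (pvaf_gam_crs_disj (dls_isSph h) hin B e (fun v => cfCol η v == bcol) blk (en := en) (by omega) x ?_ ?_ (not_lt.1 hcon)))
    · intro d _ hd
      rw [hblk] at hd
      exact ⟨d, h0 _ (pvagj_blk_near hℓ hd) d rfl, rfl⟩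
    · intro d _ hd hI
      have h2 : ‖(((delPl h).toMap.src d : ↥Y) : ℂ) - pv5Ctr (P.L * u) x‖ ≤ 5 * (2 * (P.L * u)) := h1 _ ⟨d, hI d rfl, rfl⟩
      have h3 : pv5Dist (pv5Blk (P.L * u) ((delPl h).toMap.src d : ℂ)) (pv5Blk (P.L * u) (pv5Ctr (P.L * u) x)) ≤ ((10 : ℕ) : ℤ) :=
        pvtd_blk_close hℓ (by push_cast; linarith)
      rw [pvtd_blk_ctr hℓ, pvtd_dist_comm, ← hblk] at h3
      push_cast at h3
      have : (12 : ℤ) ≤ en := by exact_mod_cast hen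
      linarith
  exact key _ (delb_pl_eq h) B e blk hblk

/-- **(D-J) = `hJ` OF `pvagm_DI` / `pvagb_DI` / `pvagt_DI` AT THE MODEL**: off the static bad block of 101 the path `Γ(χ_e)` of ANY chord has at most `P.J` minimal crossings from the block `x` to the outside of its `en`-enlargement, `12 ≤ en` -/
theorem pvagj_hJ {P : PvdsPar} (hP : P.Wf) {u : ℝ} (hu : 0 < u) {Y : Set ℂ} (h : DelGood Y) {η : Conf PvPt} (hη : cfSites η = Y) {x : ℤ × ℤ} (hx : η ∉ P.SB u x) {en : ℕ} (hen : 12 ≤ en)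
    (B : Set (delbPl Y).Dart) (e : (delbPl Y).Dart) (bcol : Bool) (blk : (delbPl Y).Dart → ℤ × ℤ) (hblk : ∀ d, blk d = pv5Blk (P.L * u) ((delbPl Y).toMap.src d : ℂ)) :
    (pvafCrs (pvafGam (delbPl Y).toMap B e (fun v => cfCol η v == bcol)).length (PvafIn (pvafGam (delbPl Y).toMap B e (fun v => cfCol η v == bcol)) blk x)
      (PvafFar (pvafGam (delbPl Y).toMap B e (fun v => cfCol η v == bcol)) blk en x)).card ≤ P.J :=
  (pvagj_hJ_lt hP hu h hη hx hen B e bcol blk hblk).le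

end main

end Claimed.Agent.R289
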