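import Claimed.Agent.R289.Arm.GateTr
import Claimed.Agent.R289.Arm.AdaptAB

/-!
# Row 289 (S0537, Cardy for Poisson-Voronoi), box ARM, block A6 = GATE DENSITY, file Arm/GateM : THE PACKAGE (DI)      (owner helper116, head of (D) by the cut of helper200; prefix `pvagm_`, defs `Pvagm…` / `pvagm…`)

Glue between  (D2) `pvagt_DI` of helper13 (`Arm/GateTr`: (DI) on two maps, plane + completion),  `PvaaBad` / `pvaa_hab_rims` of helper237 (`Arm/AdaptAB`: the adaptive bad blocks of the plane)  and the gates of record `PvgGate` (helper190).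

* sec. 1  THE SELECTION OF RECORD: `pvagmZc Ge cg en J e x s` (selected centres), `pvagmSel Ge a o cg en J e x s : Finset (PvaaTrial T)` (their `g` towers);   **`pvagm_sel_meas`** (= `hSel` of `pvaa_hab_rims`), `pvagm_sel_card`
* sec. 2  `pvagm_walk_get`, **`pvagm_Zc_near`** (a selected centre lies in a block at sup-distance `≤ en` of the block: steps of `Γ(χ_e)` move by at most one block),   **`pvagm_hnf`** : `¬ PvaaBad` ⟹ hypothesis `hnf` of `pvagt_DI`
* sec. 3  `pvagm_circ_gate` : a circuit with at most two black vertices is a `PvgGate`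
* sec. 4  **`pvagm_DI`** : (DI) on two maps from `¬ PvaaBad`, conclusion `PvgGate` IN THE PLANE between the discs of the trial
-/

set_option autoImplicit false
set_option linter.unusedSectionVars false
set_option linter.unusedVariables false

namespace Claimed.Agent.R289

/-! ## 1. the selection of record -/

section sel

variable {V D : Type} [DecidableEq V] {T : PvMap V D} {B : Set D} {Zs : Set (ℤ × ℤ)} {g : ℕ} {A M : ℕ → ℕ}

/-- **the selected centres of the block `x` for the chord of `e`**: the boxes of `Γ(χ_e)` at the first c-good times of its minimal crossings from the block `x` to the outside of its `en`-enlargement (`cg` = block of a box); none if there are more than `J` crossings -/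
noncomputable def pvagmZc (Ge : PvagaGeo T B Zs g A M) (cg : ℤ × ℤ → ℤ × ℤ) (en J : ℕ) (e : D) (x : ℤ × ℤ) (s : V → Bool) : Finset (ℤ × ℤ) :=
  pvafZc (pvafGam T B e s) (fun d => cg (Ge.box (T.src d))) (fun d => Ge.box (T.src d)) en J (fun z => z ∈ Zs ∧ Ge.Good s e z) x

open Classical in
/-- **THE SELECTION OF RECORD**: the towers of the `g` trials at the selected centres -/
noncomputable def pvagmSel (Ge : PvagaGeo T B Zs g A M) (a o : (ℤ × ℤ) × ℕ → ℕ → T.Cyc) (cg : ℤ × ℤ → ℤ × ℤ) (en J : ℕ) (e : D) (x : ℤ × ℤ) (s : V → Bool) : Finset (PvaaTrial T) :=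
  ((pvagmZc Ge cg en J e x s) ×ˢ Finset.range g).image fun zk => (a zk, o zk)

theorem pvagm_eqns_cite : True := by
  have := @pvagmZc.eq_1; have := @pvagmSel.eq_1
  trivial

/-- c-good is read off the explored chord -/
theorem pvagm_good_meas (hB : T.FaceSet B) (hfin : B.Finite) (Ge : PvagaGeo T B Zs g A M) {e : D} (he : e ∈ B) (he' : T.opp e ∉ B) :
    PvaMeas (pvasExpl T e Bᶜ) (fun s z => z ∈ Zs ∧ Ge.Good s e z) := by
  intro s s' hs
  funext z
  have : Ge.Good s' e z = Ge.Good s e z := by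
    unfold PvagaGeo.Good
    exact forall_congr fun k => forall_congr fun _ => pvaga_cg_meas hB hfin he he' _ _ _ _ s s' hs
  show (z ∈ Zs ∧ Ge.Good s' e z) = (z ∈ Zs ∧ Ge.Good s e z)
  rw [this]

theorem pvagm_Zc_meas (hB : T.FaceSet B) (hfin : B.Finite) (Ge : PvagaGeo T B Zs g A M) (cg : ℤ × ℤ → ℤ × ℤ) (en J : ℕ) {e : D} (he : e ∈ B) (he' : T.opp e ∉ B) (x : ℤ × ℤ) :
    PvaMeas (pvasExpl T e Bᶜ) (pvagmZc Ge cg en J e x) :=
  pva_meas_map2 (pvaf_gam_meas hB hfin he he') (pvagm_good_meas hB hfin Ge he he')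
    fun L Gd => pvafZc L (fun d => cg (Ge.box (T.src d))) (fun d => Ge.box (T.src d)) en J Gd x

/-- **the selection of record is a function of the explored chord** (= `hSel` of `pvaa_hab`, `pvaa_hab_rims`) -/
theorem pvagm_sel_meas (hB : T.FaceSet B) (hfin : B.Finite) (Ge : PvagaGeo T B Zs g A M) (a o : (ℤ × ℤ) × ℕ → ℕ → T.Cyc) (cg : ℤ × ℤ → ℤ × ℤ) (en J : ℕ) {e : D} (he : e ∈ B)
    (he' : T.opp e ∉ B) (x : ℤ × ℤ) : PvaMeas (pvasExpl T e Bᶜ) (pvagmSel Ge a o cg en J e x) := by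
  classical
  exact pva_meas_comp (pvagm_Zc_meas hB hfin Ge cg en J he he' x) fun Z => (Z ×ˢ Finset.range g).image fun zk => (a zk, o zk)

theorem pvagm_sel_card (Ge : PvagaGeo T B Zs g A M) (a o : (ℤ × ℤ) × ℕ → ℕ → T.Cyc) (cg : ℤ × ℤ → ℤ × ℤ) (en J : ℕ) (e : D) (x : ℤ × ℤ) (s : V → Bool) :
    (pvagmSel Ge a o cg en J e x s).card ≤ J * g := by
  classical
  unfold pvagmSel
  refine Finset.card_image_le.trans ?_
  rw [Finset.card_product, Finset.card_range]
  exact Nat.mul_le_mul_right g (pvaf_Zc_card _ _ _ _ _ _ _)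

theorem pvagm_mem_sel {Ge : PvagaGeo T B Zs g A M} {a o : (ℤ × ℤ) × ℕ → ℕ → T.Cyc} {cg : ℤ × ℤ → ℤ × ℤ} {en J : ℕ} {e : D} {x : ℤ × ℤ} {s : V → Bool} {z : ℤ × ℤ} {k : ℕ}
    (hz : z ∈ pvagmZc Ge cg en J e x s) (hk : k < g) : (a (z, k), o (z, k)) ∈ pvagmSel Ge a o cg en J e x s := by
  classical
  exact Finset.mem_image.2 ⟨(z, k), Finset.mem_product.2 ⟨hz, Finset.mem_range.2 hk⟩, rfl⟩

theorem pvagm_Zc_good {Ge : PvagaGeo T B Zs g A M} {cg : ℤ × ℤ → ℤ × ℤ} {en J : ℕ} {e : D} {x : ℤ × ℤ} {s : V → Bool} {z : ℤ × ℤ} (hz : z ∈ pvagmZc Ge cg en J e x s) :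
    z ∈ Zs ∧ Ge.Good s e z := pvaf_Zc_good (Good := fun z => z ∈ Zs ∧ Ge.Good s e z) hz

/-! ## 2. the selected centres are near the block;   `hnf` -/

/-- consecutive darts of a walk -/
theorem pvagm_walk_get : ∀ {L : List D} {u v : V}, pvtW T L u v → ∀ {t : ℕ} {d₀ d : D}, L[t]? = some d₀ → L[t + 1]? = some d → T.src d = T.tgt d₀
  | [], _, _, _, t, _, _, h0, _ => by simp at h0
  | [f], _, _, _, t, _, _, _, h1 => by simp at h1
  | f :: f' :: L, u, v, hw, 0, d₀, d, h0, h1 => by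
    simp only [List.getElem?_cons_zero, List.getElem?_cons_succ, Option.some.injEq, zero_add] at h0 h1
    subst h0 h1
    exact hw.2.1
  | f :: f' :: L, u, v, hw, t + 1, d₀, d, h0, h1 => by
    rw [List.getElem?_cons_succ] at h0 h1
    exact pvagm_walk_get hw.2 h0 h1

/-- **a selected centre lies in a block at sup-distance `≤ en` of the block `x`** -/
theorem pvagm_Zc_near {Ge : PvagaGeo T B Zs g A M} {cg : ℤ × ℤ → ℤ × ℤ} {en J : ℕ} (hen : 0 < en) {e : D} {x : ℤ × ℤ} {s : V → Bool}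
    (hstep : ∀ d ∈ pvafGam T B e s, pv5Dist (cg (Ge.box (T.src d))) (cg (Ge.box (T.tgt d))) ≤ 1) {z : ℤ × ℤ} (hz : z ∈ pvagmZc Ge cg en J e x s) : pv5Dist x (cg z) ≤ en := by
  obtain ⟨-, τ, hτ, d, hd, rfl⟩ := pvaf_mem_Zc.1 hz
  obtain ⟨i, j, hj, hm, hf⟩ := pvaf_mem_sel.1 hτ
  obtain ⟨hij, hIn, -, hmid⟩ := hm
  -- before the end of the crossing the distance is `< en`
  have hlt : ∀ t d', i ≤ t → t < j → (pvafGam T B e s)[t]? = some d' → pv5Dist x (cg (Ge.box (T.src d'))) < en := by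
    intro t d' h1 h2 h3
    rcases Nat.eq_or_lt_of_le h1 with rfl | h1'
    · obtain ⟨d'', h4, h5⟩ := hIn
      rw [h3] at h4
      obtain rfl := Option.some.inj h4
      have h5' : cg (Ge.box (T.src d')) = x := h5
      rw [h5', pv5_dist_self]
      exact_mod_cast hen
    · have := (hmid t h1' h2).2
      exact not_le.1 fun hc => this ⟨d', h3, hc⟩
  rcases Nat.eq_or_lt_of_le hf.2.1 with rfl | h2
  · obtain ⟨t, rfl⟩ : ∃ t, τ = t + 1 := ⟨τ - 1, by omega⟩
    have ht : t < (pvafGam T B e s).length := by omega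
    have h3 := hlt t _ (by omega) (by omega) (List.getElem?_eq_getElem ht)
    have h4 := pvagm_walk_get (pvaf_gam_path (T := T) (B := B) (s := s) e).1 (List.getElem?_eq_getElem ht) hd
    have h5 := hstep _ (List.getElem_mem ht)
    rw [← h4] at h5
    have h6 := pv5_dist_triangle x (cg (Ge.box (T.src (pvafGam T B e s)[t]))) (cg (Ge.box (T.src d)))
    show pv5Dist x (cg (Ge.box (T.src d))) ≤ en
    omega
  · exact (hlt τ d hf.1 h2 hd).le

/-- **`hnf` of `pvagt_DI` from `¬ PvaaBad`** for the selection of record -/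
theorem pvagm_hnf {pos : V → ℂ} {C0 : T.Cyc} (Ge : PvagaGeo T C0.Left Zs g A M) (a o : (ℤ × ℤ) × ℕ → ℕ → T.Cyc) {cg : ℤ × ℤ → ℤ × ℤ} {en J : ℕ} (hen : 0 < en) {ℓ : ℝ} {w mt N : ℕ} {q : ℝ}
    {s : V → Bool} {e : D} {x : ℤ × ℤ} (hbad : ¬ PvaaBad T pos C0 ℓ w mt N q (pvagmSel Ge a o cg en J) s e x) (hN : J * g ≤ N)
    (hadm : ∀ z ∈ Zs, pv5Dist x (cg z) ≤ en → ∀ k < g, PvaaAdm T pos C0 ℓ w mt q x (a (z, k), o (z, k)))
    (hstep : ∀ d ∈ pvafGam T C0.Left e s, pv5Dist (cg (Ge.box (T.src d))) (cg (Ge.box (T.tgt d))) ≤ 1) :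
    ∀ z ∈ pvagmZc Ge cg en J e x s, ∀ k < g, ¬ PvafFail T mt (a (z, k)) (o (z, k)) (↑(pvasExpl T e C0.Leftᶜ s))ᶜ true s := by
  intro z hz k hk hfail
  exact hbad ⟨(a (z, k), o (z, k)), pvaa_mem_Z (pvagm_mem_sel hz hk) (hadm z (pvagm_Zc_good hz).1 (pvagm_Zc_near hen hstep hz) k hk) ((pvagm_sel_card Ge a o cg en J e x s).trans hN), hfail⟩

end sel

/-! ## 3. circuits and gates -/

section gate

variable {V D : Type} {T : PvMap V D}

/-- a circuit with at most two black vertices between two discs is a two-site gate -/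
theorem pvagm_circ_gate (hT : T.IsSph) {s : V → Bool} {I O : Set D} {c'' : T.Cyc} (h2 : (c''.verts ∩ {v | s v = true}).ncard ≤ 2) (hI : I ⊆ c''.Left) (hO : c''.Left ⊆ O) :
    ∃ G X, PvgGate T s true I O G X := by
  classical
  have hfin : (c''.verts ∩ {v | s v = true}).Finite := (pvagt_verts_finite c'').subset Set.inter_subset_left
  refine ⟨c''.Left, hfin.toFinset, pl_left_face c'', hI, hO, ?_, fun v hv => ((Set.Finite.mem_toFinset hfin).1 hv).2, fun v hv => ?_⟩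
  · rw [← Set.ncard_eq_toFinset_card _ hfin]; exact h2
  · by_cases hb : s v = true
    · exact Or.inr ((Set.Finite.mem_toFinset hfin).2 ⟨pvagd_bdV hT c'' hv, hb⟩)
    · exact Or.inl hb

end gate

/-! ## 4. (DI) on two maps, from `¬ PvaaBad` -/

section di

variable {V D V' D' : Type} [DecidableEq V] [DecidableEq V'] {T : PvMap V D} {T' : PvMap V' D'} {G : Set D} {G' : Set D'} {r : D → D' → Prop} {rv : V → V' → Prop}
  {s : V → Bool} {s' : V' → Bool} {Zs : Set (ℤ × ℤ)} {g : ℕ} {A M : ℕ → ℕ}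

/-- **(DI), THE PACKAGE**.   `T` = the PLANE (geometry of record `Ge`, towers `a o`, chord of `e`, selection of record, adaptive bad blocks of helper237), `T'` = a COMPLETION (the closed rim `c`, the chord of `e'`).
A passage `j..j'` of the rim, carried by the chord of `e'`, from the block `b` to the outside of its `en`-enlargement;  at most `J` minimal crossings;  light cells;  the block is NOT adaptively bad for the chord of `e`.
Then the passage has a time `τ` with `g` two-site gates OF THE PLANE between the discs of the trials at the box of the rim. -/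
theorem pvagm_DI (I : PvdqIso T T' G G' r rv) (hc : ∀ v w, rv v w → s v = s' w) (hT : T.IsSph) (hT' : T'.IsSph) (hS' : T'.Simple)
    {C0 : T.Cyc} {C0' : T'.Cyc} (hC : PvdqCyc r C0 C0') (hC0G : C0.Left ⊆ G) (hfin : C0.Left.Finite)
    (Ge : PvagaGeo T C0.Left Zs g A M) (hkG : ∀ i Q b, (Ge.k0 i Q).Left ⊆ G ∧ (Ge.k1 i b).Left ⊆ G ∧ (Ge.k2 i b).Left ⊆ G)
    (box' : V' → ℤ × ℤ) (hbox : ∀ v w, rv v w → Ge.box v = box' w) (hdom : ∀ w, box' w ∈ Zs → ∃ d e, r d e ∧ T'.src e = w)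
    (n0 : ℕ) (hsc : ∀ i < 2 * g, 0 < A i ∧ 0 < M i ∧ (n0 + 4) * (M i * A i) ≤ A (i + 1))
    {c : T'.Cyc} (hP : PvafRim T' s' c) {e : D} {e' : D'} (hee : r e e') (he' : pvasIn T' C0'.Left s' e')
    {w j j' : ℕ} (hjj : j ≤ j') (hw : T'.opp (c.e w) ∉ C0'.Left) (hon : ∀ u, j ≤ u → u ≤ j' → PvafOn T' s' C0'.Left e' (c.e u))
    (hwalk : PvagWalk (fun u => box' (T'.src (c.e u))) j j') (hZ : ∀ u, j ≤ u → u ≤ j' → box' (T'.src (c.e u)) ∈ Zs)
    (cg : ℤ × ℤ → ℤ × ℤ) {en J : ℕ} (hen : 0 < en) {b : ℤ × ℤ}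
    (hcg : ∀ z z', cg z = b → (en : ℤ) ≤ pv5Dist b (cg z') → PvagFar (A (2 * g)) z z')
    (hj : cg (box' (T'.src (c.e j))) = b) (hj' : (en : ℤ) ≤ pv5Dist b (cg (box' (T'.src (c.e j')))))
    (hJ : (pvafCrs (pvafGam T C0.Left e s).length (PvafIn (pvafGam T C0.Left e s) (fun d => cg (Ge.box (T.src d))) b)
      (PvafFar (pvafGam T C0.Left e s) (fun d => cg (Ge.box (T.src d))) en b)).card ≤ J)
    (hlight : ∀ i < 2 * g, ∀ q, Pv5Chain n0 q → (∀ l ≤ n0, ∃ u, j ≤ u ∧ u ≤ j' ∧ q l = pvagCg (M i * A i) (box' (T'.src (c.e u)))) → ∃ l ≤ n0, PvagLight (M i) (Ge.F s i) (q l))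
    (mt : ℕ) (a o : (ℤ × ℤ) × ℕ → ℕ → T.Cyc)
    (htow : ∀ z ∈ Zs, ∀ k < g, ∀ l < mt, (Ge.c1 z k).Inside (a (z, k) l) ∧ (a (z, k) l).Inside (o (z, k) l) ∧ (o (z, k) l).Inside (Ge.c2 z k))
    {pos : V → ℂ} {ℓ : ℝ} {wd N : ℕ} {q : ℝ} (hbad : ¬ PvaaBad T pos C0 ℓ wd mt N q (pvagmSel Ge a o cg en J) s e b) (hN : J * g ≤ N)
    (hadm : ∀ z ∈ Zs, pv5Dist b (cg z) ≤ en → ∀ k < g, PvaaAdm T pos C0 ℓ wd mt q b (a (z, k), o (z, k)))
    (hstep : ∀ d ∈ pvafGam T C0.Left e s, pv5Dist (cg (Ge.box (T.src d))) (cg (Ge.box (T.tgt d))) ≤ 1) :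
    ∃ τ, j ≤ τ ∧ τ ≤ j' ∧ ∀ k < g, ∃ Gt X, PvgGate T s true (Ge.c0 (box' (T'.src (c.e τ))) k).Left (Ge.c3 (box' (T'.src (c.e τ))) k).Left Gt X := by
  obtain ⟨τ, h1, h2, h3⟩ := pvagt_DI I hc hT hT' hS' hC hC0G hfin Ge hkG box' hbox hdom n0 hsc hP hee he' hjj hw hon hwalk hZ cg hen hcg hj hj' hJ hlight mt a o htow
    (pvagm_hnf Ge a o hen hbad hN hadm hstep)
  refine ⟨τ, h1, h2, fun k hk => ?_⟩
  obtain ⟨c'', a1, a2, a3, -⟩ := h3 k hk
  exact pvagm_circ_gate hT a1 a2 a3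

end di

end Claimed.Agent.R289
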