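-- KEEP
import Claimed.Agent.R289.Arm.Dict
import Claimed.Agent.R289.Arm.Fresh
import Claimed.Agent.R289.Arm.GateA

/-!
# Row 289 (S0537, Cardy for Poisson-Voronoi), box ARM, block A6, file Arm/GateTr : THE ADAPTIVE LAYER UNDER A LOCAL ISOMORPHISM (plane map <-> completion)      (owner helper13; owner of A6 helper281; prefix `pvagt_`)

WHY.   A rim is a cycle only in a COMPLETION `𝔅.T Y`: `pvaf_L8`, `pvaf_hsel` (`Arm/Fresh`), `pvaga_DI` (`Arm/GateA`) live there.   The adaptive bad blocks (`PvaaBad`, `pvaa_hab_q` of 237) are ONE event for all the completions: they live on the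
Delaunay PLANE, with cycles chosen in the plane.   This file carries the chord, `Γ(χ_e)`, the selection and the failing trials across a local isomorphism `PvdqIso T T' G G' r rv` of helper33 (`Arm/Dict`; instance `pvdq_bulk`; symmetric: `.symm`).      0 sorry.

* sec. 1  model free: lists related by `List.Forall₂ r`: `pvagt_get`, `pvagt_ex`, `pvagt_in`, `pvagt_far`, `pvagt_gd`, **`pvagt_crs`** (same minimal crossings), **`pvagt_Zc`** (same selected centres)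
* sec. 2  **`pvagt_time`** (same exit time, related positions), `pvagt_bank`, `pvagt_mem_tgt`, `pvagt_aft`, `pvagt_le`, **`pvagt_gam`** (`Γ(χ_e)` is transferred), `pvagt_expl` (explored vertices), **`pvagt_fail`** (a trial which fails through the unexplored vertices)
* sec. 3  `pvagt_xp`, **`pvagt_cg`** ((CG) of `Arm/GateA`), `pvagt_fl` (flags `PvagaFl`), `pvagtC r c₀ c` (THE related cycle), `pvagt_C_spec`, `pvagt_buf`, **`pvagtGeo`** (the geometry of record `PvagaGeo` of the plane carried to the completion),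
          `pvagt_verts_finite`, `pvagt_ncard`, **`pvagt_DI`** = (DI) ON TWO MAPS: the rim and its chord in the completion `T'`; geometry, towers, minimal crossings, selection `pvafZc`, light cells, failing trials IN THE PLANE `T`;
          conclusion: a time of the passage with `g` gate circuits OF THE PLANE (at most two black vertices) round the box of the rim
* sec. 4  `pvagt_on`, `pvagt_on'` (carried darts `PvafOn`), `pvagt_K` (`PvaaK` of 237), **`pvagt_L8`** = L8 ON TWO MAPS: rim in the completion, entrances counted IN THE PLANE, the sub-arc is carried by ONE plane chord (twins of its darts)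
-/

set_option autoImplicit false
set_option linter.unusedSectionVars false
set_option linter.unusedVariables false

namespace Claimed.Agent.R289

open Relation

/-! ## 1. lists related by a relation: the selection is the same (model free) -/

section lists

variable {α α' κ : Type} {r : α → α' → Prop}

theorem pvagt_get {L : List α} {L' : List α'} (h : List.Forall₂ r L L') (t : ℕ) :
    (L[t]? = none ∧ L'[t]? = none) ∨ ∃ d d', L[t]? = some d ∧ L'[t]? = some d' ∧ r d d' := by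
  induction h generalizing t with
  | nil => exact Or.inl ⟨rfl, rfl⟩
  | @cons a b l l' hab _ ih =>
    cases t with
    | zero => exact Or.inr ⟨a, b, rfl, rfl, hab⟩
    | succ t => simpa using ih t

theorem pvagt_ex {L : List α} {L' : List α'} (h : List.Forall₂ r L L') (t : ℕ) {p : α → Prop} {p' : α' → Prop} (hp : ∀ d d', r d d' → (p d ↔ p' d')) :
    (∃ d, L[t]? = some d ∧ p d) ↔ ∃ d', L'[t]? = some d' ∧ p' d' := by
  rcases pvagt_get h t with ⟨h1, h2⟩ | ⟨d, d', h1, h2, hr⟩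
  · constructor
    · rintro ⟨x, hx, _⟩
      rw [h1] at hx; cases hx
    · rintro ⟨x, hx, _⟩
      rw [h2] at hx; cases hx
  · constructor
    · rintro ⟨x, hx, hbx⟩
      rw [h1] at hx; obtain rfl := Option.some.inj hx
      exact ⟨d', h2, (hp _ _ hr).1 hbx⟩
    · rintro ⟨x, hx, hbx⟩
      rw [h2] at hx; obtain rfl := Option.some.inj hx
      exact ⟨d, h1, (hp _ _ hr).2 hbx⟩

theorem pvagt_in {L : List α} {L' : List α'} (h : List.Forall₂ r L L') {blk : α → ℤ × ℤ} {blk' : α' → ℤ × ℤ} (hb : ∀ d d', r d d' → blk d = blk' d') (b : ℤ × ℤ) :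
    PvafIn L blk b = PvafIn L' blk' b := by
  funext t
  exact propext (pvagt_ex h t fun d d' hr => by rw [hb d d' hr])

theorem pvagt_far {L : List α} {L' : List α'} (h : List.Forall₂ r L L') {blk : α → ℤ × ℤ} {blk' : α' → ℤ × ℤ} (hb : ∀ d d', r d d' → blk d = blk' d') (en : ℕ) (b : ℤ × ℤ) :
    PvafFar L blk en b = PvafFar L' blk' en b := by
  funext t
  exact propext (pvagt_ex h t fun d d' hr => by rw [hb d d' hr])

theorem pvagt_gd {L : List α} {L' : List α'} (h : List.Forall₂ r L L') {box : α → κ} {box' : α' → κ} (hb : ∀ d d', r d d' → box d = box' d') {Good Good' : κ → Prop}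
    (hg : ∀ z, Good z ↔ Good' z) : PvafGd L box Good = PvafGd L' box' Good' := by
  funext _ _ t
  exact propext (pvagt_ex h t fun d d' hr => by rw [hb d d' hr]; exact hg _)

/-- **related lists have the same minimal crossings** -/
theorem pvagt_crs {L : List α} {L' : List α'} (h : List.Forall₂ r L L') {blk : α → ℤ × ℤ} {blk' : α' → ℤ × ℤ} (hb : ∀ d d', r d d' → blk d = blk' d') (en : ℕ) (b : ℤ × ℤ) :
    pvafCrs L.length (PvafIn L blk b) (PvafFar L blk en b) = pvafCrs L'.length (PvafIn L' blk' b) (PvafFar L' blk' en b) := by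
  rw [pvagt_in h hb, pvagt_far h hb, h.length_eq]

/-- **related lists have the same selected centres** -/
theorem pvagt_Zc {L : List α} {L' : List α'} (h : List.Forall₂ r L L') {blk : α → ℤ × ℤ} {blk' : α' → ℤ × ℤ} (hb : ∀ d d', r d d' → blk d = blk' d')
    {box : α → κ} {box' : α' → κ} (hx : ∀ d d', r d d' → box d = box' d') (en J : ℕ) {Good Good' : κ → Prop} (hg : ∀ z, Good z ↔ Good' z) (b : ℤ × ℤ) :
    pvafZc L blk box en J Good b = pvafZc L' blk' box' en J Good' b := by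
  ext z
  rw [pvaf_mem_Zc, pvaf_mem_Zc, pvagt_in h hb, pvagt_far h hb, pvagt_gd h hx hg, h.length_eq]
  exact and_congr_right fun _ => exists_congr fun τ => and_congr_right fun _ => pvagt_ex h τ fun d d' hr => by rw [hx d d' hr]

end lists

/-! ## 2. chords, bank walks, loop erasure under a local isomorphism -/

section iso

variable {V V' D D' : Type} [DecidableEq V] [DecidableEq V'] {T : PvMap V D} {T' : PvMap V' D'} {G : Set D} {G' : Set D'} {r : D → D' → Prop} {rv : V → V' → Prop}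
  {s : V → Bool} {s' : V' → Bool}

/-- **the chord**: same exit time, related positions -/
theorem pvagt_time (I : PvdqIso T T' G G' r rv) (hc : ∀ v w, rv v w → s v = s' w) {B : Set D} {B' : Set D'} (hBG : B ⊆ G) (hB : PvdqCor r B B') (hfs : T.FaceSet B) (hfin : B.Finite)
    {e : D} {e' : D'} (h : r e e') (he : pvasIn T B s e) :
    pvasTime T' e' B'ᶜ s' = pvasTime T e Bᶜ s ∧ ∀ i, i ≤ pvasTime T e Bᶜ s → r (pvasIt T s e i) (pvasIt T' s' e' i) := by
  obtain ⟨h1, h2⟩ := pvaf_time_spec hfs hfin he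
  have hit : ∀ i, i ≤ pvasTime T e Bᶜ s → r (pvasIt T s e i) (pvasIt T' s' e' i) := fun i hi =>
    pvdq_it I hc h i fun k hk => hBG (h1 k (lt_of_lt_of_le hk hi))
  refine ⟨?_, hit⟩
  rw [pvas_time_bw (pvdq_bw I hc h he.2.2)]
  refine pvas_hit_eq ?_ fun i hi => ?_
  · exact fun hm => h2 ((hB _ _ (hit _ le_rfl)).2 hm)
  · exact fun hm => hm ((hB _ _ (hit i hi.le)).1 (h1 i hi))

/-- related bank walks -/
theorem pvagt_bank (I : PvdqIso T T' G G' r rv) (hc : ∀ v w, rv v w → s v = s' w) :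
    ∀ (n : ℕ) (a : D) (a' : D'), r a a' → (∀ i, i < n → pvasIt T s a i ∈ G) → List.Forall₂ r (pvtBank T s a n) (pvtBank T' s' a' n) := by
  intro n
  induction n with
  | zero => intro a a' _ _; rw [pvt_s_bank_zero, pvt_s_bank_zero]; exact List.Forall₂.nil
  | succ n ih =>
    intro a a' h hG
    have haG : a ∈ G := hG 0 (Nat.succ_pos n)
    have hcol : s (T.apex a) = s' (T'.apex a') := hc _ _ (I.apex h haG)
    have hrec := ih (pvasStep T s a) (pvasStep T' s' a') (pvdq_step I hc h haG) (fun i hi => by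
      have := hG (i + 1) (Nat.succ_lt_succ hi)
      rwa [pvasIt, Function.iterate_succ_apply] at this)
    by_cases hb : s (T.apex a) = true
    · rw [pvt_s_bank_succ_black n hb, pvt_s_bank_succ_black n (hcol ▸ hb)]
      exact List.Forall₂.cons (I.rot h haG) hrec
    · rw [pvt_s_bank_succ_white n hb, pvt_s_bank_succ_white n (hcol ▸ hb)]
      exact hrec

/-- membership of a related vertex in the targets of related lists -/
theorem pvagt_mem_tgt (I : PvdqIso T T' G G' r rv) {l : List D} {l' : List D'} (h : List.Forall₂ r l l') {v : V} {w : V'} (hvw : rv v w) :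
    v ∈ l.map T.tgt ↔ w ∈ l'.map T'.tgt := by
  induction h with
  | nil => simp
  | @cons a b l l' hab _ ih =>
    rw [List.map_cons, List.map_cons, List.mem_cons, List.mem_cons, ih]
    refine or_congr ⟨fun e => ?_, fun e => ?_⟩ Iff.rfl
    · exact I.vfn hvw (e ▸ I.tgt hab)
    · exact I.vinj hvw (e ▸ I.tgt hab)

theorem pvagt_aft (I : PvdqIso T T' G G' r rv) {l : List D} {l' : List D'} (h : List.Forall₂ r l l') {v : V} {w : V'} (hvw : rv v w) :
    List.Forall₂ r (pvtAft T v l) (pvtAft T' w l') := by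
  induction h with
  | nil => exact List.Forall₂.nil
  | @cons a b l l' hab hl ih =>
    have hiff : T.tgt a = v ↔ T'.tgt b = w := ⟨fun e => I.vfn (e ▸ I.tgt hab) hvw, fun e => I.vinj (I.tgt hab) (e ▸ hvw)⟩
    by_cases ht : T.tgt a = v
    · rw [pvtAft, pvtAft, if_pos ht, if_pos (hiff.1 ht)]; exact hl
    · rw [pvtAft, pvtAft, if_neg ht, if_neg (fun e => ht (hiff.2 e))]; exact ih

/-- **the loop erasures of related walks are related** -/
theorem pvagt_le (I : PvdqIso T T' G G' r rv) {l : List D} {l' : List D'} (h : List.Forall₂ r l l') : List.Forall₂ r (pvtLE T l) (pvtLE T' l') := by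
  induction h with
  | nil => exact List.Forall₂.nil
  | @cons a b l l' hab _ ih =>
    have hiff := pvagt_mem_tgt I ih (I.src hab)
    by_cases hm : T.src a ∈ (pvtLE T l).map T.tgt
    · rw [pvt_s_le_cons_pos hm, pvt_s_le_cons_pos (hiff.1 hm)]
      exact pvagt_aft I ih (I.src hab)
    · rw [pvt_s_le_cons_neg hm, pvt_s_le_cons_neg (fun e => hm (hiff.2 e))]
      exact List.Forall₂.cons hab ih

/-- **`Γ(χ_e)` is transferred** -/
theorem pvagt_gam (I : PvdqIso T T' G G' r rv) (hc : ∀ v w, rv v w → s v = s' w) {B : Set D} {B' : Set D'} (hBG : B ⊆ G) (hB : PvdqCor r B B') (hfs : T.FaceSet B) (hfin : B.Finite)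
    {e : D} {e' : D'} (h : r e e') (he : pvasIn T B s e) : List.Forall₂ r (pvafGam T B e s) (pvafGam T' B' e' s') := by
  unfold pvafGam pvafBank
  rw [(pvagt_time I hc hBG hB hfs hfin h he).1]
  exact pvagt_le I (pvagt_bank I hc _ e e' h fun i hi => hBG ((pvaf_time_spec hfs hfin he).1 i hi))

/-- the explored vertices correspond -/
theorem pvagt_expl (I : PvdqIso T T' G G' r rv) (hc : ∀ v w, rv v w → s v = s' w) {B : Set D} {B' : Set D'} (hBG : B ⊆ G) (hB : PvdqCor r B B') (hfs : T.FaceSet B) (hfin : B.Finite)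
    {e : D} {e' : D'} (h : r e e') (he : pvasIn T B s e) {v : V} {w : V'} (hvw : rv v w) : v ∈ pvasExpl T e Bᶜ s ↔ w ∈ pvasExpl T' e' B'ᶜ s' := by
  obtain ⟨ht, hit⟩ := pvagt_time I hc hBG hB hfs hfin h he
  unfold pvasExpl
  rw [ht, pvas_mem_lay, pvas_mem_lay]
  constructor
  · rintro (⟨i, hi, rfl⟩ | ⟨i, hi, rfl⟩)
    · exact Or.inl ⟨i, hi, I.vfn (I.src (hit i hi)) hvw⟩
    · exact Or.inr ⟨i, hi, I.vfn (I.tgt (hit i hi)) hvw⟩
  · rintro (⟨i, hi, rfl⟩ | ⟨i, hi, rfl⟩)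
    · exact Or.inl ⟨i, hi, I.vinj (I.src (hit i hi)) hvw⟩
    · exact Or.inr ⟨i, hi, I.vinj (I.tgt (hit i hi)) hvw⟩

/-- **a trial which fails through the unexplored vertices is transferred** -/
theorem pvagt_fail (I : PvdqIso T T' G G' r rv) (hc : ∀ v w, rv v w → s v = s' w) {B : Set D} {B' : Set D'} (hBG : B ⊆ G) (hB : PvdqCor r B B') (hfs : T.FaceSet B) (hfin : B.Finite)
    {e : D} {e' : D'} (h : r e e') (he : pvasIn T B s e) {m : ℕ} {a o : ℕ → T.Cyc} {a' o' : ℕ → T'.Cyc} (ha : ∀ j < m, PvdqCyc r (a j) (a' j)) (ho : ∀ j < m, PvdqCyc r (o j) (o' j))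
    (haG : ∀ j < m, (a j).Left ⊆ G) (hoG : ∀ j < m, (o j).Left ⊆ G) {b : Bool}
    (hf : PvafFail T m a o (↑(pvasExpl T e Bᶜ s))ᶜ b s) : PvafFail T' m a' o' (↑(pvasExpl T' e' B'ᶜ s'))ᶜ b s' := fun j hj =>
  pvdq_cr I hc (ha j hj) (ho j hj) (haG j hj) (hoG j hj) (X := (↑(pvasExpl T e Bᶜ s))ᶜ) (X' := (↑(pvasExpl T' e' B'ᶜ s'))ᶜ)
    (fun v w hvw hv hw => hv (Finset.mem_coe.2 ((pvagt_expl I hc hBG hB hfs hfin h he hvw).2 (Finset.mem_coe.1 hw)))) (hf j hj)

end iso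

/-! ## 3. (CG), flags under a local isomorphism -/

section cg

variable {V V' D D' : Type} [DecidableEq V] [DecidableEq V'] {T : PvMap V D} {T' : PvMap V' D'} {G : Set D} {G' : Set D'} {r : D → D' → Prop} {rv : V → V' → Prop}
  {s : V → Bool} {s' : V' → Bool}

/-- a crossing piece is transferred -/
theorem pvagt_xp (I : PvdqIso T T' G G' r rv) {e : D} {e' : D'} {N : ℕ} (hit : ∀ i, i ≤ N → r (pvasIt T s e i) (pvasIt T' s' e' i)) {c₁ c₂ : T.Cyc} {c₁' c₂' : T'.Cyc}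
    (h₁ : PvdqCor r c₁.Left c₁'.Left) (h₂ : PvdqCor r c₂.Left c₂'.Left) {i j : ℕ} (hj : j ≤ N) (h : PvagaXp T s e c₁ c₂ i j) : PvagaXp T' s' e' c₁' c₂' i j := by
  obtain ⟨hij, hann, hends⟩ := h
  have hA : PvdqCor r (c₁.Ann c₂) (c₁'.Ann c₂') := h₂.diff h₁
  refine ⟨hij, fun k hk1 hk2 => (hA _ _ (hit k (by omega))).1 (hann k hk1 hk2), ?_⟩
  have hi := hit i (by omega)
  have hjj := hit j hj
  rcases hends with ⟨a1, a2⟩ | ⟨a1, a2⟩
  · exact Or.inl ⟨fun hm => a1 ((h₂ _ _ (I.opp hi)).2 hm), (h₁ _ _ hjj).1 a2⟩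
  · exact Or.inr ⟨(h₁ _ _ (I.opp hi)).1 a1, fun hm => a2 ((h₂ _ _ hjj).2 hm)⟩

/-- **(CG) is transferred** -/
theorem pvagt_cg (I : PvdqIso T T' G G' r rv) {e : D} {e' : D'} {N : ℕ} (hit : ∀ i, i ≤ N → r (pvasIt T s e i) (pvasIt T' s' e' i)) {c0 c1 c2 c3 : T.Cyc} {c0' c1' c2' c3' : T'.Cyc}
    (h0 : PvdqCor r c0.Left c0'.Left) (h1 : PvdqCor r c1.Left c1'.Left) (h2 : PvdqCor r c2.Left c2'.Left) (h3 : PvdqCor r c3.Left c3'.Left)
    (h : PvagaCG T s e N c0 c1 c2 c3) : PvagaCG T' s' e' N c0' c1' c2' c3' := by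
  obtain ⟨i1, j1, i2, j2, a1, a2, x1, x2, hall⟩ := h
  refine ⟨i1, j1, i2, j2, a1, a2, pvagt_xp I hit h0 h3 a1 x1, pvagt_xp I hit h0 h3 a2 x2, fun k hk hm => hall k hk ?_⟩
  exact ((h2.diff h1) _ _ (hit k hk.le)).2 hm

/-- **flags are transferred** -/
theorem pvagt_fl (I : PvdqIso T T' G G' r rv) (hc : ∀ v w, rv v w → s v = s' w) {k0 k1 k2 : T.Cyc} {k0' k1' k2' : T'.Cyc}
    (h0 : PvdqCyc r k0 k0') (h1 : PvdqCyc r k1 k1') (h2 : PvdqCyc r k2 k2') (hG0 : k0.Left ⊆ G) (hG1 : k1.Left ⊆ G) (hG2 : k2.Left ⊆ G)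
    (h : PvagaFl T s k0 k1 k2) : PvagaFl T' s' k0' k1' k2' := by
  rcases h with ⟨x, x2, x4, n1, n2, n4, hcfg⟩ | ⟨x, x2, x4, n1, n2, n4, hcfg⟩
  · obtain ⟨x', x2', x4', h', -⟩ := pvdq_cfg I hc h0 h1 h2 hG0 hG1 hG2 hcfg
    exact Or.inl ⟨x', x2', x4', n1, n2, n4, h'⟩
  · obtain ⟨x', x2', x4', h', -⟩ := pvdq_cfg I (pvdq_not hc) h0 h1 h2 hG0 hG1 hG2 hcfg
    exact Or.inr ⟨x', x2', x4', n1, n2, n4, h'⟩

open Classical in
/-- the cycle of `T'` related to a cycle of `T` (a default cycle if there is none) -/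
noncomputable def pvagtC (r : D → D' → Prop) (c₀ : T'.Cyc) (c : T.Cyc) : T'.Cyc := if h : ∃ c' : T'.Cyc, PvdqCyc r c c' then h.choose else c₀

theorem pvagt_eqns_cite : True := by
  have := @pvagtC.eq_1
  trivial

theorem pvagt_C_spec (I : PvdqIso T T' G G' r rv) (hT : T.IsSph) (c₀ : T'.Cyc) {c : T.Cyc} (hG : c.Left ⊆ G) : PvdqCyc r c (pvagtC r c₀ c) := by
  have h : ∃ c' : T'.Cyc, PvdqCyc r c c' := pvdq_cyc I c fun i => Or.inl (hG ((pl_jordan hT c).2.1 i))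
  unfold pvagtC
  rw [dif_pos h]
  exact h.choose_spec

theorem pvagt_buf (I : PvdqIso T T' G G' r rv) (hT' : T'.IsSph) {cin cout k0 k1 k2 : T.Cyc} {cin' cout' k0' k1' k2' : T'.Cyc}
    (hi : PvdqCyc r cin cin') (ho : PvdqCyc r cout cout') (h0 : PvdqCyc r k0 k0') (h1 : PvdqCyc r k1 k1') (h2 : PvdqCyc r k2 k2') (hG : cout.Left ⊆ G)
    (h : PvagaBuf T cin cout k0 k1 k2) : PvagaBuf T' cin' cout' k0' k1' k2' := by
  obtain ⟨a1, a2, a3, a4⟩ := h
  have g0 : k0.Left ⊆ G := a4.trans hG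
  have g2 : k2.Left ⊆ G := a3.2.trans g0
  have g1 : k1.Left ⊆ G := a2.2.trans g2
  exact ⟨pvdq_left_mono I hi h1 g1 a1, pvdq_inside I hT' h1 h2 g2 a2, pvdq_inside I hT' h2 h0 g0 a3, pvdq_left_mono I h0 ho hG a4⟩

variable {Zs : Set (ℤ × ℤ)} {g : ℕ} {A M : ℕ → ℕ}

/-- **the geometry of record is transferred**: the related cycles, the boxes of the vertices of `T'` -/
noncomputable def pvagtGeo (I : PvdqIso T T' G G' r rv) (hT : T.IsSph) (hT' : T'.IsSph) {C0 : T.Cyc} {C0' : T'.Cyc} (hC : PvdqCyc r C0 C0') (hC0G : C0.Left ⊆ G)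
    (Ge : PvagaGeo T C0.Left Zs g A M) (box' : V' → ℤ × ℤ) (hbox : ∀ v w, rv v w → Ge.box v = box' w) (hdom : ∀ w, box' w ∈ Zs → ∃ d e, r d e ∧ T'.src e = w) :
    PvagaGeo T' C0'.Left Zs g A M where
  box := box'
  c0 z k := pvagtC r C0' (Ge.c0 z k)
  c1 z k := pvagtC r C0' (Ge.c1 z k)
  c2 z k := pvagtC r C0' (Ge.c2 z k)
  c3 z k := pvagtC r C0' (Ge.c3 z k)
  k0 i Q := pvagtC r C0' (Ge.k0 i Q)
  k1 i b := pvagtC r C0' (Ge.k1 i b)
  k2 i b := pvagtC r C0' (Ge.k2 i b)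
  h01 z hz k hk := by
    have g3 : (Ge.c3 z k).Left ⊆ G := (Ge.h3B z hz k hk).trans hC0G
    have g2 : (Ge.c2 z k).Left ⊆ G := (Ge.h23 z hz k hk).2.trans g3
    have g1 : (Ge.c1 z k).Left ⊆ G := (Ge.h12 z hz k hk).2.trans g2
    have g0 : (Ge.c0 z k).Left ⊆ G := (Ge.h01 z hz k hk).2.trans g1
    exact pvdq_inside I hT' (pvagt_C_spec I hT C0' g0) (pvagt_C_spec I hT C0' g1) g1 (Ge.h01 z hz k hk)
  h12 z hz k hk := by
    have g3 : (Ge.c3 z k).Left ⊆ G := (Ge.h3B z hz k hk).trans hC0G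
    have g2 : (Ge.c2 z k).Left ⊆ G := (Ge.h23 z hz k hk).2.trans g3
    have g1 : (Ge.c1 z k).Left ⊆ G := (Ge.h12 z hz k hk).2.trans g2
    exact pvdq_inside I hT' (pvagt_C_spec I hT C0' g1) (pvagt_C_spec I hT C0' g2) g2 (Ge.h12 z hz k hk)
  h23 z hz k hk := by
    have g3 : (Ge.c3 z k).Left ⊆ G := (Ge.h3B z hz k hk).trans hC0G
    have g2 : (Ge.c2 z k).Left ⊆ G := (Ge.h23 z hz k hk).2.trans g3
    exact pvdq_inside I hT' (pvagt_C_spec I hT C0' g2) (pvagt_C_spec I hT C0' g3) g3 (Ge.h23 z hz k hk)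
  h3B z hz k hk := by
    have g3 : (Ge.c3 z k).Left ⊆ G := (Ge.h3B z hz k hk).trans hC0G
    exact pvdq_left_mono I (pvagt_C_spec I hT C0' g3) hC hC0G (Ge.h3B z hz k hk)
  hin z hz k hk w hw := by
    have g3 : (Ge.c3 z k).Left ⊆ G := (Ge.h3B z hz k hk).trans hC0G
    have g2 : (Ge.c2 z k).Left ⊆ G := (Ge.h23 z hz k hk).2.trans g3
    have g1 : (Ge.c1 z k).Left ⊆ G := (Ge.h12 z hz k hk).2.trans g2
    have g0 : (Ge.c0 z k).Left ⊆ G := (Ge.h01 z hz k hk).2.trans g1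
    obtain ⟨d, e, hde, rfl⟩ := hdom w (hw ▸ hz)
    have h1 : T.src d ∈ T.Int (Ge.c0 z k).Left := Ge.hin z hz k hk _ ((hbox _ _ (I.src hde)).trans hw)
    exact pvdq_int I hT' g0 (pvdq_left I (pvagt_C_spec I hT C0' g0) g0) hde h1
  buf z hz k hk Q b h1 h2 := by
    have hb := Ge.buf z hz k hk Q b h1 h2
    have g3 : (Ge.c3 z k).Left ⊆ G := (Ge.h3B z hz k hk).trans hC0G
    have g2 : (Ge.c2 z k).Left ⊆ G := (Ge.h23 z hz k hk).2.trans g3
    have g1 : (Ge.c1 z k).Left ⊆ G := (Ge.h12 z hz k hk).2.trans g2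
    have g0 : (Ge.c0 z k).Left ⊆ G := (Ge.h01 z hz k hk).2.trans g1
    have k0G : (Ge.k0 (2 * k) Q).Left ⊆ G := hb.2.2.2.trans g1
    have k2G : (Ge.k2 (2 * k) b).Left ⊆ G := hb.2.2.1.2.trans k0G
    have k1G : (Ge.k1 (2 * k) b).Left ⊆ G := hb.2.1.2.trans k2G
    exact pvagt_buf I hT' (pvagt_C_spec I hT C0' g0) (pvagt_C_spec I hT C0' g1) (pvagt_C_spec I hT C0' k0G) (pvagt_C_spec I hT C0' k1G) (pvagt_C_spec I hT C0' k2G) g1 hb
  buf' z hz k hk Q b h1 h2 := by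
    have hb := Ge.buf' z hz k hk Q b h1 h2
    have g3 : (Ge.c3 z k).Left ⊆ G := (Ge.h3B z hz k hk).trans hC0G
    have g2 : (Ge.c2 z k).Left ⊆ G := (Ge.h23 z hz k hk).2.trans g3
    have k0G : (Ge.k0 (2 * k + 1) Q).Left ⊆ G := hb.2.2.2.trans g3
    have k2G : (Ge.k2 (2 * k + 1) b).Left ⊆ G := hb.2.2.1.2.trans k0G
    have k1G : (Ge.k1 (2 * k + 1) b).Left ⊆ G := hb.2.1.2.trans k2G
    exact pvagt_buf I hT' (pvagt_C_spec I hT C0' g2) (pvagt_C_spec I hT C0' g3) (pvagt_C_spec I hT C0' k0G) (pvagt_C_spec I hT C0' k1G) (pvagt_C_spec I hT C0' k2G) g3 hb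

theorem pvagt_eqns_cite2 : True := by
  have := @pvagtGeo.eq_1
  trivial

/-- the vertices of a cycle are finitely many -/
theorem pvagt_verts_finite (c : T.Cyc) : c.verts.Finite := by
  refine ((Set.finite_lt_nat c.n).image fun i => T.src (c.e i)).subset ?_
  rintro v ⟨i, rfl⟩
  exact ⟨i % c.n, Nat.mod_lt _ (lt_of_lt_of_le (by norm_num) c.three), by show T.src (c.e (i % c.n)) = _; rw [pl_cyc_mod]⟩

/-- counting along an injective relation -/
theorem pvagt_ncard {α β : Type} {R : α → β → Prop} (hinj : ∀ a a' b, R a b → R a' b → a = a') {S : Set α} {S' : Set β} (hS' : S'.Finite) (h : ∀ a ∈ S, ∃ b ∈ S', R a b) :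
    S.ncard ≤ S'.ncard := by
  classical
  rcases S.eq_empty_or_nonempty with rfl | ⟨a₀, ha₀⟩
  · simp
  have : Nonempty β := ⟨(h a₀ ha₀).choose⟩
  choose! f hf using h
  exact Set.ncard_le_ncard_of_injOn f (fun a ha => (hf a ha).1) (fun a ha a' ha' e => hinj a a' (f a) (hf a ha).2 (e ▸ (hf a' ha').2)) hS'

/-- **(DI) ON TWO MAPS**.   `T` = the PLANE (geometry of record `Ge`, towers `a o`, chord of `e`, selection, failing trials), `T'` = a COMPLETION (the rim `c`, the chord of `e'`), `I` a local isomorphism over `C0.Left`.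
A passage `j..j'` of the rim, carried by the chord of `e'`, from the block `b` to the outside of its enlargement;  the plane chord has at most `J` minimal crossings;  light cells for the PLANE flags;
no trial selected IN THE PLANE fails through the vertices which the PLANE chord has not explored.   Then the passage has a time `τ` with `g` gate circuits OF THE PLANE round the box of the rim. -/
theorem pvagt_DI (I : PvdqIso T T' G G' r rv) (hc : ∀ v w, rv v w → s v = s' w) (hT : T.IsSph) (hT' : T'.IsSph) (hS' : T'.Simple)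
    {C0 : T.Cyc} {C0' : T'.Cyc} (hC : PvdqCyc r C0 C0') (hC0G : C0.Left ⊆ G) (hfin : C0.Left.Finite)
    (Ge : PvagaGeo T C0.Left Zs g A M) (hkG : ∀ i Q b, (Ge.k0 i Q).Left ⊆ G ∧ (Ge.k1 i b).Left ⊆ G ∧ (Ge.k2 i b).Left ⊆ G)
    (box' : V' → ℤ × ℤ) (hbox : ∀ v w, rv v w → Ge.box v = box' w) (hdom : ∀ w, box' w ∈ Zs → ∃ d e, r d e ∧ T'.src e = w)
    (n0 : ℕ) (hsc : ∀ i < 2 * g, 0 < A i ∧ 0 < M i ∧ (n0 + 4) * (M i * A i) ≤ A (i + 1))
    {c : T'.Cyc} (hP : PvafRim T' s' c) {e : D} {e' : D'} (hee : r e e') (he' : pvasIn T' C0'.Left s' e')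
    {w j j' : ℕ} (hjj : j ≤ j') (hw : T'.opp (c.e w) ∉ C0'.Left) (hon : ∀ u, j ≤ u → u ≤ j' → PvafOn T' s' C0'.Left e' (c.e u))
    (hwalk : PvagWalk (fun u => box' (T'.src (c.e u))) j j') (hZ : ∀ u, j ≤ u → u ≤ j' → box' (T'.src (c.e u)) ∈ Zs)
    (cg : ℤ × ℤ → ℤ × ℤ) {en J : ℕ} (hen : 0 < en) {b : ℤ × ℤ}
    (hcg : ∀ z z', cg z = b → (en : ℤ) ≤ pv5Dist b (cg z') → PvagFar (A (2 * g)) z z')
    (hj : cg (box' (T'.src (c.e j))) = b) (hj' : (en : ℤ) ≤ pv5Dist b (cg (box' (T'.src (c.e j')))))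
    (hJ : (pvafCrs (pvafGam T C0.Left e s).length (PvafIn (pvafGam T C0.Left e s) (fun d => cg (Ge.box (T.src d))) b)
      (PvafFar (pvafGam T C0.Left e s) (fun d => cg (Ge.box (T.src d))) en b)).card ≤ J)
    (hlight : ∀ i < 2 * g, ∀ q, Pv5Chain n0 q → (∀ l ≤ n0, ∃ u, j ≤ u ∧ u ≤ j' ∧ q l = pvagCg (M i * A i) (box' (T'.src (c.e u)))) → ∃ l ≤ n0, PvagLight (M i) (Ge.F s i) (q l))
    (m : ℕ) (a o : (ℤ × ℤ) × ℕ → ℕ → T.Cyc)
    (htow : ∀ z ∈ Zs, ∀ k < g, ∀ l < m, (Ge.c1 z k).Inside (a (z, k) l) ∧ (a (z, k) l).Inside (o (z, k) l) ∧ (o (z, k) l).Inside (Ge.c2 z k))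
    (hnf : ∀ z ∈ pvafZc (pvafGam T C0.Left e s) (fun d => cg (Ge.box (T.src d))) (fun d => Ge.box (T.src d)) en J (fun z => z ∈ Zs ∧ Ge.Good s e z) b, ∀ k < g,
      ¬ PvafFail T m (a (z, k)) (o (z, k)) (↑(pvasExpl T e C0.Leftᶜ s))ᶜ true s) :
    ∃ τ, j ≤ τ ∧ τ ≤ j' ∧ ∀ k < g, ∃ c'' : T.Cyc, (c''.verts ∩ {v | s v = true}).ncard ≤ 2 ∧
      (Ge.c0 (box' (T'.src (c.e τ))) k).Left ⊆ c''.Left ∧ c''.Left ⊆ (Ge.c3 (box' (T'.src (c.e τ))) k).Left ∧
      ∀ i, c''.e i ∈ (Ge.c0 (box' (T'.src (c.e τ))) k).Ann (Ge.c3 (box' (T'.src (c.e τ))) k) ∨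
        T.opp (c''.e i) ∈ (Ge.c0 (box' (T'.src (c.e τ))) k).Ann (Ge.c3 (box' (T'.src (c.e τ))) k) := by
  have hc' : ∀ w v, rv v w → s' w = s v := fun w v h => (hc v w h).symm
  have hB : PvdqCor r C0.Left C0'.Left := pvdq_left I hC hC0G
  have hB'G : C0'.Left ⊆ G' := pvdq_left_sub I hC hC0G
  have hfin' : C0'.Left.Finite := pvdq_left_fin I hC hC0G hfin
  have hfs := pl_left_face C0
  have hfs' := pl_left_face C0'
  have he : pvasIn T C0.Left s e := pvdq_in I.symm hc' hB.symm hee he'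
  obtain ⟨ht, hit⟩ := pvagt_time I hc hC0G hB hfs hfin hee he
  have hGam := pvagt_gam I hc hC0G hB hfs hfin hee he
  set Gc := pvagtGeo I hT hT' hC hC0G Ge box' hbox hdom with hGc
  -- the cycles of the trials
  have gc : ∀ z ∈ Zs, ∀ k < g, (Ge.c0 z k).Left ⊆ G ∧ (Ge.c1 z k).Left ⊆ G ∧ (Ge.c2 z k).Left ⊆ G ∧ (Ge.c3 z k).Left ⊆ G := by
    intro z hz k hk
    have g3 : (Ge.c3 z k).Left ⊆ G := (Ge.h3B z hz k hk).trans hC0G
    have g2 : (Ge.c2 z k).Left ⊆ G := (Ge.h23 z hz k hk).2.trans g3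
    have g1 : (Ge.c1 z k).Left ⊆ G := (Ge.h12 z hz k hk).2.trans g2
    exact ⟨(Ge.h01 z hz k hk).2.trans g1, g1, g2, g3⟩
  have spec : ∀ {x : T.Cyc}, x.Left ⊆ G → PvdqCyc r x (pvagtC r C0' x) := fun hx => pvagt_C_spec I hT C0' hx
  -- good centres
  have hgood : ∀ z, (z ∈ Zs ∧ Ge.Good s e z) ↔ (z ∈ Zs ∧ Gc.Good s' e' z) := by
    intro z
    refine and_congr_right fun hz => ⟨fun h k hk => ?_, fun h k hk => ?_⟩
    · obtain ⟨g0, g1, g2, g3⟩ := gc z hz k hk
      have := pvagt_cg I hit (pvdq_left I (spec g0) g0) (pvdq_left I (spec g1) g1) (pvdq_left I (spec g2) g2) (pvdq_left I (spec g3) g3) (h k hk)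
      rw [← ht] at this
      exact this
    · obtain ⟨g0, g1, g2, g3⟩ := gc z hz k hk
      have h1 := h k hk
      rw [ht] at h1
      exact pvagt_cg I.symm (fun i hi => hit i hi) (pvdq_left I (spec g0) g0).symm (pvdq_left I (spec g1) g1).symm (pvdq_left I (spec g2) g2).symm
        (pvdq_left I (spec g3) g3).symm h1
  have hbx : ∀ d d', r d d' → Ge.box (T.src d) = box' (T'.src d') := fun d d' h => hbox _ _ (I.src h)
  have hbk : ∀ d d', r d d' → cg (Ge.box (T.src d)) = cg (box' (T'.src d')) := fun d d' h => by rw [hbx d d' h]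
  have hJ' : (pvafCrs (pvafGam T' C0'.Left e' s').length (PvafIn (pvafGam T' C0'.Left e' s') (fun d => cg (box' (T'.src d))) b)
      (PvafFar (pvafGam T' C0'.Left e' s') (fun d => cg (box' (T'.src d))) en b)).card ≤ J := by
    rw [← pvagt_crs hGam hbk en b]; exact hJ
  have hZc := pvagt_Zc hGam hbk hbx en J hgood b
  obtain ⟨i, i', h1, h2, h3, hbi, hbi', -, hsel⟩ := pvaf_hsel hT' hS' hfs' hfin' hP he' hjj hw hon (fun d => cg (box' (T'.src d))) (fun d => box' (T'.src d)) hen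
    (fun z => z ∈ Zs ∧ Gc.Good s' e' z) hJ' hj hj'
  rw [← hZc] at hsel
  -- the towers
  have gt : ∀ z ∈ Zs, ∀ k < g, ∀ l < m, (a (z, k) l).Left ⊆ G ∧ (o (z, k) l).Left ⊆ G := by
    intro z hz k hk l hl
    obtain ⟨-, t2, t3⟩ := htow z hz k hk l hl
    have go : (o (z, k) l).Left ⊆ G := t3.2.trans (gc z hz k hk).2.2.1
    exact ⟨t2.2.trans go, go⟩
  obtain ⟨τ, hτ1, hτ2, hgate⟩ := pvaga_DI hT' hS' hfs' hfin' Gc n0 hsc hP he' h2.le hw (fun u a1 a2 => hon u (by omega) (by omega))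
    (fun u a1 a2 => hwalk u (by omega) (by omega)) (fun u a1 a2 => hZ u (by omega) (by omega)) (hcg _ _ hbi hbi')
    (fun lv hlv q hq hvis => by
      obtain ⟨l, hl, hL⟩ := hlight lv hlv q hq fun l hl => by
        obtain ⟨u, a1, a2, a3⟩ := hvis l hl
        exact ⟨u, by omega, by omega, a3⟩
      refine ⟨l, hl, fun Bf hBf => hL Bf fun x hx => ⟨?_, (hBf x hx).2⟩⟩
      obtain ⟨k0G, k1G, k2G⟩ := hkG lv (q l) x
      exact pvagt_fl I.symm hc' (spec k0G).symm (spec k1G).symm (spec k2G).symm (pvdq_left_sub I (spec k0G) k0G) (pvdq_left_sub I (spec k1G) k1G)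
        (pvdq_left_sub I (spec k2G) k2G) (hBf x hx).1)
    (pvafZc (pvafGam T C0.Left e s) (fun d => cg (Ge.box (T.src d))) (fun d => Ge.box (T.src d)) en J (fun z => z ∈ Zs ∧ Ge.Good s e z) b)
    (fun ⟨τ, a1, a2, a3⟩ => by
      obtain ⟨τ', b1, b2, b3, b4⟩ := hsel ⟨τ, a1, a2, hZ τ (by omega) (by omega), a3⟩
      exact ⟨τ', b1, b2, b3.2, b4⟩)
    m (fun zk l => pvagtC r C0' (a zk l)) (fun zk l => pvagtC r C0' (o zk l))
    (fun z hz k hk l hl => by
      obtain ⟨t1, t2, t3⟩ := htow z hz k hk l hl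
      obtain ⟨ga, go⟩ := gt z hz k hk l hl
      obtain ⟨-, g1, g2, -⟩ := gc z hz k hk
      exact ⟨pvdq_inside I hT' (spec g1) (spec ga) ga t1, pvdq_inside I hT' (spec ga) (spec go) go t2, pvdq_inside I hT' (spec go) (spec g2) g2 t3⟩)
    (X := (↑(pvasExpl T' e' C0'.Leftᶜ s'))ᶜ) (fun v _ hv => Finset.mem_coe.1 (not_not.1 hv))
    (fun z hz k hk hf => by
      have hzs : z ∈ Zs := (pvaf_Zc_good hz).1
      refine hnf z hz k hk (pvagt_fail I.symm hc' hB'G hB.symm hfs' hfin' hee he' (fun l hl => (spec (gt z hzs k hk l hl).1).symm) (fun l hl => (spec (gt z hzs k hk l hl).2).symm)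
        (fun l hl => pvdq_left_sub I (spec (gt z hzs k hk l hl).1) (gt z hzs k hk l hl).1) (fun l hl => pvdq_left_sub I (spec (gt z hzs k hk l hl).2) (gt z hzs k hk l hl).2) hf))
  refine ⟨τ, by omega, by omega, fun k hk => ?_⟩
  have hz : box' (T'.src (c.e τ)) ∈ Zs := hZ τ (by omega) (by omega)
  obtain ⟨g0, -, -, g3⟩ := gc _ hz k hk
  obtain ⟨c'', n2, l1, l2, l3⟩ := hgate k hk
  have l1' : (pvagtC r C0' (Ge.c0 (box' (T'.src (c.e τ))) k)).Left ⊆ c''.Left := l1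
  have l2' : c''.Left ⊆ (pvagtC r C0' (Ge.c3 (box' (T'.src (c.e τ))) k)).Left := l2
  have hc''G : c''.Left ⊆ G' := l2'.trans (pvdq_left_sub I (spec g3) g3)
  obtain ⟨cp, hcp⟩ := pvdq_cyc I.symm c'' fun i => Or.inl (hc''G ((pl_jordan hT' c'').2.1 i))
  have hcp' : PvdqCyc r cp c'' := ⟨hcp.1.symm, hcp.2⟩
  refine ⟨cp, ?_, pvdq_left_mono I.symm (spec g0).symm hcp hc''G l1', pvdq_left_mono I.symm hcp (spec g3).symm (pvdq_left_sub I (spec g3) g3) l2', fun i => ?_⟩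
  · refine le_trans (pvagt_ncard (R := rv) (fun a a' b h h' => I.vinj h h') ((pvagt_verts_finite c'').subset Set.inter_subset_left) ?_) n2
    rintro v ⟨⟨i, rfl⟩, hv⟩
    have hr := I.src (hcp'.2 i)
    exact ⟨_, ⟨⟨i, rfl⟩, by show s' _ = true; rw [← hc _ _ hr]; exact hv⟩, hr⟩
  · have hA := pvdq_ann I (spec g0) (spec g3) g0 g3
    rcases l3 i with h | h
    · exact Or.inl ((hA _ _ (hcp'.2 i)).2 h)
    · exact Or.inr ((hA _ _ (I.opp (hcp'.2 i))).2 h)

end cg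

/-! ## 4. carried darts, reaching chords, L8 with its conclusion in the plane -/

section split

variable {V V' D D' : Type} [DecidableEq V] [DecidableEq V'] {T : PvMap V D} {T' : PvMap V' D'} {G : Set D} {G' : Set D'} {r : D → D' → Prop} {rv : V → V' → Prop}
  {s : V → Bool} {s' : V' → Bool}

/-- **a carried dart is transferred** -/
theorem pvagt_on (I : PvdqIso T T' G G' r rv) (hc : ∀ v w, rv v w → s v = s' w) {B : Set D} {B' : Set D'} (hBG : B ⊆ G) (hB : PvdqCor r B B') (hfs : T.FaceSet B) (hfin : B.Finite)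
    {e : D} {e' : D'} (h : r e e') (he : pvasIn T B s e) {f : D} (hf : PvafOn T s B e f) : ∃ f', r f f' ∧ PvafOn T' s' B' e' f' := by
  obtain ⟨ht, hit⟩ := pvagt_time I hc hBG hB hfs hfin h he
  obtain ⟨k, hk, hkf⟩ := hf
  have hG : pvasIt T s e k ∈ G := hBG ((pvaf_time_spec hfs hfin he).1 k hk)
  have h1 := I.rot (hit k hk.le) hG
  rw [hkf, T.rot_rotInv] at h1
  exact ⟨_, h1, k, by rw [ht]; exact hk, (T'.rotInv_rot _).symm⟩

theorem pvagt_on' (I : PvdqIso T T' G G' r rv) (hc : ∀ v w, rv v w → s v = s' w) {B : Set D} {B' : Set D'} (hBG : B ⊆ G) (hB : PvdqCor r B B') (hfs : T.FaceSet B) (hfin : B.Finite)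
    {e : D} {e' : D'} (h : r e e') (he : pvasIn T B s e) {f : D} {f' : D'} (hff : r f f') (hf : PvafOn T s B e f) : PvafOn T' s' B' e' f' := by
  obtain ⟨f'', h1, h2⟩ := pvagt_on I hc hBG hB hfs hfin h he hf
  rwa [I.fn hff h1]

/-- **a chord which reaches the inner disc is transferred** (`PvaaK` of helper237 `= ∃ n, PvakRun C1 C0 s e n`) -/
theorem pvagt_K (I : PvdqIso T T' G G' r rv) (hc : ∀ v w, rv v w → s v = s' w) {C0 C1 : T.Cyc} {C0' C1' : T'.Cyc} (hC0G : C0.Left ⊆ G)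
    (h0 : PvdqCor r C0.Left C0'.Left) (h1 : PvdqCor r C1.Left C1'.Left) {e : D} {e' : D'} (h : r e e') (hK : ∃ n, PvakRun C1 C0 s e n) : ∃ n, PvakRun C1' C0' s' e' n := by
  obtain ⟨n, a1, a2, a3⟩ := hK
  obtain ⟨R, -⟩ := pvdq_run I hc hC0G h0 h1 h (⟨a1, a2, a3⟩ : PvatRun T C0.Left C1.Left s e n)
  exact ⟨n, R.ent, R.mid, R.hit⟩

/-- **L8 ON TWO MAPS** ((o) of A6_281, field `split` of `PvX2Loc`).   `T` = the plane, `T'` = a completion, `c` a black rim of `T'`, `i..j` an arc whose right triangles are faces of `C0'.Left`, `w` a dart beyond the arc whose right triangle is outside.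
`F` = a set of at most `K` PLANE entrances which contains every plane entrance whose chord carries the twin of a dart of the arc.
Then some `e ∈ F` carries (the twins of) a sub-arc `t1..t2` whose end points are at distance `≥ |v_j - v_i| / K`. -/
theorem pvagt_L8 (I : PvdqIso T T' G G' r rv) (hc : ∀ v w, rv v w → s v = s' w) (hT' : T'.IsSph) (hS' : T'.Simple)
    {C0 : T.Cyc} {C0' : T'.Cyc} (hC : PvdqCyc r C0 C0') (hC0G : C0.Left ⊆ G) (hfin : C0.Left.Finite)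
    {c : T'.Cyc} (hP : PvafRim T' s' c) {i j w : ℕ} (hij : i < j) (hjw : j ≤ w) (hwn : w < i + c.n) (hin : ∀ t, i ≤ t → t < j → T'.opp (c.e t) ∈ C0'.Left)
    (hw : T'.opp (c.e w) ∉ C0'.Left) (pos' : V' → ℂ) [DecidableEq D] (F : Finset D) (K : ℕ) (hK : F.card ≤ K)
    (hF : ∀ e f t, pvasIn T C0.Left s e → i ≤ t → t < j → r f (c.e t) → PvafOn T s C0.Left e f → e ∈ F) :
    ∃ e ∈ F, pvasIn T C0.Left s e ∧ ∃ e', r e e' ∧ pvasIn T' C0'.Left s' e' ∧ ∃ t1 t2, i ≤ t1 ∧ t1 < t2 ∧ t2 ≤ j ∧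
      (∀ u, t1 ≤ u → u < t2 → PvafOn T' s' C0'.Left e' (c.e u) ∧ ∃ f, r f (c.e u) ∧ PvafOn T s C0.Left e f) ∧
      ‖pos' (T'.src (c.e j)) - pos' (T'.src (c.e i))‖ ≤ K * ‖pos' (T'.src (c.e t2)) - pos' (T'.src (c.e t1))‖ := by
  have hc' : ∀ w v, rv v w → s' w = s v := fun w v h => (hc v w h).symm
  have hB : PvdqCor r C0.Left C0'.Left := pvdq_left I hC hC0G
  have hB'G : C0'.Left ⊆ G' := pvdq_left_sub I hC hC0G
  have hfin' : C0'.Left.Finite := pvdq_left_fin I hC hC0G hfin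
  have hfs' := pl_left_face C0'
  obtain ⟨e, he, t1, t2, h1, h2, h3, h4, h5⟩ := pvaf_pieces (fun (e : D) t => ∃ e', r e e' ∧ pvasIn T' C0'.Left s' e' ∧ PvafOn T' s' C0'.Left e' (c.e t))
    (fun a b => ‖pos' (T'.src (c.e b)) - pos' (T'.src (c.e a))‖) (fun _ _ => norm_nonneg _)
    (fun a b c' => by
      have := norm_add_le (pos' (T'.src (c.e c')) - pos' (T'.src (c.e b))) (pos' (T'.src (c.e b)) - pos' (T'.src (c.e a)))
      rw [sub_add_sub_cancel] at this
      linarith)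
    i j
    (fun e t t' u h0 h1 h2 h3 ⟨e₁, a1, a2, a3⟩ ⟨e₂, b1, b2, b3⟩ => by
      obtain rfl := I.fn a1 b1
      exact ⟨e₁, a1, a2, pvaf_on_conv hT' hS' hfs' hfin' hP a2 h1 h2 (by omega) (by omega) hw a3 b3⟩)
    K F hK i le_rfl hij
    (fun t ht1 ht2 => by
      obtain ⟨e', he', hon⟩ := pvaf_on_exists hfs' hfin' hP (hin t ht1 ht2) hw
      obtain ⟨e, hee⟩ := I.tot' (hB'G he'.1)
      obtain ⟨f, hf, hon'⟩ := pvagt_on I.symm hc' hB'G hB.symm hfs' hfin' hee he' hon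
      exact ⟨e, hF e f t (pvdq_in I.symm hc' hB.symm hee he') ht1 ht2 hf hon', e', hee, he', hon⟩)
  obtain ⟨e', hee, he', -⟩ := h4 t1 le_rfl h2
  refine ⟨e, he, pvdq_in I.symm hc' hB.symm hee he', e', hee, he', t1, t2, h1, h2, h3, fun u hu1 hu2 => ?_, h5⟩
  obtain ⟨e'', a1, -, a3⟩ := h4 u hu1 hu2
  obtain rfl := I.fn hee a1
  obtain ⟨f, hf, hon'⟩ := pvagt_on I.symm hc' hB'G hB.symm hfs' hfin' hee he' a3
  exact ⟨a3, f, hf, hon'⟩

end split

end Claimed.Agent.R289
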