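-- KEEP
import Claimed.Agent.R289.Arm.NearRet
import Claimed.Agent.R289.Arm.GateA

/-!
# Row 289 (S0537), box ARM, file Arm/SixRuns : (1) THREE JOURNEYS OF ARBITRARY WALLS  ⟹  CONFIG5 + A FRESH SIXTH ARM;  (2) A RIM + TWO JOURNEYS OF ITS WALL  ⟹  CONFIG5 (= D4 of A6, `pvsr_five`)      (helper275; prefix `pvsr_`)

Consumer: R-G of `W1_208` (a pinch of the frozen set crossed by the continuation = three journeys of walls through a small disc), TR20 COVER.   No rim, no order on `c0`, no sectors: only the two potential lemmas of `Arm/NearRet`: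
`pvnr_same_disj` (two runs of the same type have disjoint layers) and `pvnr_third` (colour by colour, a third run misses one of two runs of the same type).

INPUT   one forward run `x` (a run of `s`) and three different backward runs `y₁ y₂ y₃` (runs of `pvasNot s`) from `c0` to `c1.Left`.   Three journeys through `c1.Left` give three of each kind.
OUTPUT  the record of `pvnr_main`: `PvatCfg T c0 c1 c2 s x x2 x4 n n2 n4` and a crossing `PvaxCr` of the annulus `(c3, c0)`, of ANY prescribed colour `κ`, which avoids the three explored strands.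

PROOF.  For each colour at most one `yᵢ` has a common vertex of that colour with `x` (`pvnr_third`).   So one of the three misses `x` altogether: `x4`.   Of the two others one has no common vertex of colour `κ` with `x`: its layer of colour `κ` is the sixth arm; the last one is `x2`.
-/

set_option autoImplicit false
set_option linter.unusedSectionVars false
set_option linter.unusedVariables false

namespace Claimed.Agent.R289

open Relation

variable {V D : Type} {T : PvMap V D}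

theorem pvsr_cr_not {c' c : T.Cyc} {X : Set V} {b : Bool} {s : V → Bool} (h : PvaxCr T c' c X (!b) (pvasNot s)) : PvaxCr T c' c X b s := by
  have hset : {v | v ∈ X ∧ pvasNot s v = !b} = {v | v ∈ X ∧ s v = b} := by
    ext v
    unfold pvasNot
    constructor
    · rintro ⟨h1, h2⟩
      exact ⟨h1, Bool.not_inj h2⟩
    · rintro ⟨h1, h2⟩
      exact ⟨h1, congrArg _ h2⟩
  unfold PvaxCr at h ⊢
  rw [← hset]
  exact h

/-- the configuration, once the roles are distributed: `x4` misses `x`, the run `r` has no common vertex of colour `κ` with `x` -/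
theorem pvsr_cfg (hT : T.IsSph) {c0 c1 c2 c3 : T.Cyc} (h10 : c1.Inside c0) (h12 : c1.Left ⊆ c2.Left) (h13 : c1.Left ⊆ c3.Left) (h30 : c3.Left ⊆ c0.Left)
    {s : V → Bool} {x x2 x4 r : D} {n n2 m4 mr : ℕ} (hx : PvatRun T c0.Left c1.Left s x n) (h2 : PvatRun T c0.Left c1.Left (pvasNot s) x2 n2)
    (h4 : PvatRun T c0.Left c1.Left (pvasNot s) x4 m4) (hr : PvatRun T c0.Left c1.Left (pvasNot s) r mr) (d24 : x2 ≠ x4) (d2r : x2 ≠ r) (d4r : x4 ≠ r)
    (hA : ∀ κ' v, v ∈ pvatLay T (pvasNot s) x4 m4 → v ∈ pvatLay T s x n → s v ≠ κ') (κ : Bool)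
    (hK : ∀ v, v ∈ pvatLay T (pvasNot s) r mr → v ∈ pvatLay T s x n → s v ≠ κ) :
    ∃ x2 x4 n2 n4, PvatCfg T c0 c1 c2 s x x2 x4 n n2 n4 ∧
      PvaxCr T c3 c0 (pvatLay T s x n ∪ pvatLay T (pvasNot s) x2 n2 ∪ pvatLay T (pvasNot s) x4 n4)ᶜ κ s := by
  have cn : PvnrCol s (pvasNot s) := Or.inr rfl
  obtain ⟨n4, hn4, R4⟩ := h4.shorten h12 h10.2
  obtain ⟨m, hm, Rr⟩ := hr.shorten h13 h10.2
  have D42 := pvnr_same_disj hT h10 cn h4 h2 d24.symm
  have Dr2 := pvnr_same_disj hT h10 cn hr h2 d2r.symm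
  have Dr4 := pvnr_same_disj hT h10 cn hr h4 d4r.symm
  refine ⟨x2, x4, n2, n4, ⟨hx, h2, R4, ?_, ?_⟩, pvsr_cr_not (pvnr_arm hT h30 Rr (!κ) ?_)⟩
  · rw [Set.disjoint_left]
    intro v hv hv'
    exact hA (s v) v (pvnr_lay_mono _ x4 hn4 hv) hv' rfl
  · exact Set.disjoint_of_subset_left (pvnr_lay_mono _ x4 hn4) D42
  · intro v hv hc
    have hv' := pvnr_lay_mono _ r hm hv
    have hc' : s v = κ := by
      unfold pvasNot at hc
      exact Bool.not_inj hc
    rintro ((h | h) | h)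
    · exact hK v hv' h hc'
    · exact Set.disjoint_left.1 Dr2 hv' h
    · exact Set.disjoint_left.1 Dr4 hv' (pvnr_lay_mono _ x4 hn4 h)

/-- **ONE FORWARD RUN + THREE BACKWARD RUNS ⟹ CONFIG5 + SIXTH ARM OF ANY COLOUR** -/
theorem pvsr_six_runs (hT : T.IsSph) {c0 c1 c2 c3 : T.Cyc} (h10 : c1.Inside c0) (h12 : c1.Left ⊆ c2.Left) (h13 : c1.Left ⊆ c3.Left) (h30 : c3.Left ⊆ c0.Left)
    {s : V → Bool} {x y₁ y₂ y₃ : D} {n m₁ m₂ m₃ : ℕ} (hx : PvatRun T c0.Left c1.Left s x n) (h₁ : PvatRun T c0.Left c1.Left (pvasNot s) y₁ m₁)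
    (h₂ : PvatRun T c0.Left c1.Left (pvasNot s) y₂ m₂) (h₃ : PvatRun T c0.Left c1.Left (pvasNot s) y₃ m₃) (d₁₂ : y₁ ≠ y₂) (d₁₃ : y₁ ≠ y₃) (d₂₃ : y₂ ≠ y₃) (κ : Bool) :
    ∃ x2 x4 n2 n4, PvatCfg T c0 c1 c2 s x x2 x4 n n2 n4 ∧
      PvaxCr T c3 c0 (pvatLay T s x n ∪ pvatLay T (pvasNot s) x2 n2 ∪ pvatLay T (pvasNot s) x4 n4)ᶜ κ s := by
  have cs : PvnrCol s s := Or.inl rfl
  have cn : PvnrCol s (pvasNot s) := Or.inr rfl
  have t12 := fun k => pvnr_third hT h10 cn cs h₁ h₂ d₁₂ hx k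
  have t13 := fun k => pvnr_third hT h10 cn cs h₁ h₃ d₁₃ hx k
  have t23 := fun k => pvnr_third hT h10 cn cs h₂ h₃ d₂₃ hx k
  have all : ∀ {y : D} {m : ℕ}, (∀ v, v ∈ pvatLay T (pvasNot s) y m → v ∈ pvatLay T s x n → s v ≠ true) → (∀ v, v ∈ pvatLay T (pvasNot s) y m → v ∈ pvatLay T s x n → s v ≠ false) →
      ∀ κ' v, v ∈ pvatLay T (pvasNot s) y m → v ∈ pvatLay T s x n → s v ≠ κ' := by
    intro y m ha hb κ'
    cases κ'
    · exact hb
    · exact ha
  have pick : ((∀ v, v ∈ pvatLay T (pvasNot s) y₁ m₁ → v ∈ pvatLay T s x n → s v ≠ true) ∧ (∀ v, v ∈ pvatLay T (pvasNot s) y₁ m₁ → v ∈ pvatLay T s x n → s v ≠ false)) ∨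
      ((∀ v, v ∈ pvatLay T (pvasNot s) y₂ m₂ → v ∈ pvatLay T s x n → s v ≠ true) ∧ (∀ v, v ∈ pvatLay T (pvasNot s) y₂ m₂ → v ∈ pvatLay T s x n → s v ≠ false)) ∨
      ((∀ v, v ∈ pvatLay T (pvasNot s) y₃ m₃ → v ∈ pvatLay T s x n → s v ≠ true) ∧ (∀ v, v ∈ pvatLay T (pvasNot s) y₃ m₃ → v ∈ pvatLay T s x n → s v ≠ false)) := by
    have a12 := t12 true
    have a13 := t13 true
    have a23 := t23 true
    have b12 := t12 false
    have b13 := t13 false
    have b23 := t23 false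
    tauto
  rcases pick with ⟨ha, hb⟩ | ⟨ha, hb⟩ | ⟨ha, hb⟩
  · rcases t23 κ with hK | hK
    · exact pvsr_cfg hT h10 h12 h13 h30 hx h₃ h₁ h₂ d₁₃.symm d₂₃.symm d₁₂ (all ha hb) κ hK
    · exact pvsr_cfg hT h10 h12 h13 h30 hx h₂ h₁ h₃ d₁₂.symm d₂₃ d₁₃ (all ha hb) κ hK
  · rcases t13 κ with hK | hK
    · exact pvsr_cfg hT h10 h12 h13 h30 hx h₃ h₂ h₁ d₂₃.symm d₁₃.symm d₁₂.symm (all ha hb) κ hK
    · exact pvsr_cfg hT h10 h12 h13 h30 hx h₁ h₂ h₃ d₁₂ d₁₃ d₂₃ (all ha hb) κ hK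
  · rcases t12 κ with hK | hK
    · exact pvsr_cfg hT h10 h12 h13 h30 hx h₂ h₃ h₁ d₂₃ d₁₂.symm d₁₃.symm (all ha hb) κ hK
    · exact pvsr_cfg hT h10 h12 h13 h30 hx h₁ h₃ h₂ d₁₃ d₁₂ d₂₃.symm (all ha hb) κ hK

/-! ## 2. FIVE ARMS (D4 of A6): a rim and two journeys of its wall      (helper275)

INPUT   a rim `P`, ONE right face `f = opp (P.e i)` in `c1.Left`, ONE right face `opp (P.e q)` outside `c0.Left`, TWO different forward runs from `c0` to `c1.Left` which belong to the wall of `P`.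
OUTPUT  `PvatCfg T c0 c1 c2 s x x2 x4 n1 n2 n4` (CONFIG5 of `Arm/Trap`).      No sectors, no pairings, no cyclic order.
PROOF   `a1` / `a2` = forward / backward strand through `f`.   One of the two given runs is not `a1`: `a3`; `a4` = the backward run from its exit: `a3`, `a4` are the two ends of ONE journey, which avoids `f`.
`u` = potential of the cut `(i, q)` (`pvnr_sep`), `κ` = colour of the rim.   On the vertices of colour `κ`: `u = α` on the layers of `a1`, `u = α + 1` on the layers of `a2`, and `u` has ONE value `γ` on the whole journey of `a3`.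
`γ ≠ α + 1`: `a2` has no contact of colour `κ` with `a1`, `a3`, and no contact of colour `!κ` with one of them (`pvnr_third`).   `γ ≠ α`: `a1` has no contact of colour `κ` with `a2`, `a4`, and no contact of colour `!κ` with one of them. -/

/-- a cut potential is constant on each colour of the layers of a strand of the wall of the rim which avoids the two right faces of the cut -/
theorem pvsr_const (hT : T.IsSph) {t : V → Bool} {P : T.Cyc} (hP : PvnrRim T t P) {i : ℕ} {x : D} {n : ℕ} (hx : pvasBW T t x) (hw : T.Wall t (T.opp (P.e i)) x)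
    {p q : ℕ} {u : V → ZMod 2}
    (hu : ∀ x, ¬ T.Occ t x → (x ∉ P.Left ∨ T.opp x ∉ P.Left) → u (T.src x) + u (T.tgt x) = T.indE (P.e p) x + T.indE (P.e q) x)
    (hp : ∀ j, j < n → ¬ T.SF (pvasIt T t x j) (T.opp (P.e p))) (hq : ∀ j, j < n → ¬ T.SF (pvasIt T t x j) (T.opp (P.e q)))
    {v w : V} (hv : v ∈ pvatLay T t x n) (hw' : w ∈ pvatLay T t x n) (hvw : t v = t w) : u v = u w := by
  have hJ := pl_jordan hT P
  have hu' : ∀ j, j < n → ∀ d, T.SF (pvasIt T t x j) d → ¬ T.Occ t d → u (T.src d) = u (T.tgt d) := by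
    intro j hj d hd hocc
    have hwd : T.Wall t (T.opp (P.e i)) d := pl_ra_wall_trans (pl_ra_wall_trans hw (pvnr_it_wall hx j)) (pl_ra_wall_sf t hd)
    have hdL : d ∉ P.Left := pvnr_wall_right hT hP hwd
    have zp : T.indE (P.e p) d = 0 := pl_indE_eq_zero (fun he => hdL (he ▸ hJ.2.1 p)) (fun he => hp j hj (he ▸ hd))
    have zq : T.indE (P.e q) d = 0 := pl_indE_eq_zero (fun he => hdL (he ▸ hJ.2.1 q)) (fun he => hq j hj (he ▸ hd))
    have := hu d hocc (Or.inl hdL)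
    rw [zp, zq, add_zero] at this
    exact pl_z2_eq_of_add this
  exact pvnr_bank_col hx hu' hv hw' hvw

/-- the layers of the backward run from the exit are layers of the whole forward journey -/
theorem pvsr_back_lay {B A : Set D} (hB : T.FaceSet B) (hfin : B.Finite) (hAB : A ⊆ B) {s : V → Bool} {x : D} {n' : ℕ} (hx : pvasIn T B s x)
    (h : PvatRun T B A (pvasNot s) (T.opp (pvasExit T B s x)) n') : pvatLay T (pvasNot s) (T.opp (pvasExit T B s x)) n' ⊆ pvatLay T s x (pvasHit T s x Bᶜ) := by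
  obtain ⟨-, -, hout⟩ := pvas_exit_spec hB hfin hx
  intro v hv
  obtain ⟨k, hk, hvk⟩ := pvat_lay_full' hB hfin hAB hx h (by rw [T.opp_opp]) hv
  have hlt : k < pvasHit T s x Bᶜ := by
    by_contra hc
    exact hout.1 (hk _ (not_lt.1 hc))
  obtain ⟨h1, h2, h3⟩ := pvat_face_lay s x hlt
  rcases hvk with rfl | rfl | rfl
  · exact h1
  · exact h2
  · exact h3

theorem pvsr_five_aux (hT : T.IsSph) {c0 c1 c2 : T.Cyc} (hfin : c0.Left.Finite) (h10 : c1.Inside c0) (h12 : c1.Left ⊆ c2.Left)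
    {s : V → Bool} {P : T.Cyc} (hP : PvnrRim T s P) {i q : ℕ} (hf : T.opp (P.e i) ∈ c1.Left) (hg : T.opp (P.e q) ∉ c0.Left)
    {a1 a2 a3 : D} {k1 k2 n3 : ℕ} (H1 : PvnrThru T c0.Left s (T.opp (P.e i)) a1 k1) (H2 : PvnrThru T c0.Left (pvasNot s) (T.opp (P.e i)) a2 k2)
    (R3 : PvatRun T c0.Left c1.Left s a3 n3) (hw3 : T.Wall s (T.opp (P.e i)) a3) (h31 : a3 ≠ a1) :
    ∃ x x2 x4 n1 n2 n4, PvatCfg T c0 c1 c2 s x x2 x4 n1 n2 n4 := by
  have hB := pl_left_face c0
  have hA := pl_left_face c1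
  have cs : PvnrCol s s := Or.inl rfl
  have cn : PvnrCol s (pvasNot s) := Or.inr rfl
  have hiq : i % P.n ≠ q % P.n := fun h => hg (pl_cyc_eq_of_mod P h ▸ h10.2 hf)
  obtain ⟨n1, hn1, R1⟩ := pvnr_thru_run hA H1 hf
  obtain ⟨n2, hn2, R2⟩ := pvnr_thru_run hA H2 hf
  obtain ⟨m2, hm2, R2'⟩ := R2.shorten h12 h10.2
  obtain ⟨n4, R4⟩ := pvat_back_run hB hA hfin h10.2 R3
  obtain ⟨m4, hm4, R4'⟩ := R4.shorten h12 h10.2
  obtain ⟨hN1, hNin, hout⟩ := pvas_exit_spec hB hfin R3.ent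
  set N := pvasHit T s a3 c0.Leftᶜ with hN
  set a4 := T.opp (pvasExit T c0.Left s a3) with ha4
  have L4 : pvatLay T (pvasNot s) a4 n4 ⊆ pvatLay T s a3 N := pvsr_back_lay hB hfin h10.2 R3.ent R4
  have hn3 : n3 ≤ N := by
    by_contra hc
    exact hout.1 (R3.mem h10.2 (not_le.1 hc).le)
  -- the journey of `a3` avoids the two right faces of the cut
  have offi : ∀ j, j < N → ¬ T.SF (pvasIt T s a3 j) (T.opp (P.e i)) := by
    intro j hj hsf
    exact h31 (pvas_disjoint hB R3.ent H1.ent (fun l hl => hNin l (by omega)) (fun l hl => H1.mem l (by omega)) (T.sf_trans hsf H1.face)).1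
  have offq : ∀ j, j < N → ¬ T.SF (pvasIt T s a3 j) (T.opp (P.e q)) := fun j hj hsf => hg ((hB.sf T hsf).2 (hNin j hj))
  -- the backward runs are different
  have h24 : a2 ≠ a4 := by
    intro e
    have hrev : ∀ l, l ≤ N → pvasIt T (pvasNot s) a4 l = T.opp (pvasIt T s a3 (N - l)) := fun l hl => pvas_it_rev R3.ent.2.2 hl
    have hk2 : k2 < N := by
      by_contra hc
      have h1 := H2.mem N (not_lt.1 hc)
      rw [e, hrev N le_rfl, Nat.sub_self, pvas_it_zero] at h1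
      exact R3.ent.2.1 h1
    obtain ⟨m, hm⟩ : ∃ m, N - k2 = m + 1 := ⟨N - k2 - 1, by omega⟩
    have h2 := H2.face
    rw [e, hrev k2 hk2.le, hm, pvas_it_succ] at h2
    exact offi m (by omega) (T.sf_trans (pvas_step_sf s _) (T.sf_symm h2))
  obtain ⟨u, hu⟩ := pvnr_sep hT hP i q
  have c1' := pvnr_cut_near hT hP hiq hu
  set κ := s (T.src (P.e 0)) with hκ
  have K12 : ∀ v, v ∈ pvatLay T s a1 k1 → v ∈ pvatLay T (pvasNot s) a2 k2 → s v ≠ κ := fun v h h' => pvnr_near hT hP hB hiq hg H1 H2 h h'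
  have V1 : ∀ v, v ∈ pvatLay T s a1 k1 → s v = κ → u v = u (if s (T.src (P.e i)) = true then T.src (P.e i) else T.tgt (P.e i)) :=
    fun v hv hc => pvnr_val' hT cs hP hB H1 hu (Or.inr rfl) (Or.inl hg) hv (hc.trans (pvnr_col hP i).symm)
  have V2 : ∀ v, v ∈ pvatLay T (pvasNot s) a2 k2 → s v = κ → u v = u (if pvasNot s (T.src (P.e i)) = true then T.src (P.e i) else T.tgt (P.e i)) :=
    fun v hv hc => pvnr_val' hT cn hP hB H2 hu (Or.inr rfl) (Or.inl hg) hv (hc.trans (pvnr_col hP i).symm)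
  have V3 : ∀ v w, v ∈ pvatLay T s a3 N → w ∈ pvatLay T s a3 N → s v = κ → s w = κ → u v = u w :=
    fun v w hv hw hcv hcw => pvsr_const hT hP R3.ent.2.2 hw3 hu offi offq hv hw (hcv.trans hcw.symm)
  have D24 := pvnr_same_disj hT h10 cn R2 R4 h24
  -- the configuration `(a1, a4, a2)`
  have cfgA : (∀ v, v ∈ pvatLay T (pvasNot s) a2 n2 → v ∈ pvatLay T s a1 n1 → s v ≠ !κ) → ∃ x x2 x4 n1 n2 n4, PvatCfg T c0 c1 c2 s x x2 x4 n1 n2 n4 := by
    intro hA'
    refine ⟨a1, a4, a2, n1, n4, m2, ⟨R1, R4, R2', ?_, Set.disjoint_of_subset_left (pvnr_lay_mono _ a2 hm2) D24⟩⟩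
    rw [Set.disjoint_left]
    intro v hv hv'
    rcases pvnr_bool_cases (s v) κ with h | h
    · exact K12 v (pvnr_lay_mono s a1 hn1 hv') (pvnr_lay_mono _ a2 (hm2.trans hn2) hv) h
    · exact hA' v (pvnr_lay_mono _ a2 hm2 hv) hv' h
  -- a reference vertex of colour `κ` on the journey of `a3`
  obtain ⟨r, hr, hrc⟩ : ∃ r, r ∈ pvatLay T s a3 N ∧ s r = κ := by
    rcases pvnr_bool_cases κ true with h | h
    · exact ⟨T.src a3, pvnr_src_mem s a3 N, by rw [R3.ent.2.2.1, h]⟩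
    · exact ⟨T.tgt a3, pvnr_tgt_mem s a3 N, by rw [R3.ent.2.2.2, h]; rfl⟩
  by_cases hγ : u r = u (if pvasNot s (T.src (P.e i)) = true then T.src (P.e i) else T.tgt (P.e i))
  · -- `γ = α + 1`: `a1` has no contact of colour `κ` with `a4`
    have hne : u r ≠ u (if s (T.src (P.e i)) = true then T.src (P.e i) else T.tgt (P.e i)) := by
      rw [hγ]
      unfold pvasNot
      cases hs : s (T.src (P.e i))
      · simp only [Bool.not_false, if_true, Bool.false_eq_true, if_false]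
        exact c1'.symm
      · simp only [Bool.not_true, Bool.false_eq_true, if_false, if_true]
        exact c1'
    have K14 : ∀ v, v ∈ pvatLay T s a1 k1 → v ∈ pvatLay T (pvasNot s) a4 n4 → s v ≠ κ := by
      intro v hv hv' hc
      exact hne ((V3 r v hr (L4 hv') hrc hc).trans (V1 v hv hc))
    rcases pvnr_third hT h10 cn cs R2 R4 h24 R1 (!κ) with hA' | hA'
    · exact cfgA hA'
    · refine ⟨a1, a2, a4, n1, n2, m4, ⟨R1, R2, R4', ?_, Set.disjoint_of_subset_left (pvnr_lay_mono _ a4 hm4) D24.symm⟩⟩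
      rw [Set.disjoint_left]
      intro v hv hv'
      rcases pvnr_bool_cases (s v) κ with h | h
      · exact K14 v (pvnr_lay_mono s a1 hn1 hv') (pvnr_lay_mono _ a4 hm4 hv) h
      · exact hA' v (pvnr_lay_mono _ a4 hm4 hv) hv' h
  · -- `γ ≠ α + 1`: `a2` has no contact of colour `κ` with `a3`
    have K32 : ∀ v, v ∈ pvatLay T s a3 N → v ∈ pvatLay T (pvasNot s) a2 k2 → s v ≠ κ := by
      intro v hv hv' hc
      exact hγ ((V3 r v hr hv hrc hc).trans (V2 v hv' hc))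
    rcases pvnr_third hT h10 cs cn R1 R3 h31.symm R2 (!κ) with hA' | hA'
    · exact cfgA (fun v hv hv' => hA' v hv' hv)
    · refine ⟨a3, a4, a2, n3, n4, m2, ⟨R3, R4, R2', ?_, Set.disjoint_of_subset_left (pvnr_lay_mono _ a2 hm2) D24⟩⟩
      rw [Set.disjoint_left]
      intro v hv hv'
      rcases pvnr_bool_cases (s v) κ with h | h
      · exact K32 v (pvnr_lay_mono s a3 hn3 hv') (pvnr_lay_mono _ a2 (hm2.trans hn2) hv) h
      · exact hA' v hv' (pvnr_lay_mono _ a2 hm2 hv) h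

/-- **FIVE ARMS**: a rim with a right face in `c1.Left` and a right face outside `c0.Left`, two different forward runs of its wall from `c0` to `c1.Left` ⟹ CONFIG5 -/
theorem pvsr_five (hT : T.IsSph) {c0 c1 c2 : T.Cyc} (hfin : c0.Left.Finite) (h10 : c1.Inside c0) (h12 : c1.Left ⊆ c2.Left)
    {s : V → Bool} {P : T.Cyc} (hP : PvnrRim T s P) {i q : ℕ} (hf : T.opp (P.e i) ∈ c1.Left) (hg : T.opp (P.e q) ∉ c0.Left)
    {a a' : D} {n n' : ℕ} (R : PvatRun T c0.Left c1.Left s a n) (R' : PvatRun T c0.Left c1.Left s a' n') (hne : a ≠ a')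
    (hw : T.Wall s (T.opp (P.e i)) a) (hw' : T.Wall s (T.opp (P.e i)) a') :
    ∃ x x2 x4 n1 n2 n4, PvatCfg T c0 c1 c2 s x x2 x4 n1 n2 n4 := by
  have hB := pl_left_face c0
  obtain ⟨a1, k1, H1⟩ := pvnr_thru hB hfin (hP.tag i) (h10.2 hf) (hP.wall i q) hg
  obtain ⟨a2, k2, H2⟩ := pvnr_thru hB hfin ((pvnr_rim_not hP).tag i) (h10.2 hf) ((pvnr_rim_not hP).wall i q) hg
  by_cases h : a = a1
  · exact pvsr_five_aux hT hfin h10 h12 hP hf hg H1 H2 R' hw' (fun e => hne (h.trans e.symm))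
  · exact pvsr_five_aux hT hfin h10 h12 hP hf hg H1 H2 R hw h

/-! ## 7. WHITE RIMS (post P7 of A6, 281): a rim of EITHER colour, with ITS OWN orientation, is a `PvafRim` of the colouring in which its colour is called black

`PvMap.Cyc.IsRim` (`Pl/Rim`) is colour blind: the tags of a rim are ALWAYS the right triangles `T.opp (c.e i)`, whatever the colour of its vertices (`l9a_mem`: the rims of `l9All` / `pvhbAll` are `IsRim` of the completion).
`Tag`, `Wall`, `Occ` are invariant under the exchange of the colours.   So nothing has to be reversed: `Arm/GateA`, `Arm/Fresh`, `Arm/AdaptAB` are applied to `fun v => s v == b`, `b` = the colour of the rim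
(`= pvxCol ω b` of `Defs/TrModel` at the model), the flags `PvagaFl` do not see `b`, the gate comes back as a gate of colour `b` of `s`. -/

section white

variable [DecidableEq V]

theorem pvsr_col_true (s : V → Bool) : (fun v => s v == true) = s := by
  funext v; cases s v <;> rfl

theorem pvsr_col_false (s : V → Bool) : (fun v => s v == false) = pvasNot s := by
  funext v; unfold pvasNot; cases s v <;> rfl

theorem pvsr_col_not (s : V → Bool) (b : Bool) : (fun v => s v == !b) = pvasNot (fun v => s v == b) := by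
  funext v
  show (s v == !b) = !(s v == b)
  cases s v <;> cases b <;> rfl

theorem pvsr_col_cases (s : V → Bool) (b : Bool) : (fun v => s v == b) = s ∨ (fun v => s v == b) = pvasNot s := by
  cases b
  · exact Or.inr (pvsr_col_false s)
  · exact Or.inl (pvsr_col_true s)

/-- a black rim -/
theorem pvsr_rim_black {c : T.Cyc} {s : V → Bool} (h : c.IsRim s) (hb : s (T.src (c.e 0)) = true) : PvafRim T s c :=
  ⟨fun i => (pl_rim_lab h i).2.1, fun i => (pl_rim_lab h i).2.2.1, fun i => (pl_rim_col h i 0).trans hb⟩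

/-- a white rim, SAME orientation -/
theorem pvsr_rim_white {c : T.Cyc} {s : V → Bool} (h : c.IsRim s) (hb : s (T.src (c.e 0)) = false) : PvafRim T (pvasNot s) c :=
  ⟨fun i => pvnr_tag_not.2 (pl_rim_lab h i).2.1, fun i => pvnr_wall_not.2 (pl_rim_lab h i).2.2.1, fun i => by
    unfold pvasNot; rw [(pl_rim_col h i 0).trans hb]; rfl⟩

/-- **THE ADAPTER**: a rim of colour `b` -/
theorem pvsr_rim {c : T.Cyc} {s : V → Bool} (h : c.IsRim s) {b : Bool} (hb : s (T.src (c.e 0)) = b) : PvafRim T (fun v => s v == b) c := by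
  cases b
  · rw [pvsr_col_false]; exact pvsr_rim_white h hb
  · rw [pvsr_col_true]; exact pvsr_rim_black h hb

/-- the gate comes back -/
theorem pvsr_gate_col {s : V → Bool} {b : Bool} {I O G : Set D} {Y : Finset V} (h : PvgGate T (fun v => s v == b) true I O G Y) : PvgGate T s b I O G Y := by
  cases b
  · rw [pvsr_col_false] at h; exact pvagd_gate_not h
  · rwa [pvsr_col_true] at h

theorem pvsr_set_col (s : V → Bool) (b : Bool) : {v | (s v == b) = true} = {v | s v = b} := by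
  ext v; simp

/-- crossings -/
theorem pvsr_cr_col {s : V → Bool} {b : Bool} {c' c : T.Cyc} {X : Set V} : PvaxCr T c' c X true (fun v => s v == b) ↔ PvaxCr T c' c X b s := by
  cases b
  · rw [pvsr_col_false]; exact pvagd_cr_not
  · rw [pvsr_col_true]

/-- failed trials -/
theorem pvsr_fail_col {s : V → Bool} {b : Bool} {m : ℕ} {a o : ℕ → T.Cyc} {X : Set V} : PvafFail T m a o X true (fun v => s v == b) ↔ PvafFail T m a o X b s := by
  unfold PvafFail
  exact forall_congr' fun j => forall_congr' fun _ => pvsr_cr_col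

/-- THE FLAGS DO NOT SEE THE COLOUR OF THE RIM -/
theorem pvsr_fl_not {s : V → Bool} {k0 k1 k2 : T.Cyc} : PvagaFl T (pvasNot s) k0 k1 k2 ↔ PvagaFl T s k0 k1 k2 := by
  unfold PvagaFl
  rw [pvas_not_not]
  exact or_comm

theorem pvsr_fl_col {s : V → Bool} {b : Bool} {k0 k1 k2 : T.Cyc} : PvagaFl T (fun v => s v == b) k0 k1 k2 ↔ PvagaFl T s k0 k1 k2 := by
  cases b
  · rw [pvsr_col_false]; exact pvsr_fl_not
  · rw [pvsr_col_true]

theorem pvsr_F_col {B : Set D} {Zs : Set (ℤ × ℤ)} {g : ℕ} {A M : ℕ → ℕ} (G : PvagaGeo T B Zs g A M) (s : V → Bool) (b : Bool) : G.F (fun v => s v == b) = G.F s := by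
  funext i Q z
  exact propext pvsr_fl_col

/-- **(DI) FOR A RIM OF EITHER COLOUR** = `pvaga_DI` at the colouring `fun v => s v == b`: the flags are those of `s`, the failures are crossings of colour `b` of `s`, the circuit has at most two vertices of colour `b` -/
theorem pvsr_DI (hT : T.IsSph) (hS : T.Simple) {B : Set D} {Zs : Set (ℤ × ℤ)} {g : ℕ} {A M : ℕ → ℕ} (hB : T.FaceSet B) (hfin : B.Finite) (G : PvagaGeo T B Zs g A M) (n0 : ℕ)
    (hsc : ∀ i < 2 * g, 0 < A i ∧ 0 < M i ∧ (n0 + 4) * (M i * A i) ≤ A (i + 1))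
    {s : V → Bool} {c : T.Cyc} (hP : c.IsRim s) {b : Bool} (hb : s (T.src (c.e 0)) = b) {e : D} (he : pvasIn T B (fun v => s v == b) e)
    {w j j' : ℕ} (h2 : j ≤ j') (hw : T.opp (c.e w) ∉ B) (hon : ∀ u, j ≤ u → u ≤ j' → PvafOn T (fun v => s v == b) B e (c.e u))
    (hwalk : PvagWalk (fun u => G.box (T.src (c.e u))) j j') (hZ : ∀ u, j ≤ u → u ≤ j' → G.box (T.src (c.e u)) ∈ Zs)
    (hfar : PvagFar (A (2 * g)) (G.box (T.src (c.e j))) (G.box (T.src (c.e j'))))
    (hlight : ∀ i < 2 * g, ∀ q, Pv5Chain n0 q → (∀ l ≤ n0, ∃ u, j ≤ u ∧ u ≤ j' ∧ q l = pvagCg (M i * A i) (G.box (T.src (c.e u)))) → ∃ l ≤ n0, PvagLight (M i) (G.F s i) (q l))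
    (Zc : Finset (ℤ × ℤ))
    (hsel : (∃ τ, j ≤ τ ∧ τ ≤ j' ∧ G.Good (fun v => s v == b) e (G.box (T.src (c.e τ)))) →
      ∃ τ, j ≤ τ ∧ τ ≤ j' ∧ G.Good (fun v => s v == b) e (G.box (T.src (c.e τ))) ∧ G.box (T.src (c.e τ)) ∈ Zc)
    (m : ℕ) (a o : (ℤ × ℤ) × ℕ → ℕ → T.Cyc)
    (htow : ∀ z ∈ Zs, ∀ k < g, ∀ l < m, (G.c1 z k).Inside (a (z, k) l) ∧ (a (z, k) l).Inside (o (z, k) l) ∧ (o (z, k) l).Inside (G.c2 z k))
    {X : Set V} (hX : ∀ v ∈ T.VOf B, v ∉ X → v ∈ pvasExpl T e Bᶜ (fun v => s v == b))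
    (hnf : ∀ z ∈ Zc, ∀ k < g, ¬ PvafFail T m (a (z, k)) (o (z, k)) X b s) :
    ∃ τ, j ≤ τ ∧ τ ≤ j' ∧ ∀ k < g, ∃ c'' : T.Cyc, (c''.verts ∩ {v | s v = b}).ncard ≤ 2 ∧
      (G.c0 (G.box (T.src (c.e τ))) k).Left ⊆ c''.Left ∧ c''.Left ⊆ (G.c3 (G.box (T.src (c.e τ))) k).Left ∧
      ∀ i, c''.e i ∈ (G.c0 (G.box (T.src (c.e τ))) k).Ann (G.c3 (G.box (T.src (c.e τ))) k) ∨ T.opp (c''.e i) ∈ (G.c0 (G.box (T.src (c.e τ))) k).Ann (G.c3 (G.box (T.src (c.e τ))) k) := by
  have := pvaga_DI hT hS hB hfin G n0 hsc (pvsr_rim hP hb) he h2 hw hon hwalk hZ hfar (by rw [pvsr_F_col]; exact hlight) Zc hsel m a o htow hX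
    (fun z hz k hk h => hnf z hz k hk (pvsr_fail_col.1 h))
  rw [pvsr_set_col] at this
  exact this

end white

end Claimed.Agent.R289
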