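-- KEEP
import Claimed.Agent.R289.Arm.GateTr
import Claimed.Agent.R289.Arm.AdaptAB
import Claimed.Agent.R289.Arm.SixRuns
import Claimed.Agent.R289.Tr.Local
import Claimed.Agent.R289.Exit.PinsA6

/-!
# Row 289 (S0537, Cardy for Poisson-Voronoi), box ARM, block A6, step (o) = SPLIT, file Arm/GateO : A LONG ARC OF A RIM OF A COMPLETION CONTAINS A LONG ARC CARRIED BY ONE CHORD OF THE PLANE      (owner helper105; owner of A6 helper281; pen of the cut helper200; prefix `pvago_`)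

Blueprint: `origin/helper281:notes/R289/A6_281.md` sec. 5 (o);  architecture of 200 (10:50Z): MODEL = the TOTAL PLANE `(delbPl Y).toMap`, `pos = Subtype.val`, `s_b := fun v => σ v == b`;  PIECE = sub-arc of an ACTUAL rim `P ∈ pvhbAll x R ω`;
`Car P' b e` = `pvasIn T C0.Left s_b e` and every edge of `P'` is a plane dart carried by the chord of `e` (`PvafOn` of 13).

* sec. 1  two maps (`PvdqIso` of 33, kit `Arm/GateTr` of 13): `pvago_on` (carried darts are transferred), `pvago_reach` (a chord which carries a dart whose right triangle lies in the inner disc reaches the inner disc: `PvaaK` of 237),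
          **`pvago_split`** = `pvaf_L8` of 13 in the completion, conclusion IN THE PLANE
* sec. 2  the model: `pvago_split_bulk` (one rim of one completion against `delPl h`), **`pvago_split_pl`** (any `Pl = delPl h`), **`pvago_exit_split`** (the total plane `delbPl Y`) = leaf (B) of the cut of `exit_pvx2_core` (200)
* sec. 4  **BACK**: `pvago_back_bulk`, `pvago_back_pl`, **`pvago_back`**: from `PvX2Car (pvx2Sub P a n) b e` (what `¬ AB` provides) to the hypotheses `I hc hT' hS' hC hC0G hP hee he' hw hon` of `pvagt_DI` (13) / `pvagm_DI` (116);   **`pvago_infix`** = leaf (INFIX) of (D): a carried arc of an actual rim is an infix of the PLANE `Γ(χ_e)`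
* sec. 5  `pvago_passage` (model free): a passage of the arc to block distance `≥ en + 1` contains a passage of `Γ(χ_e)` (`PvafIn`, `PvafFar en`, first exit)
* sec. 3  what a carried arc knows: `pvago_on_black`, `pvago_on_face`, `pvago_on_verts`, `pvago_car_site`, `pvago_car_last`, `pvago_car_ball`
-/

set_option autoImplicit false
set_option linter.unusedSectionVars false
set_option linter.unusedVariables false

namespace Claimed.Agent.R289

open Relation Set Claims.C0465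

/-! ## 1. two maps -/

section iso

variable {V V' D D' : Type} [DecidableEq V] [DecidableEq V'] {T : PvMap V D} {T' : PvMap V' D'} {G : Set D} {G' : Set D'} {r : D → D' → Prop} {rv : V → V' → Prop}
  {s : V → Bool} {s' : V' → Bool}

/-- **carried darts are transferred** -/
theorem pvago_on (I : PvdqIso T T' G G' r rv) (hc : ∀ v w, rv v w → s v = s' w) {B : Set D} {B' : Set D'} (hBG : B ⊆ G) (hB : PvdqCor r B B') (hfs : T.FaceSet B) (hfin : B.Finite)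
    {e : D} {e' : D'} (h : r e e') (he : pvasIn T B s e) {f : D} (hf : PvafOn T s B e f) : ∃ f', r f f' ∧ PvafOn T' s' B' e' f' := by
  obtain ⟨k, hk, hkf⟩ := hf
  obtain ⟨ht, hit⟩ := pvagt_time I hc hBG hB hfs hfin h he
  have h2 := I.rot (hit k hk.le) (hBG ((pvaf_time_spec hfs hfin he).1 k hk))
  rw [hkf, T.rot_rotInv] at h2
  exact ⟨_, h2, k, by rw [ht]; exact hk, (T'.rotInv_rot _).symm⟩

/-- a chord which carries a dart whose right triangle lies in the inner disc reaches the inner disc -/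
theorem pvago_reach {C1 C0 : T.Cyc} (hfin : C0.Left.Finite) {e f : D} (he : pvasIn T C0.Left s e) (hf : PvafOn T s C0.Left e f) (hd : T.rotInv f ∈ C1.Left) : PvaaK T C1 C0 s e := by
  classical
  obtain ⟨k, hk, hkf⟩ := hf
  have hex : ∃ n, pvasIt T s e n ∈ C1.Left := ⟨k, by rw [hkf]; exact hd⟩
  have hle : Nat.find hex ≤ k := Nat.find_min' hex (by rw [hkf]; exact hd)
  exact ⟨Nat.find hex, he, fun k' hk' => ⟨(pvaf_time_spec (pl_left_face C0) hfin he).1 k' (by omega), Nat.find_min hex hk'⟩, Nat.find_spec hex⟩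

/-- **SPLIT ON TWO MAPS** (`pvaf_L8` of 13 in the completion `T`, conclusion in the plane `T'`).   `c` a black rim of `T`; `i..j` an arc whose right triangles lie in the twin of the inner disc `C1'.Left`; `w` a dart beyond the arc
whose right triangle is outside the twin `C0.Left` of the outer disc; at most `K` chords of the plane reach the inner disc.   Then ONE chord of the plane carries (the twin of) a sub-arc `t1..t2` with end points at distance `≥ |v_j - v_i| / K`. -/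
theorem pvago_split (I : PvdqIso T T' G G' r rv) (hc : ∀ v w, rv v w → s v = s' w) (hT : T.IsSph) (hS : T.Simple)
    {C0 : T.Cyc} {C0' C1' : T'.Cyc} (hC : PvdqCyc r C0 C0') (hC0G : C0.Left ⊆ G) (hfin : C0.Left.Finite)
    {c : T.Cyc} (hP : PvafRim T s c) {i j w : ℕ} (hij : i < j) (hjw : j ≤ w) (hwn : w < i + c.n)
    (hin : ∀ t, i ≤ t → t < j → T.opp (c.e t) ∈ C0.Left) (hw : T.opp (c.e w) ∉ C0.Left)
    (hdeep : ∀ t, i ≤ t → t < j → ∀ f', r (T.rotInv (c.e t)) f' → f' ∈ C1'.Left)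
    (pos : V → ℂ) (F' : Finset D') (K : ℕ) (hK : F'.card ≤ K) (hF' : ∀ e', PvaaK T' C1' C0' s' e' → e' ∈ F') :
    ∃ e', PvaaK T' C1' C0' s' e' ∧ pvasIn T' C0'.Left s' e' ∧ ∃ t1 t2, i ≤ t1 ∧ t1 < t2 ∧ t2 ≤ j ∧
      (∀ u, t1 ≤ u → u < t2 → ∃ f', r (c.e u) f' ∧ PvafOn T' s' C0'.Left e' f') ∧
      ‖pos (T.src (c.e j)) - pos (T.src (c.e i))‖ ≤ K * ‖pos (T.src (c.e t2)) - pos (T.src (c.e t1))‖ := by
  classical
  have hB : PvdqCor r C0.Left C0'.Left := pvdq_left I hC hC0G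
  have hfs := pl_left_face C0
  have hfin' : C0'.Left.Finite := pvdq_left_fin I hC hC0G hfin
  have key : ∀ e t, pvasIn T C0.Left s e → i ≤ t → t < j → PvafOn T s C0.Left e (c.e t) → ∃ e', r e e' ∧ PvaaK T' C1' C0' s' e' := by
    intro e t he h1 h2 hon
    obtain ⟨e', hee⟩ := I.tot (hC0G he.1)
    obtain ⟨f', hf, hon'⟩ := pvago_on I hc hC0G hB hfs hfin hee he hon
    refine ⟨e', hee, pvago_reach hfin' (pvdq_in I hc hB hee he) hon' (hdeep t h1 h2 _ ?_)⟩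
    exact I.nxt (I.opp hf) (hC0G (hin t h1 h2))
  set F : Finset D := hfin.toFinset.filter (fun e => ∃ e' ∈ F', r e e') with hFdef
  have hFcard : F.card ≤ K := by
    refine le_trans ?_ hK
    rw [← Set.ncard_coe_finset F, ← Set.ncard_coe_finset F']
    refine pvagt_ncard (R := r) (fun a a' b h1 h2 => I.inj h1 h2) F'.finite_toSet fun a ha => ?_
    obtain ⟨e', he', hr⟩ := (Finset.mem_filter.1 (Finset.mem_coe.1 ha)).2
    exact ⟨e', Finset.mem_coe.2 he', hr⟩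
  obtain ⟨e, -, he, t1, t2, h1, h2, h3, h4, -, h5⟩ := pvaf_L8 hT hS hfs hfin hP hij hjw hwn hin hw pos F K hFcard (fun e t he h1 h2 hon => by
    obtain ⟨e', hee, hK'⟩ := key e t he h1 h2 hon
    exact Finset.mem_filter.2 ⟨hfin.mem_toFinset.2 he.1, e', hF' e' hK', hee⟩)
  obtain ⟨e', hee, hK'⟩ := key e t1 he h1 (by omega) (h4 t1 le_rfl h2)
  exact ⟨e', hK', pvdq_in I hc hB hee he, t1, t2, h1, h2, h3, fun u hu1 hu2 => pvago_on I hc hC0G hB hfs hfin hee he (h4 u hu1 hu2), h5⟩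

end iso

/-! ## 2. the model -/

section model

/-- SPLIT for one rim of one completion, against `delPl h` -/
theorem pvago_split_bulk {X : Type} (𝔅 : PvBulk X) {η : Conf PvPt} (ξ : X → Bool) (h : DelGood (cfSites η)) {x : ℂ} {R : ℝ} (hR : 0 < R) (hOk : 𝔅.Ok (cfSites η) (Metric.closedBall x (6 * R)))
    (C0 C1 : (delPl h).toMap.Cyc) (h10 : C1.Left ⊆ C0.Left) (hfin : C0.Left.Finite) {y : ℂ} {ρ : ℝ} (hC1 : ∀ v : ↥(cfSites η), ‖(v : ℂ) - y‖ ≤ ρ → v ∈ (delPl h).toMap.Int C1.Left)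
    (hC0 : ∀ v ∈ (delPl h).toMap.VOf C0.Left, ‖(v : ℂ) - x‖ < 4 * R) (K : ℕ)
    (hK : ∀ b : Bool, ∃ F : Finset (delPl h).Dart, F.card ≤ K ∧ ∀ e, PvaaK (delPl h).toMap C1 C0 (fun v => cfCol η v == b) e → e ∈ F)
    {c : (𝔅.T (cfSites η)).Cyc} (hc : c.IsRim (𝔅.col η ξ)) (h4 : 4 * R ≤ ‖𝔅.posF (cfSites η) (x + 7 * R) ((𝔅.T (cfSites η)).src (c.e 0)) - x‖)
    {i i' : ℕ} (hii : i < i') (hi' : i' ≤ c.n) (hin : ∀ k, i ≤ k → k ≤ i' → ‖𝔅.posF (cfSites η) (x + 7 * R) ((𝔅.T (cfSites η)).src (c.e k)) - x‖ ≤ 2 * R)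
    (hcore : ∀ k, i ≤ k → k ≤ i' → ‖𝔅.posF (cfSites η) (x + 7 * R) ((𝔅.T (cfSites η)).src (c.e k)) - y‖ ≤ ρ) :
    ∃ (a n : ℕ) (b : Bool) (e : (delPl h).Dart), i ≤ a ∧ 0 < n ∧ a + n ≤ i' ∧ PvaaK (delPl h).toMap C1 C0 (fun v => cfCol η v == b) e ∧
      pvasIn (delPl h).toMap C0.Left (fun v => cfCol η v == b) e ∧
      (∀ t < n, ∃ f : (delPl h).Dart, ((delPl h).toMap.src f : ℂ) = 𝔅.posF (cfSites η) (x + 7 * R) ((𝔅.T (cfSites η)).src (c.e (a + t))) ∧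
        ((delPl h).toMap.tgt f : ℂ) = 𝔅.posF (cfSites η) (x + 7 * R) ((𝔅.T (cfSites η)).src (c.e (a + t + 1))) ∧ PvafOn (delPl h).toMap (fun v => cfCol η v == b) C0.Left e f) ∧
      (∀ t ≤ n, cfCol η (𝔅.posF (cfSites η) (x + 7 * R) ((𝔅.T (cfSites η)).src (c.e (a + t)))) = b) ∧
      ‖𝔅.posF (cfSites η) (x + 7 * R) ((𝔅.T (cfSites η)).src (c.e i')) - 𝔅.posF (cfSites η) (x + 7 * R) ((𝔅.T (cfSites η)).src (c.e i))‖ ≤
        K * ‖𝔅.posF (cfSites η) (x + 7 * R) ((𝔅.T (cfSites η)).src (c.e (a + n))) - 𝔅.posF (cfSites η) (x + 7 * R) ((𝔅.T (cfSites η)).src (c.e a))‖ := by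
  classical
  have I := pvdq_bulk (h := h) hOk
  -- names of the vertices of the arc
  have hlab : ∀ k, i ≤ k → k ≤ i' → 𝔅.lab (cfSites η) ((𝔅.T (cfSites η)).src (c.e k)) = Sum.inl (𝔅.posF (cfSites η) (x + 7 * R) ((𝔅.T (cfSites η)).src (c.e k))) := fun k h1 h2 =>
    pvloc_posF hR ((hin k h1 h2).trans (by linarith))
  have hK6 : ∀ p : ℂ, ‖p - x‖ < 4 * R → p ∈ Metric.closedBall x (6 * R) := fun p hp => mem_closedBall_iff_norm.2 (by linarith)
  -- the outer disc lies in the star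
  have hC0G' : C0.Left ⊆ delbStar h (Metric.closedBall x (6 * R)) := fun d hd => Or.inl (hK6 _ (hC0 _ ⟨d, hd, rfl⟩))
  obtain ⟨C0t, hCt⟩ := pvdq_cyc I.symm C0 fun k => Or.inl (hC0G' (plc_e_left (delp_isSph h) C0 k))
  have hC : PvdqCyc (DelbRel 𝔅 h) C0t C0 := hCt.symm
  have hC0G : C0t.Left ⊆ pvdqG 𝔅 h (Metric.closedBall x (6 * R)) := pvdq_left_sub I.symm hCt hC0G'
  have hfint : C0t.Left.Finite := pvdq_left_fin I.symm hCt hC0G' hfin
  have hB : PvdqCor (DelbRel 𝔅 h) C0t.Left C0.Left := pvdq_left I hC hC0G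
  -- a bulk dart at a vertex of the arc has its twin in the inner disc
  have hdart : ∀ k, i ≤ k → k ≤ i' → ∀ d f', (𝔅.T (cfSites η)).src d = (𝔅.T (cfSites η)).src (c.e k) → DelbRel 𝔅 h d f' → f' ∈ C1.Left := by
    intro k h1 h2 d f' hd hr
    have e1 : 𝔅.lab (cfSites η) ((𝔅.T (cfSites η)).src d) = Sum.inl (((delPl h).toMap.src f' : ↥(cfSites η)) : ℂ) := I.src hr
    rw [hd, hlab k h1 h2] at e1
    refine hC1 _ ?_ f' rfl
    rw [← Sum.inl_injective e1]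
    exact hcore k h1 h2
  have hdartG : ∀ k, i ≤ k → k ≤ i' → ∀ d, (𝔅.T (cfSites η)).src d = (𝔅.T (cfSites η)).src (c.e k) → d ∈ pvdqG 𝔅 h (Metric.closedBall x (6 * R)) := by
    intro k h1 h2 d hd
    refine pvdq_G_of_src hOk (hd ▸ hlab k h1 h2) (mem_closedBall_iff_norm.2 ((hin k h1 h2).trans (by linarith)))
  have hi0 : 0 < i := by
    rcases Nat.eq_zero_or_pos i with rfl | h0
    · have := hin 0 le_rfl (Nat.zero_le _)
      have h4' : 4 * R ≤ ‖𝔅.posF (cfSites η) (x + 7 * R) ((𝔅.T (cfSites η)).src (c.e 0)) - x‖ := h4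
      have : ‖𝔅.posF (cfSites η) (x + 7 * R) ((𝔅.T (cfSites η)).src (c.e 0)) - x‖ ≤ 2 * R := this
      linarith
    · exact h0
  have hwout : (𝔅.T (cfSites η)).opp (c.e c.n) ∉ C0t.Left := by
    intro hm
    have e0 : c.e c.n = c.e 0 := by simpa using c.per 0
    rw [e0] at hm
    obtain ⟨d', hd'⟩ := I.tot (hC0G hm)
    have h1 : d' ∈ C0.Left := (hB _ _ hd').1 hm
    have h2 : 𝔅.lab (cfSites η) ((𝔅.T (cfSites η)).tgt ((𝔅.T (cfSites η)).opp (c.e 0))) = Sum.inl (((delPl h).toMap.tgt d' : ↥(cfSites η)) : ℂ) := I.tgt hd'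
    rw [(𝔅.T (cfSites η)).tgt_opp] at h2
    have h3 := hC0 ((delPl h).toMap.tgt d') ⟨(delPl h).toMap.nxt d', (pl_left_face C0 _).2 h1, rfl⟩
    have h4' : 4 * R ≤ ‖𝔅.posF (cfSites η) (x + 7 * R) ((𝔅.T (cfSites η)).src (c.e 0)) - x‖ := h4
    rw [pvloc_posF_inl h2] at h4'
    linarith
  set b : Bool := 𝔅.col η ξ ((𝔅.T (cfSites η)).src (c.e 0)) with hb
  have hrim : PvafRim (𝔅.T (cfSites η)) (fun v => 𝔅.col η ξ v == b) c := pvsr_rim hc rfl
  have hcol : ∀ (v : 𝔅.V (cfSites η)) (w : ↥(cfSites η)), pvdqRv 𝔅 v w → (fun v => 𝔅.col η ξ v == b) v = (fun v : ↥(cfSites η) => cfCol η v == b) w := by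
    intro v w hvw
    show (𝔅.col η ξ v == b) = (cfCol η w == b)
    rw [delb_col_inl 𝔅 η ξ hvw]
  obtain ⟨F, hFc, hF⟩ := hK b
  obtain ⟨e', hK', hIn', t1, t2, g1, g2, g3, g4, g5⟩ := pvago_split I hcol hOk.sph hOk.simple hC hC0G hfint hrim hii hi' (by omega : c.n < i + c.n)
    (fun t h1 h2 => by
      have hs : (𝔅.T (cfSites η)).src ((𝔅.T (cfSites η)).opp (c.e t)) = (𝔅.T (cfSites η)).src (c.e (t + 1)) := by rw [(𝔅.T (cfSites η)).src_opp', c.chain]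
      obtain ⟨f', hf'⟩ := I.tot (hdartG (t + 1) (by omega) (by omega) _ hs)
      exact (hB _ _ hf').2 (h10 (hdart (t + 1) (by omega) (by omega) _ f' hs hf')))
    hwout
    (fun t h1 h2 f' hf' => hdart t h1 (by omega) _ f' ((𝔅.T (cfSites η)).src_rotInv _) hf')
    (𝔅.posF (cfSites η) (x + 7 * R)) F K hFc hF
  refine ⟨t1, t2 - t1, b, e', g1, by omega, by omega, hK', hIn', fun t ht => ?_, fun t ht => ?_, ?_⟩
  · obtain ⟨f', hf', hon⟩ := g4 (t1 + t) (by omega) (by omega)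
    refine ⟨f', ?_, ?_, hon⟩
    · exact (pvloc_posF_inl (I.src hf')).symm
    · have := pvloc_posF_inl (zi := x + 7 * R) (I.tgt hf')
      rw [c.chain] at this
      exact this.symm
  · have h1 := hlab (t1 + t) (by omega) (by omega)
    have h2 := delb_col_inl 𝔅 η ξ h1
    have h3 := pl_rim_col hc (t1 + t) 0
    exact h2.symm.trans h3
  · have e1 : t1 + (t2 - t1) = t2 := by omega
    rw [e1]
    exact g5

/-- **SPLIT AT THE MODEL**, for any presentation `Pl = delPl h` of the Delaunay plane of the sample.   FRAME OF A PATCH: cycles `C1` inside `C0`, the sites of the core `clB(y,ρ)` are interior to `C1.Left`, the vertices of `C0.Left` lie in `B(x,4R)`;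
for both colours at most `K` chords reach `C1.Left`.   Every arc `i < i'` inside `clB(x,2R) ∩ clB(y,ρ)` of every encoded rim of every completion contains a sub-arc `a .. a + n` all of whose edges are plane darts carried by ONE chord `e`
(in the colouring `s_b`, `b` = the colour of the rim) which reaches `C1.Left`, with `|P.v i' - P.v i| ≤ K |P.v (a + n) - P.v a|`. -/
theorem pvago_split_pl {ω : PVSample} (h : DelGood (cfSites (pvConf ω))) (Pl : PlTri ↥(cfSites (pvConf ω))) (hPl : Pl = delPl h) {x : ℂ} {R : ℝ} (hR : 0 < R) (C0 C1 : Pl.toMap.Cyc)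
    (h10 : C1.Left ⊆ C0.Left) (hfin : C0.Left.Finite) {y : ℂ} {ρ : ℝ} (hC1 : ∀ v : ↥(cfSites (pvConf ω)), ‖(v : ℂ) - y‖ ≤ ρ → v ∈ Pl.toMap.Int C1.Left)
    (hC0 : ∀ v ∈ Pl.toMap.VOf C0.Left, ‖(v : ℂ) - x‖ < 4 * R) (K : ℕ)
    (hK : ∀ b : Bool, ∃ F : Finset Pl.Dart, F.card ≤ K ∧ ∀ e, PvaaK Pl.toMap C1 C0 (fun v => cfCol (pvConf ω) v == b) e → e ∈ F)
    {P : PvbRim} (hP : P ∈ pvhbAll x R ω) {i i' : ℕ} (hii : i < i') (hi' : i' ≤ P.len) (hin : ∀ k, i ≤ k → k ≤ i' → ‖P.v k - x‖ ≤ 2 * R)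
    (hcore : ∀ k, i ≤ k → k ≤ i' → ‖P.v k - y‖ ≤ ρ) :
    ∃ (a n : ℕ) (b : Bool) (e : Pl.Dart), i ≤ a ∧ 0 < n ∧ a + n ≤ i' ∧ PvaaK Pl.toMap C1 C0 (fun v => cfCol (pvConf ω) v == b) e ∧
      pvasIn Pl.toMap C0.Left (fun v => cfCol (pvConf ω) v == b) e ∧
      (∀ t < n, ∃ f : Pl.Dart, (Pl.toMap.src f : ℂ) = P.v (a + t) ∧ (Pl.toMap.tgt f : ℂ) = P.v (a + t + 1) ∧ PvafOn Pl.toMap (fun v => cfCol (pvConf ω) v == b) C0.Left e f) ∧
      (∀ t ≤ n, cfCol (pvConf ω) (P.v (a + t)) = b) ∧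
      ‖P.v i' - P.v i‖ ≤ K * ‖P.v (a + n) - P.v a‖ := by
  subst hPl
  obtain ⟨X, hX, 𝔅, ξ, hA, hOk, c, hc, h4, rfl⟩ := hP
  exact pvago_split_bulk 𝔅 ξ h hR hOk C0 C1 h10 hfin hC1 hC0 K hK hc h4 hii hi' hin hcore

/-- **LEAF (B) OF THE CUT OF `exit_pvx2_core`** (200, `Exit/PinsA6X.lean`: `exit_pvx2_split`, PATCH form).      `hin` (the arc lies in `clB(x,2R)`) IS NEEDED: without it an arc of EXTRA vertices (placed at `x + 7R`) could lie in the core of a patch. -/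
theorem pvago_exit_split [∀ Y : Set ℂ, DecidableEq ↥Y] {x : ℂ} {R q0 : ℝ} {y : ℂ} {ρ : ℝ} (hR : 0 < R) (ω : PVSample) (C0 C1 : (pvx2T (cfSites (pvConf ω))).Cyc) (hM : PvX2Mac x R q0 y ρ _ C0 C1) (K : ℕ)
    (hK : PvX2Few _ (fun v => cfCol (pvConf ω) v) C0 C1 K) (P : PvbRim) (hP : P ∈ pvhbAll x R ω) (i i' : ℕ) (hii : i < i') (hi' : i' ≤ P.len)
    (hin : ∀ k, i ≤ k → k ≤ i' → ‖P.v k - x‖ ≤ 2 * R) (hcore : ∀ k, i ≤ k → k ≤ i' → ‖P.v k - y‖ ≤ ρ) :
    ∃ (s n : ℕ) (b : Bool) (e : (delbPl (cfSites (pvConf ω))).Dart), i ≤ s ∧ s + n ≤ i' ∧ PvX2Car _ (fun v => cfCol (pvConf ω) v) y ρ C0 (pvx2Sub P s n) b e ∧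
      PvaaK (pvx2T _) C1 C0 (fun v => cfCol (pvConf ω) v == b) e ∧ ‖P.v i' - P.v i‖ ≤ K * ‖P.v (s + n) - P.v s‖ := by
  obtain ⟨a, n, b, e, h1, -, h3, h4, h5, h6, -, h8⟩ := pvago_split_pl hM.good (delbPl _) (delb_pl_eq hM.good) hR C0 C1 hM.geo.2.1.2 hM.geo.2.2.1 hM.in1 hM.out0 K hK hP hii hi' hin hcore
  refine ⟨a, n, b, e, h1, h3, ⟨fun t ht => hcore (a + t) (by omega) ?_, h5, fun t ht => ?_⟩, h4, h8⟩
  · have : t ≤ n := ht
    omega
  · obtain ⟨f, f1, f2, f3⟩ := h6 t ht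
    exact ⟨f, f1, f2, f3⟩

end model

/-! ## 3. what a carried arc knows (consumers: (D) = `exit_pvx2_di`) -/

section car

variable {V D : Type} [DecidableEq V] {T : PvMap V D} {s : V → Bool} {B : Set D}

/-- a carried dart starts at a black vertex -/
theorem pvago_on_black {e f : D} (he : pvasBW T s e) (hf : PvafOn T s B e f) : s (T.src f) = true := by
  obtain ⟨k, -, hk⟩ := hf
  have := (pvas_it_bw he k).1
  rwa [hk, T.src_rotInv] at this

/-- the right triangle of a carried dart is a face of `B` -/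
theorem pvago_on_face (hB : T.FaceSet B) (hfin : B.Finite) {e f : D} (he : pvasIn T B s e) (hf : PvafOn T s B e f) : T.rotInv f ∈ B ∧ T.opp f ∈ B := by
  obtain ⟨k, hk, hkf⟩ := hf
  have h1 : T.rotInv f ∈ B := hkf ▸ (pvaf_time_spec hB hfin he).1 k hk
  exact ⟨h1, (hB _).1 h1⟩

/-- both ends of a carried dart are vertices of `B` -/
theorem pvago_on_verts (hB : T.FaceSet B) (hfin : B.Finite) {e f : D} (he : pvasIn T B s e) (hf : PvafOn T s B e f) : T.src f ∈ T.VOf B ∧ T.tgt f ∈ T.VOf B := by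
  obtain ⟨h1, h2⟩ := pvago_on_face hB hfin he hf
  exact ⟨⟨_, h1, T.src_rotInv f⟩, ⟨_, h2, T.src_opp' f⟩⟩

end car

section carm

variable [∀ Y : Set ℂ, DecidableEq ↥Y] {Y : Set ℂ} {σ : ↥Y → Bool} {y : ℂ} {ρ : ℝ} {C0 : (pvx2T Y).Cyc} {P' : PvbRim} {b : Bool} {e : (delbPl Y).Dart}

/-- the vertices of a carried arc are sites of colour `b`, vertices of `C0.Left` -/
theorem pvago_car_site (hfin : C0.Left.Finite) (h : PvX2Car Y σ y ρ C0 P' b e) {t : ℕ} (ht : t < P'.len) :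
    ∃ v : ↥Y, (v : ℂ) = P'.v t ∧ σ v = b ∧ v ∈ (pvx2T Y).VOf C0.Left := by
  obtain ⟨f, f1, -, f3⟩ := h.2.2 t ht
  refine ⟨_, f1, ?_, (pvago_on_verts (pl_left_face C0) hfin h.2.1 f3).1⟩
  have := pvago_on_black h.2.1.2.2 f3
  simpa using this

/-- the last vertex of a carried arc is a site, a vertex of `C0.Left` -/
theorem pvago_car_last (hfin : C0.Left.Finite) (h : PvX2Car Y σ y ρ C0 P' b e) (hn : 0 < P'.len) : ∃ v : ↥Y, (v : ℂ) = P'.v P'.len ∧ v ∈ (pvx2T Y).VOf C0.Left := by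
  obtain ⟨f, -, f2, f3⟩ := h.2.2 (P'.len - 1) (by omega)
  have e1 : P'.len - 1 + 1 = P'.len := by omega
  rw [e1] at f2
  exact ⟨_, f2, (pvago_on_verts (pl_left_face C0) hfin h.2.1 f3).2⟩

/-- a carried arc stays in `B(x,4R)` -/
theorem pvago_car_ball {x : ℂ} {R q0 : ℝ} {C1 : (pvx2T Y).Cyc} (hM : PvX2Mac x R q0 y ρ Y C0 C1) (h : PvX2Car Y σ y ρ C0 P' b e) (hn : 0 < P'.len) {t : ℕ} (ht : t ≤ P'.len) : ‖P'.v t - x‖ < 4 * R := by
  rcases Nat.lt_or_ge t P'.len with h1 | h1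
  · obtain ⟨v, hv, -, hv'⟩ := pvago_car_site hM.geo.2.2.1 h h1
    rw [← hv]
    exact hM.out0 v hv'
  · obtain ⟨v, hv, hv'⟩ := pvago_car_last hM.geo.2.2.1 h hn
    have e1 : t = P'.len := le_antisymm ht h1
    rw [e1, ← hv]
    exact hM.out0 v hv'

end carm

/-! ## 4. BACK: from a carried arc (plane) to the closed rim and its chord (completion) = the hypotheses of `pvagt_DI` (13), `pvagm_DI` (116) -/

section back

/-- BACK for one rim of one completion, against `delPl h` -/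
theorem pvago_back_bulk {X : Type} (𝔅 : PvBulk X) {η : Conf PvPt} (ξ : X → Bool) (h : DelGood (cfSites η)) {x : ℂ} {R : ℝ} (hR : 0 < R) (hOk : 𝔅.Ok (cfSites η) (Metric.closedBall x (6 * R)))
    (C0 : (delPl h).toMap.Cyc) (hfin : C0.Left.Finite) (hC0 : ∀ v ∈ (delPl h).toMap.VOf C0.Left, ‖(v : ℂ) - x‖ < 4 * R)
    {c : (𝔅.T (cfSites η)).Cyc} (hc : c.IsRim (𝔅.col η ξ)) (h4 : 4 * R ≤ ‖𝔅.posF (cfSites η) (x + 7 * R) ((𝔅.T (cfSites η)).src (c.e 0)) - x‖)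
    {a n : ℕ} (hn : 0 < n) {b : Bool} {e : (delPl h).Dart} (hIn : pvasIn (delPl h).toMap C0.Left (fun v => cfCol η v == b) e)
    (hcar : ∀ t < n, ∃ f : (delPl h).Dart, ((delPl h).toMap.src f : ℂ) = 𝔅.posF (cfSites η) (x + 7 * R) ((𝔅.T (cfSites η)).src (c.e (a + t))) ∧
      ((delPl h).toMap.tgt f : ℂ) = 𝔅.posF (cfSites η) (x + 7 * R) ((𝔅.T (cfSites η)).src (c.e (a + t + 1))) ∧ PvafOn (delPl h).toMap (fun v => cfCol η v == b) C0.Left e f) :
    ∃ (C0' : (𝔅.T (cfSites η)).Cyc) (e' : 𝔅.D (cfSites η)),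
      PvdqCyc (fun d d' => DelbRel 𝔅 h d' d) C0 C0' ∧ C0.Left ⊆ delbStar h (Metric.closedBall x (6 * R)) ∧ PvafRim (𝔅.T (cfSites η)) (fun v => 𝔅.col η ξ v == b) c ∧ DelbRel 𝔅 h e' e ∧
      pvasIn (𝔅.T (cfSites η)) C0'.Left (fun v => 𝔅.col η ξ v == b) e' ∧ (𝔅.T (cfSites η)).opp (c.e c.n) ∉ C0'.Left ∧
      ∀ u, a ≤ u → u < a + n → PvafOn (𝔅.T (cfSites η)) (fun v => 𝔅.col η ξ v == b) C0'.Left e' (c.e u) := by
  classical
  have I0 := pvdq_bulk (h := h) hOk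
  have I := I0.symm
  have hfs := pl_left_face C0
  have hK6 : ∀ p : ℂ, ‖p - x‖ < 4 * R → p ∈ Metric.closedBall x (6 * R) := fun p hp => mem_closedBall_iff_norm.2 (by linarith)
  have hC0G : C0.Left ⊆ delbStar h (Metric.closedBall x (6 * R)) := fun d hd => Or.inl (hK6 _ (hC0 _ ⟨d, hd, rfl⟩))
  obtain ⟨C0t, hCt⟩ := pvdq_cyc I C0 fun k => Or.inl (hC0G (plc_e_left (delp_isSph h) C0 k))
  have hB : PvdqCor (fun d d' => DelbRel 𝔅 h d' d) C0.Left C0t.Left := pvdq_left I hCt hC0G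
  have hcol : ∀ (w : ↥(cfSites η)) (v : 𝔅.V (cfSites η)), pvdqRv 𝔅 v w → (fun v : ↥(cfSites η) => cfCol η v == b) w = (fun v => 𝔅.col η ξ v == b) v := by
    intro w v hvw
    show (cfCol η w == b) = (𝔅.col η ξ v == b)
    rw [delb_col_inl 𝔅 η ξ hvw]
  -- the darts of the arc are the twins of the carried plane darts
  have htw : ∀ t < n, ∃ f : (delPl h).Dart, DelbRel 𝔅 h (c.e (a + t)) f ∧ PvafOn (delPl h).toMap (fun v => cfCol η v == b) C0.Left e f := by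
    intro t ht
    obtain ⟨f, f1, f2, f3⟩ := hcar t ht
    obtain ⟨v1, v2⟩ := pvago_on_verts hfs hfin hIn f3
    refine ⟨f, ⟨?_, ?_⟩, f3⟩
    · rw [f1]
      exact pvloc_posF hR (by rw [← f1]; exact (hC0 _ v1).le.trans (by linarith))
    · rw [c.chain, f2]
      exact pvloc_posF hR (by rw [← f2]; exact (hC0 _ v2).le.trans (by linarith))
  -- the colour of the rim
  have hb : 𝔅.col η ξ ((𝔅.T (cfSites η)).src (c.e 0)) = b := by
    obtain ⟨f, hf, hon⟩ := htw 0 hn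
    have h1 := pvago_on_black hIn.2.2 hon
    have h2 : cfCol η ((delPl h).toMap.src f : ℂ) = b := by simpa using h1
    rw [pl_rim_col hc 0 (a + 0), delb_col_inl 𝔅 η ξ hf.1, h2]
  obtain ⟨e', hee⟩ := I.tot (hC0G hIn.1)
  refine ⟨C0t, e', hCt, hC0G, pvsr_rim hc hb, hee, pvdq_in I hcol hB hee hIn, ?_, ?_⟩
  · intro hm
    have e0 : c.e c.n = c.e 0 := by simpa using c.per 0
    rw [e0] at hm
    obtain ⟨d', hd'⟩ := I0.tot (pvdq_left_sub I hCt hC0G hm)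
    have h1 : d' ∈ C0.Left := (hB _ _ hd').2 hm
    have h2 : 𝔅.lab (cfSites η) ((𝔅.T (cfSites η)).tgt ((𝔅.T (cfSites η)).opp (c.e 0))) = Sum.inl (((delPl h).toMap.tgt d' : ↥(cfSites η)) : ℂ) := I0.tgt hd'
    rw [(𝔅.T (cfSites η)).tgt_opp] at h2
    have h3 := hC0 ((delPl h).toMap.tgt d') ⟨(delPl h).toMap.nxt d', (pl_left_face C0 _).2 h1, rfl⟩
    rw [pvloc_posF_inl h2] at h4
    linarith
  · intro u h1 h2
    obtain ⟨t, rfl⟩ := Nat.exists_eq_add_of_le h1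
    obtain ⟨f, hf, hon⟩ := htw t (by omega)
    obtain ⟨f', hf', hon'⟩ := pvago_on I hcol hC0G hB hfs hfin hee hIn hon
    rwa [I0.inj hf' hf] at hon'

/-- **BACK, THE PACKAGE** (no `PvBulk` in the conclusion).   `Pl = delPl h` any presentation of the plane, `C0` a cycle with `VOf C0.Left ⊆ B(x,4R)`; the sub-arc `a .. a + n` (`0 < n`) of an encoded rim `P ∈ pvhbAll x R ω` is carried by the
chord of the plane entrance `e` in the colouring `s_b` (ANY `b`, `e`: those which `¬ AB` provides).   Then there are a simple sphere `T'` (the completion), a local isomorphism `I : PvdqIso Pl.toMap T' G G' r rv` (plane first, as in `pvagt_DI`, `pvagm_DI`),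
positions `pos'`, the closed rim `c` with `P.v k = pos' (src (c.e k))`, black for `s'`, the twin `C0'` of `C0`, the twin `e'` of `e`, the exit dart `w = c.n`, and the chord of `e'` carries the darts `a ≤ u < a + n` of `c`. -/
theorem pvago_back_pl {ω : PVSample} (h : DelGood (cfSites (pvConf ω))) (Pl : PlTri ↥(cfSites (pvConf ω))) (hPl : Pl = delPl h) {x : ℂ} {R : ℝ} (hR : 0 < R) (C0 : Pl.toMap.Cyc)
    (hfin : C0.Left.Finite) (hC0 : ∀ v ∈ Pl.toMap.VOf C0.Left, ‖(v : ℂ) - x‖ < 4 * R) {P : PvbRim} (hP : P ∈ pvhbAll x R ω) {a n : ℕ} (hn : 0 < n) {b : Bool} {e : Pl.Dart}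
    (hIn : pvasIn Pl.toMap C0.Left (fun v => cfCol (pvConf ω) v == b) e)
    (hcar : ∀ t < n, ∃ f : Pl.Dart, (Pl.toMap.src f : ℂ) = P.v (a + t) ∧ (Pl.toMap.tgt f : ℂ) = P.v (a + t + 1) ∧ PvafOn Pl.toMap (fun v => cfCol (pvConf ω) v == b) C0.Left e f) :
    ∃ (V' D' : Type) (T' : PvMap V' D') (G : Set Pl.Dart) (G' : Set D') (r : Pl.Dart → D' → Prop) (rv : ↥(cfSites (pvConf ω)) → V' → Prop) (s' : V' → Bool) (pos' : V' → ℂ)
      (C0' c : T'.Cyc) (e' : D'),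
      PvdqIso Pl.toMap T' G G' r rv ∧ (∀ v w, rv v w → (cfCol (pvConf ω) v == b) = s' w) ∧ T'.IsSph ∧ T'.Simple ∧ PvdqCyc r C0 C0' ∧ C0.Left ⊆ G ∧
      (∀ d : Pl.Dart, ‖(Pl.toMap.src d : ℂ) - x‖ ≤ 6 * R → d ∈ G) ∧ (∀ v w, rv v w → pos' w = v) ∧ (∀ w, ‖pos' w - x‖ ≤ 6 * R → ∃ d d', r d d' ∧ T'.src d' = w) ∧
      PvafRim T' s' c ∧ c.n = P.len ∧ (∀ k, P.v k = pos' (T'.src (c.e k))) ∧ r e e' ∧ pvasIn T' C0'.Left s' e' ∧ T'.opp (c.e c.n) ∉ C0'.Left ∧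
      ∀ u, a ≤ u → u < a + n → PvafOn T' s' C0'.Left e' (c.e u) := by
  subst hPl
  obtain ⟨X, hX, 𝔅, ξ, hA, hOk, c, hc, h4, rfl⟩ := hP
  obtain ⟨C0', e', g1, g2, g3, g4, g5, g6, g7⟩ := pvago_back_bulk 𝔅 ξ h hR hOk C0 hfin hC0 hc h4 hn hIn hcar
  refine ⟨_, _, 𝔅.T _, _, _, _, _, fun v => 𝔅.col (pvConf ω) ξ v == b, 𝔅.posF _ (x + 7 * R), C0', c, e', (pvdq_bulk (h := h) hOk).symm, ?_, hOk.sph, hOk.simple, g1, g2, ?_, ?_, ?_,
    g3, rfl, fun k => rfl, g4, g5, g6, g7⟩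
  · intro v w hvw
    show (cfCol (pvConf ω) v == b) = (𝔅.col (pvConf ω) ξ w == b)
    rw [delb_col_inl 𝔅 (pvConf ω) ξ hvw]
  · exact fun d hd => Or.inl (mem_closedBall_iff_norm.2 hd)
  · exact fun v w hvw => pvloc_posF_inl hvw
  · intro w hw
    have hl := pvloc_posF hR hw
    have hK : 𝔅.posF (cfSites (pvConf ω)) (x + 7 * R) w ∈ Metric.closedBall x (6 * R) := mem_closedBall_iff_norm.2 hw
    obtain ⟨p, hab⟩ := del_exists_adj h.lf (hOk.site w _ hl) (h.bdd _)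
    obtain ⟨d, k1, -, -⟩ := hOk.face _ _ _ (delp_apex_spec h hab) hK
    obtain ⟨d', hd'⟩ := (pvdq_bulk (h := h) hOk).tot (pvdq_G_of_src hOk k1 hK)
    exact ⟨d', d, hd', hOk.inj (k1.trans hl.symm)⟩

/-- **BACK AT THE MODEL OF RECORD** (200): the arc `pvx2Sub P a n` is carried (`PvX2Car`) by a chord of a patch -/
theorem pvago_back [∀ Y : Set ℂ, DecidableEq ↥Y] {x : ℂ} {R q0 : ℝ} {y : ℂ} {ρ : ℝ} (hR : 0 < R) {ω : PVSample} {C0 C1 : (pvx2T (cfSites (pvConf ω))).Cyc} (hM : PvX2Mac x R q0 y ρ _ C0 C1)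
    {P : PvbRim} (hP : P ∈ pvhbAll x R ω) {a n : ℕ} (hn : 0 < n) {b : Bool} {e : (delbPl (cfSites (pvConf ω))).Dart} (hcar : PvX2Car _ (fun v => cfCol (pvConf ω) v) y ρ C0 (pvx2Sub P a n) b e) :
    ∃ (V' D' : Type) (T' : PvMap V' D') (G : Set (delbPl (cfSites (pvConf ω))).Dart) (G' : Set D') (r : (delbPl (cfSites (pvConf ω))).Dart → D' → Prop) (rv : ↥(cfSites (pvConf ω)) → V' → Prop)
      (s' : V' → Bool) (pos' : V' → ℂ) (C0' c : T'.Cyc) (e' : D'),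
      PvdqIso (pvx2T _) T' G G' r rv ∧ (∀ v w, rv v w → (cfCol (pvConf ω) v == b) = s' w) ∧ T'.IsSph ∧ T'.Simple ∧ PvdqCyc r C0 C0' ∧ C0.Left ⊆ G ∧
      (∀ d, ‖((pvx2T _).src d : ℂ) - x‖ ≤ 6 * R → d ∈ G) ∧ (∀ v w, rv v w → pos' w = v) ∧ (∀ w, ‖pos' w - x‖ ≤ 6 * R → ∃ d d', r d d' ∧ T'.src d' = w) ∧
      PvafRim T' s' c ∧ c.n = P.len ∧ (∀ k, P.v k = pos' (T'.src (c.e k))) ∧ r e e' ∧ pvasIn T' C0'.Left s' e' ∧ T'.opp (c.e c.n) ∉ C0'.Left ∧
      ∀ u, a ≤ u → u < a + n → PvafOn T' s' C0'.Left e' (c.e u) :=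
  pvago_back_pl hM.good (delbPl _) (delb_pl_eq hM.good) hR C0 hM.geo.2.2.1 hM.out0 hP hn hcar.2.1 fun t ht => by
    obtain ⟨f, f1, f2, f3⟩ := hcar.2.2 t ht
    exact ⟨f, f1, f2, f3⟩

/-- **(INFIX)** (leaf of (D), post of 116 11:33Z): an arc of an ACTUAL rim which is carried by a chord of a patch is an INFIX of the PLANE path `Γ(χ_e)` -/
theorem pvago_infix [∀ Y : Set ℂ, DecidableEq ↥Y] {x : ℂ} {R q0 : ℝ} {y : ℂ} {ρ : ℝ} (hR : 0 < R) {ω : PVSample} {C0 C1 : (pvx2T (cfSites (pvConf ω))).Cyc} (hM : PvX2Mac x R q0 y ρ _ C0 C1)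
    {P : PvbRim} (hP : P ∈ pvhbAll x R ω) {a n : ℕ} {b : Bool} {e : (delbPl (cfSites (pvConf ω))).Dart} (hcar : PvX2Car _ (fun v => cfCol (pvConf ω) v) y ρ C0 (pvx2Sub P a n) b e) :
    ∃ k₀, ∀ t < n, ∃ f, (pvafGam (pvx2T _) C0.Left e (fun v => cfCol (pvConf ω) v == b))[k₀ + t]? = some f ∧ ((pvx2T _).src f : ℂ) = P.v (a + t) ∧ ((pvx2T _).tgt f : ℂ) = P.v (a + t + 1) := by
  classical
  rcases Nat.eq_zero_or_pos n with rfl | hn
  · exact ⟨0, fun t ht => absurd ht (Nat.not_lt_zero t)⟩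
  obtain ⟨V', D', T', G, G', r, rv, s', pos', C0', c, e', I, hc, hT', hS', hC, hC0G, -, hpos, -, hrim, -, hv, hee, he', hw, hon⟩ := pvago_back hR hM hP hn hcar
  have hfin := hM.geo.2.2.1
  have hB : PvdqCor r C0.Left C0'.Left := pvdq_left I hC hC0G
  have hfin' : C0'.Left.Finite := pvdq_left_fin I hC hC0G hfin
  have hinf := pvaf_on_infix hT' hS' (pl_left_face C0') hfin' hrim he' (t1 := a) (t2 := a + n) hw hon
  rw [Nat.add_sub_cancel_left] at hinf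
  obtain ⟨k₀, hk⟩ := pvaf_infix_get hinf
  have hGam := pvagt_gam I hc hC0G hB (pl_left_face C0) hfin hee hcar.2.1
  refine ⟨k₀, fun t ht => ?_⟩
  rcases pvagt_get hGam (k₀ + t) with ⟨-, h2⟩ | ⟨d, d', h1, h2, hr⟩
  · rw [hk t ht] at h2
    cases h2
  · rw [hk t ht] at h2
    obtain rfl := Option.some.inj h2
    refine ⟨d, h1, ?_, ?_⟩
    · rw [hv, hpos _ _ (I.src hr)]
    · rw [hv, ← c.chain, hpos _ _ (I.tgt hr)]

end back

/-! ## 5. a passage of a carried arc as a passage of `Γ(χ_e)` (model free) -/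

/-- **PASSAGE**: `v 0 .. v n` is an infix (from the index `k₀`) of the positions of the list `L`; a passage `j ≤ j' ≤ n` of `v` with steps `≤ ℓ` from the block of `v j` to sup-distance `≥ en + 1` contains a passage `k₀ + j .. k₀ + j''`, `j'' < j'`, of `L`
in the vocabulary of 13 (`PvafIn`, `PvafFar`), which stays at sup-distance `≤ en` (FIRST EXIT).      (The last vertex `v n` is only the TARGET of the last dart of the arc: this is why one block is lost.) -/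
theorem pvago_passage {α : Type} (L : List α) (pos : α → ℂ) (v : ℕ → ℂ) {k₀ n : ℕ} (hinf : ∀ t < n, ∃ f, L[k₀ + t]? = some f ∧ pos f = v t) {ℓ : ℝ} (hℓ : 0 < ℓ) {j j' : ℕ} (hjj : j ≤ j') (hj' : j' ≤ n)
    (hstep : ∀ t, j ≤ t → t < j' → ‖v (t + 1) - v t‖ ≤ ℓ) (en : ℕ) (hfar : ((en + 1 : ℕ) : ℤ) ≤ pv5Dist (pv5Blk ℓ (v j)) (pv5Blk ℓ (v j'))) :
    ∃ j'', j ≤ j'' ∧ j'' < j' ∧ PvafIn L (fun d => pv5Blk ℓ (pos d)) (pv5Blk ℓ (v j)) (k₀ + j) ∧ PvafFar L (fun d => pv5Blk ℓ (pos d)) en (pv5Blk ℓ (v j)) (k₀ + j'') ∧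
      ∀ t d, k₀ + j ≤ t → t ≤ k₀ + j'' → L[t]? = some d → pos d = v (t - k₀) ∧ pv5Dist (pv5Blk ℓ (v j)) (pv5Blk ℓ (pos d)) ≤ en := by
  obtain ⟨j'', h1, h2, h3, h4⟩ := pvx2_first_exit hℓ v hjj hstep en (le_trans (by push_cast; linarith) hfar)
  have hlt : j'' < j' := by
    rcases Nat.lt_or_ge j'' j' with h | h
    · exact h
    · exfalso
      have e1 : j'' = j' := le_antisymm h2 h
      have e2 := h4 j'' h1 le_rfl
      rw [e1] at e2
      push_cast at hfar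
      linarith
  obtain ⟨f, f1, f2⟩ := hinf j (by omega)
  obtain ⟨f', f1', f2'⟩ := hinf j'' (by omega)
  refine ⟨j'', h1, hlt, ⟨f, f1, by show pv5Blk ℓ (pos f) = _; rw [f2]⟩, ⟨f', f1', by show _ ≤ pv5Dist _ (pv5Blk ℓ (pos f')); rw [f2']; exact h3⟩, fun t d a1 a2 hd => ?_⟩
  obtain ⟨u, rfl⟩ := Nat.exists_eq_add_of_le (show k₀ ≤ t by omega)
  obtain ⟨g, g1, g2⟩ := hinf u (by omega)
  rw [g1] at hd
  obtain rfl := Option.some.inj hd
  rw [Nat.add_sub_cancel_left, g2]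
  exact ⟨rfl, h4 u (by omega) (by omega)⟩

end Claimed.Agent.R289
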