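-- KEEP
import Claimed.Agent.R289.Arm.GateB
import Claimed.Agent.R289.Arm.BxpPv
import Claimed.Agent.R289.Tr.Dense
import Claimed.Agent.R289.Tr.Di

/-!
# Row 289 (S0537, Cardy for Poisson-Voronoi), box ARM, block A6 = GATE DENSITY, file Arm/GateS : THE MICRO GEOMETRY OF A6, MODEL FREE      (owner helper75; prefix `pvags_`, defs `pvags…`, `Pvags…`)

ONE map `T` with positions `pos : V → ℂ` (instance: the total Delaunay plane `(delbPl Y).toMap`, `Subtype.val`).      Everything which `pvagb_DI` (281, `Arm/GateB`) asks from the GEOMETRY is produced here from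
a FRAME FUNCTION `F : PvagsFr T pos q Z Rs` (a cycle at radius `(r, 5r/4)` round `z` and BXP(q) between `5r/4` and `25r/2`, for `z ∈ Z`, `r ∈ Rs`: `PvaxFrame` of `Arm/BxpPv`) and a record of NUMBERS `N : PvagsNum g mt`.

* sec. 1  balls and discs: `pvags_ball_sub`, `pvags_sub_ball`, `pvags_left_sub`, `pvags_gate` (widening a gate), `pvags_buf` (`PvagaBuf` from positions)
* sec. 2  `PvagsFr`, `pvags_fr_exists`, `pvags_fr_model` (`PvaxFrame` ⟹ frame function on `(delbPl Y).toMap`), `.inside`, `.blk`, `.tower`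
* sec. 3  grids: unit `u = h / 2`; the box `z = pv5Blk u (pos v)`; THE CENTRE `pvagsZ u z = l9Pt (2u) (pvagsPt z)` is a point of the grid `h ℤ²` within `h` of every point of the box (`pvags_Z_near`);
          `pvags_Z_ctr` (distance to the corners of the neighbouring boxes of side `A u`), `pvags_walk`, `pvags_far`, `pvags_cell`, `pvags_Z_finite`
* sec. 4  `PvagsNum g mt` (radii), `PvagsNum.Rs` (the finite set of radii), **`PvagsNum.tri`** : the term of `PvagaTri`, `PvagsNum.ta`, `.to` (towers), `pvags_htow`, `pvags_tower`, `pvags_adm`, `pvags_hbuf`, `pvags_hbuf'`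
* sec. 5  **`pvags_DI`** : (DI) of 281 with all geometric hypotheses in POSITION form, conclusion = a grid point `l9Pt (2u) p` within `2u` of a vertex of the passage and gates between the BALLS `pvdiB` of radii `r0 k`, `5/4 r3 k`
-/

set_option autoImplicit false
set_option linter.unusedSectionVars false
set_option linter.unusedVariables false

namespace Claimed.Agent.R289

open Claims.C0465

/-! ## 1. balls and discs -/

section kit

variable {V D : Type} [DecidableEq V] {T : PvMap V D} {pos : V → ℂ}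

theorem pvags_tri (a b c : ℂ) : ‖a - c‖ ≤ ‖a - b‖ + ‖b - c‖ := by
  have : a - c = (a - b) + (b - c) := by ring
  rw [this]
  exact norm_add_le _ _

/-- a dart one of whose three vertices is interior to a face set lies in it -/
theorem pvags_mem_of_int {B : Set D} (hB : T.FaceSet B) {d : D} (h : T.src d ∈ T.Int B ∨ T.tgt d ∈ T.Int B ∨ T.apex d ∈ T.Int B) : d ∈ B := by
  rcases h with h | h | h
  · exact h d rfl
  · exact (hB d).1 (h (T.nxt d) (T.src_nxt d))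
  · exact (hB d).1 ((hB _).1 (h (T.nxt (T.nxt d)) (T.src_nxt2 d)))

/-- the faces which meet a small ball lie in the disc -/
theorem pvags_ball_sub {B : Set D} (hB : T.FaceSet B) {z ζ : ℂ} {r ρ : ℝ} (hinn : ∀ v, ‖pos v - z‖ ≤ r → v ∈ T.Int B) (h : ‖ζ - z‖ + ρ ≤ r) : pvdiB T pos ζ ρ ⊆ B := by
  intro d hd
  have key : ∀ v, ‖pos v - ζ‖ ≤ ρ → v ∈ T.Int B := fun v hv => hinn v ((pvags_tri _ ζ _).trans (by linarith))
  exact pvags_mem_of_int hB (hd.imp (key _) (Or.imp (key _) (key _)))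

/-- the disc lies in the faces which meet a large ball -/
theorem pvags_sub_ball {B : Set D} {z ζ : ℂ} {r' ρ : ℝ} (hout : ∀ v ∈ T.VOf B, ‖pos v - z‖ ≤ r') (h : ‖z - ζ‖ + r' ≤ ρ) : B ⊆ pvdiB T pos ζ ρ := by
  intro d hd
  have := hout _ ⟨d, hd, rfl⟩
  exact Or.inl ((pvags_tri _ z _).trans (by linarith))

/-- disc in disc, from positions -/
theorem pvags_left_sub {B B' : Set D} {z z' : ℂ} {r r' : ℝ} (hout : ∀ v ∈ T.VOf B, ‖pos v - z‖ ≤ r') (hinn : ∀ v, ‖pos v - z'‖ ≤ r → v ∈ T.Int B') (h : ‖z - z'‖ + r' ≤ r) : B ⊆ B' := by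
  intro d hd
  have := hout _ ⟨d, hd, rfl⟩
  exact hinn _ ((pvags_tri _ z _).trans (by linarith)) d rfl

/-- a gate stays a gate in a wider annulus -/
theorem pvags_gate {s : V → Bool} {c : Bool} {I O I' O' G : Set D} {X : Finset V} (h : PvgGate T s c I O G X) (hI : I' ⊆ I) (hO : O ⊆ O') : PvgGate T s c I' O' G X :=
  ⟨h.face, hI.trans h.inner, h.outer.trans hO, h.card, h.col, h.other⟩

/-- **the buffer from positions**: `cin` within `r'` of `z`, the ball of radius `R` round `z` inside `cout`; the count cycles: the ball of radius `ri` round `ζ` inside `k1`, `k0` within `ro` of `ζ` -/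
theorem pvags_buf {cin cout k0 k1 k2 : T.Cyc} {z ζ : ℂ} {r' R ri ro : ℝ} (hcin : ∀ v ∈ T.VOf cin.Left, ‖pos v - z‖ ≤ r') (hcout : ∀ v, ‖pos v - z‖ ≤ R → v ∈ T.Int cout.Left)
    (h12 : k1.Inside k2) (h20 : k2.Inside k0) (hk1 : ∀ v, ‖pos v - ζ‖ ≤ ri → v ∈ T.Int k1.Left) (hk0 : ∀ v ∈ T.VOf k0.Left, ‖pos v - ζ‖ ≤ ro)
    (h1 : ‖z - ζ‖ + r' ≤ ri) (h2 : ‖ζ - z‖ + ro ≤ R) : PvagaBuf T cin cout k0 k1 k2 :=
  ⟨pvags_left_sub hcin hk1 h1, h12, h20, pvags_left_sub hk0 hcout h2⟩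

end kit

/-! ## 2. the frame as a function -/

section frame

variable {V D : Type} [DecidableEq V]

/-- **THE FRAME FUNCTION**: for the centres `z ∈ Z` and the radii `r ∈ Rs`: a chosen cycle at radius `(r, 5r/4)` round `z`, and BXP(q) between the radii `5r/4` and `25r/2` -/
structure PvagsFr (T : PvMap V D) (pos : V → ℂ) (q : ℝ) (Z : Set ℂ) (Rs : Set ℝ) where
  C : ℂ → ℝ → T.Cyc
  at' : ∀ z ∈ Z, ∀ r ∈ Rs, PvaxAt T pos z r (5 / 4 * r) (C z r)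
  bxp : ∀ z ∈ Z, ∀ r ∈ Rs, PvaxBxp T pos q z (5 / 4 * r) (25 / 2 * r)

variable {T : PvMap V D} {pos : V → ℂ} {q : ℝ} {Z : Set ℂ} {Rs : Set ℝ}

theorem pvags_fr_exists (c₀ : T.Cyc) (h : ∀ z ∈ Z, ∀ r ∈ Rs, (∃ c : T.Cyc, PvaxAt T pos z r (5 / 4 * r) c) ∧ PvaxBxp T pos q z (5 / 4 * r) (25 / 2 * r)) :
    Nonempty (PvagsFr T pos q Z Rs) := by
  classical
  refine ⟨⟨fun z r => if h' : ∃ c : T.Cyc, PvaxAt T pos z r (5 / 4 * r) c then h'.choose else c₀, fun z hz r hr => ?_, fun z hz r hr => (h z hz r hr).2⟩⟩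
  have h' := (h z hz r hr).1
  simp only [dif_pos h']
  exact h'.choose_spec

namespace PvagsFr

variable (F : PvagsFr T pos q Z Rs)

theorem inn {z : ℂ} (hz : z ∈ Z) {r : ℝ} (hr : r ∈ Rs) : ∀ v, ‖pos v - z‖ ≤ r → v ∈ T.Int (F.C z r).Left := (F.at' z hz r hr).inn

theorem out {z : ℂ} (hz : z ∈ Z) {r : ℝ} (hr : r ∈ Rs) : ∀ v ∈ T.VOf (F.C z r).Left, ‖pos v - z‖ ≤ 5 / 4 * r := fun v hv => ((F.at' z hz r hr).out v hv).le

theorem inside (hT : T.IsSph) {z z' : ℂ} (hz : z ∈ Z) (hz' : z' ∈ Z) {r r' : ℝ} (hr : r ∈ Rs) (hr' : r' ∈ Rs) (h : ‖z - z'‖ + 5 / 4 * r ≤ r') : (F.C z r).Inside (F.C z' r') :=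
  pvax_at_inside hT (F.at' z hz r hr) (F.at' z' hz' r' hr') h

theorem inside' (hT : T.IsSph) {z : ℂ} (hz : z ∈ Z) {r r' : ℝ} (hr : r ∈ Rs) (hr' : r' ∈ Rs) (h : 5 / 4 * r ≤ r') : (F.C z r).Inside (F.C z r') :=
  F.inside hT hz hz hr hr' (by simpa using h)

theorem blk (hT : T.IsSph) {z : ℂ} (hz : z ∈ Z) {r r' : ℝ} (hr : r ∈ Rs) (hr' : r' ∈ Rs) (h0 : 0 ≤ r) (h : 25 / 2 * r ≤ r') : PvaxBlk T (F.C z r) (F.C z r') q :=
  (pvax_at_blk hT (F.at' z hz r hr) (F.at' z hz r' hr') (pvax_bxp_mono (F.bxp z hz r hr) le_rfl h) (by linarith)).2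

/-- **the tower** round `z`: the `l`-th annulus between the cycles at the radii `16^(2l) t` and `16^(2l+1) t` -/
theorem tower (hT : T.IsSph) {z : ℂ} (hz : z ∈ Z) {t : ℝ} (ht : 0 < t) {m : ℕ} (hR : ∀ j < 2 * m, (16 : ℝ) ^ j * t ∈ Rs) :
    PvaxTower T m (fun l => F.C z ((16 : ℝ) ^ (2 * l) * t)) (fun l => F.C z ((16 : ℝ) ^ (2 * l + 1) * t)) q := by
  have hpos : ∀ j : ℕ, 0 < (16 : ℝ) ^ j * t := fun j => by positivity
  have hsucc : ∀ j : ℕ, (16 : ℝ) ^ (j + 1) * t = 16 * ((16 : ℝ) ^ j * t) := fun j => by rw [pow_succ]; ring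
  refine ⟨fun i hi => (F.at' z hz _ (hR (2 * i + 1) (by omega))).fin, fun i hi => ?_, fun i hi => ?_, fun i hi => ?_⟩
  · refine F.inside' hT hz (hR (2 * i) (by omega)) (hR (2 * i + 1) (by omega)) ?_
    have := hpos (2 * i)
    rw [hsucc]
    linarith
  · have e : 2 * (i + 1) = 2 * i + 1 + 1 := by ring
    show (F.C z ((16 : ℝ) ^ (2 * i + 1) * t)).Inside (F.C z ((16 : ℝ) ^ (2 * (i + 1)) * t))
    rw [e]
    refine F.inside' hT hz (hR (2 * i + 1) (by omega)) (hR (2 * i + 1 + 1) (by omega)) ?_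
    have := hpos (2 * i + 1)
    rw [hsucc (2 * i + 1)]
    linarith
  · refine F.blk hT hz (hR (2 * i) (by omega)) (hR (2 * i + 1) (by omega)) (hpos _).le ?_
    have := hpos (2 * i)
    rw [hsucc]
    linarith

end PvagsFr

end frame

/-- **`PvaxFrame` of `Arm/BxpPv` gives a frame function on the total plane** -/
theorem pvags_fr_model [I : ∀ Y : Set ℂ, DecidableEq ↥Y] {q : ℝ} {Z : Finset ℂ} {Rs : Finset ℝ} {Y : Set ℂ} (hF : PvaxFrame q Z Rs Y) (c₀ : (delbPl Y).toMap.Cyc) :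
    Nonempty (PvagsFr (delbPl Y).toMap Subtype.val q (↑Z : Set ℂ) (↑Rs : Set ℝ)) := by
  obtain rfl : I = fun Y a b => Subtype.instDecidableEq a b := Subsingleton.elim _ _
  have h := hF.1
  have key : ∀ Pl : PlTri ↥Y, Pl = delPl h → Pl.toMap.Cyc → Nonempty (PvagsFr Pl.toMap Subtype.val q (↑Z : Set ℂ) (↑Rs : Set ℝ)) := by
    rintro Pl rfl c₀
    exact pvags_fr_exists c₀ fun z hz r hr => pvax_frame_spec hF h (Finset.mem_coe.1 hz) (Finset.mem_coe.1 hr)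
  exact key _ (delb_pl_eq h) c₀

/-! ## 3. grids -/

section grid

/-- the index of the point of the grid `2 ℤ²` nearest to the unit box `z` -/
def pvagsPt (z : ℤ × ℤ) : ℤ × ℤ := ((z.1 + 1) / 2, (z.2 + 1) / 2)

/-- **THE CENTRE OF THE TRIALS OF THE BOX `z`** (boxes of side `u`): a point of the grid `(2u) ℤ²` -/
noncomputable def pvagsZ (u : ℝ) (z : ℤ × ℤ) : ℂ := l9Pt (2 * u) (pvagsPt z)

theorem pvags_eqns_cite : True := by
  have := @pvagsPt.eq_1; have := @pvagsZ.eq_1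
  trivial

theorem pvags_half (n : ℤ) : n ≤ 2 * ((n + 1) / 2) ∧ 2 * ((n + 1) / 2) ≤ n + 1 := by omega

theorem pvags_norm_le {w : ℂ} {a b : ℝ} (h1 : |w.re| ≤ a) (h2 : |w.im| ≤ b) : ‖w‖ ≤ a + b :=
  (Complex.norm_le_abs_re_add_abs_im w).trans (add_le_add h1 h2)

/-- one coordinate: the coordinate of the centre lies in the closed side of the box -/
theorem pvags_Z_coord {u : ℝ} (hu : 0 < u) (n : ℤ) : (n : ℝ) * u ≤ (((n + 1) / 2 : ℤ) : ℝ) * (2 * u) ∧ (((n + 1) / 2 : ℤ) : ℝ) * (2 * u) ≤ ((n : ℝ) + 1) * u := by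
  obtain ⟨h1, h2⟩ := pvags_half n
  have h1' : (n : ℝ) ≤ 2 * (((n + 1) / 2 : ℤ) : ℝ) := by exact_mod_cast h1
  have h2' : 2 * (((n + 1) / 2 : ℤ) : ℝ) ≤ (n : ℝ) + 1 := by exact_mod_cast h2
  constructor <;> nlinarith

theorem pvags_floor_coord {u : ℝ} (hu : 0 < u) (x : ℝ) : (⌊x / u⌋ : ℝ) * u ≤ x ∧ x ≤ ((⌊x / u⌋ : ℝ) + 1) * u := by
  have h1 := Int.floor_le (x / u)
  have h2 := (Int.lt_floor_add_one (x / u)).le
  rw [le_div_iff₀ hu] at h1
  rw [div_le_iff₀ hu] at h2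
  exact ⟨h1, h2⟩

/-- **the centre is within `2u` of every point of the box** -/
theorem pvags_Z_near {u : ℝ} (hu : 0 < u) (w : ℂ) : ‖w - pvagsZ u (pv5Blk u w)‖ ≤ 2 * u := by
  have key : ∀ x : ℝ, |x - (((⌊x / u⌋ + 1) / 2 : ℤ) : ℝ) * (2 * u)| ≤ u := by
    intro x
    obtain ⟨a1, a2⟩ := pvags_floor_coord hu x
    obtain ⟨b1, b2⟩ := pvags_Z_coord hu ⌊x / u⌋
    rw [abs_le]
    constructor <;> linarith
  have := pvags_norm_le (w := w - pvagsZ u (pv5Blk u w)) (a := u) (b := u) (by simpa [pvagsZ, pvagsPt, l9Pt, pv5Blk] using key w.re) (by simpa [pvagsZ, pvagsPt, l9Pt, pv5Blk] using key w.im)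
  linarith

/-- **the centre of the box `z` and the corner of a box of side `A u` next to the one which contains `z`** -/
theorem pvags_Z_ctr {u : ℝ} (hu : 0 < u) {A : ℕ} (hA : 0 < A) {z b : ℤ × ℤ} (h : PvagNear 1 (pvagCg A z) b) : ‖pvagsZ u z - pv5Ctr (A * u) b‖ ≤ 4 * (A * u) := by
  have key : ∀ n c : ℤ, |n / (A : ℤ) - c| ≤ 1 → |(((n + 1) / 2 : ℤ) : ℝ) * (2 * u) - A * u * c| ≤ 2 * (A * u) := by
    intro n c hc
    obtain ⟨b1, b2⟩ := pvags_Z_coord hu n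
    obtain ⟨g1, g2⟩ := pvag_div_spec hA n
    obtain ⟨c1, c2⟩ := abs_le.1 hc
    have hA' : (0 : ℝ) < A := by exact_mod_cast hA
    have g1' : (A : ℝ) * ((n / (A : ℤ) : ℤ) : ℝ) ≤ (n : ℝ) := by exact_mod_cast g1
    have g2' : (n : ℝ) + 1 ≤ (A : ℝ) * ((n / (A : ℤ) : ℤ) : ℝ) + A := by exact_mod_cast g2
    have c1' : (-1 : ℝ) ≤ ((n / (A : ℤ) : ℤ) : ℝ) - c := by exact_mod_cast c1
    have c2' : ((n / (A : ℤ) : ℤ) : ℝ) - c ≤ 1 := by exact_mod_cast c2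
    have e1 : (A : ℝ) * u * ((n / (A : ℤ) : ℤ) : ℝ) ≤ (n : ℝ) * u := by nlinarith
    have e2 : ((n : ℝ) + 1) * u ≤ (A : ℝ) * u * ((n / (A : ℤ) : ℤ) : ℝ) + A * u := by nlinarith
    have hAu : 0 < (A : ℝ) * u := by positivity
    have e3 : -(A * u) ≤ (A : ℝ) * u * ((n / (A : ℤ) : ℤ) : ℝ) - A * u * c := by nlinarith
    have e4 : (A : ℝ) * u * ((n / (A : ℤ) : ℤ) : ℝ) - A * u * c ≤ A * u := by nlinarith
    rw [abs_le]
    constructor <;> linarith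
  have := pvags_norm_le (w := pvagsZ u z - pv5Ctr (A * u) b) (a := 2 * (A * u)) (b := 2 * (A * u)) (by simpa [pvagsZ, pvagsPt, l9Pt, pv5Ctr] using key z.1 b.1 h.1)
    (by simpa [pvagsZ, pvagsPt, l9Pt, pv5Ctr] using key z.2 b.2 h.2)
  linarith

/-- king step -/
theorem pvags_walk {u : ℝ} (hu : 0 < u) {w w' : ℂ} (h : ‖w' - w‖ ≤ u) : PvagNear 1 (pv5Blk u w) (pv5Blk u w') := by
  have := pvtd_blk_close hu (a := 1) (z := w) (w := w') (by rw [norm_sub_rev]; simpa using h)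
  exact (pvtd_near_iff 1 _ _).2 this

/-- far blocks: far boxes -/
theorem pvags_far {Lu : ℕ} (hL : 0 < Lu) {en A : ℕ} (hen : 0 < en) (hA : A ≤ (en - 1) * Lu + 1) {z z' : ℤ × ℤ} (h : (en : ℤ) ≤ pv5Dist (pvagCg Lu z) (pvagCg Lu z')) : PvagFar A z z' := by
  by_contra hcon
  unfold PvagFar at hcon
  push Not at hcon
  have h1 : pv5Dist z z' ≤ (((en - 1) * Lu : ℕ) : ℤ) := by
    have hA' : (A : ℤ) ≤ (((en - 1) * Lu : ℕ) : ℤ) + 1 := by exact_mod_cast hA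
    exact max_le (by linarith [hcon.1]) (by linarith [hcon.2])
  have h2 := pvtd_cg_dist hL h1
  have h3 : ((en - 1 : ℕ) : ℤ) = (en : ℤ) - 1 := by
    rw [Nat.cast_sub hen]
    simp
  linarith

/-- coarse graining twice -/
theorem pvags_cg_cg (A B : ℕ) (z : ℤ × ℤ) : pvagCg B (pvagCg A z) = pvagCg (B * A) z := by
  unfold pvagCg
  have key : ∀ n : ℤ, n / (A : ℤ) / (B : ℤ) = n / ((B * A : ℕ) : ℤ) := by
    intro n
    rw [Int.ediv_ediv_of_nonneg (by positivity)]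
    congr 1
    push_cast
    ring
  simp only [key]

/-- the cell of a box of a block near `x` is one of the cells of `pvtdCells` -/
theorem pvags_cell {Lu Nn MA : ℕ} (hN : 0 < Nn) (hL : Lu = Nn * MA) {d : ℕ} {z x : ℤ × ℤ} (h : pv5Dist (pvagCg Lu z) x ≤ d) : pvagCg MA z ∈ pvtdCells Nn d x := by
  rw [pvtd_cells_mem hN, pvags_cg_cg, ← hL]
  exact h

/-- finitely many centres in a ball -/
theorem pvags_Z_finite {u : ℝ} (hu : 0 < u) (y : ℂ) (ρ : ℝ) : {ζ : ℂ | (∃ z, ζ = pvagsZ u z) ∧ ‖ζ - y‖ ≤ ρ}.Finite := by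
  have hfin : ((fun p : ℤ × ℤ => l9Pt (2 * u) p) '' (↑(Finset.Icc ⌊(y.re - ρ) / (2 * u)⌋ ⌈(y.re + ρ) / (2 * u)⌉ ×ˢ Finset.Icc ⌊(y.im - ρ) / (2 * u)⌋ ⌈(y.im + ρ) / (2 * u)⌉) : Set (ℤ × ℤ))).Finite :=
    (Finset.finite_toSet _).image _
  refine hfin.subset ?_
  rintro ζ ⟨⟨z, rfl⟩, hζ⟩
  refine ⟨pvagsPt z, ?_, rfl⟩
  have h2u : 0 < 2 * u := by positivity
  have key : ∀ (n : ℤ) (c : ℝ), |(n : ℝ) * (2 * u) - c| ≤ ρ → n ∈ Finset.Icc ⌊(c - ρ) / (2 * u)⌋ ⌈(c + ρ) / (2 * u)⌉ := by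
    intro n c hc
    obtain ⟨c1, c2⟩ := abs_le.1 hc
    rw [Finset.mem_Icc]
    constructor
    · have : (c - ρ) / (2 * u) ≤ n := by rw [div_le_iff₀ h2u]; linarith
      exact Int.cast_le.1 ((Int.floor_le _).trans this)
    · have : (n : ℝ) ≤ (c + ρ) / (2 * u) := by rw [le_div_iff₀ h2u]; linarith
      exact Int.cast_le.1 (this.trans (Int.le_ceil _))
  have hre := (Complex.abs_re_le_norm _).trans hζ
  have him := (Complex.abs_im_le_norm _).trans hζ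
  rw [Finset.coe_product, Set.mem_prod]
  exact ⟨Finset.mem_coe.2 (key _ _ (by simpa [pvagsZ, l9Pt] using hre)), Finset.mem_coe.2 (key _ _ (by simpa [pvagsZ, l9Pt] using him))⟩

end grid

/-! ## 4. the numbers, the cycles of the trials, the towers -/

/-- **THE NUMBERS OF THE MICRO GEOMETRY**, in units of the side `u` of the boxes.   Trial `k < g`: cycles at the radii `r0 k < r1 k < r2 k < r3 k`, tower of `mt` annuli `16^(2l) t k < 16^(2l+1) t k` between `r1 k` and `r2 k`;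
level `i < 2 g` (buffers `2k`: between `r0 k`, `r1 k`; `2k+1`: between `r2 k`, `r3 k`): boxes of side `A i`, the flag of a box reads the cycles between the radii `ri i` and `ro i` round its corner -/
structure PvagsNum (g mt : ℕ) where
  A : ℕ → ℕ
  ri : ℕ → ℝ
  ro : ℕ → ℝ
  r0 : ℕ → ℝ
  r1 : ℕ → ℝ
  t : ℕ → ℝ
  r2 : ℕ → ℝ
  r3 : ℕ → ℝ
  A0 : ∀ i < 2 * g, 0 < A i
  io : ∀ i < 2 * g, ri i ≤ ro i
  h0 : ∀ k < g, 2 ≤ r0 k
  b0 : ∀ k < g, 5 / 4 * r0 k + 4 * A (2 * k) ≤ ri (2 * k)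
  b1 : ∀ k < g, ro (2 * k) + 4 * A (2 * k) ≤ r1 k
  t1 : ∀ k < g, 5 / 4 * r1 k ≤ t k
  t2 : ∀ k < g, 5 / 4 * ((16 : ℝ) ^ (2 * mt) * t k) ≤ r2 k
  b2 : ∀ k < g, 5 / 4 * r2 k + 4 * A (2 * k + 1) ≤ ri (2 * k + 1)
  b3 : ∀ k < g, ro (2 * k + 1) + 4 * A (2 * k + 1) ≤ r3 k

namespace PvagsNum

variable {g mt : ℕ} (N : PvagsNum g mt)

open Classical in
/-- the finite set of the radii (units of `u`) -/
noncomputable def Rs : Finset ℝ :=
  (Finset.range g).biUnion fun k => {N.r0 k, N.r1 k, N.r2 k, N.r3 k} ∪ (Finset.range (2 * mt)).image fun j => (16 : ℝ) ^ j * N.t k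

theorem _root_.Claimed.Agent.R289.pvags_eqns_cite2 : True := by
  have := @PvagsNum.Rs.eq_1
  trivial

variable {N}

theorem mem0 {k : ℕ} (hk : k < g) : N.r0 k ∈ N.Rs := by
  classical
  exact Finset.mem_biUnion.2 ⟨k, Finset.mem_range.2 hk, Finset.mem_union_left _ (by simp)⟩

theorem mem1 {k : ℕ} (hk : k < g) : N.r1 k ∈ N.Rs := by
  classical
  exact Finset.mem_biUnion.2 ⟨k, Finset.mem_range.2 hk, Finset.mem_union_left _ (by simp)⟩

theorem mem2 {k : ℕ} (hk : k < g) : N.r2 k ∈ N.Rs := by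
  classical
  exact Finset.mem_biUnion.2 ⟨k, Finset.mem_range.2 hk, Finset.mem_union_left _ (by simp)⟩

theorem mem3 {k : ℕ} (hk : k < g) : N.r3 k ∈ N.Rs := by
  classical
  exact Finset.mem_biUnion.2 ⟨k, Finset.mem_range.2 hk, Finset.mem_union_left _ (by simp)⟩

theorem memt {k : ℕ} (hk : k < g) {j : ℕ} (hj : j < 2 * mt) : (16 : ℝ) ^ j * N.t k ∈ N.Rs := by
  classical
  exact Finset.mem_biUnion.2 ⟨k, Finset.mem_range.2 hk, Finset.mem_union_right _ (Finset.mem_image.2 ⟨j, Finset.mem_range.2 hj, rfl⟩)⟩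

theorem r0_pos {k : ℕ} (hk : k < g) : 0 < N.r0 k := lt_of_lt_of_le (by norm_num) (N.h0 k hk)

theorem le01 {k : ℕ} (hk : k < g) : 5 / 4 * N.r0 k ≤ N.r1 k := by
  have h1 := N.b0 k hk
  have h2 := N.b1 k hk
  have h3 := N.io (2 * k) (by omega)
  have h4 : (0 : ℝ) ≤ N.A (2 * k) := Nat.cast_nonneg _
  linarith

theorem r1_pos {k : ℕ} (hk : k < g) : 0 < N.r1 k := by
  have := le01 (N := N) hk
  have := r0_pos (N := N) hk
  linarith

theorem t_pos {k : ℕ} (hk : k < g) : 0 < N.t k := by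
  have := N.t1 k hk
  have := r1_pos (N := N) hk
  linarith

theorem pow_le {k : ℕ} (hk : k < g) {j : ℕ} (hj : j ≤ 2 * mt) : 5 / 4 * ((16 : ℝ) ^ j * N.t k) ≤ N.r2 k := by
  refine le_trans ?_ (N.t2 k hk)
  have h1 : (16 : ℝ) ^ j ≤ (16 : ℝ) ^ (2 * mt) := pow_le_pow_right₀ (by norm_num) hj
  have := t_pos (N := N) hk
  nlinarith

theorem le_pow {k : ℕ} (hk : k < g) (j : ℕ) : 5 / 4 * N.r1 k ≤ (16 : ℝ) ^ j * N.t k := by
  refine le_trans (N.t1 k hk) ?_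
  have h1 : (1 : ℝ) ≤ (16 : ℝ) ^ j := one_le_pow₀ (by norm_num)
  have := t_pos (N := N) hk
  nlinarith

theorem le12 {k : ℕ} (hk : k < g) : 5 / 4 * N.r1 k ≤ N.r2 k := by
  have h1 := le_pow (N := N) hk 0
  have h2 := pow_le (N := N) hk (j := 0) (Nat.zero_le _)
  have := t_pos (N := N) hk
  simp only [pow_zero, one_mul] at h1 h2
  linarith

theorem r2_pos {k : ℕ} (hk : k < g) : 0 < N.r2 k := by
  have := le12 (N := N) hk
  have := r1_pos (N := N) hk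
  linarith

theorem le23 {k : ℕ} (hk : k < g) : 5 / 4 * N.r2 k ≤ N.r3 k := by
  have h1 := N.b2 k hk
  have h2 := N.b3 k hk
  have h3 := N.io (2 * k + 1) (by omega)
  have h4 : (0 : ℝ) ≤ N.A (2 * k + 1) := Nat.cast_nonneg _
  linarith

end PvagsNum

section tri

variable {V D : Type} [DecidableEq V] {T : PvMap V D} {pos : V → ℂ} {q : ℝ} {Z : Set ℂ} {Rs : Set ℝ} {g mt : ℕ}

/-- **the frame, the numbers, the macroscopic disc fit**: the centres of the boxes of `Zs` and the radii are in the frame, the trial discs lie in a ball which is interior to `C0` -/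
structure PvagsFit (N : PvagsNum g mt) (u : ℝ) (T : PvMap V D) (pos : V → ℂ) (C0 : T.Cyc) (Z : Set ℂ) (Rs : Set ℝ) (Zs : Set (ℤ × ℤ)) (y : ℂ) (ρ0 : ℝ) : Prop where
  u0 : 0 < u
  sph : T.IsSph
  hZ : ∀ z ∈ Zs, pvagsZ u z ∈ Z
  hRs : ∀ r ∈ N.Rs, r * u ∈ Rs
  hC0 : ∀ v, ‖pos v - y‖ ≤ ρ0 → v ∈ T.Int C0.Left
  hZs : ∀ z ∈ Zs, ∀ k < g, ‖pvagsZ u z - y‖ + 5 / 4 * (N.r3 k * u) ≤ ρ0

variable {N : PvagsNum g mt} {u : ℝ} {C0 : T.Cyc} {Zs : Set (ℤ × ℤ)} {y : ℂ} {ρ0 : ℝ}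

/-- **THE CYCLES OF THE TRIALS** (the term of `PvagaTri` of 281) -/
noncomputable def PvagsFit.tri (H : PvagsFit N u T pos C0 Z Rs Zs y ρ0) (F : PvagsFr T pos q Z Rs) : PvagaTri T C0.Left Zs g where
  box := fun v => pv5Blk u (pos v)
  c0 := fun z k => F.C (pvagsZ u z) (N.r0 k * u)
  c1 := fun z k => F.C (pvagsZ u z) (N.r1 k * u)
  c2 := fun z k => F.C (pvagsZ u z) (N.r2 k * u)
  c3 := fun z k => F.C (pvagsZ u z) (N.r3 k * u)
  h01 := fun z hz k hk => F.inside' H.sph (H.hZ z hz) (H.hRs _ (PvagsNum.mem0 hk)) (H.hRs _ (PvagsNum.mem1 hk)) (by have := PvagsNum.le01 (N := N) hk; have := H.u0; nlinarith)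
  h12 := fun z hz k hk => F.inside' H.sph (H.hZ z hz) (H.hRs _ (PvagsNum.mem1 hk)) (H.hRs _ (PvagsNum.mem2 hk)) (by have := PvagsNum.le12 (N := N) hk; have := H.u0; nlinarith)
  h23 := fun z hz k hk => F.inside' H.sph (H.hZ z hz) (H.hRs _ (PvagsNum.mem2 hk)) (H.hRs _ (PvagsNum.mem3 hk)) (by have := PvagsNum.le23 (N := N) hk; have := H.u0; nlinarith)
  h3B := fun z hz k hk => pvags_left_sub (F.out (H.hZ z hz) (H.hRs _ (PvagsNum.mem3 hk))) H.hC0 (H.hZs z hz k hk)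
  hin := fun z hz k hk v hv => F.inn (H.hZ z hz) (H.hRs _ (PvagsNum.mem0 hk)) v (by
    have h1 := pvags_Z_near H.u0 (pos v)
    rw [show pv5Blk u (pos v) = z from hv] at h1
    have := N.h0 k hk
    have := H.u0
    nlinarith)

/-- the inner cycles of the tower of the trial `(z, k)` -/
noncomputable def pvagsTa (N : PvagsNum g mt) (u : ℝ) (F : PvagsFr T pos q Z Rs) (i : (ℤ × ℤ) × ℕ) (l : ℕ) : T.Cyc := F.C (pvagsZ u i.1) ((16 : ℝ) ^ (2 * l) * (N.t i.2 * u))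

/-- the outer cycles of the tower of the trial `(z, k)` -/
noncomputable def pvagsTo (N : PvagsNum g mt) (u : ℝ) (F : PvagsFr T pos q Z Rs) (i : (ℤ × ℤ) × ℕ) (l : ℕ) : T.Cyc := F.C (pvagsZ u i.1) ((16 : ℝ) ^ (2 * l + 1) * (N.t i.2 * u))

theorem pvags_eqns_cite3 : True := by
  have := @PvagsFit.tri.eq_1; have := @pvagsTa.eq_1; have := @pvagsTo.eq_1
  trivial

namespace PvagsFit

variable (H : PvagsFit N u T pos C0 Z Rs Zs y ρ0) (F : PvagsFr T pos q Z Rs)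

include H

theorem memt {k : ℕ} (hk : k < g) {j : ℕ} (hj : j < 2 * mt) : (16 : ℝ) ^ j * (N.t k * u) ∈ Rs := by
  rw [← mul_assoc]
  exact H.hRs _ (PvagsNum.memt hk hj)

/-- the tower of a trial blocks -/
theorem tower {z : ℤ × ℤ} (hz : z ∈ Zs) {k : ℕ} (hk : k < g) : PvaxTower T mt (pvagsTa N u F (z, k)) (pvagsTo N u F (z, k)) q :=
  F.tower H.sph (H.hZ z hz) (mul_pos (PvagsNum.t_pos hk) H.u0) fun j hj => H.memt hk hj

/-- **`htow`** of `pvagb_DI` -/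
theorem htow : ∀ z ∈ Zs, ∀ k < g, ∀ l < mt, ((H.tri F).c1 z k).Inside (pvagsTa N u F (z, k) l) ∧ (pvagsTa N u F (z, k) l).Inside (pvagsTo N u F (z, k) l) ∧
    (pvagsTo N u F (z, k) l).Inside ((H.tri F).c2 z k) := by
  intro z hz k hk l hl
  have hu := H.u0
  refine ⟨?_, (H.tower F hz hk).ins l hl, ?_⟩
  · refine F.inside' H.sph (H.hZ z hz) (H.hRs _ (PvagsNum.mem1 hk)) (H.memt hk (by omega)) ?_
    have := PvagsNum.le_pow (N := N) hk (2 * l)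
    show 5 / 4 * (N.r1 k * u) ≤ (16 : ℝ) ^ (2 * l) * (N.t k * u)
    nlinarith
  · refine F.inside' H.sph (H.hZ z hz) (H.memt hk (by omega)) (H.hRs _ (PvagsNum.mem2 hk)) ?_
    have := PvagsNum.pow_le (N := N) hk (j := 2 * l + 1) (by omega)
    show 5 / 4 * ((16 : ℝ) ^ (2 * l + 1) * (N.t k * u)) ≤ N.r2 k * u
    nlinarith

/-- the region of a tower: within `r2 k u` of the centre, inside `C0` -/
theorem reg {z : ℤ × ℤ} (hz : z ∈ Zs) {k : ℕ} (hk : k < g) {v : V} (hv : v ∈ pvafReg T mt (pvagsTa N u F (z, k)) (pvagsTo N u F (z, k))) :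
    v ∈ T.VOf C0.Left ∧ ‖pos v - pvagsZ u z‖ ≤ N.r2 k * u := by
  obtain ⟨l, hl, d, hd, rfl⟩ := hv
  have hu := H.u0
  have h1 : ‖pos (T.src d) - pvagsZ u z‖ ≤ 5 / 4 * ((16 : ℝ) ^ (2 * l + 1) * (N.t k * u)) := F.out (H.hZ z hz) (H.memt hk (by omega)) _ ⟨d, hd.1, rfl⟩
  have h2 := PvagsNum.pow_le (N := N) hk (j := 2 * l + 1) (by omega)
  have h3 : ‖pos (T.src d) - pvagsZ u z‖ ≤ N.r2 k * u := h1.trans (by nlinarith)
  refine ⟨⟨d, ?_, rfl⟩, h3⟩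
  refine H.hC0 _ ((pvags_tri _ (pvagsZ u z) _).trans ?_) d rfl
  have h4 := H.hZs z hz k hk
  have h5 := PvagsNum.le23 (N := N) hk
  have h6 := PvagsNum.r2_pos (N := N) hk
  nlinarith

/-- **`hAdm`** of `pvagb_DI`: the tower of a trial at the box of a point `p` whose block is at sup-distance `≤ en` of the block `x` -/
theorem adm {z : ℤ × ℤ} (hz : z ∈ Zs) {k : ℕ} (hk : k < g) {ℓ : ℝ} (hℓ : 0 < ℓ) (hr : (N.r2 k + 2) * u ≤ ℓ) {p : ℂ} (hp : pv5Blk u p = z) {x : ℤ × ℤ} {en w : ℕ}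
    (hx : pv5Dist (pv5Blk ℓ p) x ≤ en) (hw : en + 1 ≤ w) : PvaaAdm T pos C0 ℓ w mt q x (pvagsTa N u F (z, k), pvagsTo N u F (z, k)) := by
  refine ⟨H.tower F hz hk, fun v hv => ?_⟩
  obtain ⟨h1, h2⟩ := H.reg F hz hk hv
  refine ⟨h1, ?_⟩
  have h3 := pvags_Z_near H.u0 p
  rw [hp, norm_sub_rev] at h3
  have h4 : ‖pos v - p‖ ≤ ((1 : ℕ) : ℝ) * ℓ := by
    refine (pvags_tri _ (pvagsZ u z) _).trans ?_
    push_cast
    linarith
  have h5 := pvtd_blk_close hℓ h4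
  have h6 := pv5_dist_triangle (pv5Blk ℓ (pos v)) (pv5Blk ℓ p) x
  have h7 : ((en + 1 : ℕ) : ℤ) ≤ w := by exact_mod_cast hw
  push_cast at h5 h7
  linarith

end PvagsFit

/-- **NOT FLAGGED, in position form** (`= ¬ PvdnFive` of 89, `= ¬ pvdsFive` of 101): count cycles `k1 < k2 < k0`, the ball of radius `ri` round `ζ` inside `k1`, `k0` within `ro` of `ζ`, no CONFIG5 -/
def PvagsNF (T : PvMap V D) (pos : V → ℂ) (s : V → Bool) (ζ : ℂ) (ri ro : ℝ) : Prop :=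
  ∃ k0 k1 k2 : T.Cyc, k1.Inside k2 ∧ k2.Inside k0 ∧ (∀ v, ‖pos v - ζ‖ ≤ ri → v ∈ T.Int k1.Left) ∧ (∀ v ∈ T.VOf k0.Left, ‖pos v - ζ‖ ≤ ro) ∧ ¬ PvagaFl T s k0 k1 k2

theorem pvags_eqns_cite4 : True := by
  have := @PvagsNF.eq_1
  trivial

namespace PvagsFit

variable (H : PvagsFit N u T pos C0 Z Rs Zs y ρ0) (F : PvagsFr T pos q Z Rs)

include H

/-- **`hbuf`** of `pvagb_DI` -/
theorem hbuf {s : V → Bool} {z : ℤ × ℤ} (hz : z ∈ Zs) {k : ℕ} (hk : k < g) {b : ℤ × ℤ} (hb : PvagNear 1 (pvagCg (N.A (2 * k)) z) b)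
    (hnf : PvagsNF T pos s (pv5Ctr (N.A (2 * k) * u) b) (N.ri (2 * k) * u) (N.ro (2 * k) * u)) :
    ∃ k0 k1 k2, PvagaBuf T ((H.tri F).c0 z k) ((H.tri F).c1 z k) k0 k1 k2 ∧ ¬ PvagaFl T s k0 k1 k2 := by
  obtain ⟨k0, k1, k2, h12, h20, hk1, hk0, hfl⟩ := hnf
  have hu := H.u0
  have hd := pvags_Z_ctr hu (N.A0 (2 * k) (by omega)) hb
  refine ⟨k0, k1, k2, pvags_buf (F.out (H.hZ z hz) (H.hRs _ (PvagsNum.mem0 hk))) (F.inn (H.hZ z hz) (H.hRs _ (PvagsNum.mem1 hk))) h12 h20 hk1 hk0 ?_ ?_, hfl⟩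
  · have := N.b0 k hk
    nlinarith
  · rw [norm_sub_rev]
    have := N.b1 k hk
    nlinarith

/-- **`hbuf'`** of `pvagb_DI` -/
theorem hbuf' {s : V → Bool} {z : ℤ × ℤ} (hz : z ∈ Zs) {k : ℕ} (hk : k < g) {b : ℤ × ℤ} (hb : PvagNear 1 (pvagCg (N.A (2 * k + 1)) z) b)
    (hnf : PvagsNF T pos s (pv5Ctr (N.A (2 * k + 1) * u) b) (N.ri (2 * k + 1) * u) (N.ro (2 * k + 1) * u)) :
    ∃ k0 k1 k2, PvagaBuf T ((H.tri F).c2 z k) ((H.tri F).c3 z k) k0 k1 k2 ∧ ¬ PvagaFl T s k0 k1 k2 := by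
  obtain ⟨k0, k1, k2, h12, h20, hk1, hk0, hfl⟩ := hnf
  have hu := H.u0
  have hd := pvags_Z_ctr hu (N.A0 (2 * k + 1) (by omega)) hb
  refine ⟨k0, k1, k2, pvags_buf (F.out (H.hZ z hz) (H.hRs _ (PvagsNum.mem2 hk))) (F.inn (H.hZ z hz) (H.hRs _ (PvagsNum.mem3 hk))) h12 h20 hk1 hk0 ?_ ?_, hfl⟩
  · have := N.b2 k hk
    nlinarith
  · rw [norm_sub_rev]
    have := N.b3 k hk
    nlinarith

/-- **the gate between the cycles is a gate between the balls** of radii `r0 k u` and `5/4 r3 k u` round the centre -/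
theorem gate {s : V → Bool} {c : Bool} {z : ℤ × ℤ} (hz : z ∈ Zs) {k : ℕ} (hk : k < g) {G' : Set D} {X : Finset V}
    (h : PvgGate T s c ((H.tri F).c0 z k).Left ((H.tri F).c3 z k).Left G' X) :
    PvgGate T s c (pvdiB T pos (pvagsZ u z) (N.r0 k * u)) (pvdiB T pos (pvagsZ u z) (5 / 4 * (N.r3 k * u))) G' X :=
  pvags_gate h (pvags_ball_sub (pl_left_face _) (F.inn (H.hZ z hz) (H.hRs _ (PvagsNum.mem0 hk))) (by simp))
    (pvags_sub_ball (F.out (H.hZ z hz) (H.hRs _ (PvagsNum.mem3 hk))) (by simp))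

end PvagsFit

end tri

/-! ## 5. (DI) in position form -/

section DI

variable {V D : Type} [DecidableEq V] {T : PvMap V D} {pos : V → ℂ} {q : ℝ} {Z : Set ℂ} {Rs : Set ℝ} {g mt : ℕ} {N : PvagsNum g mt} {u : ℝ} {C0 : T.Cyc} {Zs : Set (ℤ × ℤ)} {y : ℂ} {ρ0 : ℝ}

/-- the block (side `ℓ`) of the source of a dart -/
noncomputable def pvagsBlk (T : PvMap V D) (pos : V → ℂ) (ℓ : ℝ) (d : D) : ℤ × ℤ := pv5Blk ℓ (pos (T.src d))

/-- **THE SELECTION OF RECORD AT THE FRAME** (`pvagbSel` of 281 at the cycles and towers of this file; blocks of side `Lu u`): a legal `Sel` of `pvaa_hab_rims` / `pvaa_hab_fam` of 237 (`PvagsFit.sel_meas`) -/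
noncomputable def PvagsFit.sel (H : PvagsFit N u T pos C0 Z Rs Zs y ρ0) (F : PvagsFr T pos q Z Rs) (Lu w en J : ℕ) : D → ℤ × ℤ → (V → Bool) → Finset (PvaaTrial T) :=
  pvagbSel (H.tri F) (pvagsTa N u F) (pvagsTo N u F) pos (Lu * u) w mt q (pvagsBlk T pos (Lu * u)) en J

theorem pvags_eqns_cite5 : True := by
  have := @pvagsBlk.eq_1; have := @PvagsFit.sel.eq_1
  trivial

/-- `hSel` of 237 -/
theorem PvagsFit.sel_meas (H : PvagsFit N u T pos C0 Z Rs Zs y ρ0) (F : PvagsFr T pos q Z Rs) (Lu w en J : ℕ) (hfin : C0.Left.Finite) {e : D} (he : e ∈ C0.Left) (he' : T.opp e ∉ C0.Left)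
    (x : ℤ × ℤ) : PvaMeas (pvasExpl T e C0.Leftᶜ) (H.sel F Lu w en J e x) :=
  pvagb_sel_meas (H.tri F) _ _ pos _ w mt q _ en J hfin he he' x

/-- **(DI), POSITION FORM.**   `L = Γ(χ_e)`, chord of the entrance `e` of `C0.Left`;   boxes of side `u`, blocks of side `Lu u`, `Lu = Nn i * (M i * A i)` at every level `i < 2g`.
A passage `j ≤ j'` of `L` from the block `b` to sup-distance `en`, which stays at sup-distance `≤ en` (`hstay`: first exit), with steps `≤ u` (`hmesh`), boxes in `Zs`;   at most `J` minimal crossings;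
`hlight` = the conclusion of `PvdsPar.use` of 101 (off the static bad block);   `hfl` = not flagged in position form (`Wf.five_use` of 101, `¬ PvdnFive` of 89);   `b` not adaptively bad for the chord of `e`.
Then some vertex of the passage is within `2u` of a point `ζ` of the grid `(2u) ℤ²` with gates in the `g` annuli `clB(ζ, 5/4 r3 k u) \ clB(ζ, r0 k u)`. -/
theorem PvagsFit.DI (H : PvagsFit N u T pos C0 Z Rs Zs y ρ0) (F : PvagsFr T pos q Z Rs) (hS : T.Simple) (hfin : C0.Left.Finite) (n0 : ℕ) {M Nn : ℕ → ℕ}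
    (hsc : ∀ i < 2 * g, 0 < M i ∧ (n0 + 4) * (M i * N.A i) ≤ N.A (i + 1))
    {Lu en w J dd : ℕ} (hLu0 : 0 < Lu) (hLu : ∀ i < 2 * g, 0 < Nn i ∧ Lu = Nn i * (M i * N.A i))
    (hen : 0 < en) (hA : N.A (2 * g) ≤ (en - 1) * Lu + 1) (hr : ∀ k < g, N.r2 k + 2 ≤ Lu) (hw : en + 1 ≤ w) (hdd : en ≤ dd)
    {s : V → Bool} {e : D} (he : pvasIn T C0.Left s e) (Fl : ℕ → ℤ × ℤ → ℤ × ℤ → Prop)
    (hfl : ∀ i < 2 * g, ∀ z ∈ Zs, ∀ Q b, ¬ Fl i Q b → PvagNear 1 (pvagCg (M i) b) Q → PvagNear 1 (pvagCg (N.A i) z) b →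
      PvagsNF T pos s (pv5Ctr (N.A i * u) b) (N.ri i * u) (N.ro i * u))
    (b : ℤ × ℤ)
    (hJ : (pvafCrs (pvafGam T C0.Left e s).length (PvafIn (pvafGam T C0.Left e s) (pvagsBlk T pos (Lu * u)) b) (PvafFar (pvafGam T C0.Left e s) (pvagsBlk T pos (Lu * u)) en b)).card ≤ J)
    {j j' : ℕ} (hjj : j ≤ j') (hj : PvafIn (pvafGam T C0.Left e s) (pvagsBlk T pos (Lu * u)) b j) (hj' : PvafFar (pvafGam T C0.Left e s) (pvagsBlk T pos (Lu * u)) en b j')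
    (hmesh : ∀ t d d', j ≤ t → t < j' → (pvafGam T C0.Left e s)[t]? = some d → (pvafGam T C0.Left e s)[t + 1]? = some d' → ‖pos (T.src d') - pos (T.src d)‖ ≤ u)
    (hZ : ∀ t d, j ≤ t → t ≤ j' → (pvafGam T C0.Left e s)[t]? = some d → pv5Blk u (pos (T.src d)) ∈ Zs)
    (hstay : ∀ t d, j ≤ t → t ≤ j' → (pvafGam T C0.Left e s)[t]? = some d → pv5Dist (pvagsBlk T pos (Lu * u) d) b ≤ en)
    (hlight : ∀ i < 2 * g, ∀ c, Pv5Chain n0 c → c 0 ∈ pvtdCells (Nn i) dd b → ∃ l ≤ n0, PvagLight (M i) (Fl i) (c l))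
    {NN : ℕ} (hN : J * g ≤ NN) (hnb : ¬ PvaaBad T pos C0 (Lu * u) w mt NN q (H.sel F Lu w en J) s e b) :
    ∃ τ d, j ≤ τ ∧ τ ≤ j' ∧ (pvafGam T C0.Left e s)[τ]? = some d ∧ ∃ p : ℤ × ℤ, ‖pos (T.src d) - l9Pt (2 * u) p‖ ≤ 2 * u ∧
      ∀ k < g, ∃ G' X, PvgGate T s true (pvdiB T pos (l9Pt (2 * u) p) (N.r0 k * u)) (pvdiB T pos (l9Pt (2 * u) p) (5 / 4 * (N.r3 k * u))) G' X := by
  have hu := H.u0
  have hLu' : (0 : ℝ) < Lu := by exact_mod_cast hLu0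
  have hℓ : 0 < (Lu : ℝ) * u := by positivity
  have hblk : ∀ d, pvagsBlk T pos (Lu * u) d = pvagCg Lu (pv5Blk u (pos (T.src d))) := fun d => pvtd_blk_cg hu hLu0 _
  obtain ⟨τ, d, h1, h2, h3, h4, h5⟩ := pvagb_DI (H.tri F) (pvagsTa N u F) (pvagsTo N u F) pos (Lu * u) w mt q (pvagsBlk T pos (Lu * u)) en J H.sph hS hfin n0 (A := N.A) (M := M)
    (fun i hi => ⟨N.A0 i hi, (hsc i hi).1, (hsc i hi).2⟩) he Fl
    (fun z hz k hk Q b' hF hQ hb => H.hbuf F hz hk hb (hfl (2 * k) (by omega) z hz Q b' hF hQ hb))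
    (fun z hz k hk Q b' hF hQ hb => H.hbuf' F hz hk hb (hfl (2 * k + 1) (by omega) z hz Q b' hF hQ hb))
    hen b hJ hjj hj hj'
    (fun t d d' a1 a2 a3 a4 => pvags_walk hu (hmesh t d d' a1 a2 a3 a4))
    hZ
    (fun d d' hd hd' => pvags_far hLu0 hen hA (by
      show (en : ℤ) ≤ pv5Dist (pvagCg Lu (pv5Blk u (pos (T.src d)))) (pvagCg Lu (pv5Blk u (pos (T.src d'))))
      rw [← hblk, ← hblk, hd]
      exact hd'))
    (fun i hi c hc hv => hlight i hi c hc (by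
      obtain ⟨t, d, a1, a2, a3, a4⟩ := hv 0 (Nat.zero_le _)
      rw [a4]
      refine pvags_cell (hLu i hi).1 (hLu i hi).2 ?_
      have := hstay t d a1 a2 a3
      rw [hblk] at this
      exact this.trans (by exact_mod_cast hdd)))
    (H.htow F)
    (fun t d a1 a2 a3 k hk => H.adm F (hZ t d a1 a2 a3) hk hℓ (by have := hr k hk; nlinarith) rfl (hstay t d a1 a2 a3) hw)
    hN hnb
  refine ⟨τ, d, h1, h2, h3, pvagsPt (pv5Blk u (pos (T.src d))), pvags_Z_near hu _, fun k hk => ?_⟩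
  obtain ⟨G', X, hg⟩ := h5 k hk
  exact ⟨G', X, H.gate F h4 hk hg⟩

end DI

end Claimed.Agent.R289
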