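-- KEEP
import Claimed.Agent.R289.Pl.Excise
import Claimed.Agent.R289.Arm.Trap
import Claimed.Agent.R289.Arm.Bxp

/-!
# Row 289 (S0537, Cardy for Poisson-Voronoi), box ARM, file Arm/Transfer : TRANSFER KIT BETWEEN TWO LOCAL MODELS      (owner helper97, request of helper186; prefix `armx_`, records `PlIsoV`, `ArmxLoc`)

CONSUMER: `armt_nr_cfg` of `Arm/Top.lean` (186 / 197 / 228): a near return in SOME local model `(T', lab')` ⟹ CONFIG6 + outer arm in the plane model.   This file does NOT import `Arm/Top`.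

* sec. 1  `PlIsoV T T' R` = `PlIso` (Pl/Excise) + the induced relation of the vertices is a partial bijection.   Everything is RELATIONAL and SYMMETRIC (`PlIsoV.symm`): each lemma gives both directions.
          `armxV T T' R v v'` (related vertices), `ArmxFS R B B'` (related face sets inside the shared part), `ArmxVS T T' R X X'` (related vertex sets), `ArmxCol T T' R s s'` (related colourings), `ArmxCyc R c c'` (related cycles)
* sec. 2  cycles: `armx_cyc_exists`, **`armx_left`** (`c.Left ⊆ plDom R` ⟹ `c'.Left` = the image of `c.Left`), `armx_verts`, `armx_vof`, `armx_int`, `armx_inside`, `armx_ann`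
* sec. 3  strands: `armx_step`, `armx_it`, `armx_bw`, `armx_in`, `armx_run`, `armx_lay`, **`armx_cfg`**
* sec. 4  paths: `armx_join`, **`armx_cr`**
* sec. 5  LABELS: `ArmxLoc Tri K T lab` (the fields of `ArmtLoc` which matter), `armxRel`, **`armx_lab_iso`**, `armx_lab_dom`, `armx_lab_V`, `armx_lab_src`, `armx_lab_col`
-/

set_option autoImplicit false
set_option linter.unusedSectionVars false

namespace Claimed.Agent.R289

open Relation

variable {V D V' D' : Type}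

/-! ## 1. The record -/

/-- partial isomorphism of dart structures which induces a partial bijection of the vertices -/
structure PlIsoV (T : PvMap V D) (T' : PvMap V' D') (R : D → D' → Prop) : Prop extends PlIso T T' R where
  vfn : ∀ {d e : D} {d' e' : D'}, R d d' → R e e' → T.src d = T.src e → T'.src d' = T'.src e'
  vinj : ∀ {d e : D} {d' e' : D'}, R d d' → R e e' → T'.src d' = T'.src e' → T.src d = T.src e

/-- related vertices -/
def armxV (T : PvMap V D) (T' : PvMap V' D') (R : D → D' → Prop) (v : V) (v' : V') : Prop := ∃ d d', R d d' ∧ T.src d = v ∧ T'.src d' = v'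

/-- related face sets of the shared part -/
def ArmxFS (R : D → D' → Prop) (B : Set D) (B' : Set D') : Prop := B ⊆ plDom R ∧ B' ⊆ plRan R ∧ ∀ d d', R d d' → (d ∈ B ↔ d' ∈ B')

/-- related vertex sets -/
def ArmxVS (T : PvMap V D) (T' : PvMap V' D') (R : D → D' → Prop) (X : Set V) (X' : Set V') : Prop := ∀ d d', R d d' → (T.src d ∈ X ↔ T'.src d' ∈ X')

/-- related colourings -/
def ArmxCol (T : PvMap V D) (T' : PvMap V' D') (R : D → D' → Prop) (s : V → Bool) (s' : V' → Bool) : Prop := ∀ d d', R d d' → s (T.src d) = s' (T'.src d')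

/-- related cycles -/
def ArmxCyc {T : PvMap V D} {T' : PvMap V' D'} (R : D → D' → Prop) (c : T.Cyc) (c' : T'.Cyc) : Prop := c.n = c'.n ∧ ∀ i, R (c.e i) (c'.e i)

theorem armx_eqns_cite : True := by
  have := @armxV.eq_1; have := @ArmxFS.eq_1; have := @ArmxVS.eq_1; have := @ArmxCol.eq_1; have := @ArmxCyc.eq_1
  trivial

variable {T : PvMap V D} {T' : PvMap V' D'} {R : D → D' → Prop}

theorem PlIsoV.symm (h : PlIsoV T T' R) : PlIsoV T' T (fun d' d => R d d') :=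
  { h.toPlIso.symm with
    vfn := fun h1 h2 e => h.vinj h1 h2 e
    vinj := fun h1 h2 e => h.vfn h1 h2 e }

theorem armxV.symm {v : V} {v' : V'} (h : armxV T T' R v v') : armxV T' T (fun d' d => R d d') v' v := by
  obtain ⟨d, d', h1, h2, h3⟩ := h
  exact ⟨d', d, h1, h3, h2⟩

theorem ArmxFS.symm {B : Set D} {B' : Set D'} (h : ArmxFS R B B') : ArmxFS (fun d' d => R d d') B' B :=
  ⟨h.2.1, h.1, fun d' d hd => (h.2.2 d d' hd).symm⟩

theorem ArmxVS.symm {X : Set V} {X' : Set V'} (h : ArmxVS T T' R X X') : ArmxVS T' T (fun d' d => R d d') X' X :=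
  fun d' d hd => (h d d' hd).symm

theorem ArmxCol.symm {s : V → Bool} {s' : V' → Bool} (h : ArmxCol T T' R s s') : ArmxCol T' T (fun d' d => R d d') s' s :=
  fun d' d hd => (h d d' hd).symm

theorem ArmxCyc.symm {c : T.Cyc} {c' : T'.Cyc} (h : ArmxCyc R c c') : ArmxCyc (fun d' d => R d d') c' c := ⟨h.1.symm, h.2⟩

theorem ArmxCol.not {s : V → Bool} {s' : V' → Bool} (h : ArmxCol T T' R s s') : ArmxCol T T' R (pvasNot s) (pvasNot s') :=
  fun d d' hd => by simp only [pvasNot, h d d' hd]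

theorem ArmxCol.tgt (h : PlIsoV T T' R) {s : V → Bool} {s' : V' → Bool} (hs : ArmxCol T T' R s s') {d : D} {d' : D'} (hd : R d d') : s (T.tgt d) = s' (T'.tgt d') :=
  hs _ _ (h.nxt hd)

theorem ArmxCol.apex (h : PlIsoV T T' R) {s : V → Bool} {s' : V' → Bool} (hs : ArmxCol T T' R s s') {d : D} {d' : D'} (hd : R d d') : s (T.apex d) = s' (T'.apex d') :=
  hs _ _ (h.nxt (h.nxt hd))

/-- the image of a vertex is unique -/
theorem armx_V_fn (h : PlIsoV T T' R) {v : V} {v' w' : V'} (h1 : armxV T T' R v v') (h2 : armxV T T' R v w') : v' = w' := by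
  obtain ⟨d, d', a1, a2, a3⟩ := h1
  obtain ⟨e, e', b1, b2, b3⟩ := h2
  rw [← a3, ← b3]
  exact h.vfn a1 b1 (a2.trans b2.symm)

theorem ArmxVS.of_V {X : Set V} {X' : Set V'} (hX : ArmxVS T T' R X X') {v : V} {v' : V'} (hv : armxV T T' R v v') : v ∈ X ↔ v' ∈ X' := by
  obtain ⟨d, d', a1, rfl, rfl⟩ := hv
  exact hX d d' a1

theorem ArmxVS.compl {X : Set V} {X' : Set V'} (hX : ArmxVS T T' R X X') : ArmxVS T T' R Xᶜ X'ᶜ :=
  fun d d' hd => not_congr (hX d d' hd)

theorem ArmxVS.union {X Y : Set V} {X' Y' : Set V'} (hX : ArmxVS T T' R X X') (hY : ArmxVS T T' R Y Y') : ArmxVS T T' R (X ∪ Y) (X' ∪ Y') :=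
  fun d d' hd => or_congr (hX d d' hd) (hY d d' hd)

theorem ArmxVS.inter {X Y : Set V} {X' Y' : Set V'} (hX : ArmxVS T T' R X X') (hY : ArmxVS T T' R Y Y') : ArmxVS T T' R (X ∩ Y) (X' ∩ Y') :=
  fun d d' hd => and_congr (hX d d' hd) (hY d d' hd)

theorem armx_vs_univ : ArmxVS T T' R Set.univ Set.univ := fun _ _ _ => Iff.rfl

theorem ArmxVS.col {X : Set V} {X' : Set V'} (hX : ArmxVS T T' R X X') {s : V → Bool} {s' : V' → Bool} (hs : ArmxCol T T' R s s') (b : Bool) :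
    ArmxVS T T' R {v | v ∈ X ∧ s v = b} {v | v ∈ X' ∧ s' v = b} :=
  fun d d' hd => and_congr (hX d d' hd) (by rw [hs d d' hd])

theorem ArmxFS.diff {A B : Set D} {A' B' : Set D'} (hB : ArmxFS R B B') (hA : ArmxFS R A A') : ArmxFS R (B \ A) (B' \ A') :=
  ⟨fun _ hd => hB.1 hd.1, fun _ hd => hB.2.1 hd.1, fun d d' hd => and_congr (hB.2.2 d d' hd) (not_congr (hA.2.2 d d' hd))⟩

/-- `opp` leaves `B` iff it leaves `B'` -/
theorem ArmxFS.opp_mem (h : PlIsoV T T' R) {B : Set D} {B' : Set D'} (hB : ArmxFS R B B') {d : D} {d' : D'} (hd : R d d') : T.opp d ∈ B ↔ T'.opp d' ∈ B' := by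
  constructor
  · intro ho
    exact (hB.2.2 _ _ (h.toPlIso.opp_rel hd (hB.1 ho))).1 ho
  · intro ho
    obtain ⟨x, hx⟩ := hB.2.1 ho
    have := h.opp' hd hx
    subst this
    exact (hB.2.2 _ _ hx).2 ho

/-- disjointness of vertex sets of the shared part -/
theorem armx_disjoint {X Y : Set V} {X' Y' : Set V'} (hX : ArmxVS T T' R X X') (hY : ArmxVS T T' R Y Y') (hr : ∀ v' ∈ X', ∃ d d', R d d' ∧ T'.src d' = v')
    (hd : Disjoint X Y) : Disjoint X' Y' := by
  rw [Set.disjoint_left] at hd ⊢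
  intro v' h1 h2
  obtain ⟨d, d', hdd, rfl⟩ := hr v' h1
  exact hd ((hX d d' hdd).2 h1) ((hY d d' hdd).2 h2)

/-! ## 2. Cycles -/

/-- a cycle whose darts lie in the shared part has an image -/
theorem armx_cyc_exists (h : PlIsoV T T' R) (c : T.Cyc) (hc : ∀ i, c.e i ∈ plDom R) : ∃ c' : T'.Cyc, ArmxCyc R c c' := by
  choose f hf using hc
  refine ⟨{ n := c.n, e := f, three := c.three, per := ?_, chain := ?_, inj := ?_ }, rfl, hf⟩
  · intro i
    have h1 := hf (i + c.n)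
    rw [c.per] at h1
    exact h.fn h1 (hf i)
  · intro i
    exact h.vfn (h.nxt (hf i)) (hf (i + 1)) (c.chain i)
  · intro i j hi hj hij
    exact c.inj i j hi hj (h.vinj (hf i) (hf j) hij)

theorem armx_darts (h : PlIsoV T T' R) {c : T.Cyc} {c' : T'.Cyc} (hc : ArmxCyc R c c') {d : D} {d' : D'} (hd : R d d') : d ∈ c.darts ↔ d' ∈ c'.darts := by
  constructor
  · rintro ⟨i, rfl⟩
    exact ⟨i, h.fn (hc.2 i) hd⟩
  · rintro ⟨i, rfl⟩
    exact ⟨i, h.inj (hc.2 i) hd⟩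

theorem armx_edg (h : PlIsoV T T' R) {c : T.Cyc} {c' : T'.Cyc} (hc : ArmxCyc R c c') {d : D} {d' : D'} (hd : R d d') : T.Edg c.darts d ↔ T'.Edg c'.darts d' := by
  constructor
  · rintro (h1 | ⟨i, hi⟩)
    · exact Or.inl ((armx_darts h hc hd).1 h1)
    · refine Or.inr ⟨i, ?_⟩
      have h2 := hc.2 i
      rw [hi] at h2
      exact h.opp hd h2
  · rintro (h1 | ⟨i, hi⟩)
    · exact Or.inl ((armx_darts h hc hd).2 h1)
    · refine Or.inr ⟨i, ?_⟩
      have h2 := hc.2 i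
      rw [hi] at h2
      exact h.opp' hd h2

theorem armx_left_fwd (h : PlIsoV T T' R) {c : T.Cyc} {c' : T'.Cyc} (hc : ArmxCyc R c c') (hL : c.Left ⊆ plDom R) {d : D} (hd : d ∈ c.Left) :
    ∃ d', R d d' ∧ d' ∈ c'.Left := by
  have hd' : ReflTransGen (T.DStep c.darts) (c.e 0) d := hd
  induction hd' with
  | refl => exact ⟨c'.e 0, hc.2 0, ReflTransGen.refl⟩
  | @tail a b hab hstep ih =>
    obtain ⟨a', ha, haL⟩ := ih hab
    rcases hstep with rfl | ⟨rfl, hne⟩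
    · exact ⟨_, h.nxt ha, ReflTransGen.tail haL (Or.inl rfl)⟩
    · exact ⟨_, h.toPlIso.opp_rel ha (hL hd), ReflTransGen.tail haL (Or.inr ⟨rfl, fun he => hne ((armx_edg h hc ha).2 he)⟩)⟩

theorem armx_left_bwd (h : PlIsoV T T' R) {c : T.Cyc} {c' : T'.Cyc} (hc : ArmxCyc R c c') (hL : c.Left ⊆ plDom R) {d' : D'} (hd : d' ∈ c'.Left) :
    ∃ d, R d d' ∧ d ∈ c.Left := by
  have hd' : ReflTransGen (T'.DStep c'.darts) (c'.e 0) d' := hd
  induction hd' with
  | refl => exact ⟨c.e 0, hc.2 0, ReflTransGen.refl⟩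
  | @tail a' b' hab hstep ih =>
    obtain ⟨a, ha, haL⟩ := ih hab
    rcases hstep with rfl | ⟨rfl, hne⟩
    · exact ⟨_, h.nxt ha, ReflTransGen.tail haL (Or.inl rfl)⟩
    · have h1 : T.opp a ∈ c.Left := ReflTransGen.tail haL (Or.inr ⟨rfl, fun he => hne ((armx_edg h hc ha).1 he)⟩)
      exact ⟨_, h.toPlIso.opp_rel ha (hL h1), h1⟩

/-- **the left side of the image is the image of the left side** -/
theorem armx_left (h : PlIsoV T T' R) {c : T.Cyc} {c' : T'.Cyc} (hc : ArmxCyc R c c') (hL : c.Left ⊆ plDom R) : ArmxFS R c.Left c'.Left := by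
  refine ⟨hL, fun d' hd => ?_, fun d d' hd => ⟨fun h1 => ?_, fun h1 => ?_⟩⟩
  · obtain ⟨d, h1, -⟩ := armx_left_bwd h hc hL hd
    exact ⟨d, h1⟩
  · obtain ⟨x', h2, h3⟩ := armx_left_fwd h hc hL h1
    rwa [h.fn hd h2]
  · obtain ⟨x, h2, h3⟩ := armx_left_bwd h hc hL h1
    rwa [h.inj hd h2]

theorem armx_verts (h : PlIsoV T T' R) {c : T.Cyc} {c' : T'.Cyc} (hc : ArmxCyc R c c') : ArmxVS T T' R c.verts c'.verts := by
  intro d d' hd
  constructor
  · rintro ⟨i, hi⟩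
    exact ⟨i, h.vfn (hc.2 i) hd hi⟩
  · rintro ⟨i, hi⟩
    exact ⟨i, h.vinj (hc.2 i) hd hi⟩

theorem armx_vof (h : PlIsoV T T' R) {B : Set D} {B' : Set D'} (hB : ArmxFS R B B') : ArmxVS T T' R (T.VOf B) (T'.VOf B') := by
  intro d d' hd
  constructor
  · rintro ⟨x, hx, hxd⟩
    obtain ⟨x', hx'⟩ := hB.1 hx
    exact ⟨x', (hB.2.2 _ _ hx').1 hx, h.vfn hx' hd hxd⟩
  · rintro ⟨x', hx, hxd⟩
    obtain ⟨x, hx'⟩ := hB.2.1 hx
    exact ⟨x, (hB.2.2 _ _ hx').2 hx, h.vinj hx' hd hxd⟩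

theorem armx_int_fwd (h : PlIsoV T T' R) (hT' : T'.IsSph) {B : Set D} {B' : Set D'} (hB : ArmxFS R B B') {d : D} {d' : D'} (hd : R d d') (hi : T.src d ∈ T.Int B) :
    T'.src d' ∈ T'.Int B' := by
  intro x' hx'
  obtain ⟨n, rfl⟩ := hT'.link d' x' hx'.symm
  have key : ∀ n : ℕ, R (T.rot^[n] d) (T'.rot^[n] d') ∧ T.src (T.rot^[n] d) = T.src d := by
    intro n
    induction n with
    | zero => exact ⟨hd, rfl⟩
    | succ n ih =>
      rw [Function.iterate_succ_apply', Function.iterate_succ_apply']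
      have h1 : T.src (T.rot (T.rot^[n] d)) = T.src d := by
        rw [← ih.2]
        unfold PvMap.rot
        rw [T.src_opp', T.tgt_nxt2]
      exact ⟨h.toPlIso.opp_rel (h.nxt (h.nxt ih.1)) (hB.1 (hi _ h1)), h1⟩
  exact (hB.2.2 _ _ (key n).1).1 (hi _ (key n).2)

theorem armx_int (h : PlIsoV T T' R) (hT : T.IsSph) (hT' : T'.IsSph) {B : Set D} {B' : Set D'} (hB : ArmxFS R B B') : ArmxVS T T' R (T.Int B) (T'.Int B') :=
  fun _ _ hd => ⟨armx_int_fwd h hT' hB hd, armx_int_fwd h.symm hT hB.symm hd⟩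

theorem armx_inside_fwd (h : PlIsoV T T' R) (hT' : T'.IsSph) {c₁ c : T.Cyc} {c₁' c' : T'.Cyc} (h1 : ArmxCyc R c₁ c₁') (hc : ArmxCyc R c c') (hL : c.Left ⊆ plDom R)
    (hi : c₁.Inside c) : c₁'.Inside c' := by
  have hB := armx_left h hc hL
  have hB1 := armx_left h h1 (hi.2.trans hL)
  refine ⟨?_, fun d' hd => ?_⟩
  · rintro v' ⟨i, rfl⟩
    exact armx_int_fwd h hT' hB (h1.2 i) (hi.1 ⟨i, rfl⟩)
  · obtain ⟨d, hdd⟩ := hB1.2.1 hd
    exact (hB.2.2 _ _ hdd).1 (hi.2 ((hB1.2.2 _ _ hdd).2 hd))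

theorem armx_ann (h : PlIsoV T T' R) {c₁ c : T.Cyc} {c₁' c' : T'.Cyc} (h1 : ArmxCyc R c₁ c₁') (hc : ArmxCyc R c c') (hL : c.Left ⊆ plDom R) (hL1 : c₁.Left ⊆ plDom R) :
    ArmxFS R (c₁.Ann c) (c₁'.Ann c') := (armx_left h hc hL).diff (armx_left h h1 hL1)

/-! ## 3. Strands -/

theorem armx_step (h : PlIsoV T T' R) {s : V → Bool} {s' : V' → Bool} (hs : ArmxCol T T' R s s') {d : D} {d' : D'} (hd : R d d') (hdom : pvasStep T s d ∈ plDom R) :
    R (pvasStep T s d) (pvasStep T' s' d') := by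
  unfold pvasStep at hdom ⊢
  rw [← hs.apex h hd]
  split_ifs at hdom ⊢ with h1
  · exact h.toPlIso.opp_rel (h.nxt hd) hdom
  · exact h.toPlIso.opp_rel (h.nxt (h.nxt hd)) hdom

theorem armx_it (h : PlIsoV T T' R) {s : V → Bool} {s' : V' → Bool} (hs : ArmxCol T T' R s s') {x : D} {x' : D'} (hx : R x x') {n : ℕ}
    (hdom : ∀ k, k ≤ n → pvasIt T s x k ∈ plDom R) : ∀ k, k ≤ n → R (pvasIt T s x k) (pvasIt T' s' x' k) := by
  intro k
  induction k with
  | zero => intro _; exact hx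
  | succ k ih =>
    intro hk
    have h1 := ih (by omega)
    have h2 := hdom (k + 1) hk
    unfold pvasIt at h1 h2 ⊢
    rw [Function.iterate_succ_apply'] at h2 ⊢
    rw [Function.iterate_succ_apply']
    exact armx_step h hs h1 h2

theorem armx_bw (h : PlIsoV T T' R) {s : V → Bool} {s' : V' → Bool} (hs : ArmxCol T T' R s s') {d : D} {d' : D'} (hd : R d d') : pvasBW T s d ↔ pvasBW T' s' d' := by
  unfold pvasBW
  rw [hs d d' hd, hs.tgt h hd]

theorem armx_in (h : PlIsoV T T' R) {s : V → Bool} {s' : V' → Bool} (hs : ArmxCol T T' R s s') {B : Set D} {B' : Set D'} (hB : ArmxFS R B B') {d : D} {d' : D'} (hd : R d d') :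
    pvasIn T B s d ↔ pvasIn T' B' s' d' := by
  unfold pvasIn
  rw [hB.2.2 d d' hd, hB.opp_mem h hd, armx_bw h hs hd]

/-- the positions of a run are related -/
theorem armx_run_it (h : PlIsoV T T' R) {s : V → Bool} {s' : V' → Bool} (hs : ArmxCol T T' R s s') {A B : Set D} (hBd : B ⊆ plDom R) (hAd : A ⊆ plDom R)
    {x : D} {x' : D'} (hx : R x x') {n : ℕ} (hr : PvatRun T B A s x n) : ∀ k, k ≤ n → R (pvasIt T s x k) (pvasIt T' s' x' k) := by
  refine armx_it h hs hx fun k hk => ?_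
  rcases Nat.lt_or_ge k n with h1 | h1
  · exact hBd (hr.mid k h1).1
  · have : k = n := le_antisymm hk h1
    subst this
    exact hAd hr.hit

theorem armx_run (h : PlIsoV T T' R) {s : V → Bool} {s' : V' → Bool} (hs : ArmxCol T T' R s s') {A B : Set D} {A' B' : Set D'} (hB : ArmxFS R B B') (hA : ArmxFS R A A')
    {x : D} {x' : D'} (hx : R x x') {n : ℕ} (hr : PvatRun T B A s x n) : PvatRun T' B' A' s' x' n := by
  have hit := armx_run_it h hs hB.1 hA.1 hx hr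
  refine ⟨(armx_in h hs hB hx).1 hr.ent, fun k hk => ?_, (hA.2.2 _ _ (hit n le_rfl)).1 hr.hit⟩
  have h1 := hit k hk.le
  exact ⟨(hB.2.2 _ _ h1).1 (hr.mid k hk).1, fun h2 => (hr.mid k hk).2 ((hA.2.2 _ _ h1).2 h2)⟩

theorem armx_lay (h : PlIsoV T T' R) {s : V → Bool} {s' : V' → Bool} {x : D} {x' : D'} {n : ℕ} (hit : ∀ k, k ≤ n → R (pvasIt T s x k) (pvasIt T' s' x' k)) :
    ArmxVS T T' R (pvatLay T s x n) (pvatLay T' s' x' n) := by
  intro d d' hd
  unfold pvatLay pvasLayB pvasLayW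
  constructor
  · rintro (⟨i, hi, e⟩ | ⟨i, hi, e⟩)
    · exact Or.inl ⟨i, hi, h.vfn (hit i hi) hd e⟩
    · exact Or.inr ⟨i, hi, h.vfn (h.nxt (hit i hi)) hd e⟩
  · rintro (⟨i, hi, e⟩ | ⟨i, hi, e⟩)
    · exact Or.inl ⟨i, hi, h.vinj (hit i hi) hd e⟩
    · exact Or.inr ⟨i, hi, h.vinj (h.nxt (hit i hi)) hd e⟩

/-- every vertex of the image layer is the source of a dart of the shared part -/
theorem armx_lay_ran (h : PlIsoV T T' R) {s : V → Bool} {s' : V' → Bool} {x : D} {x' : D'} {n : ℕ} (hit : ∀ k, k ≤ n → R (pvasIt T s x k) (pvasIt T' s' x' k)) :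
    ∀ v' ∈ pvatLay T' s' x' n, ∃ d d', R d d' ∧ T'.src d' = v' := by
  rintro v' (⟨i, hi, e⟩ | ⟨i, hi, e⟩)
  · exact ⟨_, _, hit i hi, e⟩
  · exact ⟨_, _, h.nxt (hit i hi), e⟩

/-- **CONFIG5 is transported** -/
theorem armx_cfg (h : PlIsoV T T' R) {s : V → Bool} {s' : V' → Bool} (hs : ArmxCol T T' R s s') {c0 c1 c2 : T.Cyc} {c0' c1' c2' : T'.Cyc}
    (h0 : ArmxFS R c0.Left c0'.Left) (h1 : ArmxFS R c1.Left c1'.Left) (h2 : ArmxFS R c2.Left c2'.Left) {x x2 x4 : D} {x' x2' x4' : D'} (hx : R x x') (hx2 : R x2 x2') (hx4 : R x4 x4')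
    {n1 n2 n4 : ℕ} (hc : PvatCfg T c0 c1 c2 s x x2 x4 n1 n2 n4) : PvatCfg T' c0' c1' c2' s' x' x2' x4' n1 n2 n4 := by
  have i1 := armx_run_it h hs h0.1 h1.1 hx hc.r1
  have i2 := armx_run_it h hs.not h0.1 h1.1 hx2 hc.r2
  have i4 := armx_run_it h hs.not h0.1 h2.1 hx4 hc.r4
  exact ⟨armx_run h hs h0 h1 hx hc.r1, armx_run h hs.not h0 h1 hx2 hc.r2, armx_run h hs.not h0 h2 hx4 hc.r4,
    armx_disjoint (armx_lay h i4) (armx_lay h i1) (armx_lay_ran h i4) hc.dis1, armx_disjoint (armx_lay h i4) (armx_lay h i2) (armx_lay_ran h i4) hc.dis2⟩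

/-! ## 4. Paths -/

theorem armx_edgeIn (h : PlIsoV T T' R) {A : Set D} {A' : Set D'} (hA : ArmxFS R A A') {u v : V} {u' : V'} (hu : armxV T T' R u u') (he : T.EdgeIn A u v) :
    ∃ v', armxV T T' R v v' ∧ T'.EdgeIn A' u' v' := by
  obtain ⟨d, hd | hd, rfl, rfl⟩ := he
  · obtain ⟨d', hdd⟩ := hA.1 hd
    refine ⟨T'.tgt d', ⟨_, _, h.nxt hdd, rfl, rfl⟩, d', Or.inl ((hA.2.2 _ _ hdd).1 hd), ?_, rfl⟩
    exact armx_V_fn h ⟨_, _, hdd, rfl, rfl⟩ hu
  · obtain ⟨e', hee⟩ := hA.1 hd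
    refine ⟨T'.src e', ⟨_, _, hee, T.src_opp' d, rfl⟩, T'.opp e', Or.inr (by rw [T'.opp_opp]; exact (hA.2.2 _ _ hee).1 hd), ?_, T'.tgt_opp e'⟩
    refine armx_V_fn h ⟨_, _, h.nxt hee, ?_, (T'.src_opp' e').symm⟩ hu
    rw [T.src_nxt, T.tgt_opp]

theorem armx_join (h : PlIsoV T T' R) {A : Set D} {A' : Set D'} (hA : ArmxFS R A A') {X : Set V} {X' : Set V'} (hX : ArmxVS T T' R X X') {u w : V} {u' : V'}
    (hu : armxV T T' R u u') (hj : T.Join A X u w) : ∃ w', armxV T T' R w w' ∧ T'.Join A' X' u' w' := by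
  obtain ⟨hux, hp⟩ := hj
  have hux' : u' ∈ X' := (hX.of_V hu).1 hux
  induction hp with
  | refl => exact ⟨u', hu, hux', ReflTransGen.refl⟩
  | @tail a b _ hstep ih =>
    obtain ⟨a', ha, -, hj'⟩ := ih
    obtain ⟨b', hb, hee⟩ := armx_edgeIn h hA ha hstep.1
    exact ⟨b', hb, hux', ReflTransGen.tail hj' ⟨hee, (hX.of_V hb).1 hstep.2⟩⟩

/-- **crossings of annuli are transported** -/
theorem armx_cr (h : PlIsoV T T' R) {s : V → Bool} {s' : V' → Bool} (hs : ArmxCol T T' R s s') {c₁ c : T.Cyc} {c₁' c' : T'.Cyc} (h1 : ArmxCyc R c₁ c₁') (hc : ArmxCyc R c c')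
    (hL : c.Left ⊆ plDom R) (hL1 : c₁.Left ⊆ plDom R) {X : Set V} {X' : Set V'} (hX : ArmxVS T T' R X X') {b : Bool} (hcr : PvaxCr T c₁ c X b s) : PvaxCr T' c₁' c' X' b s' := by
  obtain ⟨u, ⟨i, rfl⟩, w, hw, hj⟩ := hcr
  obtain ⟨w', hww, hj'⟩ := armx_join h (armx_ann h h1 hc hL hL1) (hX.col hs b) ⟨_, _, h1.2 i, rfl, rfl⟩ hj
  exact ⟨_, ⟨i, rfl⟩, w', ((armx_verts h hc).of_V hww).1 hw, hj'⟩

/-! ## 5. Labels -/

/-- the fields of a LOCAL MODEL (`ArmtLoc` of `Arm/Top.lean`) which the transfer uses; `Tri` = the triangles of reference, `K` = the labels of the core -/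
structure ArmxLoc {L : Type} (Tri : L → L → L → Prop) (K : Set L) (T : PvMap V D) (lab : V → Option L) : Prop where
  simple : T.Simple
  inj : ∀ v w p, lab v = some p → lab w = some p → v = w
  face : ∀ a b c : L, Tri a b c → a ∈ K → ∃ d, lab (T.src d) = some a ∧ lab (T.tgt d) = some b ∧ lab (T.apex d) = some c
  del : ∀ d a, lab (T.src d) = some a → a ∈ K → ∃ b c : L, lab (T.tgt d) = some b ∧ lab (T.apex d) = some c ∧ Tri a b c

/-- the two darts carry the same three labels and one of them is in the core -/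
def armxRel {L : Type} (K : Set L) (T : PvMap V D) (lab : V → Option L) (T' : PvMap V' D') (lab' : V' → Option L) (d : D) (d' : D') : Prop :=
  ∃ a b c : L, lab (T.src d) = some a ∧ lab (T.tgt d) = some b ∧ lab (T.apex d) = some c ∧
    lab' (T'.src d') = some a ∧ lab' (T'.tgt d') = some b ∧ lab' (T'.apex d') = some c ∧ (a ∈ K ∨ b ∈ K ∨ c ∈ K)

theorem armx_lab_eqns_cite : True := by
  have := @armxRel.eq_1
  trivial

section lab

variable {L : Type} {Tri : L → L → L → Prop} {K : Set L} {lab : V → Option L} {lab' : V' → Option L}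

theorem armx_rel_symm {d : D} {d' : D'} (h : armxRel K T lab T' lab' d d') : armxRel K T' lab' T lab d' d := by
  obtain ⟨a, b, c, h1, h2, h3, h4, h5, h6, h7⟩ := h
  exact ⟨a, b, c, h4, h5, h6, h1, h2, h3, h7⟩

theorem armx_rel_nxt {d : D} {d' : D'} (h : armxRel K T lab T' lab' d d') : armxRel K T lab T' lab' (T.nxt d) (T'.nxt d') := by
  obtain ⟨a, b, c, h1, h2, h3, h4, h5, h6, h7⟩ := h
  refine ⟨b, c, a, h2, h3, ?_, h5, h6, ?_, ?_⟩
  · rw [T.apex_nxt]; exact h1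
  · rw [T'.apex_nxt]; exact h4
  · tauto

theorem armx_rel_fn (h' : ArmxLoc Tri K T' lab') {d : D} {d' e' : D'} (h1 : armxRel K T lab T' lab' d d') (h2 : armxRel K T lab T' lab' d e') : d' = e' := by
  obtain ⟨a, b, c, a1, a2, -, a4, a5, -, -⟩ := h1
  obtain ⟨a', b', c', b1, b2, -, b4, b5, -, -⟩ := h2
  rw [a1] at b1
  rw [a2] at b2
  cases b1
  cases b2
  exact h'.simple _ _ (h'.inj _ _ _ a4 b4) (h'.inj _ _ _ a5 b5)

theorem armx_rel_opp (h' : ArmxLoc Tri K T' lab') {d : D} {d' x' : D'} (h1 : armxRel K T lab T' lab' d d') (h2 : armxRel K T lab T' lab' (T.opp d) x') : x' = T'.opp d' := by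
  obtain ⟨a, b, c, a1, a2, -, a4, a5, -, -⟩ := h1
  obtain ⟨a', b', c', b1, b2, -, b4, b5, -, -⟩ := h2
  rw [T.src_opp', a2] at b1
  rw [T.tgt_opp, a1] at b2
  cases b1
  cases b2
  refine h'.simple _ _ (h'.inj _ _ _ b4 ?_) (h'.inj _ _ _ b5 ?_)
  · rw [T'.src_opp']; exact a5
  · rw [T'.tgt_opp]; exact a4

theorem armx_rel_vfn (h' : ArmxLoc Tri K T' lab') {d e : D} {d' e' : D'} (h1 : armxRel K T lab T' lab' d d') (h2 : armxRel K T lab T' lab' e e') (hs : T.src d = T.src e) :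
    T'.src d' = T'.src e' := by
  obtain ⟨a, b, c, a1, -, -, a4, -, -, -⟩ := h1
  obtain ⟨a', b', c', b1, -, -, b4, -, -, -⟩ := h2
  rw [← hs, a1] at b1
  cases b1
  exact h'.inj _ _ _ a4 b4

/-- **two local models are isomorphic on the star of the core** -/
theorem armx_lab_iso (h : ArmxLoc Tri K T lab) (h' : ArmxLoc Tri K T' lab') : PlIsoV T T' (armxRel K T lab T' lab') where
  fn := fun h1 h2 => armx_rel_fn h' h1 h2
  inj := fun h1 h2 => armx_rel_fn h (armx_rel_symm h1) (armx_rel_symm h2)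
  nxt := armx_rel_nxt
  opp := fun h1 h2 => armx_rel_opp h' h1 h2
  opp' := fun h1 h2 => armx_rel_opp h (armx_rel_symm h1) (armx_rel_symm h2)
  vfn := fun h1 h2 e => armx_rel_vfn h' h1 h2 e
  vinj := fun h1 h2 e => armx_rel_vfn h (armx_rel_symm h1) (armx_rel_symm h2) e

/-- a dart whose source is in the core lies in the shared part -/
theorem armx_lab_dom (h : ArmxLoc Tri K T lab) (h' : ArmxLoc Tri K T' lab') {d : D} {a : L} (hd : lab (T.src d) = some a) (ha : a ∈ K) : d ∈ plDom (armxRel K T lab T' lab') := by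
  obtain ⟨b, c, h2, h3, ht⟩ := h.del d a hd ha
  obtain ⟨d', h4, h5, h6⟩ := h'.face a b c ht ha
  exact ⟨d', a, b, c, hd, h2, h3, h4, h5, h6, Or.inl ha⟩

/-- a face set all of whose vertices are in the core lies in the shared part -/
theorem armx_lab_sub (h : ArmxLoc Tri K T lab) (h' : ArmxLoc Tri K T' lab') {B : Set D} (hB : ∀ v ∈ T.VOf B, ∃ a ∈ K, lab v = some a) : B ⊆ plDom (armxRel K T lab T' lab') := by
  intro d hd
  obtain ⟨a, ha, hl⟩ := hB _ ⟨d, hd, rfl⟩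
  exact armx_lab_dom h h' hl ha

theorem armx_lab_src {d : D} {d' : D'} (h : armxRel K T lab T' lab' d d') : ∃ a, lab (T.src d) = some a ∧ lab' (T'.src d') = some a := by
  obtain ⟨a, b, c, h1, -, -, h4, -, -, -⟩ := h
  exact ⟨a, h1, h4⟩

/-- related vertices carry the same label -/
theorem armx_lab_of_V {v : V} {v' : V'} (h : armxV T T' (armxRel K T lab T' lab') v v') : ∃ a, lab v = some a ∧ lab' v' = some a := by
  obtain ⟨d, d', hd, rfl, rfl⟩ := h
  exact armx_lab_src hd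

/-- two vertices with the same label of the core are related -/
theorem armx_lab_V (h : ArmxLoc Tri K T lab) (h' : ArmxLoc Tri K T' lab') {v : V} {v' : V'} {a : L} (hv : lab v = some a) (hv' : lab' v' = some a) (ha : a ∈ K) (hd : ∃ d, T.src d = v) :
    armxV T T' (armxRel K T lab T' lab') v v' := by
  obtain ⟨d, rfl⟩ := hd
  obtain ⟨d', hdd⟩ := armx_lab_dom h h' hv ha
  refine ⟨d, d', hdd, rfl, ?_⟩
  obtain ⟨a', h1, h4⟩ := armx_lab_src hdd
  rw [hv] at h1
  cases h1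
  exact h'.inj _ _ _ h4 hv'

/-- colourings read from the labels are related -/
theorem armx_lab_col {σ : L → Bool} {s : V → Bool} {s' : V' → Bool} (hs : ∀ v p, lab v = some p → s v = σ p) (hs' : ∀ v p, lab' v = some p → s' v = σ p) :
    ArmxCol T T' (armxRel K T lab T' lab') s s' := by
  intro d d' hd
  obtain ⟨a, h1, h4⟩ := armx_lab_src hd
  rw [hs _ _ h1, hs' _ _ h4]

end lab

end Claimed.Agent.R289
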