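-- KEEP
import Claimed.Agent.R289.Arm.GateS
import Claimed.Agent.R289.Arm.GateTr
import Claimed.Agent.R289.Tr.DenseS

/-!
# Row 289 (S0537, Cardy for Poisson-Voronoi), box ARM, block A6 = GATE DENSITY, file Arm/GateS2 : THE BRIDGES OF ROUTE (i)      (owner helper75; prefix `pvags_`, continuation of `Arm/GateS`)

Route (i) for the field `di` of A6: (DI) is run on the PLANE (`PvagsFit.DI`, abstract flags: the static bad block of 101 has UNIVERSAL flags); the completion enters only through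
* sec. 6  **`pvags_infix`** : an arc of a closed rim of the completion `T'` which is carried by the chord of `e'` is, dart by dart, an INFIX of the plane path `Γ(χ_e)` (`pvaf_on_infix` + `pvagt_gam` of 13)
* sec. 7  **`pvags_hJ`** : not J-bad (`¬ PvdsCross`, 101) ⟹ at most `J` minimal crossings of `Γ(χ_e)` (`pvaf_gam_crs_disj` of 13);   `pvags_hJ_pos` : position form
-/

set_option autoImplicit false
set_option linter.unusedSectionVars false
set_option linter.unusedVariables false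

namespace Claimed.Agent.R289

open Claims.C0465

/-! ## 6. a carried arc of a rim of the completion is an infix of the plane `Γ(χ_e)` -/

section bridge

variable {V V' D D' : Type} [DecidableEq V] [DecidableEq V'] {T : PvMap V D} {T' : PvMap V' D'} {G : Set D} {G' : Set D'} {r : D → D' → Prop} {rv : V → V' → Prop}
  {s : V → Bool} {s' : V' → Bool}

/-- **THE BRIDGE**.   `T` = the plane, `T'` = a completion, `c` a closed rim of `T'` which leaves `C0'.Left`; the darts `c.e j, …, c.e j'` are carried by the chord of `e'`.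
Then `e` is an entrance of `C0.Left` and the plane twins of these darts are consecutive elements of `Γ(χ_e)`. -/
theorem pvags_infix (I : PvdqIso T T' G G' r rv) (hc : ∀ v w, rv v w → s v = s' w) (hT' : T'.IsSph) (hS' : T'.Simple)
    {C0 : T.Cyc} {C0' : T'.Cyc} (hC : PvdqCyc r C0 C0') (hC0G : C0.Left ⊆ G) (hfin : C0.Left.Finite)
    {c : T'.Cyc} (hP : PvafRim T' s' c) {e : D} {e' : D'} (hee : r e e') (he' : pvasIn T' C0'.Left s' e')
    {w j j' : ℕ} (hw : T'.opp (c.e w) ∉ C0'.Left) (hon : ∀ u, j ≤ u → u ≤ j' → PvafOn T' s' C0'.Left e' (c.e u)) :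
    pvasIn T C0.Left s e ∧ ∃ k₀, ∀ u, j ≤ u → u ≤ j' → ∃ f, (pvafGam T C0.Left e s)[k₀ + (u - j)]? = some f ∧ r f (c.e u) := by
  have hc' : ∀ w v, rv v w → s' w = s v := fun w v h => (hc v w h).symm
  have hB : PvdqCor r C0.Left C0'.Left := pvdq_left I hC hC0G
  have hfin' : C0'.Left.Finite := pvdq_left_fin I hC hC0G hfin
  have he : pvasIn T C0.Left s e := pvdq_in I.symm hc' hB.symm hee he'
  have hGam := pvagt_gam I hc hC0G hB (pl_left_face C0) hfin hee he
  have hinf := pvaf_on_infix hT' hS' (pl_left_face C0') hfin' hP he' (t1 := j) (t2 := j' + 1) hw (fun u hu1 hu2 => hon u hu1 (by omega))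
  obtain ⟨k₀, hk₀⟩ := pvaf_infix_get hinf
  refine ⟨he, k₀, fun u h1 h2 => ?_⟩
  have h3 := hk₀ (u - j) (by omega)
  rw [Nat.add_sub_cancel' h1] at h3
  rcases pvagt_get hGam (k₀ + (u - j)) with ⟨-, h4⟩ | ⟨d, d', h4, h5, h6⟩
  · rw [h3] at h4
    cases h4
  · rw [h3] at h5
    obtain rfl := Option.some.inj h5
    exact ⟨d, h4, h6⟩

end bridge

/-! ## 7. (J): not J-bad gives at most `J` minimal crossings -/

section jbad

variable {V D : Type} [DecidableEq V] {T : PvMap V D}

/-- the vocabulary of the BK kit and the vocabulary of 101 -/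
theorem pvags_cross_of_disj {c' c : T.Cyc} {col : Bool} {J : ℕ} {s : V → Bool} (h : PvbkDisj (fun _ => pvakW c' c) col J s) : PvdsCross T c' c col J s := by
  obtain ⟨f, hf, hd⟩ := h
  exact ⟨fun i => ↑(f i), fun i hi => ⟨Finset.finite_toSet _, (hf i hi).1, fun v hv => (hf i hi).2 v (Finset.mem_coe.1 hv)⟩,
    fun i hi j hj hij => Finset.disjoint_coe.2 (hd i hi j hj hij)⟩

/-- recolouring: `true` for `σ == col` is `col` for `σ` -/
theorem pvags_cross_col {c' c : T.Cyc} {col : Bool} {J : ℕ} {σ : V → Bool} (h : PvdsCross T c' c true J (fun v => σ v == col)) : PvdsCross T c' c col J σ := by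
  obtain ⟨f, hf, hd⟩ := h
  exact ⟨f, fun i hi => ⟨(hf i hi).1, (hf i hi).2.1, fun v hv => by simpa using (hf i hi).2.2 v hv⟩, hd⟩

/-- **(J)** -/
theorem pvags_hJ (hT : T.IsSph) {c' c : T.Cyc} (h : c'.Inside c) (B : Set D) (e : D) (s : V → Bool) (blk : D → ℤ × ℤ) {en : ℕ} (hen : 0 < en) (b : ℤ × ℤ)
    (hin : ∀ d ∈ pvafGam T B e s, blk d = b → T.src d ∈ T.VOf c'.Left) (hfar : ∀ d ∈ pvafGam T B e s, (en : ℤ) ≤ pv5Dist b (blk d) → T.src d ∉ T.Int c.Left)
    {J : ℕ} (hnc : ¬ PvdsCross T c' c true J s) :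
    (pvafCrs (pvafGam T B e s).length (PvafIn (pvafGam T B e s) blk b) (PvafFar (pvafGam T B e s) blk en b)).card ≤ J := by
  by_contra hcon
  exact hnc (pvags_cross_of_disj (pvaf_gam_crs_disj hT h B e s blk hen b hin hfar (not_le.1 hcon).le))

/-- **(J), position form**: blocks of side `ℓ`; the ball of radius `2ℓ` round the corner of the block `b` is interior to `c'`, `c` lies within `10ℓ` of the corner, `11 ≤ en` -/
theorem pvags_hJ_pos (hT : T.IsSph) {pos : V → ℂ} {ℓ : ℝ} (hℓ : 0 < ℓ) {c' c : T.Cyc} (h : c'.Inside c) (B : Set D) (e : D) (s : V → Bool) {en : ℕ} (hen : 11 ≤ en) (b : ℤ × ℤ)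
    (hc' : ∀ v, ‖pos v - pv5Ctr ℓ b‖ ≤ 2 * ℓ → v ∈ T.Int c'.Left) (hc : ∀ v ∈ T.VOf c.Left, ‖pos v - pv5Ctr ℓ b‖ ≤ 5 * (2 * ℓ))
    {J : ℕ} (hnc : ¬ PvdsCross T c' c true J s) :
    (pvafCrs (pvafGam T B e s).length (PvafIn (pvafGam T B e s) (pvagsBlk T pos ℓ) b) (PvafFar (pvafGam T B e s) (pvagsBlk T pos ℓ) en b)).card ≤ J := by
  refine pvags_hJ hT h B e s _ (by omega) b (fun d _ hd => ?_) (fun d _ hd hint => ?_) hnc
  · refine ⟨d, hc' _ ?_ d rfl, rfl⟩
    have hd' : pv5Blk ℓ (pos (T.src d)) = b := hd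
    obtain ⟨a1, a2⟩ := pvags_floor_coord hℓ (pos (T.src d)).re
    obtain ⟨b1, b2⟩ := pvags_floor_coord hℓ (pos (T.src d)).im
    have e1 : ⌊(pos (T.src d)).re / ℓ⌋ = b.1 := congrArg Prod.fst hd'
    have e2 : ⌊(pos (T.src d)).im / ℓ⌋ = b.2 := congrArg Prod.snd hd'
    rw [e1] at a1 a2
    rw [e2] at b1 b2
    have := pvags_norm_le (w := pos (T.src d) - pv5Ctr ℓ b) (a := ℓ) (b := ℓ)
      (by simp only [pv5Ctr, Complex.sub_re]; rw [abs_le]; constructor <;> nlinarith)
      (by simp only [pv5Ctr, Complex.sub_im]; rw [abs_le]; constructor <;> nlinarith)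
    linarith
  · have h1 := hc _ ⟨d, hint d rfl, rfl⟩
    have h2 := pvtd_blk_close hℓ (a := 10) (z := pos (T.src d)) (w := pv5Ctr ℓ b) (by push_cast; linarith)
    rw [pvtd_blk_ctr hℓ, pvtd_dist_comm] at h2
    have hd' : (en : ℤ) ≤ pv5Dist b (pv5Blk ℓ (pos (T.src d))) := hd
    have h3 : (11 : ℤ) ≤ en := by exact_mod_cast hen
    push_cast at h2
    linarith

end jbad

end Claimed.Agent.R289
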