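-- KEEP
import Claimed.Agent.R289.Arm.AdaptAB
import Claimed.Agent.R289.Arm.GateTr

/-!
# Row 289 (S0537), block A6, file Arm/GateSp : THE ISO AT THE MODEL OF RECORD AND (B) SPLIT      (helper13; prefix `pvagy_`, `pvagy`, `Pvagy`)

* sec. 1  **`pvagy_model`** : the local isomorphism  TOTAL Delaunay plane `(delbPl Y).toMap` ↔ a completion `𝔅.T Y` over the star of `K` (`𝔅.Ok Y K`), explicit `pvagyG pvagyG' pvagyR pvagyRv`; colours `pvagy_col`; positions `pvagy_posF`;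
          memberships by positions `pvagy_G_of_src ..`, `pvagy_G'_of_src ..`
* sec. 2  **`pvagy_rim`** : `c.IsRim s₀ → PvafRim T' (fun w => s₀ w == colour) c`
* sec. 3  **`pvagy_K`** (plane only): a chord which carries a dart whose right triangle is a face of `C1.Left` reaches `C1.Left`
* sec. 4  **`pvagy_split`** = (B) SPLIT at the model, free of the record `PvX2Mac` (the arc lies in an ARBITRARY set `A` whose sites are interior vertices of `C1.Left`)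
* sec. 5  **`pvagy_back`** : an arc of a rim of a completion which is carried (in the plane) by the chord of `e` is an INFIX of the plane path `Γ(χ_e) = pvafGam T C0.Left e (cfCol == b)`
-/

set_option autoImplicit false

namespace Claimed.Agent.R289

open Set Claims.C0465

/-! ## 1. the iso at the model -/

section model

variable {X : Type} (𝔅 : PvBulk X) (Y K : Set ℂ)

/-- the darts of the total plane whose face has a vertex in `K` -/
def pvagyG : Set (delbPl Y).Dart :=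
  {e | (((delbPl Y).toMap.src e : ↥Y) : ℂ) ∈ K ∨ (((delbPl Y).toMap.tgt e : ↥Y) : ℂ) ∈ K ∨ (((delbPl Y).toMap.apex e : ↥Y) : ℂ) ∈ K}

/-- the plane dart `e` and the dart `d` of the completion have the same end points -/
def pvagyR (e : (delbPl Y).Dart) (d : 𝔅.D Y) : Prop :=
  𝔅.lab Y ((𝔅.T Y).src d) = Sum.inl (((delbPl Y).toMap.src e : ↥Y) : ℂ) ∧ 𝔅.lab Y ((𝔅.T Y).tgt d) = Sum.inl (((delbPl Y).toMap.tgt e : ↥Y) : ℂ)

/-- the darts of the completion over the star of `K` -/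
def pvagyG' : Set (𝔅.D Y) := {d | ∃ e ∈ pvagyG Y K, pvagyR 𝔅 Y e d}

/-- the site `v` is the name of the vertex `w` of the completion -/
def pvagyRv (v : ↥Y) (w : 𝔅.V Y) : Prop := 𝔅.lab Y w = Sum.inl (v : ℂ)

theorem pvagy_eqns_cite : True := by
  have := @pvagyG.eq_1; have := @pvagyR.eq_1; have := @pvagyG'.eq_1; have := @pvagyRv.eq_1
  trivial

variable {𝔅 Y K}

/-- **THE ISO AT THE MODEL OF RECORD**: total plane ↔ completion, over the star of `K` -/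
theorem pvagy_model (h : DelGood Y) (hOk : 𝔅.Ok Y K) : PvdqIso (delbPl Y).toMap (𝔅.T Y) (pvagyG Y K) (pvagyG' 𝔅 Y K) (pvagyR 𝔅 Y) (pvagyRv 𝔅 Y) := by
  have key : ∀ Pl : PlTri ↥Y, Pl = delPl h → PvdqIso Pl.toMap (𝔅.T Y)
      {e | ((Pl.toMap.src e : ↥Y) : ℂ) ∈ K ∨ ((Pl.toMap.tgt e : ↥Y) : ℂ) ∈ K ∨ ((Pl.toMap.apex e : ↥Y) : ℂ) ∈ K}
      {d | ∃ e ∈ {e | ((Pl.toMap.src e : ↥Y) : ℂ) ∈ K ∨ ((Pl.toMap.tgt e : ↥Y) : ℂ) ∈ K ∨ ((Pl.toMap.apex e : ↥Y) : ℂ) ∈ K},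
        𝔅.lab Y ((𝔅.T Y).src d) = Sum.inl ((Pl.toMap.src e : ↥Y) : ℂ) ∧ 𝔅.lab Y ((𝔅.T Y).tgt d) = Sum.inl ((Pl.toMap.tgt e : ↥Y) : ℂ)}
      (fun e d => 𝔅.lab Y ((𝔅.T Y).src d) = Sum.inl ((Pl.toMap.src e : ↥Y) : ℂ) ∧ 𝔅.lab Y ((𝔅.T Y).tgt d) = Sum.inl ((Pl.toMap.tgt e : ↥Y) : ℂ))
      (pvagyRv 𝔅 Y) := by
    rintro _ rfl
    exact (pvdq_bulk (h := h) hOk).symm
  exact key _ (delb_pl_eq h)

theorem pvagy_G_of_src {e : (delbPl Y).Dart} (he : (((delbPl Y).toMap.src e : ↥Y) : ℂ) ∈ K) : e ∈ pvagyG Y K := Or.inl he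

theorem pvagy_G_of_tgt {e : (delbPl Y).Dart} (he : (((delbPl Y).toMap.tgt e : ↥Y) : ℂ) ∈ K) : e ∈ pvagyG Y K := Or.inr (Or.inl he)

theorem pvagy_G'_of_src (h : DelGood Y) (hOk : 𝔅.Ok Y K) {d : 𝔅.D Y} {a : ℂ} (ha : 𝔅.lab Y ((𝔅.T Y).src d) = Sum.inl a) (haK : a ∈ K) : d ∈ pvagyG' 𝔅 Y K := by
  have key : ∀ Pl : PlTri ↥Y, Pl = delPl h → d ∈ {d | ∃ e ∈ {e | ((Pl.toMap.src e : ↥Y) : ℂ) ∈ K ∨ ((Pl.toMap.tgt e : ↥Y) : ℂ) ∈ K ∨ ((Pl.toMap.apex e : ↥Y) : ℂ) ∈ K},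
        𝔅.lab Y ((𝔅.T Y).src d) = Sum.inl ((Pl.toMap.src e : ↥Y) : ℂ) ∧ 𝔅.lab Y ((𝔅.T Y).tgt d) = Sum.inl ((Pl.toMap.tgt e : ↥Y) : ℂ)} := by
    rintro _ rfl
    exact pvdq_G_of_src (h := h) hOk ha haK
  exact key _ (delb_pl_eq h)

theorem pvagy_G'_of_tgt (h : DelGood Y) (hOk : 𝔅.Ok Y K) {d : 𝔅.D Y} {a : ℂ} (ha : 𝔅.lab Y ((𝔅.T Y).tgt d) = Sum.inl a) (haK : a ∈ K) : d ∈ pvagyG' 𝔅 Y K := by
  have key : ∀ Pl : PlTri ↥Y, Pl = delPl h → d ∈ {d | ∃ e ∈ {e | ((Pl.toMap.src e : ↥Y) : ℂ) ∈ K ∨ ((Pl.toMap.tgt e : ↥Y) : ℂ) ∈ K ∨ ((Pl.toMap.apex e : ↥Y) : ℂ) ∈ K},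
        𝔅.lab Y ((𝔅.T Y).src d) = Sum.inl ((Pl.toMap.src e : ↥Y) : ℂ) ∧ 𝔅.lab Y ((𝔅.T Y).tgt d) = Sum.inl ((Pl.toMap.tgt e : ↥Y) : ℂ)} := by
    rintro _ rfl
    exact pvdq_G_of_tgt (h := h) hOk ha haK
  exact key _ (delb_pl_eq h)

/-- positions correspond -/
theorem pvagy_posF {v : ↥Y} {w : 𝔅.V Y} (h : pvagyRv 𝔅 Y v w) (zi : ℂ) : 𝔅.posF Y zi w = (v : ℂ) := l9_posF_inl 𝔅 h

/-- a vertex of the completion named by a site -/
theorem pvagy_rv_of_lab (hOk : 𝔅.Ok Y K) {w : 𝔅.V Y} {a : ℂ} (ha : 𝔅.lab Y w = Sum.inl a) : pvagyRv 𝔅 Y ⟨a, hOk.site w a ha⟩ w := ha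

end model

/-- colours correspond -/
theorem pvagy_col {X : Type} (𝔅 : PvBulk X) (η : Conf PvPt) (ξ : X → Bool) : ∀ v w, pvagyRv 𝔅 (cfSites η) v w → cfCol η (v : ℂ) = 𝔅.col η ξ w := by
  intro v w hvw
  unfold PvBulk.col
  rw [show 𝔅.lab (cfSites η) w = Sum.inl (v : ℂ) from hvw]
  rfl

/-! ## 2. rims -/

section rim

variable {V D : Type} {T : PvMap V D}

theorem pvagy_beq (b u v : Bool) : ((u == b) = (v == b)) ↔ u = v := by
  cases b <;> cases u <;> cases v <;> simp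

theorem pvagy_occ {s : V → Bool} (b : Bool) {d : D} : T.Occ (fun v => s v == b) d ↔ T.Occ s d := not_congr (pvagy_beq b _ _)

theorem pvagy_tag {s : V → Bool} (b : Bool) {d : D} : T.Tag (fun v => s v == b) d ↔ T.Tag s d :=
  and_congr (pvagy_beq b _ _) (not_congr (pvagy_beq b _ _))

theorem pvagy_wall {s : V → Bool} (b : Bool) {d d' : D} : T.Wall (fun v => s v == b) d d' ↔ T.Wall s d d' := by
  constructor
  · exact fun h => Relation.ReflTransGen.mono (fun x y hxy => hxy.imp id fun h2 => ⟨(pvagy_occ b).1 h2.1, h2.2⟩) d d' h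
  · exact fun h => Relation.ReflTransGen.mono (fun x y hxy => hxy.imp id fun h2 => ⟨(pvagy_occ b).2 h2.1, h2.2⟩) d d' h

/-- **a rim is a black rim for the colouring `== its colour`** -/
theorem pvagy_rim {c : T.Cyc} {s : V → Bool} (h : c.IsRim s) : PvafRim T (fun v => s v == s (T.src (c.e 0))) c where
  tag := fun i => (pvagy_tag _).2 (pl_rim_tag h i)
  wall := fun i => (pvagy_wall _).2 (pl_rim_lab h i).2.2.1
  black := fun i => by
    simp only [beq_iff_eq]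
    exact pl_rim_col h i 0

/-! ## 3. a chord which carries a dart at an interior vertex of `C1.Left` reaches `C1.Left` -/

theorem pvagy_K {C0 C1 : T.Cyc} (hfin : C0.Left.Finite) {s : V → Bool} {e f : D} (he : pvasIn T C0.Left s e) (hon : PvafOn T s C0.Left e f)
    (hf : T.rotInv f ∈ C1.Left) : PvaaK T C1 C0 s e := by
  classical
  obtain ⟨k, hk, hkf⟩ := hon
  have hex : ∃ n, pvasIt T s e n ∈ C1.Left := ⟨k, by rw [hkf]; exact hf⟩
  have hle : Nat.find hex ≤ k := Nat.find_min' hex (by rw [hkf]; exact hf)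
  have hsp := (pvaf_time_spec (pl_left_face C0) hfin he).1
  exact ⟨Nat.find hex, he, fun j hj => ⟨hsp j (by omega), Nat.find_min hex hj⟩, Nat.find_spec hex⟩

end rim

/-! ## 4. (B) SPLIT at the model -/

section split

variable [∀ Y : Set ℂ, DecidableEq ↥Y]

/-- **(B) SPLIT AT THE MODEL**, free of the record of the frame: `C1.Inside C0` on the total plane, `C0.Left` finite inside `B(x,4R)`, the sites of `A` are interior vertices of `C1.Left`, at most `K` chords reach `C1.Left`.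
Every arc `i..i'` in `A ∩ B(x,4R)` of every rim of every completion contains an arc `s..s+n` carried by ONE chord which reaches `C1.Left`, with `1/K` of the displacement. -/
theorem pvagy_split {x : ℂ} {R q0 : ℝ} (hR : 0 < R) (ω : PVSample) (C0 C1 : (delbPl (cfSites (pvConf ω))).toMap.Cyc) (good : DelGood (cfSites (pvConf ω)))
    (geo : PvaaGeo (delbPl (cfSites (pvConf ω))).toMap C1 C0 q0) (A : Set ℂ) (in1 : ∀ v : ↥(cfSites (pvConf ω)), (v : ℂ) ∈ A → v ∈ (delbPl (cfSites (pvConf ω))).toMap.Int C1.Left)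
    (out0 : ∀ v ∈ (delbPl (cfSites (pvConf ω))).toMap.VOf C0.Left, ‖(v : ℂ) - x‖ < 4 * R) (K : ℕ)
    (hK : ∀ b : Bool, ∃ F : Finset (delbPl (cfSites (pvConf ω))).Dart, F.card ≤ K ∧ ∀ e, PvaaK (delbPl (cfSites (pvConf ω))).toMap C1 C0 (fun v => cfCol (pvConf ω) v == b) e → e ∈ F) (P : PvbRim) (hP : P ∈ pvhbAll x R ω) (i i' : ℕ) (hii : i < i') (hi' : i' ≤ P.len)
    (hin : ∀ k, i ≤ k → k ≤ i' → ‖P.v k - x‖ < 4 * R) (hinA : ∀ k, i ≤ k → k ≤ i' → P.v k ∈ A) :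
    ∃ (s n : ℕ) (b : Bool) (e : (delbPl (cfSites (pvConf ω))).Dart), i ≤ s ∧ s + n ≤ i' ∧ 0 < n ∧ pvasIn (delbPl (cfSites (pvConf ω))).toMap C0.Left (fun v => cfCol (pvConf ω) v == b) e ∧
      (∀ t < n, ∃ f : (delbPl (cfSites (pvConf ω))).Dart, ((delbPl (cfSites (pvConf ω))).toMap.src f : ℂ) = P.v (s + t) ∧ ((delbPl (cfSites (pvConf ω))).toMap.tgt f : ℂ) = P.v (s + (t + 1)) ∧
        PvafOn (delbPl (cfSites (pvConf ω))).toMap (fun v => cfCol (pvConf ω) v == b) C0.Left e f) ∧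
      PvaaK (delbPl (cfSites (pvConf ω))).toMap C1 C0 (fun v => cfCol (pvConf ω) v == b) e ∧ ‖P.v i' - P.v i‖ ≤ K * ‖P.v (s + n) - P.v s‖ := by
  classical
  obtain ⟨X, _, 𝔅, ξ, -, hOk, c, hrim, hfar, rfl⟩ := hP
  have I := pvagy_model good hOk
  obtain ⟨hsph, hins, hfin, -⟩ := geo
  have hc : ∀ v w, pvagyRv 𝔅 (cfSites (pvConf ω)) v w →
      (fun v : ↥(cfSites (pvConf ω)) => cfCol (pvConf ω) v == 𝔅.col (pvConf ω) ξ ((𝔅.T _).src (c.e 0))) v =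
        (fun w => 𝔅.col (pvConf ω) ξ w == 𝔅.col (pvConf ω) ξ ((𝔅.T _).src (c.e 0))) w := fun v w h => by
    simp only [pvagy_col 𝔅 (pvConf ω) ξ v w h]
  have hC0G : C0.Left ⊆ pvagyG (cfSites (pvConf ω)) (Metric.closedBall x (6 * R)) := fun d hd => pvagy_G_of_src (by
    have := out0 _ ⟨d, hd, rfl⟩
    rw [Metric.mem_closedBall, dist_eq_norm]
    linarith)
  obtain ⟨C0', hC⟩ := pvdq_cyc I C0 (fun k => Or.inl (hC0G ((pl_jordan hsph C0).2.1 k)))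
  have hB := pvdq_left I hC hC0G
  have hv : ∀ k, (𝔅.enc _ (x + 7 * R) c).v k = 𝔅.posF _ (x + 7 * R) ((𝔅.T _).src (c.e k)) := fun k => rfl
  have hlen : (𝔅.enc _ (x + 7 * R) c).len = c.n := rfl
  -- the twins of the darts of the arc
  have htw : ∀ t, i ≤ t → t < i' → ∀ f, pvagyR 𝔅 _ f (c.e t) → ((delbPl (cfSites (pvConf ω))).toMap.src f : ℂ) = (𝔅.enc _ (x + 7 * R) c).v t ∧ ((delbPl (cfSites (pvConf ω))).toMap.tgt f : ℂ) = (𝔅.enc _ (x + 7 * R) c).v (t + 1) ∧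
      (delbPl (cfSites (pvConf ω))).toMap.src f ∈ (delbPl (cfSites (pvConf ω))).toMap.Int C1.Left ∧ (delbPl (cfSites (pvConf ω))).toMap.tgt f ∈ (delbPl (cfSites (pvConf ω))).toMap.Int C1.Left := by
    intro t h1 h2 f hf
    have e1 : ((delbPl (cfSites (pvConf ω))).toMap.src f : ℂ) = (𝔅.enc _ (x + 7 * R) c).v t := by rw [hv]; exact (pvagy_posF (I.src hf) _).symm
    have e2 : ((delbPl (cfSites (pvConf ω))).toMap.tgt f : ℂ) = (𝔅.enc _ (x + 7 * R) c).v (t + 1) := by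
      rw [hv, ← c.chain]
      exact (pvagy_posF (I.tgt hf) _).symm
    exact ⟨e1, e2, in1 _ (e1 ▸ hinA t h1 h2.le), in1 _ (e2 ▸ hinA (t + 1) (by omega) (by omega))⟩
  have hi0 : 0 < i := by
    rcases Nat.eq_zero_or_pos i with h0 | h0
    · exfalso
      have := hin 0 (by omega) (by omega)
      rw [hv] at this
      linarith
    · exact h0
  obtain ⟨F, hFK, hF⟩ := hK (𝔅.col (pvConf ω) ξ ((𝔅.T _).src (c.e 0)))
  have hinC : ∀ t, i ≤ t → t < i' → (𝔅.T _).opp (c.e t) ∈ C0'.Left := by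
    intro t h1 h2
    obtain ⟨a, ha, haK⟩ := l9_posF_near 𝔅 hR (v := (𝔅.T _).src (c.e t)) (by have := hin t h1 h2.le; rw [hv] at this; linarith)
    obtain ⟨f, hf⟩ := I.tot' (pvagy_G'_of_src good hOk ha haK)
    obtain ⟨-, -, -, h4⟩ := htw t h1 h2 f hf
    exact (hB _ _ (I.opp hf)).1 (hins.2 (h4 _ (PvMap.src_opp' _ f)))
  have hw : (𝔅.T _).opp (c.e c.n) ∉ C0'.Left := by
    intro hmem
    have h0 : c.e c.n = c.e 0 := by simpa using c.per 0
    rw [h0] at hmem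
    have h1 : (𝔅.T _).nxt ((𝔅.T _).opp (c.e 0)) ∈ C0'.Left := (pl_left_face C0' _).2 hmem
    obtain ⟨v, hvv, hrv⟩ := pvdq_vof I hC hC0G (w := (𝔅.T _).src (c.e 0)) ⟨_, h1, by rw [PvMap.src_nxt, PvMap.tgt_opp]⟩
    have := out0 v hvv
    rw [pvagy_posF hrv] at hfar
    linarith
  obtain ⟨e, -, hein, e', -, -, t1, t2, h1, h2, h3, h4, h5⟩ := pvagt_L8 I hc hOk.sph hOk.simple hC hC0G hfin (pvagy_rim hrim) hii (hlen ▸ hi') (by omega) hinC hw
    (𝔅.posF _ (x + 7 * R)) F K hFK (fun e f t he h1 h2 hf hon => hF e (pvagy_K hfin he hon ((htw t h1 h2 f hf).2.2.1 _ (PvMap.src_rotInv _ f))))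
  refine ⟨t1, t2 - t1, _, e, h1, by omega, by omega, hein, fun t ht => ?_, ?_, ?_⟩
  · obtain ⟨-, f, hf, hon⟩ := h4 (t1 + t) (by omega) (by omega)
    obtain ⟨a1, a2, -, -⟩ := htw (t1 + t) (by omega) (by omega) f hf
    exact ⟨f, a1, a2, hon⟩
  · obtain ⟨-, f, hf, hon⟩ := h4 t1 le_rfl h2
    exact pvagy_K hfin hein hon ((htw t1 h1 (by omega) f hf).2.2.1 _ (PvMap.src_rotInv _ f))
  · rw [Nat.add_sub_cancel' h2.le]
    exact h5

/-! ## 5. BACK: a carried arc of an actual rim is an infix of the plane `Γ(χ_e)` -/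

/-- **BACK**.   An arc `s .. s + n` of a rim of a completion whose darts are (in the plane) carried by the chord of the entrance `e` of `C0.Left`, for the colouring `== b`:   the arc is an INFIX of the PLANE path `Γ(χ_e)`.
(So the plane-only (DI) applies to the arcs of the actual rims.) -/
theorem pvagy_back {x : ℂ} {R : ℝ} (hR : 0 < R) (ω : PVSample) (C0 : (delbPl (cfSites (pvConf ω))).toMap.Cyc) (good : DelGood (cfSites (pvConf ω))) (hfin : C0.Left.Finite)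
    (out0 : ∀ v ∈ (delbPl (cfSites (pvConf ω))).toMap.VOf C0.Left, ‖(v : ℂ) - x‖ < 4 * R) (P : PvbRim) (hP : P ∈ pvhbAll x R ω) (s n : ℕ) (b : Bool)
    (e : (delbPl (cfSites (pvConf ω))).Dart) (he : pvasIn (delbPl (cfSites (pvConf ω))).toMap C0.Left (fun v => cfCol (pvConf ω) v == b) e)
    (hcar : ∀ t < n, ∃ f : (delbPl (cfSites (pvConf ω))).Dart, ((delbPl (cfSites (pvConf ω))).toMap.src f : ℂ) = P.v (s + t) ∧ ((delbPl (cfSites (pvConf ω))).toMap.tgt f : ℂ) = P.v (s + (t + 1)) ∧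
      PvafOn (delbPl (cfSites (pvConf ω))).toMap (fun v => cfCol (pvConf ω) v == b) C0.Left e f) :
    ∃ k0, ∀ t < n, ∃ f : (delbPl (cfSites (pvConf ω))).Dart, (pvafGam (delbPl (cfSites (pvConf ω))).toMap C0.Left e (fun v => cfCol (pvConf ω) v == b))[k0 + t]? = some f ∧
      ((delbPl (cfSites (pvConf ω))).toMap.src f : ℂ) = P.v (s + t) ∧ ((delbPl (cfSites (pvConf ω))).toMap.tgt f : ℂ) = P.v (s + (t + 1)) := by
  classical
  rcases Nat.eq_zero_or_pos n with rfl | hn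
  · exact ⟨0, fun t ht => absurd ht (Nat.not_lt_zero t)⟩
  obtain ⟨X, _, 𝔅, ξ, -, hOk, c, hrim, hfar, rfl⟩ := hP
  have I := pvagy_model good hOk
  have hsph := delb_plane_isSph good
  have hfs := pl_left_face C0
  have hC0G : C0.Left ⊆ pvagyG (cfSites (pvConf ω)) (Metric.closedBall x (6 * R)) := fun d hd => pvagy_G_of_src (by
    have := out0 _ ⟨d, hd, rfl⟩
    rw [Metric.mem_closedBall, dist_eq_norm]
    linarith)
  obtain ⟨C0', hC⟩ := pvdq_cyc I C0 (fun k => Or.inl (hC0G ((pl_jordan hsph C0).2.1 k)))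
  have hB := pvdq_left I hC hC0G
  have hfin' := pvdq_left_fin I hC hC0G hfin
  have hv : ∀ k, (𝔅.enc _ (x + 7 * R) c).v k = 𝔅.posF _ (x + 7 * R) ((𝔅.T _).src (c.e k)) := fun k => rfl
  -- a vertex of the rim at the position of a vertex of `C0.Left`
  have hlab : ∀ (k : ℕ) (v : ↥(cfSites (pvConf ω))), v ∈ (delbPl (cfSites (pvConf ω))).toMap.VOf C0.Left → (v : ℂ) = (𝔅.enc _ (x + 7 * R) c).v k →
      𝔅.lab _ ((𝔅.T _).src (c.e k)) = Sum.inl (v : ℂ) := by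
    intro k v hvv hk
    rw [hv] at hk
    obtain ⟨a, ha, -⟩ := l9_posF_near 𝔅 hR (v := (𝔅.T _).src (c.e k)) (by rw [← hk]; have := out0 v hvv; linarith)
    rw [l9_posF_inl 𝔅 ha] at hk
    rw [ha, hk]
  -- the carried darts are the twins of the darts of the rim
  have htw : ∀ t < n, ∀ f : (delbPl (cfSites (pvConf ω))).Dart, ((delbPl (cfSites (pvConf ω))).toMap.src f : ℂ) = (𝔅.enc _ (x + 7 * R) c).v (s + t) →
      ((delbPl (cfSites (pvConf ω))).toMap.tgt f : ℂ) = (𝔅.enc _ (x + 7 * R) c).v (s + (t + 1)) →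
      PvafOn (delbPl (cfSites (pvConf ω))).toMap (fun v => cfCol (pvConf ω) v == b) C0.Left e f → pvagyR 𝔅 _ f (c.e (s + t)) := by
    intro t _ f h1 h2 ⟨k, hk, hkf⟩
    have hm : (delbPl (cfSites (pvConf ω))).toMap.rotInv f ∈ C0.Left := hkf ▸ (pvaf_time_spec hfs hfin he).1 k hk
    refine ⟨hlab _ _ ⟨_, hm, PvMap.src_rotInv _ f⟩ h1, ?_⟩
    rw [c.chain]
    refine hlab _ _ ⟨(delbPl (cfSites (pvConf ω))).toMap.nxt ((delbPl (cfSites (pvConf ω))).toMap.nxt ((delbPl (cfSites (pvConf ω))).toMap.rotInv f)), (hfs _).2 ((hfs _).2 hm), ?_⟩ h2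
    rw [PvMap.src_nxt2, pvaf_apex_rotInv]
  -- the colour of the rim
  have hb : 𝔅.col (pvConf ω) ξ ((𝔅.T _).src (c.e 0)) = b := by
    obtain ⟨f, h1, h2, hon⟩ := hcar 0 hn
    have hr := htw 0 hn f h1 h2 hon
    obtain ⟨k, hk, hkf⟩ := hon
    have hbw := (pvas_it_bw he.2.2 k).1
    rw [hkf, PvMap.src_rotInv] at hbw
    simp only [beq_iff_eq] at hbw
    rw [← pl_rim_col hrim (s + 0) 0, ← pvagy_col 𝔅 (pvConf ω) ξ _ _ (I.src hr)]
    exact hbw
  have hc : ∀ v w, pvagyRv 𝔅 (cfSites (pvConf ω)) v w →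
      (fun v : ↥(cfSites (pvConf ω)) => cfCol (pvConf ω) v == b) v = (fun w => 𝔅.col (pvConf ω) ξ w == b) w := fun v w h => by
    simp only [pvagy_col 𝔅 (pvConf ω) ξ v w h]
  have hPr : PvafRim (𝔅.T _) (fun w => 𝔅.col (pvConf ω) ξ w == b) c := hb ▸ pvagy_rim hrim
  obtain ⟨e', hee⟩ := I.tot (hC0G he.1)
  have he' := pvdq_in I hc hB hee he
  have hw : (𝔅.T _).opp (c.e 0) ∉ C0'.Left := by
    intro hmem
    have h1 : (𝔅.T _).nxt ((𝔅.T _).opp (c.e 0)) ∈ C0'.Left := (pl_left_face C0' _).2 hmem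
    obtain ⟨v, hvv, hrv⟩ := pvdq_vof I hC hC0G (w := (𝔅.T _).src (c.e 0)) ⟨_, h1, by rw [PvMap.src_nxt, PvMap.tgt_opp]⟩
    have := out0 v hvv
    rw [pvagy_posF hrv] at hfar
    linarith
  have hon' : ∀ u, s ≤ u → u < s + n → PvafOn (𝔅.T _) (fun w => 𝔅.col (pvConf ω) ξ w == b) C0'.Left e' (c.e u) := by
    intro u h1 h2
    obtain ⟨t, rfl⟩ := Nat.exists_eq_add_of_le h1
    obtain ⟨f, a1, a2, hon⟩ := hcar t (by omega)
    exact pvagt_on' I hc hC0G hB hfs hfin hee he (htw t (by omega) f a1 a2 hon) hon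
  obtain ⟨k0, hk0⟩ := pvaf_infix_get (pvaf_on_infix hOk.sph hOk.simple (pl_left_face C0') hfin' hPr he' hw hon')
  have hgam := pvagt_gam I hc hC0G hB hfs hfin hee he
  refine ⟨k0, fun t ht => ?_⟩
  obtain ⟨f, a1, a2, hon⟩ := hcar t ht
  have h1 := hk0 t (by omega)
  rcases pvagt_get hgam (k0 + t) with ⟨-, h2⟩ | ⟨d, d', h2, h3, hr⟩
  · rw [h1] at h2; cases h2
  · rw [h1] at h3
    obtain rfl := Option.some.inj h3
    obtain rfl := I.inj hr (htw t ht f a1 a2 hon)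
    exact ⟨d, h2, a1, a2⟩

end split

end Claimed.Agent.R289
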