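import Claimed.Agent.R289.PppQ

/-!
# Row 289 (S0537), Arm/GeoLe : the OUTER measure of a geometry event is the same in `pvGeo` and in `pvLaw`      (helper155; prefix `pvqu_geo_`)

`pvax_geo_le` (196) is `pvLaw ε {ω | pvGeoOf ω ∈ S} ≤ pvGeo ε S`.  Here the converse, for ARBITRARY `S` (no measurability): Fubini on a measurable superset: every colour-section of it contains `S`.
-/

set_option autoImplicit false

namespace Claimed.Agent.R289

open MeasureTheory Set Claims.C0465
open scoped ENNReal

/-- outer measure: geometry events, from the sample space to the space of geometries -/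
theorem pvqu_geo_le_law (ε : ℝ) (S : Set PvGeoT) : pvGeo ε S ≤ pvLaw ε {ω | pvGeoOf ω ∈ S} := by
  set A : Set PVSample := {ω | pvGeoOf ω ∈ S} with hA
  set T : Set PVSample := toMeasurable (pvLaw ε) A with hT
  have hTm : MeasurableSet T := measurableSet_toMeasurable _ _
  have hAT : A ⊆ T := subset_toMeasurable _ _
  have h1 : pvLaw ε A = pvLaw ε T := (measure_toMeasurable _).symm
  rw [h1, pvqu_law, Measure.map_apply measurable_pvMerge hTm, Measure.prod_apply_symm (measurable_pvMerge hTm)]
  have h2 : ∀ c : PvColT, pvGeo ε S ≤ pvGeo ε ((fun g => (g, c)) ⁻¹' (pvMerge ⁻¹' T)) := fun c =>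
    measure_mono fun g hg => hAT (show pvGeoOf (pvMerge (g, c)) ∈ S from hg)
  calc pvGeo ε S = ∫⁻ _c : PvColT, pvGeo ε S ∂pvCol := by rw [lintegral_const, measure_univ, mul_one]
    _ ≤ ∫⁻ c : PvColT, pvGeo ε ((fun g => (g, c)) ⁻¹' (pvMerge ⁻¹' T)) ∂pvCol := lintegral_mono h2

/-- outer measure: equality -/
theorem pvqu_geo_eq_law (ε : ℝ) (S : Set PvGeoT) : pvLaw ε {ω | pvGeoOf ω ∈ S} = pvGeo ε S := by
  refine le_antisymm ?_ (pvqu_geo_le_law ε S)
  rw [← pvqu_law_geo]
  exact Measure.le_map_apply measurable_pvGeoOf.aemeasurable S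

end Claimed.Agent.R289
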