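-- KEEP
import Claimed.Agent.R289.Arm.Top
import Claimed.Agent.R289.Arm.NearRet
import Claimed.Agent.R289.Tr.Local

/-!
# Row 289 (S0537, Cardy for Poisson-Voronoi), box ARM, file Arm/LocIso : TRANSFER KIT BETWEEN TWO LOCAL MODELS      (owner helper219; prefix `arml_`, defs `ArmlR`, `armlStar`)

Item (a) of the contract `armt_nr_cfg` of `Arm/Top` (helper186).   The rim with a near return lives in an ARBITRARY local model `(T', lab') : ArmtLoc Y K`, the quenched count in the plane model `delMap h`.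

* sec. 1  (a0) two local models of the same `Y` on the same `K` share the star of `K`: `ArmlR K T lab T' lab'` (same labelled face, one vertex in `K`) is a `PvLoc` (helper22, `Tr/Local`; `PlIso` of helper97);
          `arml_dom`, `arml_ran` (the shared part is the star `armlStar`), the sites of `K` are FULL on both sides (`arml_full`), vertex dictionary (`arml_v_lab`, `arml_v_of_dart`), colours (`arml_col`)
* sec. 2  (a2) GENERIC over `PvLoc`, on top of the twin cycles `PvLocCyc` of helper22: `Inside`, `Ann`, `EdgeIn`, `Join`, `PvaxCr`, `pvatLay`, `PvatRun`, `PvatCfg`, the shape CONFIG6 (`arml_cfg6`).   `L.symm`, `P.symm` give the other direction.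
* sec. 3  a monochromatic walk from the closed inner disc to a vertex which is not interior to the outer disc contains a crossing of the annulus (`arml_walk_cr`); arcs of rims are such walks (`arml_rim_walk`)
* sec. 4  the dictionary for the record `ArmtGeo.At`: visits are interior to the twin of `γ b 0`, far vertices are interior to the right side of the twin of `δ 1`
-/

set_option autoImplicit false
set_option linter.unusedSectionVars false
set_option linter.unusedVariables false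

namespace Claimed.Agent.R289

open Relation Set Metric

variable {V D V' D' : Type}

/-! ## 1. Two local models share the star of `K` -/

/-- the darts `d`, `d'` of two labelled maps carry the same labelled face, one of whose vertices lies in `K` -/
def ArmlR (K : Set ℂ) (T : PvMap V D) (lab : V → Option ℂ) (T' : PvMap V' D') (lab' : V' → Option ℂ) (d : D) (d' : D') : Prop :=
  ∃ a b c : ℂ, (a ∈ K ∨ b ∈ K ∨ c ∈ K) ∧ (lab (T.src d) = some a ∧ lab (T.tgt d) = some b ∧ lab (T.apex d) = some c) ∧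
    (lab' (T'.src d') = some a ∧ lab' (T'.tgt d') = some b ∧ lab' (T'.apex d') = some c)

/-- the darts of the faces with a vertex in `K` -/
def armlStar (K : Set ℂ) (T : PvMap V D) (lab : V → Option ℂ) : Set D :=
  {d | ∃ p ∈ K, lab (T.src d) = some p ∨ lab (T.tgt d) = some p ∨ lab (T.apex d) = some p}

theorem arml_eqns_cite : True := by
  have := @ArmlR.eq_1; have := @armlStar.eq_1
  trivial

section star

variable {Y K : Set ℂ} {T : PvMap V D} {lab : V → Option ℂ} {T' : PvMap V' D'} {lab' : V' → Option ℂ}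

theorem arml_swap {d : D} {d' : D'} (h : ArmlR K T lab T' lab' d d') : ArmlR K T' lab' T lab d' d := by
  obtain ⟨a, b, c, hK, h1, h2⟩ := h
  exact ⟨a, b, c, hK, h2, h1⟩

theorem arml_swap_iff {d : D} {d' : D'} : ArmlR K T lab T' lab' d d' ↔ ArmlR K T' lab' T lab d' d := ⟨arml_swap, arml_swap⟩

theorem arml_nxt {d : D} {d' : D'} (h : ArmlR K T lab T' lab' d d') : ArmlR K T lab T' lab' (T.nxt d) (T'.nxt d') := by
  obtain ⟨a, b, c, hK, ⟨h1, h2, h3⟩, ⟨k1, k2, k3⟩⟩ := h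
  refine ⟨b, c, a, by tauto, ⟨?_, ?_, ?_⟩, ⟨?_, ?_, ?_⟩⟩
  · rwa [T.src_nxt]
  · rwa [T.tgt_nxt]
  · rwa [T.apex_nxt]
  · rwa [T'.src_nxt]
  · rwa [T'.tgt_nxt]
  · rwa [T'.apex_nxt]

theorem arml_fn (hL' : ArmtLoc Y K T' lab') {d : D} {d' e' : D'} (h : ArmlR K T lab T' lab' d d') (h' : ArmlR K T lab T' lab' d e') : d' = e' := by
  obtain ⟨a, b, c, -, ⟨h1, h2, -⟩, ⟨k1, k2, -⟩⟩ := h
  obtain ⟨a', b', c', -, ⟨h1', h2', -⟩, ⟨k1', k2', -⟩⟩ := h'
  have ea : a = a' := Option.some.inj (h1.symm.trans h1')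
  have eb : b = b' := Option.some.inj (h2.symm.trans h2')
  subst ea eb
  exact hL'.simple _ _ (hL'.inj _ _ _ k1 k1') (hL'.inj _ _ _ k2 k2')

theorem arml_opp (hL' : ArmtLoc Y K T' lab') {d : D} {d' x' : D'} (h : ArmlR K T lab T' lab' d d') (h' : ArmlR K T lab T' lab' (T.opp d) x') : x' = T'.opp d' := by
  obtain ⟨a, b, c, -, ⟨h1, h2, -⟩, ⟨k1, k2, -⟩⟩ := h
  obtain ⟨a', b', c', -, ⟨h1', h2', -⟩, ⟨k1', k2', -⟩⟩ := h'
  rw [T.src_opp'] at h1'
  rw [T.tgt_opp] at h2'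
  have ea : b = a' := Option.some.inj (h2.symm.trans h1')
  have eb : a = b' := Option.some.inj (h1.symm.trans h2')
  subst ea eb
  refine hL'.simple _ _ (hL'.inj _ _ _ k1' ?_) (hL'.inj _ _ _ k2' ?_)
  · rwa [T'.src_opp']
  · rwa [T'.tgt_opp]

theorem arml_vfn (hL' : ArmtLoc Y K T' lab') {d e : D} {d' e' : D'} (h : ArmlR K T lab T' lab' d d') (h' : ArmlR K T lab T' lab' e e') (hv : T.src d = T.src e) :
    T'.src d' = T'.src e' := by
  obtain ⟨a, b, c, -, ⟨h1, -, -⟩, ⟨k1, -, -⟩⟩ := h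
  obtain ⟨a', b', c', -, ⟨h1', -, -⟩, ⟨k1', -, -⟩⟩ := h'
  rw [hv] at h1
  have ea : a = a' := Option.some.inj (h1.symm.trans h1')
  subst ea
  exact hL'.inj _ _ _ k1 k1'

/-- **(a0)** two local models of `Y` on `K` are locally isomorphic -/
theorem arml_loc (hL : ArmtLoc Y K T lab) (hL' : ArmtLoc Y K T' lab') : PvLoc T T' (ArmlR K T lab T' lab') where
  iso :=
    { fn := fun h h' => arml_fn hL' h h'
      inj := fun h h' => arml_fn hL (arml_swap h) (arml_swap h')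
      nxt := arml_nxt
      opp := fun h h' => arml_opp hL' h h'
      opp' := fun h h' => arml_opp hL (arml_swap h) (arml_swap h') }
  vfn := fun h h' hv => arml_vfn hL' h h' hv
  vinj := fun h h' hv => arml_vfn hL (arml_swap h) (arml_swap h') hv

theorem arml_rel_of_src (hL : ArmtLoc Y K T lab) (hL' : ArmtLoc Y K T' lab') {d : D} {p : ℂ} (hp : p ∈ K) (hd : lab (T.src d) = some p) : ∃ d', ArmlR K T lab T' lab' d d' := by
  obtain ⟨b, c, h2, h3, ht⟩ := hL.del d p hd hp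
  obtain ⟨d', k1, k2, k3⟩ := hL'.face p b c ht hp
  exact ⟨d', p, b, c, Or.inl hp, ⟨hd, h2, h3⟩, ⟨k1, k2, k3⟩⟩

/-- the shared part is the star of `K` -/
theorem arml_dom (hL : ArmtLoc Y K T lab) (hL' : ArmtLoc Y K T' lab') : plDom (ArmlR K T lab T' lab') = armlStar K T lab := by
  ext d
  constructor
  · rintro ⟨d', a, b, c, hK, ⟨h1, h2, h3⟩, -⟩
    rcases hK with hK | hK | hK
    · exact ⟨a, hK, Or.inl h1⟩
    · exact ⟨b, hK, Or.inr (Or.inl h2)⟩
    · exact ⟨c, hK, Or.inr (Or.inr h3)⟩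
  · rintro ⟨p, hp, h | h | h⟩
    · exact arml_rel_of_src hL hL' hp h
    · obtain ⟨e', he⟩ := arml_rel_of_src hL hL' (d := T.nxt d) hp h
      have := arml_nxt (arml_nxt he)
      rw [T.nxt3] at this
      exact ⟨_, this⟩
    · obtain ⟨e', he⟩ := arml_rel_of_src hL hL' (d := T.nxt (T.nxt d)) hp h
      have := arml_nxt he
      rw [T.nxt3] at this
      exact ⟨_, this⟩

theorem arml_ran (hL : ArmtLoc Y K T lab) (hL' : ArmtLoc Y K T' lab') : plRan (ArmlR K T lab T' lab') = armlStar K T' lab' := by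
  rw [← arml_dom hL' hL]
  ext d'
  exact ⟨fun ⟨d, h⟩ => ⟨d, arml_swap h⟩, fun ⟨d, h⟩ => ⟨d, arml_swap h⟩⟩

/-- the sites of `K` are full -/
theorem arml_full (hL : ArmtLoc Y K T lab) (hL' : ArmtLoc Y K T' lab') {v : V} {p : ℂ} (hv : lab v = some p) (hp : p ∈ K) : v ∈ T.Int (plDom (ArmlR K T lab T' lab')) := by
  intro d hd
  rw [arml_dom hL hL']
  exact ⟨p, hp, Or.inl (by rw [hd, hv])⟩

theorem arml_full' (hL : ArmtLoc Y K T lab) (hL' : ArmtLoc Y K T' lab') {v' : V'} {p : ℂ} (hv : lab' v' = some p) (hp : p ∈ K) : v' ∈ T'.Int (plRan (ArmlR K T lab T' lab')) := by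
  intro d hd
  rw [arml_ran hL hL']
  exact ⟨p, hp, Or.inl (by rw [hd, hv])⟩

/-- twin vertices carry the same label -/
theorem arml_v_lab {v : V} {v' : V'} (h : pvlocV T T' (ArmlR K T lab T' lab') v v') : ∃ p, lab v = some p ∧ lab' v' = some p := by
  obtain ⟨d, d', ⟨a, b, c, -, ⟨h1, -, -⟩, ⟨k1, -, -⟩⟩, rfl, rfl⟩ := h
  exact ⟨a, h1, k1⟩

/-- a vertex of `T` with a dart and a label in `K` has a twin -/
theorem arml_v_of_dart (hL : ArmtLoc Y K T lab) (hL' : ArmtLoc Y K T' lab') {d : D} {p : ℂ} (hd : lab (T.src d) = some p) (hp : p ∈ K) :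
    ∃ d', ArmlR K T lab T' lab' d d' ∧ lab' (T'.src d') = some p := by
  obtain ⟨d', hr⟩ := arml_rel_of_src hL hL' hp hd
  obtain ⟨a, b, c, -, ⟨h1, -, -⟩, ⟨k1, -, -⟩⟩ := id hr
  have : a = p := Option.some.inj (h1.symm.trans hd)
  subst this
  exact ⟨d', hr, k1⟩

/-- two vertices with the same label in `K` are twins as soon as one of them has a dart -/
theorem arml_v_of_lab (hL : ArmtLoc Y K T lab) (hL' : ArmtLoc Y K T' lab') {d : D} {v' : V'} {p : ℂ} (hd : lab (T.src d) = some p) (hv' : lab' v' = some p) (hp : p ∈ K) :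
    pvlocV T T' (ArmlR K T lab T' lab') (T.src d) v' := by
  obtain ⟨d', hr, hl⟩ := arml_v_of_dart hL hL' hd hp
  exact ⟨d, d', hr, rfl, hL'.inj _ _ _ hl hv'⟩

/-- colourings which read the labels agree -/
theorem arml_col {σ : ℂ → Bool} {col : V → Bool} {col' : V' → Bool} (hc : ∀ v p, lab v = some p → col v = σ p) (hc' : ∀ v p, lab' v = some p → col' v = σ p) :
    ∀ d d', ArmlR K T lab T' lab' d d' → col (T.src d) = col' (T'.src d') := by
  rintro d d' ⟨a, b, c, -, ⟨h1, -, -⟩, ⟨k1, -, -⟩⟩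
  rw [hc _ _ h1, hc' _ _ k1]

/-- a face set all of whose vertices are sites of `K` lies in the shared part -/
theorem arml_sub_dom (hL : ArmtLoc Y K T lab) (hL' : ArmtLoc Y K T' lab') {A : Set D} (hA : ∀ v ∈ T.VOf A, ∃ p ∈ K, lab v = some p) : A ⊆ plDom (ArmlR K T lab T' lab') := by
  intro d hd
  obtain ⟨p, hp, hl⟩ := hA _ ⟨d, hd, rfl⟩
  exact arml_rel_of_src hL hL' hp hl

/-- the collar of such a face set lies in the shared part as well -/
theorem arml_collar (hL : ArmtLoc Y K T lab) (hL' : ArmtLoc Y K T' lab') {A : Set D} (hA : ∀ v ∈ T.VOf A, ∃ p ∈ K, lab v = some p) {d : D} (hd : d ∈ A) :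
    T.opp d ∈ plDom (ArmlR K T lab T' lab') := by
  obtain ⟨p, hp, hl⟩ := hA _ ⟨d, hd, rfl⟩
  rw [arml_dom hL hL']
  exact ⟨p, hp, Or.inr (Or.inl (by rw [T.tgt_opp]; exact hl))⟩

end star

/-! ## 2. Generic transfer over `PvLoc`: what CONFIG6 reads -/

section gen

variable {T : PvMap V D} {T' : PvMap V' D'} {R : D → D' → Prop} {s : V → Bool} {s' : V' → Bool}

theorem arml_not (hs : ∀ d d', R d d' → s (T.src d) = s' (T'.src d')) : ∀ d d', R d d' → pvasNot s (T.src d) = pvasNot s' (T'.src d') := by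
  intro d d' h
  unfold pvasNot
  rw [hs d d' h]

theorem arml_swap_col (hs : ∀ d d', R d d' → s (T.src d) = s' (T'.src d')) : ∀ d' d, (fun d' d => R d d') d' d → s' (T'.src d') = s (T.src d) :=
  fun d' d h => (hs d d' h).symm

/-- `Inside` is carried over -/
theorem arml_inside (L : PvLoc T T' R) (hT' : T'.IsSph) {c₁ c₂ : T.Cyc} {c₁' c₂' : T'.Cyc} (P₁ : PvLocCyc R c₁ c₁') (P₂ : PvLocCyc R c₂ c₂') (h₂ : c₂.Left ⊆ plDom R)
    (h : c₁.Inside c₂) : c₁'.Inside c₂' := by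
  have h₁ : c₁.Left ⊆ plDom R := h.2.trans h₂
  constructor
  · rintro v' ⟨k, rfl⟩
    exact pvloc_left_int_fwd L hT' P₂ h₂ (pvloc_v_src (P₁.e_rel k)) (h.1 ⟨k, rfl⟩)
  · intro d' hd'
    obtain ⟨d, hr, hd⟩ := pvloc_left_bwd L P₁ h₁ hd'
    exact (pvloc_left L P₂ h₂ hr).1 (h.2 hd)

/-- the annulus between two cycles is carried over -/
theorem arml_ann (L : PvLoc T T' R) {c₁ c₂ : T.Cyc} {c₁' c₂' : T'.Cyc} (P₁ : PvLocCyc R c₁ c₁') (P₂ : PvLocCyc R c₂ c₂') (h₁ : c₁.Left ⊆ plDom R) (h₂ : c₂.Left ⊆ plDom R)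
    {d : D} {d' : D'} (h : R d d') : d ∈ c₁.Ann c₂ ↔ d' ∈ c₁'.Ann c₂' := by
  unfold PvMap.Cyc.Ann
  rw [Set.mem_sdiff, Set.mem_sdiff, pvloc_left L P₁ h₁ h, pvloc_left L P₂ h₂ h]

/-- finiteness of the left side is carried over -/
theorem arml_left_finite (L : PvLoc T T' R) {c : T.Cyc} {c' : T'.Cyc} (P : PvLocCyc R c c') (hL : c.Left ⊆ plDom R) (hfin : c.Left.Finite) : c'.Left.Finite := by
  classical
  have : Nonempty D' := ⟨c'.e 0⟩
  choose! f hf using fun d (hd : d ∈ c.Left) => pvloc_left_fwd L P hL hd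
  refine (hfin.image f).subset ?_
  intro d' hd'
  obtain ⟨d, hr, hd⟩ := pvloc_left_bwd L P hL hd'
  exact ⟨d, hd, L.iso.fn (hf d hd).1 hr⟩

theorem arml_edgeIn (L : PvLoc T T' R) {A : Set D} {A' : Set D'} (hA : A ⊆ plDom R) (hAA : ∀ d d', R d d' → d ∈ A → d' ∈ A') {a b : V} {a' : V'}
    (ha : pvlocV T T' R a a') (h : T.EdgeIn A a b) : ∃ b', pvlocV T T' R b b' ∧ T'.EdgeIn A' a' b' := by
  obtain ⟨d, hd, rfl, rfl⟩ := h
  rcases hd with hd | hd
  · obtain ⟨d', hr⟩ := hA hd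
    exact ⟨T'.tgt d', pvloc_v_tgt L hr, d', Or.inl (hAA _ _ hr hd), pvloc_v_fn L (pvloc_v_src hr) ha, rfl⟩
  · obtain ⟨e', hr⟩ := hA hd
    refine ⟨T'.src e', ?_, T'.opp e', Or.inr (by rw [T'.opp_opp]; exact hAA _ _ hr hd), ?_, T'.tgt_opp e'⟩
    · have := pvloc_v_src (T := T) (T' := T') hr
      rwa [T.src_opp'] at this
    · have := pvloc_v_tgt L hr
      rw [T.tgt_opp] at this
      rw [T'.src_opp']
      exact pvloc_v_fn L this ha

/-- primal joins in a shared face set are carried over -/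
theorem arml_join (L : PvLoc T T' R) {A : Set D} {A' : Set D'} (hA : A ⊆ plDom R) (hAA : ∀ d d', R d d' → d ∈ A → d' ∈ A') {X : Set V} {X' : Set V'}
    (hX : ∀ v v', pvlocV T T' R v v' → v ∈ X → v' ∈ X') {a b : V} {a' : V'} (ha : pvlocV T T' R a a') (h : T.Join A X a b) :
    ∃ b', pvlocV T T' R b b' ∧ T'.Join A' X' a' b' := by
  obtain ⟨h1, h2⟩ := h
  induction h2 with
  | refl => exact ⟨a', ha, hX _ _ ha h1, ReflTransGen.refl⟩
  | tail _ hstep ih =>
    obtain ⟨u', hu, hj⟩ := ih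
    obtain ⟨w', hw, he⟩ := arml_edgeIn L hA hAA hu hstep.1
    exact ⟨w', hw, hj.1, hj.2.tail ⟨he, hX _ _ hw hstep.2⟩⟩

/-- **crossings of an annulus are carried over** -/
theorem arml_cr [DecidableEq V] [DecidableEq V'] (L : PvLoc T T' R) (hs : ∀ d d', R d d' → s (T.src d) = s' (T'.src d')) {c₁ c₂ : T.Cyc} {c₁' c₂' : T'.Cyc}
    (P₁ : PvLocCyc R c₁ c₁') (P₂ : PvLocCyc R c₂ c₂') (h₁ : c₁.Left ⊆ plDom R) (h₂ : c₂.Left ⊆ plDom R) {X : Set V} {X' : Set V'}
    (hX : ∀ v v', pvlocV T T' R v v' → v ∈ X → v' ∈ X') {b : Bool} (h : PvaxCr T c₁ c₂ X b s) : PvaxCr T' c₁' c₂' X' b s' := by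
  obtain ⟨u, ⟨k, rfl⟩, w, hw, hj⟩ := h
  obtain ⟨w', hw', hj'⟩ := arml_join L (A := c₁.Ann c₂) (A' := c₁'.Ann c₂') (fun d hd => h₂ hd.1) (fun d d' hr hd => (arml_ann L P₁ P₂ h₁ h₂ hr).1 hd)
    (X := {v | v ∈ X ∧ s v = b}) (X' := {v | v ∈ X' ∧ s' v = b}) (fun v v' hv hx => ⟨hX _ _ hv hx.1, (pvloc_v_col hs hv).symm.trans hx.2⟩) (pvloc_v_src (P₁.e_rel k)) hj
  exact ⟨_, ⟨k, rfl⟩, w', (pvloc_cyc_verts L P₂ hw').1 hw, hj'⟩

/-- the layers of twin strands -/
theorem arml_lay (L : PvLoc T T' R) {x : D} {x' : D'} {n : ℕ} (hit : ∀ j, j ≤ n → R (pvasIt T s x j) (pvasIt T' s' x' j)) {v : V} {v' : V'} (hv : pvlocV T T' R v v') :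
    v ∈ pvatLay T s x n ↔ v' ∈ pvatLay T' s' x' n := by
  constructor
  · rintro (⟨i, hi, rfl⟩ | ⟨i, hi, rfl⟩)
    · exact Or.inl ⟨i, hi, pvloc_v_fn L (pvloc_v_src (hit i hi)) hv⟩
    · exact Or.inr ⟨i, hi, pvloc_v_fn L (pvloc_v_tgt L (hit i hi)) hv⟩
  · rintro (⟨i, hi, rfl⟩ | ⟨i, hi, rfl⟩)
    · exact Or.inl ⟨i, hi, pvloc_v_inj L (pvloc_v_src (hit i hi)) hv⟩
    · exact Or.inr ⟨i, hi, pvloc_v_inj L (pvloc_v_tgt L (hit i hi)) hv⟩

/-- every vertex of the layer of the twin strand has a twin -/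
theorem arml_lay_twin (L : PvLoc T T' R) {x : D} {x' : D'} {n : ℕ} (hit : ∀ j, j ≤ n → R (pvasIt T s x j) (pvasIt T' s' x' j)) {v' : V'} (hv : v' ∈ pvatLay T' s' x' n) :
    ∃ v, pvlocV T T' R v v' := by
  rcases hv with ⟨i, hi, rfl⟩ | ⟨i, hi, rfl⟩
  · exact ⟨_, pvloc_v_src (hit i hi)⟩
  · exact ⟨_, pvloc_v_tgt L (hit i hi)⟩

/-- **runs are carried over**, together with their positions -/
theorem arml_run (L : PvLoc T T' R) (hT : T.IsSph) (hs : ∀ d d', R d d' → s (T.src d) = s' (T'.src d')) {c₀ c₁ : T.Cyc} {c₀' c₁' : T'.Cyc}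
    (P₀ : PvLocCyc R c₀ c₀') (P₁ : PvLocCyc R c₁ c₁') (h₀ : c₀.Left ⊆ plDom R) (h₁ : c₁.Left ⊆ plDom R) (hcol : ∀ k, T.opp (c₀.e k) ∈ plDom R)
    {x : D} {x' : D'} (hx : R x x') {n : ℕ} (h : PvatRun T c₀.Left c₁.Left s x n) :
    PvatRun T' c₀'.Left c₁'.Left s' x' n ∧ ∀ j, j ≤ n → R (pvasIt T s x j) (pvasIt T' s' x' j) := by
  have hit := pvloc_it_disc L hT hs h₀ hcol hx (n := n) (fun j hj => (h.mid j hj).1)
  refine ⟨⟨⟨(pvloc_left L P₀ h₀ hx).1 h.ent.1, fun hc => ?_, (pvloc_bw L hs hx).1 h.ent.2.2⟩, fun k hk => ?_, (pvloc_left L P₁ h₁ (hit n le_rfl)).1 h.hit⟩, hit⟩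
  · obtain ⟨y, hy, hyl⟩ := pvloc_left_bwd L P₀ h₀ hc
    have := L.iso.opp' hx hy
    subst this
    exact h.ent.2.1 hyl
  · exact ⟨(pvloc_left L P₀ h₀ (hit k hk.le)).1 (h.mid k hk).1, fun hc => (h.mid k hk).2 ((pvloc_left L P₁ h₁ (hit k hk.le)).2 hc)⟩

theorem arml_disj (L : PvLoc T T' R) {t u : V → Bool} {t' u' : V' → Bool} {x y : D} {x' y' : D'} {n m : ℕ} (hx : ∀ j, j ≤ n → R (pvasIt T t x j) (pvasIt T' t' x' j))
    (hy : ∀ j, j ≤ m → R (pvasIt T u y j) (pvasIt T' u' y' j)) (h : Disjoint (pvatLay T t x n) (pvatLay T u y m)) : Disjoint (pvatLay T' t' x' n) (pvatLay T' u' y' m) := by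
  rw [Set.disjoint_left] at h ⊢
  intro v' h1 h2
  obtain ⟨v, hv⟩ := arml_lay_twin L hx h1
  exact h ((arml_lay L hx hv).2 h1) ((arml_lay L hy hv).2 h2)

/-- **CONFIG5 is carried over**, together with the positions of the three runs -/
theorem arml_cfg (L : PvLoc T T' R) (hT : T.IsSph) (hs : ∀ d d', R d d' → s (T.src d) = s' (T'.src d')) {c₀ c₁ c₂ : T.Cyc} {c₀' c₁' c₂' : T'.Cyc}
    (P₀ : PvLocCyc R c₀ c₀') (P₁ : PvLocCyc R c₁ c₁') (P₂ : PvLocCyc R c₂ c₂') (h₀ : c₀.Left ⊆ plDom R) (h₁ : c₁.Left ⊆ plDom R) (h₂ : c₂.Left ⊆ plDom R)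
    (hcol : ∀ k, T.opp (c₀.e k) ∈ plDom R) {x x2 x4 : D} {x' x2' x4' : D'} (hx : R x x') (hx2 : R x2 x2') (hx4 : R x4 x4') {n1 n2 n4 : ℕ}
    (h : PvatCfg T c₀ c₁ c₂ s x x2 x4 n1 n2 n4) :
    PvatCfg T' c₀' c₁' c₂' s' x' x2' x4' n1 n2 n4 ∧ (∀ j, j ≤ n1 → R (pvasIt T s x j) (pvasIt T' s' x' j)) ∧
      (∀ j, j ≤ n2 → R (pvasIt T (pvasNot s) x2 j) (pvasIt T' (pvasNot s') x2' j)) ∧ (∀ j, j ≤ n4 → R (pvasIt T (pvasNot s) x4 j) (pvasIt T' (pvasNot s') x4' j)) := by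
  obtain ⟨r1, i1⟩ := arml_run L hT hs P₀ P₁ h₀ h₁ hcol hx h.r1
  obtain ⟨r2, i2⟩ := arml_run L hT (arml_not hs) P₀ P₁ h₀ h₁ hcol hx2 h.r2
  obtain ⟨r4, i4⟩ := arml_run L hT (arml_not hs) P₀ P₂ h₀ h₂ hcol hx4 h.r4
  exact ⟨⟨r1, r2, r4, arml_disj L i4 i1 h.dis1, arml_disj L i4 i2 h.dis2⟩, i1, i2, i4⟩

/-- **the shape CONFIG6 is carried over** -/
theorem arml_cfg6 [DecidableEq V] [DecidableEq V'] (L : PvLoc T T' R) (hT : T.IsSph) (hs : ∀ d d', R d d' → s (T.src d) = s' (T'.src d'))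
    {c₀ cm c₁ c₂ c₃ : T.Cyc} {c₀' cm' c₁' c₂' c₃' : T'.Cyc} (P₀ : PvLocCyc R c₀ c₀') (Pm : PvLocCyc R cm cm') (P₁ : PvLocCyc R c₁ c₁') (P₂ : PvLocCyc R c₂ c₂') (P₃ : PvLocCyc R c₃ c₃')
    (h₀ : c₀.Left ⊆ plDom R) (hm : cm.Left ⊆ plDom R) (h₁ : c₁.Left ⊆ plDom R) (h₂ : c₂.Left ⊆ plDom R) (h₃ : c₃.Left ⊆ plDom R) (hcol : ∀ k, T.opp (c₀.e k) ∈ plDom R)
    (h : ∃ x x2 x4 n1 n2 n4, PvatCfg T c₀ c₁ c₂ s x x2 x4 n1 n2 n4 ∧ PvaxCr T c₃ cm (pvatLay T s x n1 ∪ pvatLay T (pvasNot s) x2 n2 ∪ pvatLay T (pvasNot s) x4 n4)ᶜ true s) :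
    ∃ x x2 x4 n1 n2 n4, PvatCfg T' c₀' c₁' c₂' s' x x2 x4 n1 n2 n4 ∧ PvaxCr T' c₃' cm' (pvatLay T' s' x n1 ∪ pvatLay T' (pvasNot s') x2 n2 ∪ pvatLay T' (pvasNot s') x4 n4)ᶜ true s' := by
  obtain ⟨x, x2, x4, n1, n2, n4, hc, ha⟩ := h
  obtain ⟨x', hx⟩ := h₀ hc.r1.ent.1
  obtain ⟨x2', hx2⟩ := h₀ hc.r2.ent.1
  obtain ⟨x4', hx4⟩ := h₀ hc.r4.ent.1
  obtain ⟨hc', i1, i2, i4⟩ := arml_cfg L hT hs P₀ P₁ P₂ h₀ h₁ h₂ hcol hx hx2 hx4 hc
  refine ⟨x', x2', x4', n1, n2, n4, hc', arml_cr L hs P₃ Pm h₃ hm ?_ ha⟩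
  intro v v' hv hX hX'
  apply hX
  rcases hX' with (h | h) | h
  · exact Or.inl (Or.inl ((arml_lay L i1 hv).2 h))
  · exact Or.inl (Or.inr ((arml_lay L i2 hv).2 h))
  · exact Or.inr ((arml_lay L i4 hv).2 h)

end gen

/-! ## 3. Walks and crossings -/

section walk

variable {T : PvMap V D}

/-- **a walk in `Y` from the closed inner disc to a vertex which is not interior to the outer disc contains a crossing of the annulus** (the argument of `pvax_cr_sub`) -/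
theorem arml_walk_cr (hT : T.IsSph) {c' c : T.Cyc} (h2 : c'.Inside c) {Y : Set V} {u w : V} (hu : u ∈ T.VOf c'.Left) (huY : u ∈ Y)
    (hpath : ReflTransGen (fun x y => T.Adj x y ∧ y ∈ Y) u w) (hw : w ∉ T.Int c.Left) : ∃ u₁ ∈ c'.verts, ∃ w₁ ∈ c.verts, T.Join (c'.Ann c) Y u₁ w₁ := by
  by_contra hG
  have key : ∀ v, ReflTransGen (fun x y => T.Adj x y ∧ y ∈ Y) u v →
      v ∈ T.Int c'.Left ∨ (v ∈ T.Int c.Left ∧ ∃ u₁ ∈ c'.verts, T.Join (c'.Ann c) Y u₁ v) := by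
    intro v hv
    induction hv with
    | refl =>
      rw [pl_VOf_left hT c'] at hu
      rcases hu with hu2 | hu2
      · exact Or.inr ⟨h2.1 hu2, u, hu2, huY, ReflTransGen.refl⟩
      · exact Or.inl hu2
    | @tail v v' _ hstep ih =>
      obtain ⟨⟨d, rfl, rfl⟩, hv'Y⟩ := hstep
      have hin : T.tgt d ∈ T.VOf c'.Left →
          T.tgt d ∈ T.Int c'.Left ∨ (T.tgt d ∈ T.Int c.Left ∧ ∃ u₁ ∈ c'.verts, T.Join (c'.Ann c) Y u₁ (T.tgt d)) := by
        intro h
        rw [pl_VOf_left hT c'] at h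
        rcases h with h | h
        · exact Or.inr ⟨h2.1 h, _, h, hv'Y, ReflTransGen.refl⟩
        · exact Or.inl h
      rcases ih with ih | ⟨ih1, u₁, hu₁, hj⟩
      · exact hin (pl_int_edge hT c' ih).2.2
      · obtain ⟨e1, e2, e3⟩ := pl_int_edge hT c ih1
        by_cases hboth : d ∈ c'.Left ∧ T.opp d ∈ c'.Left
        · exact hin ⟨T.opp d, hboth.2, T.src_opp' d⟩
        · have hedge : T.EdgeIn (c'.Ann c) (T.src d) (T.tgt d) := by
            refine ⟨d, ?_, rfl, rfl⟩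
            by_cases hd : d ∈ c'.Left
            · exact Or.inr ⟨e2, fun h => hboth ⟨hd, h⟩⟩
            · exact Or.inl ⟨e1, hd⟩
          have hj' : T.Join (c'.Ann c) Y u₁ (T.tgt d) := ⟨hj.1, hj.2.tail ⟨hedge, hv'Y⟩⟩
          rw [pl_VOf_left hT c] at e3
          rcases e3 with e3 | e3
          · exact absurd ⟨u₁, hu₁, _, e3, hj'⟩ hG
          · exact Or.inr ⟨e3, u₁, hu₁, hj'⟩
  rcases key w hpath with h | ⟨h, -⟩
  · exact hw ((pl_nested_vert hT c c' h2.2).2 h)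
  · exact hw h

/-- the vertices of a rim have one colour -/
theorem arml_rim_col {c : T.Cyc} {s : V → Bool} (h : c.IsRim s) (k j : ℕ) : s (T.src (c.e (k + j))) = s (T.src (c.e k)) := by
  induction j with
  | zero => rfl
  | succ j ih =>
    rw [← ih, pl_rim_edge_col h (k + j), c.chain (k + j)]
    rfl

/-- an arc of a rim is a monochromatic walk -/
theorem arml_rim_walk {c : T.Cyc} {s : V → Bool} (h : c.IsRim s) (k j : ℕ) :
    ReflTransGen (fun x y => T.Adj x y ∧ y ∈ {v | v ∈ (Set.univ : Set V) ∧ s v = s (T.src (c.e k))}) (T.src (c.e k)) (T.src (c.e (k + j))) := by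
  induction j with
  | zero => exact ReflTransGen.refl
  | succ j ih => exact ih.tail ⟨⟨c.e (k + j), rfl, c.chain (k + j)⟩, trivial, arml_rim_col h k (j + 1)⟩

/-- **a rim which visits the closed inner disc and a vertex which is not interior to the outer disc crosses the annulus** -/
theorem arml_rim_cr [DecidableEq V] (hT : T.IsSph) {c' c : T.Cyc} (h2 : c'.Inside c) {P : T.Cyc} {s : V → Bool} (hP : P.IsRim s) {k i : ℕ} (hki : k ≤ i)
    (hk : T.src (P.e k) ∈ T.VOf c'.Left) (hi : T.src (P.e i) ∉ T.Int c.Left) : PvaxCr T c' c Set.univ (s (T.src (P.e k))) s := by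
  obtain ⟨j, rfl⟩ := Nat.exists_eq_add_of_le hki
  exact arml_walk_cr hT h2 hk ⟨trivial, rfl⟩ (arml_rim_walk hP k j) hi

/-- chains of nested cycles -/
theorem arml_chain (hT : T.IsSph) {c : ℕ → T.Cyc} {N : ℕ} (h : ∀ j, j < N → (c j).Inside (c (j + 1))) : ∀ k j, j < k → k ≤ N → (c j).Inside (c k) := by
  intro k
  induction k with
  | zero => intro j hj; omega
  | succ k ih =>
    intro j hj hk
    rcases Nat.lt_or_ge j k with h1 | h1
    · exact pvat_inside_trans hT (ih j h1 (by omega)) (h k (by omega))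
    · obtain rfl : j = k := by omega
      exact h j (by omega)

end walk

/-! ## 4. Visits and far vertices; the contract `armt_nr_cfg` -/

section fin

variable {Y K : Set ℂ} {T : PvMap V D} {lab : V → Option ℂ} {T' : PvMap V' D'} {lab' : V' → Option ℂ}

/-- every cycle whose left side lies in the shared part has a twin -/
theorem arml_twin {R : D → D' → Prop} (L : PvLoc T T' R) (hT : T.IsSph) (c : T.Cyc) (hc : c.Left ⊆ plDom R) : ∃ c' : T'.Cyc, PvLocCyc R c c' :=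
  pvloc_cyc_exists L c fun k => hc ((pl_jordan hT c).2.1 k)

/-- a VISIT: a vertex of `T'` whose label is interior to the disc of `c` in `T` is interior to the disc of the twin cycle -/
theorem arml_visit (hL : ArmtLoc Y K T lab) (hL' : ArmtLoc Y K T' lab') {c : T.Cyc} {c' : T'.Cyc} (P : PvLocCyc (ArmlR K T lab T' lab') c c')
    (hc : c.Left ⊆ plDom (ArmlR K T lab T' lab')) {d' : D'} {p : ℂ} (hd : lab' (T'.src d') = some p) (hp : p ∈ K) (hin : ∀ v, lab v = some p → v ∈ T.Int c.Left) :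
    T'.src d' ∈ T'.Int c'.Left := by
  obtain ⟨d, hr, hl⟩ := arml_v_of_dart hL' hL hd hp
  exact pvloc_left_int_fwd (arml_loc hL hL') hL'.sph P hc ⟨d, d', arml_swap hr, rfl, rfl⟩ (hin _ hl)

/-- a FAR vertex of `T'` is not a vertex of the closed disc of the twin cycle -/
theorem arml_far (hL : ArmtLoc Y K T lab) (hL' : ArmtLoc Y K T' lab') {c : T.Cyc} {c' : T'.Cyc} (P : PvLocCyc (ArmlR K T lab T' lab') c c')
    (hc : c.Left ⊆ plDom (ArmlR K T lab T' lab')) {z : ℂ} {r : ℝ} (hpos : ∀ v ∈ T.VOf c.Left, ∀ p, lab v = some p → ‖p - z‖ < r) {v' : V'} (hv : ArmtFar lab' z r v') :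
    v' ∉ T'.VOf c'.Left := by
  rintro ⟨d', hd', rfl⟩
  obtain ⟨d, hr, hd⟩ := pvloc_left_bwd (arml_loc hL hL') P hc hd'
  obtain ⟨a, b, c, -, ⟨h1, -, -⟩, ⟨k1, -, -⟩⟩ := hr
  exact absurd (hpos _ ⟨d, hd, rfl⟩ a h1) (not_lt.2 (hv a k1))

/-- a vertex which is off the closed disc is interior to the right side -/
theorem arml_int_right (hT : T.IsSph) (c : T.Cyc) {v : V} (hv : v ∉ T.VOf c.Left) : v ∈ T.Int c.Right := by
  rw [pl_VOf_left hT c] at hv
  rcases pl_jordan_vert hT c v with h | h | h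
  · exact absurd (Or.inl h) hv
  · exact absurd (Or.inr h) hv
  · exact h

end fin

open Classical in
/-- **THE CONTRACT `armt_nr_cfg` of `Arm/Top`**: near return in some model ⟹ CONFIG6 + outer arm in the plane model -/
theorem arml_nr_cfg {Y : Set ℂ} (h : DelGood Y) (σ : ℂ → Bool) {ι : Type} {q : ℝ} {m m' Cl : ℕ} (G : ArmtGeo (delMap h) ι q m m' Cl) {ζ : ι → ℂ} {s S R : ℝ}
    (hG : G.At (dlsPos Y) ζ s S R) (hs : 0 < s) (hsS : s ≤ S) (hSR : S ≤ R) (b : ι) (hN : ArmtNR Y σ (ζ b) s S R) :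
    (G.Cfg6 b (fun v => σ v) ∨ G.Cfg6 b (pvasNot fun v => σ v)) ∧ G.Out (fun v => σ v) := by
  obtain ⟨V', D', T', lab', col, hL', hcol, P, hP, k, i, k', i', l1, l2, l3, l4, hk, hk', hi, hi'⟩ := hN
  have hL := armt_loc_plane h (closedBall (ζ b) (4 * R))
  have L := arml_loc hL hL'
  have hT := hL.sph
  have hT' := hL'.sph
  have hR : 0 < R := lt_of_lt_of_le hs (hsS.trans hSR)
  have hc : ∀ d d', ArmlR (closedBall (ζ b) (4 * R)) (delMap h) (fun v => some (v : ℂ)) T' lab' d d' → (fun v : Y => σ v) ((delMap h).src d) = col (T'.src d') :=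
    arml_col (σ := σ) (lab := fun v : Y => some (v : ℂ)) (col := fun v : Y => σ v) (fun v p hv => congrArg σ (Option.some.inj hv)) hcol
  -- nesting in the plane
  have hδ := arml_chain hT (fun j hj => (G.δ_blk j hj).1)
  have hγ := arml_chain hT (fun j hj => (G.γ_blk b j hj).1)
  have h12 : (G.γ b 0).Inside (G.γ b 3) := hγ 3 0 (by omega) (by omega)
  have h23 : (G.γ b 3).Inside (G.γ b 6) := hγ 6 3 (by omega) (by omega)
  have h3m : (G.γ b 6).Inside (G.δ 0) := pvat_inside_trans hT (hγ (7 + 2 * m) 6 (by omega) le_rfl) (G.γ_top b)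
  have hm0 : (G.δ 0).Inside (G.δ 1) := hδ 1 0 (by omega) (by omega)
  have h02 : (G.δ 1).Inside (G.δ 2) := hδ 2 1 (by omega) (by omega)
  have h2t : (G.δ 2).Left ⊆ (G.δ (2 + 2 * m')).Left := by
    rcases Nat.eq_zero_or_pos m' with rfl | hm'
    · exact subset_rfl
    · exact (hδ (2 + 2 * m') 2 (by omega) le_rfl).2
  -- the closed top disc lies in the shared part
  have htop : ∀ v ∈ (delMap h).VOf (G.δ (2 + 2 * m')).Left, ∃ p ∈ closedBall (ζ b) (4 * R), (fun v : Y => some (v : ℂ)) v = some p := by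
    intro v hv
    refine ⟨v, ?_, rfl⟩
    rw [mem_closedBall, dist_eq_norm]
    have := hG.out b v hv
    unfold dlsPos at this
    linarith
  have dt := arml_sub_dom hL hL' htop
  have d2 := h2t.trans dt
  have d0 := h02.2.trans d2
  have dm := hm0.2.trans d0
  have d3' := h3m.2.trans dm
  have d2' := h23.2.trans d3'
  have d1' := h12.2.trans d2'
  obtain ⟨ct, Pt⟩ := arml_twin L hT _ dt
  obtain ⟨co, Po⟩ := arml_twin L hT _ d2
  obtain ⟨c0, P0⟩ := arml_twin L hT _ d0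
  obtain ⟨cm, Pm⟩ := arml_twin L hT _ dm
  obtain ⟨c3, P3⟩ := arml_twin L hT _ d3'
  obtain ⟨c2, P2⟩ := arml_twin L hT _ d2'
  obtain ⟨c1, P1⟩ := arml_twin L hT _ d1'
  have hcolT : ∀ j, (delMap h).opp ((G.δ 1).e j) ∈ plDom (ArmlR (closedBall (ζ b) (4 * R)) (delMap h) (fun v => some (v : ℂ)) T' lab') :=
    fun j => arml_collar hL hL' htop (h2t (h02.2 ((pl_jordan hT (G.δ 1)).2.1 j)))
  -- visits and far vertices
  have hvis : ∀ j, ArmtNear lab' (ζ b) s (T'.src (P.e j)) → T'.src (P.e j) ∈ T'.Int c1.Left := by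
    rintro j ⟨p, hp, hps⟩
    refine arml_visit hL hL' P1 d1' hp ?_ ?_
    · rw [mem_closedBall, dist_eq_norm]
      linarith
    · intro v hv
      have e : (v : ℂ) = p := Option.some.inj hv
      exact hG.inn b v (by unfold dlsPos; rw [e]; exact hps)
  have hfar : ∀ j, ArmtFar lab' (ζ b) S (T'.src (P.e j)) → T'.src (P.e j) ∈ T'.Int c0.Right := by
    intro j hj
    refine arml_int_right hT' c0 (arml_far hL hL' P0 d0 ?_ hj)
    intro v hv p hp
    have e : (v : ℂ) = p := Option.some.inj hp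
    have := hG.mid b v hv
    unfold dlsPos at this
    rwa [e] at this
  have hi'S : ArmtFar lab' (ζ b) S (T'.src (P.e i')) := fun p hp => le_trans (by linarith) (hi' p hp)
  have hback : ∀ j, T'.opp (c0.e j) ∈ plDom (fun d' d => ArmlR (closedBall (ζ b) (4 * R)) (delMap h) (fun v => some (v : ℂ)) T' lab' d d') :=
    fun j => ⟨_, L.iso.opp_rel (P0.e_rel j) (hcolT j)⟩
  constructor
  · -- CONFIG6
    have key := pvnr_cfg6_rim hT' (arml_left_finite L P0 d0 (G.fin 1)) (arml_inside L hT' P1 P2 d2' h12) (arml_inside L hT' P2 P3 d3' h23) (arml_inside L hT' P3 Pm dm h3m)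
      (arml_inside L hT' Pm P0 d0 hm0) (pvnr_of_isRim hP) l1 l2 l3 l4 (hvis k hk) (hvis k' hk') (hfar i hi) (hfar i' hi'S)
    rcases key with key | key
    · left
      exact arml_cfg6 L.symm hT' (arml_swap_col hc) P0.symm Pm.symm P1.symm P2.symm P3.symm (pvloc_left_ran L P0 d0) (pvloc_left_ran L Pm dm) (pvloc_left_ran L P1 d1')
        (pvloc_left_ran L P2 d2') (pvloc_left_ran L P3 d3') hback key
    · right
      exact arml_cfg6 L.symm hT' (arml_swap_col (arml_not hc)) P0.symm Pm.symm P1.symm P2.symm P3.symm (pvloc_left_ran L P0 d0) (pvloc_left_ran L Pm dm) (pvloc_left_ran L P1 d1')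
        (pvloc_left_ran L P2 d2') (pvloc_left_ran L P3 d3') hback key
  · -- the outer arm
    rcases Nat.eq_zero_or_pos m' with rfl | hm'
    · exact ⟨σ ((delMap h).src ((G.δ 2).e 0)), _, ⟨0, rfl⟩, _, ⟨0, rfl⟩, ⟨trivial, rfl⟩, ReflTransGen.refl⟩
    · have hins : (G.δ 2).Inside (G.δ (2 + 2 * m')) := hδ (2 + 2 * m') 2 (by omega) le_rfl
      have hv1 : T'.src (P.e k) ∈ T'.VOf co.Left := by
        have h1 : P.e k ∈ c1.Left := hvis k hk _ rfl
        obtain ⟨d, hr, hd⟩ := pvloc_left_bwd L P1 d1' h1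
        exact ⟨P.e k, (pvloc_left L Po d2 hr).1 (h02.2 (hm0.2 (h3m.2 (h23.2 (h12.2 hd))))), rfl⟩
      have hv2 : T'.src (P.e i') ∉ T'.Int ct.Left := by
        intro hin
        refine arml_far hL hL' Pt dt ?_ hi' ⟨P.e i', hin _ rfl, rfl⟩
        intro v hv p hp
        have e : (v : ℂ) = p := Option.some.inj hp
        have := hG.out b v hv
        unfold dlsPos at this
        rwa [e] at this
      have hcr := arml_rim_cr hT' (arml_inside L hT' Po Pt dt hins) hP (by omega : k ≤ i') hv1 hv2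
      exact ⟨_, arml_cr L.symm (arml_swap_col hc) Po.symm Pt.symm (pvloc_left_ran L Po d2) (pvloc_left_ran L Pt dt) (fun _ _ _ _ => trivial) hcr⟩

end Claimed.Agent.R289
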