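-- KEEP
import Claimed.Agent.R289.Arm.Count

/-!
# Row 289 (S0537), box ARM / wall (H4b), file Arm/Lock : THE LOCK = ONE EXPLORED PASSAGE + ONE RULE CIRCUIT ⟹ NO OTHER STRAND COMES IN      (helper249; prefix `pvlk_`, defs `Pvlk…`)

Purpose: (H4b) ONE-POINT BLOCKS of `W1_208` in the form of 212 (the continuation is explored up to its first exit of the big disc), WITHOUT sectors, special arcs, crosscuts, banks of a half disc, independent copies; cost `q` per scale instead of `q²`.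
Only tool: the RULE COLOURING of `Arm/Trap` (potential of a closed dual chain, `IsSph.h1`).

* `PvlkPass T c0 s x N`   FULL PASSAGE `κ`: the strand enters the disc `c0.Left` at `x`, stays in it at the times `< N`, is out at the time `N`      (`= PvatRun T c0.Left c0.Leftᶜ s x N`)
* `PvlkRule T c0 s x N r` RULE of the passage: `r = s` on the two banks of `κ`; inside `c0` the `r`-occupied edges are exactly the edges crossed by `κ`.      `pvlk_rule` existence, `pvlk_rule_congr` function of the explored data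
* sec.2  **LOCK** `pvlk_edge`: `k` a cycle inside `c0` which carries the colours of `r`: every occupied edge of `k` is crossed by `κ`.   `pvlk_fwd`, `pvlk_bwd`: a run from `c0` to `k.Left` is the run of `x` (of the exit of `κ`, backwards).
         `pvlk_strand`, `pvlk_strand'`: ANY strand which is outside `c0` at some time and in `k.Left` later has passed through `x` (through the exit of `κ`) in between.
* sec.3  `pvlk_col`, **`pvlk_main`**: the same from a rule circuit `PvatRC T c1 c2 S r s` off the explored set `S`, if the explored vertices in the closed disc of `c2` are seen by `κ` (CALM LEVEL).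
* sec.4  the same for TWO RUNS with unexplored middle (`PvatRule`, setting of `pvat_close`): `pvlk_edge2`, `pvlk_fwd2`, `pvlk_bwd2`
* sec.5  **`pvlk_prob`**: `J` nested annuli with blocking `q` between `c1` and `c2`: `P(K, no rule circuit) ≤ (1-q)^J P(K)` for every explored event `K` which contains the passage.
Prove IN PLACE, helpers just above the theorem.
-/

set_option autoImplicit false
set_option linter.unusedSectionVars false
set_option linter.unusedVariables false

namespace Claimed.Agent.R289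

open Relation

variable {V D : Type} (T : PvMap V D)

/-! ## 0. definitions -/

/-- FULL PASSAGE through the disc of `c0` -/
def PvlkPass (c0 : T.Cyc) (s : V → Bool) (x : D) (N : ℕ) : Prop := PvatRun T c0.Left c0.Leftᶜ s x N

/-- RULE COLOURING of a full passage -/
def PvlkRule (c0 : T.Cyc) (s : V → Bool) (x : D) (N : ℕ) (r : V → Bool) : Prop :=
  (∀ v ∈ pvatLay T s x N, r v = s v) ∧ ∀ d, d ∈ c0.Left → (T.Occ r d ↔ pvatCr T s x N d)

theorem pvlk_eqns_cite : True := by
  have := @PvlkPass.eq_1; have := @PvlkRule.eq_1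
  trivial

variable {T}

/-! ## 1. the rule of a passage -/

/-- the positions `≤ N` of a passage are pairwise different, so `pvatF` is the indicator of the crossed edges.
Plan: copy the proof of `pvat_F_run` (it uses `pvat_no_return` for `k < t ≤ N`, `pvas_bw_not_opp`, `pvat_F_supp`, `Finset.sum_eq_single`); the positions `< N` are in `c0.Left` (`h.mid`). -/
theorem pvlk_F {c0 : T.Cyc} {s : V → Bool} {x : D} {N : ℕ} (h : PvlkPass T c0 s x N) (d : D) : pvatCr T s x N d ↔ pvatF T s x N d = 1 := by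
  constructor
  · rintro ⟨k, hk, hd⟩
    have bw : ∀ j, pvasBW T s (pvasIt T s x j) := fun j => pvas_it_bw h.ent.2.2 j
    have inj : ∀ i j, i ≤ N → j ≤ N → pvasIt T s x i = pvasIt T s x j → i = j := by
      intro i j hi hj e
      rcases Nat.lt_trichotomy i j with hij | hij | hij
      · exact absurd e.symm (pvat_no_return (pl_left_face c0) h.ent hij (fun a ha => (h.mid a (by omega)).1))
      · exact hij
      · exact absurd e (pvat_no_return (pl_left_face c0) h.ent hij (fun a ha => (h.mid a (by omega)).1))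
    have nopp : ∀ i j, pvasIt T s x i ≠ T.opp (pvasIt T s x j) := by
      intro i j e
      have := bw i
      rw [e] at this
      exact pvas_bw_not_opp (bw j) this
    unfold pvatF
    rw [Finset.sum_eq_single k]
    · unfold pvatE
      rw [if_pos hd]
    · intro j hj hjk
      have hj' : j ≤ N := by
        have := Finset.mem_range.1 hj
        omega
      unfold pvatE
      rw [if_neg]
      rintro (e | e)
      · rcases hd with e' | e'
        · exact hjk (inj j k hj' hk (by rw [← e, ← e']))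
        · exact nopp j k (by rw [← e, ← e'])
      · rcases hd with e' | e'
        · exact nopp k j (by rw [← e, ← e'])
        · exact hjk (inj j k hj' hk (T.opp_injective (by rw [← e, ← e'])))
    · intro hk'
      exact absurd (Finset.mem_range.2 (by omega)) hk'
  · intro e
    exact pvat_F_supp (by rw [e]; exact one_ne_zero)

/-- the potential of the passage closed up outside `c0`.
Plan: as `pvat_pot`: `g` = `pvat_toggle` inside `c0.Right` (`pl_jordan`: `Right = Leftᶜ`) from `It N` to `opp x`; `f = pvatF s x N + g` is `Sym` and `Coc` (`pvat_F_par`); `hT.h1`; `g d = 0` for `d ∈ c0.Left`. -/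
theorem pvlk_pot (hT : T.IsSph) {c0 : T.Cyc} {s : V → Bool} {x : D} {N : ℕ} (h : PvlkPass T c0 s x N) :
    ∃ τ : V → ZMod 2, ∀ d, d ∈ c0.Left → τ (T.src d) + τ (T.tgt d) = pvatF T s x N d := by
  have hj0 := pl_jordan hT c0
  have hx : T.opp x ∈ c0.Right := by rw [hj0.1]; exact h.ent.2.1
  have hy : pvasIt T s x N ∈ c0.Right := by rw [hj0.1]; exact h.hit
  have e2 : T.DJoin c0.darts (pvasIt T s x N) (T.opp x) := (T.djoin_symm hy).trans hx
  obtain ⟨g2, s2, p2, u2⟩ := pvat_toggle e2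
  have hsym : T.Sym (fun d => pvatF T s x N d + g2 d) := by
    intro d
    simp only [pvat_F_sym (T := T) s x N d, s2 d]
  have hcoc : T.Coc (fun d => pvatF T s x N d + g2 d) := by
    intro d
    have a1 := pvat_F_par (T := T) s x N d
    have a4 := p2 d
    have key : ∀ a b : ZMod 2, (a + b) + (b + a) = 0 := by decide
    have := key (pvatInd T (T.opp x) d) (pvatInd T (pvasIt T s x N) d)
    rw [← a1, ← a4] at this
    unfold pvatPar at this
    rw [← this]
    ring
  obtain ⟨τ, hτ⟩ := hT.h1 _ hsym hcoc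
  refine ⟨τ, fun d hd => ?_⟩
  have z2 : g2 d = 0 := by
    by_contra hne
    have h3 : d ∈ c0.Right := (show T.DJoin c0.darts (T.opp (c0.e 0)) _ from hy).trans (u2 d hne).1
    rw [hj0.1] at h3
    exact h3 hd
  have h4 := hτ d
  simp only [z2, add_zero] at h4
  exact h4.symm

/-- **existence of the rule**.
Plan: `r v := decide (τ v = τ (src x))` (as `pvat_rule_aux`; `pvlk_F`; a value of `ZMod 2` is `0` or `1`).   `r (src x) = true = s (src x)`; `x ∈ c0.Left` is crossed (time `0`), so `r (tgt x) = false = s (tgt x)`.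
`pvat_rule_prop (pl_left_face c0) (pl_left_face c0).compl h` (an `r`-occupied dart of `c0.Left` is crossed, hence `s`-occupied: `pvat_cr_occ`). -/
theorem pvlk_rule (hT : T.IsSph) {c0 : T.Cyc} {s : V → Bool} {x : D} {N : ℕ} (h : PvlkPass T c0 s x N) : ∃ r, PvlkRule T c0 s x N r := by
  classical
  obtain ⟨τ, hτ⟩ := pvlk_pot hT h
  have hr : ∀ d, d ∈ c0.Left → (T.Occ (fun v => decide (τ v = τ (T.src x))) d ↔ pvatCr T s x N d) := by
    intro d hd
    have h1 := pvlk_F h d
    have h3 := hτ d hd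
    rw [h1]
    unfold PvMap.Occ
    have key : ∀ a b c f : ZMod 2, a + b = f → (decide (a = c) ≠ decide (b = c) ↔ f = 1) := by decide
    exact key _ _ _ _ h3
  refine ⟨fun v => decide (τ v = τ (T.src x)), ?_, hr⟩
  have bx := h.ent.2.2
  have hr0 : (fun v => decide (τ v = τ (T.src x))) (T.src x) = true := by simp
  have ox : T.Occ (fun v => decide (τ v = τ (T.src x))) x := (hr x h.ent.1).2 ⟨0, Nat.zero_le _, Or.inl rfl⟩
  generalize (fun v => decide (τ v = τ (T.src x))) = r at hr hr0 ox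
  have e1 : r (T.tgt x) = false := by
    unfold PvMap.Occ at ox
    rw [hr0] at ox
    cases hh : r (T.tgt x) with
    | true => exact absurd hh.symm ox
    | false => rfl
  exact pvat_rule_prop (pl_left_face c0) (pl_left_face c0).compl h (fun d h1 _ h3 => pvat_cr_occ bx ((hr d h1).1 h3)) (by rw [hr0, bx.1]) (by rw [e1, bx.2])

/-- the rule is a function of the explored data.   Plan: `pvat_lay_congr`, `pvat_it_congr` (the positions `≤ N` agree, so `pvatCr` agrees). -/
theorem pvlk_rule_congr {c0 : T.Cyc} {s s' : V → Bool} {x : D} {N : ℕ} (h : ∀ v ∈ pvatLay T s x N, s' v = s v) (r : V → Bool) : PvlkRule T c0 s' x N r ↔ PvlkRule T c0 s x N r := by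
  have a1 : pvatLay T s' x N = pvatLay T s x N := pvat_lay_congr h
  have a2 : ∀ d, pvatCr T s' x N d ↔ pvatCr T s x N d := by
    intro d
    constructor
    · rintro ⟨i, hi, h3⟩
      exact ⟨i, hi, by rwa [pvat_it_congr h hi] at h3⟩
    · rintro ⟨i, hi, h3⟩
      exact ⟨i, hi, by rwa [pvat_it_congr h hi]⟩
  unfold PvlkRule
  rw [a1]
  simp only [a2]
  constructor
  · rintro ⟨c1, c3⟩
    exact ⟨fun v hv => (c1 v hv).trans (h v hv), c3⟩
  · rintro ⟨c1, c3⟩
    exact ⟨fun v hv => (c1 v hv).trans (h v hv).symm, c3⟩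

theorem pvlk_pass_congr {c0 : T.Cyc} {s s' : V → Bool} {x : D} {N : ℕ} (h : ∀ v ∈ pvatLay T s x N, s' v = s v) : PvlkPass T c0 s' x N ↔ PvlkPass T c0 s x N :=
  pvat_run_congr h

/-- the passage exists: the strand of an entrance leaves a finite disc.   Plan: `pvas_exit_exists`, `Nat.find`. -/
theorem pvlk_pass_exists {c0 : T.Cyc} (hfin : c0.Left.Finite) {s : V → Bool} {x : D} (h : pvasIn T c0.Left s x) : ∃ N, PvlkPass T c0 s x N := by
  obtain ⟨h1, h2, h3⟩ := pvas_exit_spec (pl_left_face c0) hfin h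
  exact ⟨pvasHit T s x c0.Leftᶜ, h, fun k hk => ⟨h2 k hk, fun hc => hc (h2 k hk)⟩, h3.1⟩

/-- the exit of a passage, reversed, is an entrance of the other hand, and its passage is the same one backwards.
Plan: `N ≥ 1`; `opp (It N)` is a side of the face of `It (N-1) ∈ c0.Left` (`pvas_step_opp_mem`); `pvas_bw_not`; `pvas_it_rev`: `It' (opp (It N)) i = opp (It (N - i))`, `i ≤ N`. -/
theorem pvlk_rev {c0 : T.Cyc} {s : V → Bool} {x : D} {N : ℕ} (h : PvlkPass T c0 s x N) :
    PvlkPass T c0 (pvasNot s) (T.opp (pvasIt T s x N)) N ∧ ∀ i, i ≤ N → pvasIt T (pvasNot s) (T.opp (pvasIt T s x N)) i = T.opp (pvasIt T s x (N - i)) := by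
  have hA := pl_left_face c0
  have hrev : ∀ i, i ≤ N → pvasIt T (pvasNot s) (T.opp (pvasIt T s x N)) i = T.opp (pvasIt T s x (N - i)) := fun i hi => pvas_it_rev h.ent.2.2 hi
  have hN : 1 ≤ N := by
    by_contra hc
    have h0 : N = 0 := by omega
    have := h.hit
    rw [h0] at this
    exact this h.ent.1
  have hmem : ∀ i, i < N → T.opp (pvasIt T s x (N - i)) ∈ c0.Left := by
    intro i hi
    obtain ⟨k, hk⟩ : ∃ k, N - i = k + 1 := ⟨N - i - 1, by omega⟩
    rw [hk, pvas_it_succ, pvas_step_opp_mem hA]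
    exact (h.mid k (by omega)).1
  refine ⟨⟨⟨by simpa using hmem 0 (by omega), by rw [T.opp_opp]; exact h.hit, pvas_bw_not.2 (pvas_it_bw h.ent.2.2 N)⟩, fun k hk => ?_, ?_⟩, hrev⟩
  · rw [hrev k hk.le]
    exact ⟨hmem k hk, fun hc => hc (hmem k hk)⟩
  · rw [hrev N le_rfl, Nat.sub_self]
    exact h.ent.2.1

/-! ## 2. the lock -/

/-- **LOCK**: every occupied edge of `k` is crossed by the passage.
Plan: `Bd k.Left d`, so `Edg k.darts d` (`pl_left_bd_sub`), both ends on `k` (`pl_cyc_edg_src`, for `d` and `opp d`), so `Occ r d` (`hcol`); `d ∈ k.Left ⊆ c0.Left`; `hr.2`. -/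
theorem pvlk_edge {c0 k : T.Cyc} (hk : k.Left ⊆ c0.Left) {s r : V → Bool} {x : D} {N : ℕ} (hr : PvlkRule T c0 s x N r) (hcol : ∀ v ∈ k.verts, s v = r v)
    {d : D} (hd : T.Occ s d) (h1 : d ∈ k.Left) (h2 : T.opp d ∉ k.Left) : pvatCr T s x N d := by
  have hb : T.Bd k.Left d := fun hh => h2 (hh.1 h1)
  have hs : T.src d ∈ k.verts := pl_cyc_edg_src k (pl_left_bd_sub k hb)
  have ht : T.tgt d ∈ k.verts := by
    have := pl_cyc_edg_src k (pl_left_bd_sub k (T.bd_opp.2 hb))
    rwa [T.src_opp'] at this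
  have ho : T.Occ r d := by
    unfold PvMap.Occ at hd ⊢
    rw [← hcol _ hs, ← hcol _ ht]
    exact hd
  exact (hr.2 d (hk h1)).1 ho

/-- a forward run from `c0` to `k.Left` is the run of `x`.
Plan: `m ≥ 1` (`pvat_ent_not hT hk`); `d = It y m ∈ k.Left`, `opp d` is a side of the face of `It y (m-1) ∉ k.Left`; `pvlk_edge`: `d = It x j`, `j ≤ N` (`d = opp (It x j)` against `pvas_bw_not_opp`); `pvas_disjoint` in `c0.Left` gives `y = x`. -/
theorem pvlk_fwd (hT : T.IsSph) {c0 k : T.Cyc} (hk : k.Inside c0) {s r : V → Bool} {x : D} {N : ℕ} (h : PvlkPass T c0 s x N) (hr : PvlkRule T c0 s x N r) (hcol : ∀ v ∈ k.verts, s v = r v)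
    {y : D} {m : ℕ} (hy : PvatRun T c0.Left k.Left s y m) : y = x := by
  have hm : m ≠ 0 := by
    rintro rfl
    exact pvat_ent_not hT hk hy.ent.1 hy.ent.2.1 hy.hit
  obtain ⟨m', rfl⟩ : ∃ m', m = m' + 1 := ⟨m - 1, by omega⟩
  have hbw := pvas_it_bw hy.ent.2.2 (m' + 1)
  have hopp : T.opp (pvasIt T s y (m' + 1)) ∉ k.Left := by
    rw [pvas_it_succ, pvas_step_opp_mem (pl_left_face k)]
    exact (hy.mid m' (Nat.lt_succ_self m')).2
  obtain ⟨j, hj, e | e⟩ := pvlk_edge hk.2 hr hcol (pvas_bw_occ hbw) hy.hit hopp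
  · exact (pvas_disjoint (pl_left_face c0) hy.ent h.ent (i := m' + 1) (j := j) (fun i hi => (hy.mid i hi).1)
      (fun i hi => (h.mid i (lt_of_lt_of_le hi hj)).1) (Or.inl e.symm)).1
  · exfalso
    rw [e] at hbw
    exact pvas_bw_not_opp (pvas_it_bw h.ent.2.2 j) hbw

/-- a backward run from `c0` to `k.Left` starts at the exit of the passage.
Plan: the same; now `d = It' y m = opp (It x j) = It' (opp (It x N)) (N - j)` (`pvlk_rev`); `pvas_disjoint` for `pvasNot s`. -/
theorem pvlk_bwd (hT : T.IsSph) {c0 k : T.Cyc} (hk : k.Inside c0) {s r : V → Bool} {x : D} {N : ℕ} (h : PvlkPass T c0 s x N) (hr : PvlkRule T c0 s x N r) (hcol : ∀ v ∈ k.verts, s v = r v)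
    {y : D} {m : ℕ} (hy : PvatRun T c0.Left k.Left (pvasNot s) y m) : y = T.opp (pvasIt T s x N) := by
  have hm : m ≠ 0 := by
    rintro rfl
    exact pvat_ent_not hT hk hy.ent.1 hy.ent.2.1 hy.hit
  obtain ⟨m', rfl⟩ : ∃ m', m = m' + 1 := ⟨m - 1, by omega⟩
  have hbw := pvas_it_bw hy.ent.2.2 (m' + 1)
  have hopp : T.opp (pvasIt T (pvasNot s) y (m' + 1)) ∉ k.Left := by
    rw [pvas_it_succ, pvas_step_opp_mem (pl_left_face k)]
    exact (hy.mid m' (Nat.lt_succ_self m')).2
  obtain ⟨j, hj, e | e⟩ := pvlk_edge hk.2 hr hcol (pvas_occ_not.1 (pvas_bw_occ hbw)) hy.hit hopp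
  · exfalso
    rw [e, pvas_bw_not'] at hbw
    exact pvas_bw_not_opp (pvas_it_bw h.ent.2.2 j) hbw
  · obtain ⟨hp, hrev⟩ := pvlk_rev h
    have e2 := hrev (N - j) (Nat.sub_le N j)
    rw [Nat.sub_sub_self hj, ← e] at e2
    exact (pvas_disjoint (pl_left_face c0) hy.ent hp.ent (i := m' + 1) (j := N - j) (fun i hi => (hy.mid i hi).1)
      (fun i hi => (hp.mid i (by omega)).1) (Or.inl e2)).1

/-- cutting a run out of an arbitrary strand: outside `B` at the time `t0`, in `A ⊆ B` at the time `t ≥ t0`.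
Plan: `j - 1` = the last time in `[t0, t]` at which the position is not in `B`; `y = It j` is an entrance (`pvas_step_opp_mem`, `pvas_it_bw`); `m` = the first time `≥ j` in `A` (`Nat.find`); `pvas_it_add`. -/
theorem pvlk_cut {B A : Set D} (hB : T.FaceSet B) (hAB : A ⊆ B) {s : V → Bool} {d0 : D} (hd0 : pvasBW T s d0) {t0 t : ℕ} (h0 : t0 ≤ t) (hout : pvasIt T s d0 t0 ∉ B) (hin : pvasIt T s d0 t ∈ A) :
    ∃ j m, t0 < j ∧ j + m ≤ t ∧ PvatRun T B A s (pvasIt T s d0 j) m := by
  classical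
  have hPt : ¬ (pvasIt T s d0 t ∉ B) := fun hh => hh (hAB hin)
  set i0 := Nat.findGreatest (fun i => pvasIt T s d0 i ∉ B) t with hi0
  have h1 : pvasIt T s d0 i0 ∉ B := Nat.findGreatest_spec (P := fun i => pvasIt T s d0 i ∉ B) h0 hout
  have h2 : t0 ≤ i0 := Nat.le_findGreatest (P := fun i => pvasIt T s d0 i ∉ B) h0 hout
  have h3 : i0 ≤ t := Nat.findGreatest_le t
  have h4 : i0 ≠ t := fun e => hPt (e ▸ h1)
  have h5 : ∀ i, i0 < i → i ≤ t → pvasIt T s d0 i ∈ B := fun i ha hb => by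
    by_contra hc
    exact Nat.findGreatest_is_greatest (P := fun i => pvasIt T s d0 i ∉ B) ha hb hc
  have hex : ∃ n, pvasIt T s (pvasIt T s d0 (i0 + 1)) n ∈ A := ⟨t - (i0 + 1), by
    rw [← pvas_it_add, Nat.add_sub_cancel' (by omega)]
    exact hin⟩
  have hle : Nat.find hex ≤ t - (i0 + 1) := Nat.find_min' hex (by
    rw [← pvas_it_add, Nat.add_sub_cancel' (by omega)]
    exact hin)
  refine ⟨i0 + 1, Nat.find hex, by omega, by omega, ⟨h5 _ (Nat.lt_succ_self _) (by omega), ?_, pvas_it_bw hd0 _⟩, fun i hi => ⟨?_, Nat.find_min hex hi⟩, Nat.find_spec hex⟩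
  · rw [pvas_it_succ, pvas_step_opp_mem hB]
    exact h1
  · rw [← pvas_it_add]
    exact h5 _ (by omega) (by omega)

/-- **any forward strand** which is outside `c0` at the time `t0` and in `k.Left` at the time `t ≥ t0` passes through `x` in between -/
theorem pvlk_strand (hT : T.IsSph) {c0 k : T.Cyc} (hk : k.Inside c0) {s r : V → Bool} {x : D} {N : ℕ} (h : PvlkPass T c0 s x N) (hr : PvlkRule T c0 s x N r) (hcol : ∀ v ∈ k.verts, s v = r v)
    {d0 : D} (hd0 : pvasBW T s d0) {t0 t : ℕ} (h0 : t0 ≤ t) (hout : pvasIt T s d0 t0 ∉ c0.Left) (hin : pvasIt T s d0 t ∈ k.Left) : ∃ j, t0 < j ∧ j ≤ t ∧ pvasIt T s d0 j = x := by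
  obtain ⟨j, m, h1, h2, h3⟩ := pvlk_cut (pl_left_face c0) hk.2 hd0 h0 hout hin
  exact ⟨j, h1, by omega, pvlk_fwd hT hk h hr hcol h3⟩

/-- **any backward strand**: the same with the exit of the passage -/
theorem pvlk_strand' (hT : T.IsSph) {c0 k : T.Cyc} (hk : k.Inside c0) {s r : V → Bool} {x : D} {N : ℕ} (h : PvlkPass T c0 s x N) (hr : PvlkRule T c0 s x N r) (hcol : ∀ v ∈ k.verts, s v = r v)
    {d0 : D} (hd0 : pvasBW T (pvasNot s) d0) {t0 t : ℕ} (h0 : t0 ≤ t) (hout : pvasIt T (pvasNot s) d0 t0 ∉ c0.Left) (hin : pvasIt T (pvasNot s) d0 t ∈ k.Left) :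
    ∃ j, t0 < j ∧ j ≤ t ∧ pvasIt T (pvasNot s) d0 j = T.opp (pvasIt T s x N) := by
  obtain ⟨j, m, h1, h2, h3⟩ := pvlk_cut (pl_left_face c0) hk.2 hd0 h0 hout hin
  exact ⟨j, h1, by omega, pvlk_bwd hT hk h hr hcol h3⟩

/-! ## 3. from a rule circuit off the explored set -/

/-- Plan: `k` of `PvatRC`.  A vertex of `k` off `S`: rule circuit.  In `S`: `k.verts ⊆ Int c2.Left ⊆ VOf c2.Left` (`pl_VOf_left`), so it is seen by the passage (`hS`): `hr.1`. -/
theorem pvlk_col (hT : T.IsSph) {c0 c1 c2 : T.Cyc} {s r : V → Bool} {x : D} {N : ℕ} (hr : PvlkRule T c0 s x N r) {S : Set V} (hS : ∀ v ∈ S, v ∈ T.VOf c2.Left → v ∈ pvatLay T s x N)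
    (hrc : PvatRC T c1 c2 S r s) : ∃ k : T.Cyc, c1.Inside k ∧ k.Inside c2 ∧ ∀ v ∈ k.verts, s v = r v := by
  obtain ⟨k, h1, h2, h3⟩ := hrc
  refine ⟨k, h1, h2, fun v hv => ?_⟩
  by_cases hvS : v ∈ S
  · have hV : v ∈ T.VOf c2.Left := by
      rw [pl_VOf_left hT]
      exact Or.inr (h2.1 hv)
    exact (hr.1 v (hS v hvS hV)).symm
  · exact h3 v hv hvS

/-- **THE LOCK, form of record**: explored passage `κ` through `c0`, rule circuit between `c1` and `c2`, calm explored set.  Then the only runs from `c0` to `c1` are the two ends of `κ`.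
Plan: `pvlk_col`; `k.Inside c0` (`pvat_inside_trans`); a run to `c1.Left` contains a run to `k.Left` (`PvatRun.shorten`); `pvlk_fwd`, `pvlk_bwd`. -/
theorem pvlk_main (hT : T.IsSph) {c0 c1 c2 : T.Cyc} (h20 : c2.Inside c0) {s r : V → Bool} {x : D} {N : ℕ} (h : PvlkPass T c0 s x N) (hr : PvlkRule T c0 s x N r)
    {S : Set V} (hS : ∀ v ∈ S, v ∈ T.VOf c2.Left → v ∈ pvatLay T s x N) (hrc : PvatRC T c1 c2 S r s) :
    (∀ y m, PvatRun T c0.Left c1.Left s y m → y = x) ∧ ∀ y m, PvatRun T c0.Left c1.Left (pvasNot s) y m → y = T.opp (pvasIt T s x N) := by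
  obtain ⟨k, h1k, hk2, hcol⟩ := pvlk_col hT hr hS hrc
  have hk0 : k.Inside c0 := pvat_inside_trans hT hk2 h20
  constructor
  · intro y m hy
    obtain ⟨m', -, hy'⟩ := hy.shorten h1k.2 (h1k.2.trans hk0.2)
    exact pvlk_fwd hT hk0 h hr hcol hy'
  · intro y m hy
    obtain ⟨m', -, hy'⟩ := hy.shorten h1k.2 (h1k.2.trans hk0.2)
    exact pvlk_bwd hT hk0 h hr hcol hy'

/-- strand form of `pvlk_main`: a strand (either hand) which is outside `c0` at the time `t0` and in `c1.Left` at the time `t ≥ t0` is `κ`.   Plan: `pvlk_cut` + `pvlk_main`. -/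
theorem pvlk_main_strand (hT : T.IsSph) {c0 c1 c2 : T.Cyc} (h12 : c1.Inside c2) (h20 : c2.Inside c0) {s r : V → Bool} {x : D} {N : ℕ} (h : PvlkPass T c0 s x N) (hr : PvlkRule T c0 s x N r)
    {S : Set V} (hS : ∀ v ∈ S, v ∈ T.VOf c2.Left → v ∈ pvatLay T s x N) (hrc : PvatRC T c1 c2 S r s) {d0 : D} {t0 t : ℕ} (h0 : t0 ≤ t) :
    (pvasBW T s d0 → pvasIt T s d0 t0 ∉ c0.Left → pvasIt T s d0 t ∈ c1.Left → ∃ j, t0 < j ∧ j ≤ t ∧ pvasIt T s d0 j = x) ∧
      (pvasBW T (pvasNot s) d0 → pvasIt T (pvasNot s) d0 t0 ∉ c0.Left → pvasIt T (pvasNot s) d0 t ∈ c1.Left → ∃ j, t0 < j ∧ j ≤ t ∧ pvasIt T (pvasNot s) d0 j = T.opp (pvasIt T s x N)) := by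
  have h10 : c1.Inside c0 := pvat_inside_trans hT h12 h20
  obtain ⟨hf, hb⟩ := pvlk_main hT h20 h hr hS hrc
  constructor
  · intro hd0 hout hin
    obtain ⟨j, m, a1, a2, a3⟩ := pvlk_cut (pl_left_face c0) h10.2 hd0 h0 hout hin
    exact ⟨j, a1, by omega, hf _ _ a3⟩
  · intro hd0 hout hin
    obtain ⟨j, m, a1, a2, a3⟩ := pvlk_cut (pl_left_face c0) h10.2 hd0 h0 hout hin
    exact ⟨j, a1, by omega, hb _ _ a3⟩

/-! ## 4. two runs with unexplored middle (setting of `pvat_close`) -/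

/-- Plan: as `pvlk_edge`; `d ∉ c1.Left` by `pvat_not_inner hT h1k` (an end of `d` is on `k`); `hr.2.2`. -/
theorem pvlk_edge2 (hT : T.IsSph) {c0 c1 k : T.Cyc} (h1k : c1.Inside k) (hk0 : k.Inside c0) {s r : V → Bool} {x x2 : D} {n1 n2 : ℕ} (hr : PvatRule T c0.Left c1.Left s x n1 x2 n2 r)
    (hcol : ∀ v ∈ k.verts, s v = r v) {d : D} (hd : T.Occ s d) (h1 : d ∈ k.Left) (h2 : T.opp d ∉ k.Left) : pvatCr T s x n1 d ∨ pvatCr T (pvasNot s) x2 n2 d := by
  have hb : T.Bd k.Left d := fun hh => h2 (hh.1 h1)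
  have hs : T.src d ∈ k.verts := pl_cyc_edg_src k (pl_left_bd_sub k hb)
  have ht : T.tgt d ∈ k.verts := by
    have := pl_cyc_edg_src k (pl_left_bd_sub k (T.bd_opp.2 hb))
    rwa [T.src_opp'] at this
  have ho : T.Occ r d := by
    unfold PvMap.Occ at hd ⊢
    rw [← hcol _ hs, ← hcol _ ht]
    exact hd
  exact (hr.2.2 d (hk0.2 h1) (pvat_not_inner hT h1k (Or.inl hs))).1 ho

/-- Plan: `pvat_close` gives `pvasExit T c0.Left s x = opp x2`, i.e. a passage `(x, N)` with `It N = opp x2` (`pvas_exit_spec` / `pvlk_pass_exists`, `pvas_exit_eq`); by `pvlk_rev` every edge crossed by the run of `x2` is crossed by the passage;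
then as in `pvlk_fwd` (`pvlk_edge2`, `pvas_disjoint`). -/
theorem pvlk_fwd2 (hT : T.IsSph) {c0 c1 k : T.Cyc} (hfin : c0.Left.Finite) (h1k : c1.Inside k) (hk0 : k.Inside c0) {s r : V → Bool} {x x2 : D} {n1 n2 : ℕ}
    (r1 : PvatRun T c0.Left c1.Left s x n1) (r2 : PvatRun T c0.Left c1.Left (pvasNot s) x2 n2) (hr : PvatRule T c0.Left c1.Left s x n1 x2 n2 r) (hcol : ∀ v ∈ k.verts, s v = r v)
    {y : D} {m : ℕ} (hy : PvatRun T c0.Left k.Left s y m) : y = x := by
  have h10 : c1.Left ⊆ c0.Left := h1k.2.trans hk0.2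
  have hy0 : y ∉ k.Left := pvat_ent_not hT hk0 hy.ent.1 hy.ent.2.1
  obtain ⟨m', rfl⟩ : ∃ m', m = m' + 1 := by
    rcases Nat.eq_zero_or_pos m with h0 | h0
    · subst h0
      exact absurd hy.hit hy0
    · exact ⟨m - 1, by omega⟩
  have hbw := pvas_it_bw hy.ent.2.2 (m' + 1)
  have hopp : T.opp (pvasIt T s y (m' + 1)) ∉ k.Left := by
    rw [pvas_it_succ, pvas_step_opp_mem (pl_left_face k)]
    exact (hy.mid m' (Nat.lt_succ_self m')).2
  have hyB : ∀ i, i < m' + 1 → pvasIt T s y i ∈ c0.Left := fun i hi => (hy.mid i hi).1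
  rcases pvlk_edge2 hT h1k hk0 hr hcol (pvas_bw_occ hbw) hy.hit hopp with ⟨j, hj, e | e⟩ | ⟨l, hl, e | e⟩
  · refine (pvas_disjoint (pl_left_face c0) hy.ent r1.ent (i := m' + 1) (j := j) hyB (fun i hi => r1.mem h10 (by omega)) ?_).1
    rw [e]; exact T.sf_refl _
  · exfalso
    have h1 := pvas_it_bw r1.ent.2.2 j
    have h2 : pvasIt T s x j = T.opp (pvasIt T s y (m' + 1)) := by rw [e, T.opp_opp]
    rw [h2] at h1
    exact pvas_bw_not_opp hbw h1
  · exfalso
    have h1 := pvas_it_bw r2.ent.2.2 l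
    rw [← e] at h1
    exact pvas_bw_not_opp hbw (pvas_bw_not'.1 h1)
  · obtain ⟨-, hex⟩ := pvat_close hT hfin h1k hk0 r1 r2 hr hcol
    obtain ⟨hN1, hNin, -⟩ := pvas_exit_spec (pl_left_face c0) hfin r1.ent
    set N := pvasHit T s x c0.Leftᶜ with hN
    have hItN : pvasIt T s x N = T.opp x2 := hex
    have hrev : ∀ i, i ≤ N → pvasIt T (pvasNot s) x2 i = T.opp (pvasIt T s x (N - i)) := by
      intro i hi
      have := pvas_it_rev r1.ent.2.2 hi
      rwa [hItN, T.opp_opp] at this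
    have hlN : l < N := by
      by_contra hcon
      have h1 : pvasIt T (pvasNot s) x2 N ∈ c0.Left := r2.mem h10 (by omega)
      rw [hrev N le_rfl, Nat.sub_self, pvas_it_zero] at h1
      exact r1.ent.2.1 h1
    rw [hrev l hlN.le, T.opp_opp] at e
    refine (pvas_disjoint (pl_left_face c0) hy.ent r1.ent (i := m' + 1) (j := N - l) hyB (fun i hi => hNin i (by omega)) ?_).1
    rw [e]; exact T.sf_refl _

theorem pvlk_bwd2 (hT : T.IsSph) {c0 c1 k : T.Cyc} (hfin : c0.Left.Finite) (h1k : c1.Inside k) (hk0 : k.Inside c0) {s r : V → Bool} {x x2 : D} {n1 n2 : ℕ}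
    (r1 : PvatRun T c0.Left c1.Left s x n1) (r2 : PvatRun T c0.Left c1.Left (pvasNot s) x2 n2) (hr : PvatRule T c0.Left c1.Left s x n1 x2 n2 r) (hcol : ∀ v ∈ k.verts, s v = r v)
    {y : D} {m : ℕ} (hy : PvatRun T c0.Left k.Left (pvasNot s) y m) : y = x2 := by
  have r1' : PvatRun T c0.Left c1.Left (pvasNot (pvasNot s)) x n1 := by rw [pvas_not_not]; exact r1
  have hr' : PvatRule T c0.Left c1.Left (pvasNot s) x2 n2 x n1 (pvasNot r) := by
    refine ⟨fun v hv => ?_, fun v hv => ?_, fun d h1 h2 => ?_⟩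
    · show (!r v) = !s v
      rw [hr.2.1 v hv]
    · rw [pvas_not_not] at hv
      show (!r v) = !s v
      rw [hr.1 v hv]
    · rw [pvas_occ_not, pvas_not_not, hr.2.2 d h1 h2, or_comm]
  exact pvlk_fwd2 hT hfin h1k hk0 r2 r1' hr' (fun v hv => by show (!s v) = !r v; rw [hcol v hv]) hy

/-! ## 5. probability -/

section prob

variable [DecidableEq V]

/-- flip + tower: whatever the rule `r`, the fresh vertices which violate it cross all the `J` annuli with probability at most `(1-q)^J`.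
Plan: as `pvau_two_blk`: `R = A.filter (r · = true)`; `PvaxCr T (a j) (o j) X true (pvauX s r) ↔ PvaxCr T (a j) (o j) X true (pvaFl R s)` (`pvax_cr_congr`, `X ⊆ A`); `pva_P_fl`; `pvax_arm_le`. -/
theorem pvlk_tower (hT : T.IsSph) {J : ℕ} {a o : ℕ → T.Cyc} {q : ℝ} (tw : PvaxTower T J a o q) (A : Finset V) (ξ : V → Bool) {X : Set V} (hX : ∀ v ∈ X, v ∈ A) (r : V → Bool) :
    pvaP A ξ (fun s => ∀ j < J, PvaxCr T (a j) (o j) X true (pvauX s r)) ≤ (1 - q) ^ J := by
  classical
  set R : Finset V := A.filter (fun v => r v = true) with hR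
  have e1 : ∀ s j, PvaxCr T (a j) (o j) X true (pvauX s r) ↔ PvaxCr T (a j) (o j) X true (pvaFl R s) := by
    intro s j
    refine pvax_cr_congr fun v hv => ?_
    by_cases hr : r v = true
    · rw [pva_fl_in (Finset.mem_filter.2 ⟨hX v hv, hr⟩)]
      unfold pvauX
      rw [hr, Bool.xor_true]
    · rw [pva_fl_out (R := R) (v := v) (fun h => hr (Finset.mem_filter.1 h).2)]
      unfold pvauX
      rw [Bool.eq_false_of_not_eq_true hr, Bool.xor_false]
  have e3 : pvaP A ξ (fun s => ∀ j < J, PvaxCr T (a j) (o j) X true (pvauX s r)) =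
      pvaP A ξ (fun s => (fun s' => ∀ j < J, PvaxCr T (a j) (o j) X true s') (pvaFl R s)) :=
    pva_P_congr fun s _ => by
      constructor
      · intro h j hj
        exact (e1 s j).1 (h j hj)
      · intro h j hj
        exact (e1 s j).2 (h j hj)
  have hRA : R ⊆ A := Finset.filter_subset _ _
  rw [e3, pva_P_fl hRA ξ (fun s' => ∀ j < J, PvaxCr T (a j) (o j) X true s')]
  exact pvax_arm_le hT tw A ξ true hX

/-- **(H4b), probability half**: `S` a stopping set, `K` an explored event on which `(x, N)` is a passage through `c0` seen by `S`.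
Plan: `pva_smarkov_le hSt hK`.   Fix `ω` with `K ω`, `r` = `pvlk_rule`.   For `ω'` equal to `ω` on `S ω`: `S ω' = S ω` (`hSt`), `PvlkRule` for `ω'` (`pvlk_rule_congr`).   If for some `j < J` there is no crossing of `(a j, o j)` by `X = ↑(A \ S ω)` in `pvauX ω' r`:
`pvau_rc_of_ncr hT hS (h1 j) (tw.ins j) (h2 j)` gives the rule circuit.   So the bad event is contained in the event of `pvlk_tower` (for `A \ S ω`, background `ω`). -/
theorem pvlk_prob (hT : T.IsSph) (hS : T.Simple) {c0 c1 c2 : T.Cyc} (hfin : c0.Left.Finite) (h20 : c2.Inside c0) {J : ℕ} {a o : ℕ → T.Cyc} {q : ℝ} (tw : PvaxTower T J a o q)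
    (h1 : ∀ j < J, c1.Inside (a j)) (h2 : ∀ j < J, (o j).Inside c2) {S : (V → Bool) → Finset V} (hSt : PvaStop S) {K : (V → Bool) → Prop} (hK : PvaMeas S K) (x : D) (N : ℕ)
    (hKp : ∀ ω, K ω → PvlkPass T c0 ω x N ∧ ∀ v ∈ pvatLay T ω x N, v ∈ S ω) (A : Finset V) (ξ : V → Bool) (hA : ∀ v ∈ T.VOf c0.Left, v ∈ A) :
    pvaP A ξ (fun ω => K ω ∧ ¬ ∃ r, PvlkRule T c0 ω x N r ∧ PvatRC T c1 c2 (↑(S ω)) r ω) ≤ (1 - q) ^ J * pvaP A ξ K := by
  classical
  refine pva_smarkov_le hSt hK A ξ (L := fun ω => ¬ ∃ r, PvlkRule T c0 ω x N r ∧ PvatRC T c1 c2 (↑(S ω)) r ω) (p := (1 - q) ^ J) ?_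
  intro ω hω hk
  obtain ⟨r, hr⟩ := Claimed.Agent.R289.pvlk_rule hT (hKp ω hk).1
  refine le_trans (pva_P_mono ?_) (pvlk_tower hT tw (A \ S ω) ω (X := (↑(A \ S ω) : Set V)) (fun v hv => hv) r)
  intro ω' hc hn j hj
  by_contra hcr
  apply hn
  have hag : ∀ v ∈ S ω, ω' v = ω v := fun v hv => hc v (fun h => (Finset.mem_sdiff.1 h).2 hv)
  have hSS : S ω' = S ω := hSt ω ω' hag
  refine ⟨r, (pvlk_rule_congr (fun v hv => hag v ((hKp ω hk).2 v hv)) r).2 hr, ?_⟩
  rw [hSS]
  refine pvau_rc_of_ncr hT hS (h1 j hj) (tw.ins j hj) (h2 j hj) (tw.fin j hj) (X := (↑(A \ S ω) : Set V)) ?_ hcr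
  intro v hv hvS
  have : v ∈ T.VOf c0.Left := by
    obtain ⟨d, hd, e⟩ := hv
    exact ⟨d, h20.2 ((h2 j hj).2 hd), e⟩
  exact Finset.mem_coe.2 (Finset.mem_sdiff.2 ⟨hA v this, fun h => hvS (Finset.mem_coe.2 h)⟩)

end prob

end Claimed.Agent.R289
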