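-- KEEP
import Claimed.Agent.R289.Arm.NearRet
import Claimed.Agent.R289.Arm.Top

/-!
# Row 289 (S0537, Cardy for Poisson-Voronoi), box ARM, file Arm/Pass : THREE PASSAGES OF ARBITRARY WALLS = THE EXPORT OF ARM TO THE WALL (O1 / TR20, ruling 9bis (d) of 234)      (architect + owner helper75; prefix `armp_`, defs `armp…`, `Armp…`)

* sec.1  RUNS ARE MONOTONE: a run from the face set `B` to the face set `A` contains a run from `B' ⊆ B` to `A' ⊇ A` (last entrance into `B'` before the first hit of `A'`): `armp_run_sub`;   different runs give different runs: `armp_run_sub_ne`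
* sec.2  `armp_cfg4`, `armp_cfg6` : one forward + three backward runs / three forward runs ⟹ CONFIG5 + sixth arm of colour `true`, in the shape of `ArmtGeo.Cfg6` (`PvaxCr` across `(c3, cm)`)
* sec.3  METRIC FACE SETS of a labelled map: `armpW lab z S` (faces all of whose vertices are sites within `S` of `z`), `armpN lab z s` (faces with a vertex which is a site within `s` of `z`);
         **`ArmpPass3 T lab col z s S`** = three different runs from `armpW` to `armpN` = THE INPUT RECORD FOR THE WALL;   monotone in `(z, s, S)`;   `armp_pass_cfg6`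
* sec.4  adaptor to the event of record `ArmsExc` of `Arm/Top6` (84): `armp_seg_of_runs`, `armp_pass_exc`.      The probability side (quenched count, union, `PvUp`) is `arms_exit` (84) + `armu_six` (222): NOT here.
-/

set_option autoImplicit false
set_option linter.unusedSectionVars false
set_option linter.unusedVariables false

namespace Claimed.Agent.R289

open Relation

variable {V D : Type} {T : PvMap V D}

/-! ## 1. runs are monotone -/

/-- **a run contains a run between nested face sets**: last entrance into `B'` before the first hit of `A'` -/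
theorem armp_run_sub {B A B' A' : Set D} (hB' : T.FaceSet B') (hBB : B' ⊆ B) (hAA : A ⊆ A') (hAB : A' ⊆ B') {s : V → Bool} {x : D} {n : ℕ} (h : PvatRun T B A s x n) :
    ∃ k m, k + m ≤ n ∧ PvatRun T B' A' s (pvasIt T s x k) m := by
  classical
  have hex : ∃ t, pvasIt T s x t ∈ A' := ⟨n, hAA h.hit⟩
  set τ := Nat.find hex with hτ
  have hτn : τ ≤ n := Nat.find_min' hex (hAA h.hit)
  have hτA : pvasIt T s x τ ∈ A' := Nat.find_spec hex
  have hτmin : ∀ j, j < τ → pvasIt T s x j ∉ A' := fun j hj => Nat.find_min hex hj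
  have hex2 : ∃ k, k ≤ τ ∧ ∀ j, k ≤ j → j ≤ τ → pvasIt T s x j ∈ B' :=
    ⟨τ, le_rfl, fun j h1 h2 => by rw [le_antisymm h2 h1]; exact hAB hτA⟩
  set k := Nat.find hex2 with hk
  obtain ⟨hkτ, hkB⟩ := Nat.find_spec hex2
  have hkmin : ∀ k', k' < k → ¬ (k' ≤ τ ∧ ∀ j, k' ≤ j → j ≤ τ → pvasIt T s x j ∈ B') := fun k' hk' => Nat.find_min hex2 hk'
  refine ⟨k, τ - k, by omega, ⟨hkB k le_rfl hkτ, ?_, pvas_it_bw h.ent.2.2 k⟩, ?_, ?_⟩
  · rcases Nat.eq_zero_or_pos k with h0 | hpos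
    · rw [h0, pvas_it_zero]
      exact fun hh => h.ent.2.1 (hBB hh)
    · obtain ⟨κ, hκ⟩ : ∃ κ, k = κ + 1 := ⟨k - 1, by omega⟩
      rw [hκ, pvas_it_succ, pvas_step_opp_mem hB']
      intro hin
      refine hkmin κ (by omega) ⟨by omega, fun j h1 h2 => ?_⟩
      rcases Nat.eq_or_lt_of_le h1 with e | e
      · rw [← e]; exact hin
      · exact hkB j (by omega) h2
  · intro j hj
    rw [← pvas_it_add]
    exact ⟨hkB _ (by omega) (by omega), hτmin _ (by omega)⟩
  · rw [← pvas_it_add]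
    have : k + (τ - k) = τ := by omega
    rw [this]
    exact hτA

/-- positions of two different strands of `B` are different -/
theorem armp_run_sub_ne {B A : Set D} (hB : T.FaceSet B) (hAB : A ⊆ B) {s : V → Bool} {x y : D} {n m k l : ℕ} (h : PvatRun T B A s x n) (h' : PvatRun T B A s y m) (hxy : x ≠ y)
    (hk : k ≤ n) (hl : l ≤ m) : pvasIt T s x k ≠ pvasIt T s y l := by
  intro e
  refine hxy (pvas_disjoint hB h.ent h'.ent (i := k) (j := l) (fun i hi => (h.mid i (by omega)).1) (fun i hi => (h'.mid i (by omega)).1) ?_).1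
  rw [e]
  exact T.sf_refl _

/-! ## 2. CONFIG6 in the shape of `ArmtGeo.Cfg6` -/

section cfg

variable [DecidableEq V]

theorem armp_cr_not {c' c : T.Cyc} {X : Set V} {b : Bool} {s : V → Bool} : PvaxCr T c' c X b (pvasNot s) ↔ PvaxCr T c' c X (!b) s := by
  have e : {v | v ∈ X ∧ pvasNot s v = b} = {v | v ∈ X ∧ s v = !b} := by
    ext v
    simp only [Set.mem_ofPred_eq, pvasNot]
    cases s v <;> cases b <;> simp
  unfold PvaxCr
  rw [e]

/-- core of `armp_cfg4`: the backward runs `yi → ym → yk` -/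
theorem armp_cfg4_aux (hT : T.IsSph) {c0 cm c1 c2 c3 : T.Cyc} (h12 : c1.Inside c2) (h23 : c2.Inside c3) (h3m : c3.Inside cm) (hm0 : cm.Inside c0) {s ri rm rk : V → Bool} {x yi ym yk : D} {n ni nm nk : ℕ}
    (r : PvatRun T c0.Left c1.Left s x n) (qi : PvatRun T c0.Left c1.Left (pvasNot s) yi ni) (qm : PvatRun T c0.Left c1.Left (pvasNot s) ym nm)
    (qk : PvatRun T c0.Left c1.Left (pvasNot s) yk nk) (him : yi ≠ ym) (hik : yi ≠ yk) (hmk : ym ≠ yk)
    (hri : PvatRule T c0.Left c1.Left s x n yi ni ri) (hrm : PvatRule T c0.Left c1.Left s x n ym nm rm) (hrk : PvatRule T c0.Left c1.Left s x n yk nk rk)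
    (e1 : ri (T.src ym) = true) (e2 : rm (T.src yk) = true) :
    ∃ (x2 x4 : D) (n2 n4 : ℕ), PvatCfg T c0 c1 c2 s x x2 x4 n n2 n4 ∧
      PvaxCr T c3 cm (pvatLay T s x n ∪ pvatLay T (pvasNot s) x2 n2 ∪ pvatLay T (pvasNot s) x4 n4)ᶜ true s := by
  have h30 : c3.Inside c0 := pvat_inside_trans hT h3m hm0
  have h20 : c2.Inside c0 := pvat_inside_trans hT h23 h30
  have hc : c1.Inside c0 := pvat_inside_trans hT h12 h20
  have e3 : rk (T.src ym) = false := by
    have := pvat_select hT hc r qm qk hmk hrm hrk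
    rw [e2] at this
    cases h : rk (T.src ym)
    · rfl
    · exact absurd h.symm this
  have e4 : rm (T.src yi) = false := by
    have := pvat_select hT hc r qi qm him hri hrm
    rw [e1] at this
    cases h : rm (T.src yi)
    · rfl
    · exact absurd h.symm this
  have dmx : Disjoint (pvatLay T (pvasNot s) ym nm) (pvatLay T s x n) := by
    rw [Set.disjoint_left]
    intro v hm hx
    have a1 : ri v = true := (pvat_rule_const hT hc r qi qm him hri v hm).trans e1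
    have a2 : rk v = false := (pvat_rule_const hT hc r qk qm hmk.symm hrk v hm).trans e3
    have b1 : ri v = s v := hri.1 v hx
    have b2 : rk v = s v := hrk.1 v hx
    rw [b1] at a1
    rw [b2, a1] at a2
    exact Bool.noConfusion a2
  have dmk : Disjoint (pvatLay T (pvasNot s) ym nm) (pvatLay T (pvasNot s) yk nk) := pvat_same_disj hT hc r qm qk hmk
  have dim : Disjoint (pvatLay T (pvasNot s) yi ni) (pvatLay T (pvasNot s) ym nm) := pvat_same_disj hT hc r qi qm him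
  have dik : Disjoint (pvatLay T (pvasNot s) yi ni) (pvatLay T (pvasNot s) yk nk) := pvat_same_disj hT hc r qi qk hik
  obtain ⟨m, hm, qm'⟩ := qm.shorten h12.2 hc.2
  obtain ⟨m3, hm3, qi'⟩ := qi.shorten (h12.2.trans h23.2) hc.2
  have hsub : pvatLay T (pvasNot s) ym m ⊆ pvatLay T (pvasNot s) ym nm := pvat_lay_mono _ _ hm
  have hsub3 : pvatLay T (pvasNot s) yi m3 ⊆ pvatLay T (pvasNot s) yi ni := pvat_lay_mono _ _ hm3
  refine ⟨yk, ym, nk, m, ⟨r, qk, qm', dmx.mono_left hsub, dmk.mono_left hsub⟩, ?_⟩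
  have harm : PvaxCr T c3 c0 (pvatLay T s x n ∪ pvatLay T (pvasNot s) yk nk ∪ pvatLay T (pvasNot s) ym m)ᶜ false (pvasNot s) := by
    refine pvnr_arm hT h30.2 qi' false ?_
    rintro v hv hcol ((hx | hk) | hm')
    · have a1 : rm v = false := (pvat_rule_const hT hc r qm qi him.symm hrm v (hsub3 hv)).trans e4
      have b1 : rm v = s v := hrm.1 v hx
      have : s v = true := by
        have : (!s v) = false := hcol
        simpa using this
      rw [b1, this] at a1
      exact Bool.noConfusion a1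
    · exact Set.disjoint_left.1 dik (hsub3 hv) hk
    · exact Set.disjoint_left.1 dim (hsub3 hv) (hsub hm')
  rw [armp_cr_not] at harm
  exact pvax_cr_sub hT subset_rfl h3m hm0.2 harm

/-- **ONE FORWARD + THREE BACKWARD RUNS ⟹ CONFIG6**, shape of `ArmtGeo.Cfg6` -/
theorem armp_cfg4 (hT : T.IsSph) {c0 cm c1 c2 c3 : T.Cyc} (h12 : c1.Inside c2) (h23 : c2.Inside c3) (h3m : c3.Inside cm) (hm0 : cm.Inside c0) {s : V → Bool} {x y1 y2 y3 : D} {n m1 m2 m3 : ℕ}
    (r : PvatRun T c0.Left c1.Left s x n) (q1 : PvatRun T c0.Left c1.Left (pvasNot s) y1 m1) (q2 : PvatRun T c0.Left c1.Left (pvasNot s) y2 m2)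
    (q3 : PvatRun T c0.Left c1.Left (pvasNot s) y3 m3) (d12 : y1 ≠ y2) (d13 : y1 ≠ y3) (d23 : y2 ≠ y3) :
    ∃ (x2 x4 : D) (n2 n4 : ℕ), PvatCfg T c0 c1 c2 s x x2 x4 n n2 n4 ∧
      PvaxCr T c3 cm (pvatLay T s x n ∪ pvatLay T (pvasNot s) x2 n2 ∪ pvatLay T (pvasNot s) x4 n4)ᶜ true s := by
  have hc : c1.Inside c0 := pvat_inside_trans hT h12 (pvat_inside_trans hT h23 (pvat_inside_trans hT h3m hm0))
  obtain ⟨r1, hr1⟩ := pvat_rule hT hc r q1
  obtain ⟨r2, hr2⟩ := pvat_rule hT hc r q2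
  obtain ⟨r3, hr3⟩ := pvat_rule hT hc r q3
  have s12 := pvat_select hT hc r q1 q2 d12 hr1 hr2
  have s13 := pvat_select hT hc r q1 q3 d13 hr1 hr3
  have s23 := pvat_select hT hc r q2 q3 d23 hr2 hr3
  cases a12 : r1 (T.src y2) <;> cases a21 : r2 (T.src y1) <;> cases a13 : r1 (T.src y3) <;> cases a31 : r3 (T.src y1) <;>
    cases a23 : r2 (T.src y3) <;> cases a32 : r3 (T.src y2) <;> simp only [a12, a21, a13, a31, a23, a32, ne_eq, not_true_eq_false, reduceCtorEq, not_false_eq_true] at s12 s13 s23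
  · exact armp_cfg4_aux hT h12 h23 h3m hm0 r q3 q2 q1 d23.symm d13.symm d12.symm hr3 hr2 hr1 a32 a21
  · exact armp_cfg4_aux hT h12 h23 h3m hm0 r q2 q3 q1 d23 d12.symm d13.symm hr2 hr3 hr1 a23 a31
  · exact armp_cfg4_aux hT h12 h23 h3m hm0 r q2 q1 q3 d12.symm d23 d13 hr2 hr1 hr3 a21 a13
  · exact armp_cfg4_aux hT h12 h23 h3m hm0 r q2 q1 q3 d12.symm d23 d13 hr2 hr1 hr3 a21 a13
  · exact armp_cfg4_aux hT h12 h23 h3m hm0 r q3 q1 q2 d13.symm d23.symm d12 hr3 hr1 hr2 a31 a12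
  · exact armp_cfg4_aux hT h12 h23 h3m hm0 r q3 q1 q2 d13.symm d23.symm d12 hr3 hr1 hr2 a31 a12
  · exact armp_cfg4_aux hT h12 h23 h3m hm0 r q1 q3 q2 d13 d12 d23.symm hr1 hr3 hr2 a13 a32
  · exact armp_cfg4_aux hT h12 h23 h3m hm0 r q1 q2 q3 d12 d13 d23 hr1 hr2 hr3 a12 a23

/-- **THREE FORWARD RUNS ⟹ CONFIG6**, shape of `ArmtGeo.Cfg6` -/
theorem armp_cfg6 (hT : T.IsSph) {c0 cm c1 c2 c3 : T.Cyc} (hfin : c0.Left.Finite) (h12 : c1.Inside c2) (h23 : c2.Inside c3) (h3m : c3.Inside cm) (hm0 : cm.Inside c0) {s : V → Bool}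
    {x1 x2 x3 : D} {n1 n2 n3 : ℕ} (r1 : PvatRun T c0.Left c1.Left s x1 n1) (r2 : PvatRun T c0.Left c1.Left s x2 n2) (r3 : PvatRun T c0.Left c1.Left s x3 n3)
    (d12 : x1 ≠ x2) (d13 : x1 ≠ x3) (d23 : x2 ≠ x3) :
    ∃ (x y2 y4 : D) (n m2 m4 : ℕ), PvatCfg T c0 c1 c2 s x y2 y4 n m2 m4 ∧
      PvaxCr T c3 cm (pvatLay T s x n ∪ pvatLay T (pvasNot s) y2 m2 ∪ pvatLay T (pvasNot s) y4 m4)ᶜ true s := by
  have hc : c1.Inside c0 := pvat_inside_trans hT h12 (pvat_inside_trans hT h23 (pvat_inside_trans hT h3m hm0))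
  have hB := pl_left_face c0
  have hA := pl_left_face c1
  obtain ⟨m1, q1⟩ := pvat_back_run hB hA hfin hc.2 r1
  obtain ⟨m2, q2⟩ := pvat_back_run hB hA hfin hc.2 r2
  obtain ⟨m3, q3⟩ := pvat_back_run hB hA hfin hc.2 r3
  have hinj := (pvas_exit_bij hB hfin s).injOn
  have ne : ∀ {a b : D}, pvasIn T c0.Left s a → pvasIn T c0.Left s b → a ≠ b → T.opp (pvasExit T c0.Left s a) ≠ T.opp (pvasExit T c0.Left s b) :=
    fun ha hb hab e => hab (hinj ha hb (T.opp_injective e))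
  obtain ⟨y2, y4, k2, k4, h⟩ := armp_cfg4 hT h12 h23 h3m hm0 r1 q1 q2 q3 (ne r1.ent r2.ent d12) (ne r1.ent r3.ent d13) (ne r2.ent r3.ent d23)
  exact ⟨x1, y2, y4, n1, k2, k4, h⟩

end cfg

/-! ## 3. metric face sets, THREE PASSAGES -/

/-- the faces ALL of whose three vertices are sites within `S` of `z` -/
def armpW (T : PvMap V D) (lab : V → Option ℂ) (z : ℂ) (S : ℝ) : Set D :=
  {d | ArmtNear lab z S (T.src d) ∧ ArmtNear lab z S (T.tgt d) ∧ ArmtNear lab z S (T.apex d)}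

/-- the faces with SOME vertex which is a site within `s` of `z` -/
def armpN (T : PvMap V D) (lab : V → Option ℂ) (z : ℂ) (s : ℝ) : Set D :=
  {d | ArmtNear lab z s (T.src d) ∨ ArmtNear lab z s (T.tgt d) ∨ ArmtNear lab z s (T.apex d)}

/-- **THREE PASSAGES** (THE INPUT RECORD FOR THE WALL): three DIFFERENT runs of strands of the colouring `col` from the `S`-ball to the `s`-ball round `z`.
`PvatRun T B A col e n`: `e` is a black→white dart which enters `B` (`e ∈ B`, `opp e ∉ B`), the positions `0..n-1` of its strand lie in `B \ A`, the position `n` lies in `A`.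
Strands are deterministic: different entrances = different excursions; nothing else has to be disjoint. -/
def ArmpPass3 (T : PvMap V D) (lab : V → Option ℂ) (col : V → Bool) (z : ℂ) (s S : ℝ) : Prop :=
  ∃ (e1 e2 e3 : D) (n1 n2 n3 : ℕ), e1 ≠ e2 ∧ e1 ≠ e3 ∧ e2 ≠ e3 ∧ PvatRun T (armpW T lab z S) (armpN T lab z s) col e1 n1 ∧
    PvatRun T (armpW T lab z S) (armpN T lab z s) col e2 n2 ∧ PvatRun T (armpW T lab z S) (armpN T lab z s) col e3 n3

theorem armp_eqns_cite : True := by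
  have := @armpW.eq_1; have := @armpN.eq_1; have := @ArmpPass3.eq_1
  trivial

theorem armp_W_face (lab : V → Option ℂ) (z : ℂ) (S : ℝ) : T.FaceSet (armpW T lab z S) := by
  intro d
  simp only [armpW, Set.mem_ofPred_eq, T.src_nxt, T.tgt_nxt, T.apex_nxt]
  tauto

theorem armp_N_face (lab : V → Option ℂ) (z : ℂ) (s : ℝ) : T.FaceSet (armpN T lab z s) := by
  intro d
  simp only [armpN, Set.mem_ofPred_eq, T.src_nxt, T.tgt_nxt, T.apex_nxt]
  tauto

theorem armp_near_mono {lab : V → Option ℂ} {z z' : ℂ} {r r' : ℝ} (h : ‖z - z'‖ + r ≤ r') {v : V} (hv : ArmtNear lab z r v) : ArmtNear lab z' r' v := by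
  obtain ⟨p, hp, hr⟩ := hv
  refine ⟨p, hp, ?_⟩
  have : ‖p - z'‖ ≤ ‖p - z‖ + ‖z - z'‖ := by
    have := norm_add_le (p - z) (z - z')
    simpa using this
  linarith

/-- three runs between face sets ⟹ three runs between nested face sets -/
theorem armp_three_sub {B A B' A' : Set D} (hB : T.FaceSet B) (hB' : T.FaceSet B') (hBB : B' ⊆ B) (hAA : A ⊆ A') (hAB : A' ⊆ B') {s : V → Bool} {e1 e2 e3 : D} {n1 n2 n3 : ℕ}
    (d12 : e1 ≠ e2) (d13 : e1 ≠ e3) (d23 : e2 ≠ e3) (r1 : PvatRun T B A s e1 n1) (r2 : PvatRun T B A s e2 n2) (r3 : PvatRun T B A s e3 n3) :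
    ∃ (x1 x2 x3 : D) (m1 m2 m3 : ℕ), x1 ≠ x2 ∧ x1 ≠ x3 ∧ x2 ≠ x3 ∧ PvatRun T B' A' s x1 m1 ∧ PvatRun T B' A' s x2 m2 ∧ PvatRun T B' A' s x3 m3 := by
  obtain ⟨k1, m1, h1, q1⟩ := armp_run_sub hB' hBB hAA hAB r1
  obtain ⟨k2, m2, h2, q2⟩ := armp_run_sub hB' hBB hAA hAB r2
  obtain ⟨k3, m3, h3, q3⟩ := armp_run_sub hB' hBB hAA hAB r3
  have hA : A ⊆ B := fun d hd => hBB (hAB (hAA hd))
  exact ⟨_, _, _, m1, m2, m3, armp_run_sub_ne hB hA r1 r2 d12 (by omega) (by omega), armp_run_sub_ne hB hA r1 r3 d13 (by omega) (by omega),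
    armp_run_sub_ne hB hA r2 r3 d23 (by omega) (by omega), q1, q2, q3⟩

/-- **change of centre and of radii** -/
theorem armp_pass_mono {lab : V → Option ℂ} {col : V → Bool} {z z' : ℂ} {s s' S S' : ℝ} (hs : ‖z - z'‖ + s ≤ s') (hS : ‖z' - z‖ + S' ≤ S) (hsS : s' ≤ S')
    (hin : ∀ d, ArmtNear lab z' s' (T.src d) → ArmtNear lab z' S' (T.tgt d))
    (h : ArmpPass3 T lab col z s S) : ArmpPass3 T lab col z' s' S' := by
  obtain ⟨e1, e2, e3, n1, n2, n3, d12, d13, d23, r1, r2, r3⟩ := h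
  have hnear : ∀ d, ArmtNear lab z' s' (T.src d) → d ∈ armpW T lab z' S' := by
    intro d hd
    refine ⟨armp_near_mono (by simpa using hsS) hd, hin d hd, ?_⟩
    have := hin (T.opp (T.nxt (T.nxt d))) (by rw [T.src_opp', T.tgt_nxt2]; exact hd)
    rwa [T.tgt_opp, T.src_nxt2] at this
  refine armp_three_sub (armp_W_face lab z S) (armp_W_face lab z' S') ?_ ?_ ?_ d12 d13 d23 r1 r2 r3
  · rintro d ⟨h1, h2, h3⟩
    exact ⟨armp_near_mono hS h1, armp_near_mono hS h2, armp_near_mono hS h3⟩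
  · rintro d (h1 | h1 | h1)
    · exact Or.inl (armp_near_mono hs h1)
    · exact Or.inr (Or.inl (armp_near_mono hs h1))
    · exact Or.inr (Or.inr (armp_near_mono hs h1))
  · rintro d (h1 | h1 | h1)
    · exact hnear d h1
    · exact (armp_W_face lab z' S' d).1 (hnear _ h1)
    · exact (armp_W_face lab z' S' d).1 ((armp_W_face lab z' S' _).1 (hnear _ h1))

/-- **DET (model free): THREE PASSAGES + five nested cycles ⟹ CONFIG6** (the body of `ArmtGeo.Cfg6`) -/
theorem armp_pass_cfg6 [DecidableEq V] (hT : T.IsSph) {c0 cm c1 c2 c3 : T.Cyc} (hfin : c0.Left.Finite) (h12 : c1.Inside c2) (h23 : c2.Inside c3) (h3m : c3.Inside cm) (hm0 : cm.Inside c0)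
    {lab : V → Option ℂ} {col : V → Bool} {z : ℂ} {s S : ℝ} (hW : ∀ v ∈ T.VOf c0.Left, ArmtNear lab z S v) (hN : ∀ v, ArmtNear lab z s v → v ∈ T.Int c1.Left)
    (h : ArmpPass3 T lab col z s S) :
    ∃ (x y2 y4 : D) (n m2 m4 : ℕ), PvatCfg T c0 c1 c2 col x y2 y4 n m2 m4 ∧
      PvaxCr T c3 cm (pvatLay T col x n ∪ pvatLay T (pvasNot col) y2 m2 ∪ pvatLay T (pvasNot col) y4 m4)ᶜ true col := by
  obtain ⟨e1, e2, e3, n1, n2, n3, d12, d13, d23, r1, r2, r3⟩ := h
  have hc : c1.Inside c0 := pvat_inside_trans hT h12 (pvat_inside_trans hT h23 (pvat_inside_trans hT h3m hm0))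
  have hB := pl_left_face c0
  have hA := pl_left_face c1
  have i1 : c0.Left ⊆ armpW T lab z S := by
    intro d hd
    exact ⟨hW _ ⟨d, hd, rfl⟩, hW _ ⟨T.nxt d, (hB d).2 hd, rfl⟩, hW _ ⟨T.nxt (T.nxt d), (hB _).2 ((hB d).2 hd), rfl⟩⟩
  have i2 : armpN T lab z s ⊆ c1.Left := by
    rintro d (h1 | h1 | h1)
    · exact hN _ h1 d rfl
    · exact (hA d).1 (hN _ h1 (T.nxt d) rfl)
    · exact (hA d).1 ((hA _).1 (hN _ h1 (T.nxt (T.nxt d)) rfl))
  obtain ⟨x1, x2, x3, m1, m2, m3, e12, e13, e23, q1, q2, q3⟩ := armp_three_sub (armp_W_face lab z S) hB i1 i2 hc.2 d12 d13 d23 r1 r2 r3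
  exact armp_cfg6 hT hfin h12 h23 h3m hm0 q1 q2 q3 e12 e13 e23

/-! ## 4. adaptor: runs ⟹ segments which start OUTSIDE (the shape of `ArmsExc` of `Arm/Top6`) -/

/-- a family of different runs `B → A`, `A ⊆ B`: the segments which start one step BEFORE the entrances start off `B`, end in `A` and have different positions -/
theorem armp_seg_of_runs {ι : Type} {B A : Set D} (hB : T.FaceSet B) (hAB : A ⊆ B) {s : V → Bool} {e : ι → D} {n : ι → ℕ} (hinj : Function.Injective e)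
    (hr : ∀ i, PvatRun T B A s (e i) (n i)) :
    (∀ i, pvasBW T s (pvasBack T s (e i))) ∧ (∀ i, pvasBack T s (e i) ∉ B) ∧ (∀ i, pvasIt T s (pvasBack T s (e i)) (n i + 1) ∈ A) ∧
      ∀ i j, i ≠ j → ∀ k, k ≤ n i + 1 → ∀ l, l ≤ n j + 1 → pvasIt T s (pvasBack T s (e i)) k ≠ pvasIt T s (pvasBack T s (e j)) l := by
  have hbw : ∀ i, pvasBW T s (e i) := fun i => (hr i).ent.2.2
  have hsucc : ∀ i k, pvasIt T s (pvasBack T s (e i)) (k + 1) = pvasIt T s (e i) k := fun i k => by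
    rw [pvas_it_succ', pvas_step_back (hbw i)]
  have hoff : ∀ i, pvasBack T s (e i) ∉ B := fun i hh => by
    have h1 := (pvas_step_opp_mem hB s (d := pvasBack T s (e i))).2 hh
    rw [pvas_step_back (hbw i)] at h1
    exact (hr i).ent.2.1 h1
  have hin : ∀ i k, k ≤ n i → pvasIt T s (e i) k ∈ B := fun i k hk => by
    rcases Nat.eq_or_lt_of_le hk with h | h
    · rw [h]; exact hAB (hr i).hit
    · exact ((hr i).mid k h).1
  refine ⟨fun i => pvas_back_bw (hbw i), hoff, fun i => by rw [hsucc]; exact (hr i).hit, ?_⟩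
  intro i j hij k hk l hl
  rcases k with _ | k <;> rcases l with _ | l
  · simp only [pvas_it_zero]
    intro h
    apply hij; apply hinj
    rw [← pvas_step_back (hbw i), h, pvas_step_back (hbw j)]
  · rw [pvas_it_zero, hsucc]
    intro h
    exact hoff i (h ▸ hin j l (by omega))
  · rw [pvas_it_zero, hsucc]
    intro h
    exact hoff j (h ▸ hin i k (by omega))
  · rw [hsucc, hsucc]
    exact armp_run_sub_ne hB hAB (hr i) (hr j) (fun h => hij (hinj h)) (by omega) (by omega)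

/-- a face off `armpW` has a far vertex -/
theorem armp_far_of_not_W {lab : V → Option ℂ} {z : ℂ} {S : ℝ} {d : D} (h : d ∉ armpW T lab z S) :
    ArmtFar lab z S (T.src d) ∨ ArmtFar lab z S (T.tgt d) ∨ ArmtFar lab z S (T.apex d) := by
  have key : ∀ v, ¬ ArmtNear lab z S v → ArmtFar lab z S v := fun v hv p hp => by
    by_contra hlt
    exact hv ⟨p, hp, (not_le.1 hlt).le⟩
  by_contra hcon
  push Not at hcon
  refine h ⟨?_, ?_, ?_⟩
  · by_contra h1; exact hcon.1 (key _ h1)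
  · by_contra h1; exact hcon.2.1 (key _ h1)
  · by_contra h1; exact hcon.2.2 (key _ h1)

/-- **THREE PASSAGES ⟹ the body of `ArmsExc T lab col z s S`** (`Arm/Top6`, 84), as soon as the faces which touch the `s`-ball lie in the `S`-ball (mesh) -/
theorem armp_pass_exc {lab : V → Option ℂ} {col : V → Bool} {z : ℂ} {s S : ℝ} (hNW : armpN T lab z s ⊆ armpW T lab z S) (h : ArmpPass3 T lab col z s S) :
    ∃ (x : Fin 3 → D) (n : Fin 3 → ℕ), (∀ i, pvasBW T col (x i)) ∧
      (∀ i, ArmtFar lab z S (T.src (x i)) ∨ ArmtFar lab z S (T.tgt (x i)) ∨ ArmtFar lab z S (T.apex (x i))) ∧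
      (∀ i, ArmtNear lab z s (T.src (pvasIt T col (x i) (n i))) ∨ ArmtNear lab z s (T.tgt (pvasIt T col (x i) (n i))) ∨ ArmtNear lab z s (T.apex (pvasIt T col (x i) (n i)))) ∧
      ∀ i j, i ≠ j → ∀ k, k ≤ n i → ∀ l, l ≤ n j → pvasIt T col (x i) k ≠ pvasIt T col (x j) l := by
  obtain ⟨e1, e2, e3, n1, n2, n3, d12, d13, d23, r1, r2, r3⟩ := h
  have hinj : Function.Injective ![e1, e2, e3] := by
    intro i j hij
    fin_cases i <;> fin_cases j <;> simp_all
  have hr : ∀ i, PvatRun T (armpW T lab z S) (armpN T lab z s) col (![e1, e2, e3] i) (![n1, n2, n3] i) := by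
    intro i
    fin_cases i
    · exact r1
    · exact r2
    · exact r3
  obtain ⟨a1, a2, a3, a4⟩ := armp_seg_of_runs (armp_W_face lab z S) hNW hinj hr
  exact ⟨fun i => pvasBack T col (![e1, e2, e3] i), fun i => ![n1, n2, n3] i + 1, a1, fun i => armp_far_of_not_W (a2 i), a3, a4⟩

end Claimed.Agent.R289
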