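-- KEEP
import Claimed.Agent.R289.Arm.Side
import Claimed.Agent.R289.Arm.StrandCh

/-!
# Row 289 (S0537), box ARM, block A4-det, leaves D8-D10, file Arm/Red : REDUCTION  "strand + three ordered arms => E_b"      (helper137; prefix `pvar_`, records `Pvar…`)

Paper proof: `origin/helper275:notes/R289/W3ref_275.md` sec. 2.5 and `origin/helper228:notes/R289/A4_referee2_228.md` part B.   Everything is mod 2 (chains `PlCh` of `Pl/Hex`, fillings, side calculus of `Pl/Defs`).

* sec.1  `PvarArm T c K X j`: an ARM of the closed disc of `c` towards the core `K` = a join inside `X` from the boundary vertex number `j` to a vertex with a neighbour in `K`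
         `PvarSec T c K XB XW a b R`: `R` is the SECTOR bounded by the arm `XB` at `a`, the core, the arm `XW` at `b` and the arc `[a, b]` of `c`;   `pvar_sec_exists`
* sec.2  colour changes on an arc: one more black-white than white-black (`pvar_arc_count`)
* sec.3  **the strand of a sector** (`pvar_sec_strand`): black arm at `a`, white arm at `b`  =>  some black-white dart `c.e t`, `a ≤ t < b`, starts a strand which stays in `R` until the first face with its apex in `K`  (D8, D9; the orientation is free)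
* sec.4  strands which stay out of a sector, vertices common to the two sides (D10)
-/

set_option autoImplicit false

namespace Claimed.Agent.R289

open Relation

variable {V D : Type} {T : PvMap V D}

/-! ## 1. Arms and sectors -/

/-- an ARM of the closed disc of `c` towards the core `K`: a join inside `X` from the boundary vertex number `j` to the source of a dart `d` of the closed disc with target in `K` -/
def PvarArm (T : PvMap V D) (c : T.Cyc) (K X : Set V) (j : ℕ) : Prop :=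
  ∃ d : D, (d ∈ c.Left ∨ T.opp d ∈ c.Left) ∧ T.tgt d ∈ K ∧ T.Join c.Left X (T.src (c.e j)) (T.src d)

/-- `R` is the SECTOR of the disc of `c` bounded by the arm `XB` at `a`, the core `K`, the arm `XW` at `b`, and the arc `[a, b]` of the cycle -/
structure PvarSec (T : PvMap V D) (c : T.Cyc) (K XB XW : Set V) (a b : ℕ) (R : Set D) : Prop where
  sub : R ⊆ c.Left
  face : T.FaceSet R
  bd : ∀ d, T.Bd R d → (∃ t, a ≤ t ∧ t < b ∧ T.Edg {c.e t} d) ∨ (T.src d ∈ XB ∧ T.tgt d ∈ XB) ∨ (T.src d ∈ XW ∧ T.tgt d ∈ XW) ∨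
    ((T.src d ∈ K ∨ T.tgt d ∈ K) ∧ T.src d ∈ XB ∪ XW ∪ K ∧ T.tgt d ∈ XB ∪ XW ∪ K)
  arc : ∀ t, a ≤ t → t < a + c.n → ¬ (T.src (c.e t) ∈ XB ∧ T.tgt (c.e t) ∈ XB) → ¬ (T.src (c.e t) ∈ XW ∧ T.tgt (c.e t) ∈ XW) → (c.e t ∈ R ↔ t < b)

theorem pvar_eqns_cite : True := by
  have := @PvarArm.eq_1
  trivial

theorem pvar_eps_cyc (c : T.Cyc) {u t : ℕ} (h : u % c.n ≠ t % c.n) : plEps T (c.e u) (c.e t) = 0 := by
  by_contra h0
  rcases pl_hx_eps_apply_ne h0 with h1 | h1
  · exact h (pl_cyc_src_inj c (by rw [h1]))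
  · exact pl_cyc_ne_opp c t u h1

theorem pvar_mod_ne {n u t a : ℕ} (hu : a ≤ u) (hu' : u < a + n) (ht : a ≤ t) (ht' : t < a + n) (h : u ≠ t) : u % n ≠ t % n := by
  intro h1
  apply h
  have h2 : u ≡ t [MOD n] := h1
  rcases Nat.lt_or_ge u t with h3 | h3
  · have := (Nat.modEq_iff_dvd' h3.le).1 h2
    have := Nat.le_of_dvd (by omega) this
    omega
  · rcases Nat.eq_or_lt_of_le h3 with h4 | h4
    · exact h4.symm
    · have := (Nat.modEq_iff_dvd' h4.le).1 h2.symm
      have := Nat.le_of_dvd (by omega) this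
      omega

/-- the chain of the arc `[a, b]`, `b ≤ a + n`, evaluated on the darts of the cycle -/
theorem pvar_arc_eval (c : T.Cyc) {a b t : ℕ} (hbn : b ≤ a + c.n) (ht : a ≤ t) (ht' : t < a + c.n) :
    (∑ u ∈ Finset.Ico a b, plEps T (c.e u)) (c.e t) = if t < b then 1 else 0 := by
  rw [Finsupp.finsetSum_apply]
  split_ifs with h
  · rw [Finset.sum_eq_single t, pl_hx_eps_self]
    · intro u hu hut
      rw [Finset.mem_Ico] at hu
      exact pvar_eps_cyc c (pvar_mod_ne hu.1 (by omega) ht ht' hut)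
    · intro h1
      exact absurd (Finset.mem_Ico.2 ⟨ht, h⟩) h1
  · refine Finset.sum_eq_zero fun u hu => ?_
    rw [Finset.mem_Ico] at hu
    exact pvar_eps_cyc c (pvar_mod_ne hu.1 (by omega) ht ht' (by omega))

theorem pvar_arc_supp (c : T.Cyc) {a b : ℕ} {d : D} (h : (∑ u ∈ Finset.Ico a b, plEps T (c.e u)) d ≠ 0) : ∃ t, a ≤ t ∧ t < b ∧ T.Edg {c.e t} d := by
  rw [Finsupp.finsetSum_apply] at h
  obtain ⟨t, ht, h1⟩ := Finset.exists_ne_zero_of_sum_ne_zero h
  rw [Finset.mem_Ico] at ht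
  refine ⟨t, ht.1, ht.2, ?_⟩
  rcases pl_hx_eps_apply_ne h1 with rfl | rfl
  · exact Or.inl rfl
  · exact Or.inr (by rw [T.opp_opp]; rfl)

/-- **existence of the sector** -/
theorem pvar_sec_exists (hT : T.IsSph) (c : T.Cyc) {K XB XW : Set V} (hKc : ∀ i, T.src (c.e i) ∉ K) (hK : ∀ x ∈ K, ∀ y ∈ K, T.Join c.Left K x y)
    {a b : ℕ} (hab : a ≤ b) (hbn : b ≤ a + c.n) (hB : PvarArm T c K XB a) (hW : PvarArm T c K XW b) : ∃ R, PvarSec T c K XB XW a b R := by
  obtain ⟨dB, hdB, hgB, hjB⟩ := hB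
  obtain ⟨dW, hdW, hgW, hjW⟩ := hW
  obtain ⟨zB, hzB, hsB⟩ := pl_hx_join_ch hjB
  obtain ⟨zW, hzW, hsW⟩ := pl_hx_join_ch hjW
  obtain ⟨zK, hzK, hsK⟩ := pl_hx_join_ch (hK _ hgB _ hgW)
  have hhB : T.src dB ∈ XB := pl_hx_join_mem hjB
  have hhW : T.src dW ∈ XW := pl_hx_join_mem hjW
  -- the walk along the two arms and the core
  have w1 : PlCh T (T.src (c.e a)) (T.src (c.e b)) (zB + plEps T dB + zK + plEps T dW + zW) :=
    pvas_ch_trans (pvas_ch_trans (pvas_ch_trans (pvas_ch_trans hzB (pvas_ch_edge dB)) hzK) (pvas_ch_symm (pvas_ch_edge dW))) (pvas_ch_symm hzW)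
  have w2 := pl_hx_arc_ch c hab
  -- support of the first walk
  obtain ⟨P, hP⟩ : ∃ P : D → Prop, P = fun d => (d ∈ c.Left ∨ T.opp d ∈ c.Left) ∧ ((T.src d ∈ XB ∧ T.tgt d ∈ XB) ∨ (T.src d ∈ XW ∧ T.tgt d ∈ XW) ∨
    ((T.src d ∈ K ∨ T.tgt d ∈ K) ∧ T.src d ∈ XB ∪ XW ∪ K ∧ T.tgt d ∈ XB ∪ XW ∪ K)) := ⟨_, rfl⟩
  have hedge : ∀ d₀ : D, (d₀ ∈ c.Left ∨ T.opp d₀ ∈ c.Left) → T.tgt d₀ ∈ K → T.src d₀ ∈ XB ∪ XW ∪ K → ∀ d, plEps T d₀ d ≠ 0 → P d := by
    intro d₀ h1 h2 h3 d hd
    rw [hP]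
    rcases pl_hx_eps_apply_ne hd with rfl | rfl
    · exact ⟨h1, Or.inr (Or.inr ⟨Or.inr h2, h3, Or.inr h2⟩)⟩
    · rw [T.opp_opp, T.src_opp', T.tgt_opp]
      exact ⟨h1.symm, Or.inr (Or.inr ⟨Or.inl h2, Or.inr h2, h3⟩)⟩
  have hsupp : ∀ d, (zB + plEps T dB + zK + plEps T dW + zW) d ≠ 0 → P d := by
    refine pvas_supp_add (pvas_supp_add (pvas_supp_add (pvas_supp_add ?_ ?_) ?_) ?_) ?_
    · intro d hd; rw [hP]; exact ⟨(hsB d hd).1, Or.inl (hsB d hd).2⟩
    · exact hedge dB hdB hgB (Or.inl (Or.inl hhB))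
    · intro d hd; rw [hP]; exact ⟨(hsK d hd).1, Or.inr (Or.inr ⟨Or.inl (hsK d hd).2.1, Or.inr (hsK d hd).2.1, Or.inr (hsK d hd).2.2⟩)⟩
    · exact hedge dW hdW hgW (Or.inl (Or.inr hhW))
    · intro d hd; rw [hP]; exact ⟨(hsW d hd).1, Or.inr (Or.inl (hsW d hd).2)⟩
  obtain ⟨A, -, hA, hbd⟩ := pvas_ch_fill2 hT w1 w2
  obtain ⟨hR, hL, hRo, hLbd⟩ := pl_jordan hT c
  have hbd1 : ∀ d, T.Bd A d → (∃ t, a ≤ t ∧ t < b ∧ T.Edg {c.e t} d) ∨ P d := by
    intro d hd
    rw [hbd, Finsupp.add_apply] at hd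
    by_cases h1 : (zB + plEps T dB + zK + plEps T dW + zW) d = 0
    · left
      apply pvar_arc_supp c
      rw [h1, zero_add] at hd
      rw [hd]
      exact one_ne_zero
    · exact Or.inr (hsupp d h1)
  have hdisc : ∀ d, T.Bd A d → d ∈ c.Left ∨ T.opp d ∈ c.Left := by
    intro d hd
    rcases hbd1 d hd with ⟨t, -, -, h | h⟩ | h
    · left; rw [Set.mem_singleton_iff.1 h]; exact hL t
    · right; rw [Set.mem_singleton_iff.1 h]; exact hL t
    · rw [hP] at h; exact h.1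
  have harc : ∀ t, a ≤ t → t < a + c.n → ¬ (T.src (c.e t) ∈ XB ∧ T.tgt (c.e t) ∈ XB) → ¬ (T.src (c.e t) ∈ XW ∧ T.tgt (c.e t) ∈ XW) → (T.Bd A (c.e t) ↔ t < b) := by
    intro t ht ht' h1 h2
    have h3 : (zB + plEps T dB + zK + plEps T dW + zW) (c.e t) = 0 := by
      by_contra h
      have h4 := hsupp _ h
      rw [hP] at h4
      rcases h4.2 with h5 | h5 | ⟨h5 | h5, -⟩
      · exact h1 h5
      · exact h2 h5
      · exact hKc t h5
      · rw [c.chain] at h5; exact hKc _ h5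
    rw [hbd, Finsupp.add_apply, h3, zero_add, pvar_arc_eval c hbn ht ht']
    split_ifs with h <;> simp [h]
  have hfinal : ∀ R : Set D, R ⊆ c.Left → T.FaceSet R → (∀ d, T.Bd R d ↔ T.Bd A d) → PvarSec T c K XB XW a b R := by
    intro R h1 h2 h3
    refine ⟨h1, h2, fun d hd => ?_, fun t ht ht' h4 h5 => ?_⟩
    · rcases hbd1 d ((h3 d).1 hd) with h | h
      · exact Or.inl h
      · rw [hP] at h; exact Or.inr h.2
    · rw [← harc t ht ht' h4 h5, ← h3]
      have h6 : T.opp (c.e t) ∉ R := fun h => by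
        have := hRo t
        rw [hR] at this
        exact this (h1 h)
      constructor
      · intro h h'
        exact h6 (h'.1 h)
      · intro h
        by_contra h'
        exact h ⟨fun h7 => absurd h7 h', fun h7 => absurd h7 h6⟩
  rcases pvad_in_disc hT c hA hdisc with h | h
  · exact ⟨A, hfinal A h hA fun _ => Iff.rfl⟩
  · exact ⟨Aᶜ, hfinal Aᶜ h hA.compl fun _ => T.bd_compl⟩

/-! ## 2. Colour changes on an arc -/

open Classical in
/-- along an arc the black-white and the white-black changes alternate -/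
theorem pvar_arc_count (c : T.Cyc) (s : V → Bool) {a b : ℕ} (hab : a ≤ b) :
    (∑ t ∈ Finset.Ico a b, if pvasBW T s (c.e t) then 1 else 0) + (if s (T.src (c.e b)) = true then 1 else 0) =
      (∑ t ∈ Finset.Ico a b, if pvasBW T s (T.opp (c.e t)) then 1 else 0) + (if s (T.src (c.e a)) = true then 1 else 0) := by
  induction b, hab using Nat.le_induction with
  | base => simp
  | succ b hab ih =>
    rw [Finset.sum_Ico_succ_top hab, Finset.sum_Ico_succ_top hab]
    unfold pvasBW at ih ⊢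
    rw [T.src_opp', T.tgt_opp, c.chain]
    cases h1 : s (T.src (c.e b)) <;> cases h2 : s (T.src (c.e (b + 1))) <;> simp [h1] at ih ⊢ <;> omega

/-! ## 3. The strand of a sector -/

/-- a vertex of `K` appears first as an apex -/
theorem pvar_first_apex (s : V → Bool) {K : Set V} {d : D} (h0 : T.src d ∉ K) (h1 : T.tgt d ∉ K) (k : ℕ)
    (h : T.src (pvasIt T s d k) ∈ K ∨ T.tgt (pvasIt T s d k) ∈ K) : ∃ j, j < k ∧ T.apex (pvasIt T s d j) ∈ K := by
  induction k with
  | zero => exact absurd h (by rintro (h | h); exacts [h0 h, h1 h])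
  | succ k ih =>
    by_cases ha : T.apex (pvasIt T s d k) ∈ K
    · exact ⟨k, Nat.lt_succ_self k, ha⟩
    · have : T.src (pvasIt T s d k) ∈ K ∨ T.tgt (pvasIt T s d k) ∈ K := by
        rw [pvas_it_succ] at h
        rcases pvas_step_ends s (pvasIt T s d k) with ⟨-, e1, e2⟩ | ⟨-, e1, e2⟩
        · rw [e1, e2] at h
          exact h.elim (fun h => absurd h ha) Or.inr
        · rw [e1, e2] at h
          exact h.elim Or.inl fun h => absurd h ha
      obtain ⟨j, hj, hj'⟩ := ih this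
      exact ⟨j, by omega, hj'⟩

/-- the strand from `d` REACHES the core `K` at time `N` inside the face set `R`: the positions `0..N` lie in `R`, the apex of the face number `N` is the first vertex in `K` -/
structure PvarReach (T : PvMap V D) (s : V → Bool) (R : Set D) (K : Set V) (d : D) (N : ℕ) : Prop where
  mem : ∀ k, k ≤ N → pvasIt T s d k ∈ R
  apex : T.apex (pvasIt T s d N) ∈ K
  first : ∀ k, k < N → T.apex (pvasIt T s d k) ∉ K
  off : ∀ k, k ≤ N → T.src (pvasIt T s d k) ∉ K ∧ T.tgt (pvasIt T s d k) ∉ K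

/-- **D8 / D9: the strand of a sector.**  Black arm at `a`, white arm at `b`: some black-white dart of the arc starts a strand which reaches the core inside the sector. -/
theorem pvar_sec_strand (hT : T.IsSph) (c : T.Cyc) (hfin : c.Left.Finite) (s : V → Bool) {K XB XW : Set V} (hKc : ∀ i, T.src (c.e i) ∉ K)
    (hXB : ∀ v ∈ XB, s v = true) (hXW : ∀ v ∈ XW, s v = false) {a b : ℕ} (hab : a ≤ b) (hbn : b ≤ a + c.n)
    (ha : s (T.src (c.e a)) = true) (hb : s (T.src (c.e b)) = false) {R : Set D} (hR : PvarSec T c K XB XW a b R) :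
    ∃ t N, a ≤ t ∧ t < b ∧ pvasBW T s (c.e t) ∧ PvarReach T s R K (c.e t) N := by
  classical
  obtain ⟨hRL, hL, hRo, hLbd⟩ := pl_jordan hT c
  have hRfin : R.Finite := hfin.subset hR.sub
  have hoppL : ∀ t, T.opp (c.e t) ∉ R := fun t h => by
    have := hRo t
    rw [hRL] at this
    exact this (hR.sub h)
  -- bichromatic darts of the arc lie in `R`
  have hocc : ∀ t, a ≤ t → t < b → T.Occ s (c.e t) → c.e t ∈ R := by
    intro t h1 h2 h3
    refine (hR.arc t h1 (by omega) (fun h => h3 ?_) (fun h => h3 ?_)).2 h2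
    · rw [hXB _ h.1, hXB _ h.2]
    · rw [hXW _ h.1, hXW _ h.2]
  have hin : ∀ t, a ≤ t → t < b → pvasBW T s (c.e t) → pvasIn T R s (c.e t) := fun t h1 h2 h3 => ⟨hocc t h1 h2 (pvas_bw_occ h3), hoppL t, h3⟩
  -- the exit is a white-black dart of the arc or is incident to the core
  have hexit : ∀ t, a ≤ t → t < b → pvasBW T s (c.e t) →
      (∃ t', a ≤ t' ∧ t' < b ∧ pvasBW T s (T.opp (c.e t')) ∧ pvasExit T R s (c.e t) = T.opp (c.e t')) ∨
      (T.src (pvasExit T R s (c.e t)) ∈ K ∨ T.tgt (pvasExit T R s (c.e t)) ∈ K) := by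
    intro t h1 h2 h3
    obtain ⟨-, -, h4, h5, h6⟩ := pvas_exit_spec hR.face hRfin (hin t h1 h2 h3)
    have h7 : T.Bd R (pvasExit T R s (c.e t)) := fun h => h4 (h.2 h5)
    rcases hR.bd _ h7 with ⟨t', g1, g2, g3 | g3⟩ | ⟨g1, g2⟩ | ⟨g1, g2⟩ | ⟨g1, -⟩
    · exfalso
      have g4 := Set.mem_singleton_iff.1 g3
      exact h4 (g4 ▸ hocc t' g1 g2 (g4 ▸ pvas_bw_occ h6))
    · have g4 := Set.mem_singleton_iff.1 g3
      have g5 : pvasExit T R s (c.e t) = T.opp (c.e t') := by rw [← g4, T.opp_opp]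
      exact Or.inl ⟨t', g1, g2, g5 ▸ h6, g5⟩
    · exact absurd ((hXB _ g2).symm.trans h6.2) (by decide)
    · exact absurd ((hXW _ g1).symm.trans h6.1) (by decide)
    · exact Or.inr g1
  -- pigeonhole
  have hex : ∃ t, a ≤ t ∧ t < b ∧ pvasBW T s (c.e t) ∧ (T.src (pvasExit T R s (c.e t)) ∈ K ∨ T.tgt (pvasExit T R s (c.e t)) ∈ K) := by
    by_contra hcon
    have hall : ∀ t, t ∈ (Finset.Ico a b).filter (fun t => pvasBW T s (c.e t)) →
        ∃ t', t' ∈ (Finset.Ico a b).filter (fun t => pvasBW T s (T.opp (c.e t))) ∧ pvasExit T R s (c.e t) = T.opp (c.e t') := by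
      intro t ht
      rw [Finset.mem_filter, Finset.mem_Ico] at ht
      rcases hexit t ht.1.1 ht.1.2 ht.2 with ⟨t', g1, g2, g3, g4⟩ | g
      · exact ⟨t', Finset.mem_filter.2 ⟨Finset.mem_Ico.2 ⟨g1, g2⟩, g3⟩, g4⟩
      · exact absurd ⟨t, ht.1.1, ht.1.2, ht.2, g⟩ hcon
    choose! φ hφ1 hφ2 using hall
    have hle : ((Finset.Ico a b).filter (fun t => pvasBW T s (c.e t))).card ≤ ((Finset.Ico a b).filter (fun t => pvasBW T s (T.opp (c.e t)))).card := by
      refine Finset.card_le_card_of_injOn φ (fun t ht => hφ1 t ht) ?_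
      intro t ht t' ht' he
      have ht1 := Finset.mem_filter.1 (Finset.mem_coe.1 ht)
      have ht2 := Finset.mem_filter.1 (Finset.mem_coe.1 ht')
      rw [Finset.mem_Ico] at ht1 ht2
      have h1 : pvasExit T R s (c.e t) = pvasExit T R s (c.e t') := by rw [hφ2 t ht, hφ2 t' ht', he]
      have h2 := (pvas_exit_bij hR.face hRfin s).injOn (hin t ht1.1.1 ht1.1.2 ht1.2) (hin t' ht2.1.1 ht2.1.2 ht2.2) h1
      by_contra hne
      exact pvar_mod_ne ht1.1.1 (by omega) ht2.1.1 (by omega) hne (pl_cyc_src_inj c (by rw [h2]))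
    have hcount := pvar_arc_count c s hab
    rw [ha, hb] at hcount
    rw [Finset.card_filter, Finset.card_filter] at hle
    simp only [if_true, Bool.false_eq_true, if_false] at hcount
    omega
  obtain ⟨t, h1, h2, h3, h4⟩ := hex
  obtain ⟨g1, g2, -⟩ := pvas_exit_spec hR.face hRfin (hin t h1 h2 h3)
  have hc0 : T.src (c.e t) ∉ K := hKc t
  have hc1 : T.tgt (c.e t) ∉ K := by rw [c.chain]; exact hKc _
  obtain ⟨j, hj, hjK⟩ := pvar_first_apex s hc0 hc1 _ h4
  have hexN : ∃ j, T.apex (pvasIt T s (c.e t) j) ∈ K := ⟨j, hjK⟩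
  have hNle : Nat.find hexN ≤ j := Nat.find_min' hexN hjK
  refine ⟨t, Nat.find hexN, h1, h2, h3, fun k hk => g2 k (by omega), Nat.find_spec hexN, fun k hk => Nat.find_min hexN hk, fun k hk => ?_⟩
  by_contra hcon
  have hcon' : T.src (pvasIt T s (c.e t) k) ∈ K ∨ T.tgt (pvasIt T s (c.e t) k) ∈ K := by tauto
  obtain ⟨i, hi, hiK⟩ := pvar_first_apex s hc0 hc1 k hcon'
  exact Nat.find_min hexN (by omega) hiK

end Claimed.Agent.R289
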