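-- KEEP
import Claimed.Agent.R289.Arm.Trap
import Claimed.Agent.R289.Arm.Bxp

/-!
# Row 289 (S0537), box ARM, block A5, file Arm/Six : CONTACT LEMMAS, FOUR / SIX RUNS ⟹ CONFIG6, SEAMS TO `Arm/Bxp`      (helper249; prefix `pvsx_`)

Everything by the RULE COLOURINGS of `Arm/Trap` (`pvat_rule`, `pvat_rule_const`, `pvat_select`): no cyclic order, no arcs, no sectors.
A run of `s` is called FORWARD, a run of `pvasNot s` BACKWARD (the two HANDS).   All the runs go from `c0` to `c` (`PvatRun T c0.Left c.Left`).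

* sec.1  hand symmetry of the rules `pvsx_rule_swap`; `pvsx_const_fwd`, `pvsx_select_fwd` = `pvat_rule_const`, `pvat_select` with the hands exchanged
* sec.2  CONTACT LEMMAS: (a) `pvsx_disj_bwd`, `pvsx_disj_fwd`: two runs of the same hand see disjoint sets (as soon as there is a run of the other hand);
         (b) `pvsx_one_colour`: the contacts of a forward and a backward run have ONE colour (as soon as there is a third run);   (c) `pvsx_touch_one`: a bank of a backward run touches at most one forward run;   `pvsx_free`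
* sec.3  **`pvsx_four`** (near return): 2 + 2 runs whose contacts never have the colour `b` ⟹ CONFIG5 + sixth arm of colour `b`
         **`pvsx_six`** (three passages of arbitrary walls): 3 + 3 runs ⟹ CONFIG5 + sixth arm
* sec.4  seams: `pvsx_arm_cr` (`PvatArm` ⟹ `PvaxCr` of 196), `pvsx_rc` (no crossing of the xor colouring in the fresh region ⟹ rule circuit `PvatRC`)
Prove IN PLACE, helpers just above the theorem.
-/

set_option autoImplicit false
set_option linter.unusedSectionVars false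
set_option linter.unusedVariables false

namespace Claimed.Agent.R289

open Relation

variable {V D : Type} {T : PvMap V D}

/-! ## 1. hand symmetry -/

/-- Plan: unfold `PvatRule`; `pvas_not_not`; `pvas_occ_not`; `pvasNot r v = pvasNot s v ↔ r v = s v`; `and_left_comm`, `or_comm`. -/
theorem pvsx_rule_swap {B A : Set D} {s r : V → Bool} {x y : D} {n m : ℕ} : PvatRule T B A (pvasNot s) y m x n (pvasNot r) ↔ PvatRule T B A s x n y m r := by
  have e : ∀ v, pvasNot r v = pvasNot s v ↔ r v = s v := by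
    intro v
    unfold pvasNot
    cases r v <;> cases s v <;> simp
  unfold PvatRule
  rw [pvas_not_not]
  simp only [e, pvas_occ_not]
  constructor
  · rintro ⟨h1, h2, h3⟩
    exact ⟨h2, h1, fun d hB hA => (h3 d hB hA).trans or_comm⟩
  · rintro ⟨h1, h2, h3⟩
    exact ⟨h2, h1, fun d hB hA => (h3 d hB hA).trans or_comm⟩

/-- a rule is constant on a third FORWARD run.   Plan: `pvat_rule_const` for `pvasNot s` (runs `y`, `x`, `x'`; rewrite `pvas_not_not`), rule `pvasNot r` (`pvsx_rule_swap`). -/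
theorem pvsx_const_fwd (hT : T.IsSph) {c0 c : T.Cyc} (hc : c.Inside c0) {s r : V → Bool} {x x' y : D} {n n' m : ℕ} (r1 : PvatRun T c0.Left c.Left s x n)
    (r2 : PvatRun T c0.Left c.Left (pvasNot s) y m) (r3 : PvatRun T c0.Left c.Left s x' n') (hne : x ≠ x') (hr : PvatRule T c0.Left c.Left s x n y m r) :
    ∀ v ∈ pvatLay T s x' n', r v = r (T.src x') := by
  have r1' : PvatRun T c0.Left c.Left (pvasNot (pvasNot s)) x n := by rw [pvas_not_not]; exact r1
  have r3' : PvatRun T c0.Left c.Left (pvasNot (pvasNot s)) x' n' := by rw [pvas_not_not]; exact r3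
  have h := pvat_rule_const hT hc r2 r1' r3' hne (pvsx_rule_swap.2 hr)
  rw [pvas_not_not] at h
  intro v hv
  have := h v hv
  unfold pvasNot at this
  cases h1 : r v <;> cases h2 : r (T.src x') <;> simp_all

/-- selection for two forward runs and one backward run.   Plan: `pvat_select` for `pvasNot s`, rules `pvasNot r`, `pvasNot r'`. -/
theorem pvsx_select_fwd (hT : T.IsSph) {c0 c : T.Cyc} (hc : c.Inside c0) {s r r' : V → Bool} {x x' y : D} {n n' m : ℕ} (r1 : PvatRun T c0.Left c.Left s x n)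
    (r2 : PvatRun T c0.Left c.Left (pvasNot s) y m) (r3 : PvatRun T c0.Left c.Left s x' n') (hne : x ≠ x')
    (hr : PvatRule T c0.Left c.Left s x n y m r) (hr' : PvatRule T c0.Left c.Left s x' n' y m r') : r (T.src x') ≠ r' (T.src x) := by
  have r1' : PvatRun T c0.Left c.Left (pvasNot (pvasNot s)) x n := by rw [pvas_not_not]; exact r1
  have r3' : PvatRun T c0.Left c.Left (pvasNot (pvasNot s)) x' n' := by rw [pvas_not_not]; exact r3
  have h := pvat_select hT hc r2 r1' r3' hne (pvsx_rule_swap.2 hr) (pvsx_rule_swap.2 hr')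
  intro e
  apply h
  unfold pvasNot
  rw [e]

/-! ## 2. contact lemmas -/

/-- **(a)** two backward runs see disjoint sets.
Plan: `r`, `r'` = rules of `(x, y)`, `(x, y')` (`pvat_rule`).  A common vertex `v`: `r v = s v` (`v` is seen by `y`) and `r v = r (src y')` (`pvat_rule_const`); `r' v = s v`, `r' v = r' (src y)`: against `pvat_select`. -/
theorem pvsx_disj_bwd (hT : T.IsSph) {c0 c : T.Cyc} (hc : c.Inside c0) {s : V → Bool} {x y y' : D} {n m m' : ℕ} (r1 : PvatRun T c0.Left c.Left s x n)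
    (r2 : PvatRun T c0.Left c.Left (pvasNot s) y m) (r3 : PvatRun T c0.Left c.Left (pvasNot s) y' m') (hne : y ≠ y') :
    Disjoint (pvatLay T (pvasNot s) y m) (pvatLay T (pvasNot s) y' m') := by
  obtain ⟨r, hr⟩ := pvat_rule hT hc r1 r2
  obtain ⟨r', hr'⟩ := pvat_rule hT hc r1 r3
  refine Set.disjoint_left.2 fun v hv hv' => ?_
  have a1 : r v = s v := hr.2.1 v hv
  have a2 : r v = r (T.src y') := pvat_rule_const hT hc r1 r2 r3 hne hr v hv'
  have b1 : r' v = s v := hr'.2.1 v hv'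
  have b2 : r' v = r' (T.src y) := pvat_rule_const hT hc r1 r3 r2 hne.symm hr' v hv
  exact pvat_select hT hc r1 r2 r3 hne hr hr' (by rw [← a2, ← b2, a1, b1])

/-- **(a)** two forward runs see disjoint sets.   Plan: the same with `pvsx_const_fwd`, `pvsx_select_fwd` (or `pvsx_disj_bwd` for `pvasNot s`). -/
theorem pvsx_disj_fwd (hT : T.IsSph) {c0 c : T.Cyc} (hc : c.Inside c0) {s : V → Bool} {x x' y : D} {n n' m : ℕ} (r1 : PvatRun T c0.Left c.Left s x n)
    (r2 : PvatRun T c0.Left c.Left (pvasNot s) y m) (r3 : PvatRun T c0.Left c.Left s x' n') (hne : x ≠ x') :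
    Disjoint (pvatLay T s x n) (pvatLay T s x' n') := by
  obtain ⟨r, hr⟩ := pvat_rule hT hc r1 r2
  obtain ⟨r', hr'⟩ := pvat_rule hT hc r3 r2
  refine Set.disjoint_left.2 fun v hv hv' => ?_
  have a1 : r v = s v := hr.1 v hv
  have a2 : r v = r (T.src x') := pvsx_const_fwd hT hc r1 r2 r3 hne hr v hv'
  have b1 : r' v = s v := hr'.1 v hv'
  have b2 : r' v = r' (T.src x) := pvsx_const_fwd hT hc r3 r2 r1 hne.symm hr' v hv
  exact pvsx_select_fwd hT hc r1 r2 r3 hne hr hr' (by rw [← a2, ← b2, a1, b1])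

/-- **(b)** the contacts of the forward run `x` and of the backward run `y'` have one colour, if there is another backward run `y`.
Plan: `r` = rule of `(x, y)`: `s u = r u = r (src y') = r w = s w`. -/
theorem pvsx_one_colour (hT : T.IsSph) {c0 c : T.Cyc} (hc : c.Inside c0) {s : V → Bool} {x y y' : D} {n m m' : ℕ} (r1 : PvatRun T c0.Left c.Left s x n)
    (r2 : PvatRun T c0.Left c.Left (pvasNot s) y m) (r3 : PvatRun T c0.Left c.Left (pvasNot s) y' m') (hne : y ≠ y')
    {u w : V} (hu : u ∈ pvatLay T s x n) (hu' : u ∈ pvatLay T (pvasNot s) y' m') (hw : w ∈ pvatLay T s x n) (hw' : w ∈ pvatLay T (pvasNot s) y' m') : s u = s w := by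
  obtain ⟨r, hr⟩ := pvat_rule hT hc r1 r2
  have hc' := pvat_rule_const hT hc r1 r2 r3 hne hr
  rw [← hr.1 u hu, ← hr.1 w hw, hc' u hu', hc' w hw']

/-- **(c)** contacts of the backward run `y'` with two different forward runs have different colours, if there is another backward run `y`.
Plan: assume `s u = s u' = k`.   `r` = rule of `(x, y)`: `r u = s u = k`, so `r = k` on the run of `y'` (`pvat_rule_const`), so `r u' = k`, so `r (src x') = k` (`pvsx_const_fwd`).   Symmetrically `r'` = rule of `(x', y)`: `r' (src x) = k`.   Against `pvsx_select_fwd`. -/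
theorem pvsx_touch_one (hT : T.IsSph) {c0 c : T.Cyc} (hc : c.Inside c0) {s : V → Bool} {x x' y y' : D} {n n' m m' : ℕ} (r1 : PvatRun T c0.Left c.Left s x n)
    (r1' : PvatRun T c0.Left c.Left s x' n') (r2 : PvatRun T c0.Left c.Left (pvasNot s) y m) (r3 : PvatRun T c0.Left c.Left (pvasNot s) y' m') (hx : x ≠ x') (hy : y ≠ y')
    {u u' : V} (hu : u ∈ pvatLay T s x n) (hu2 : u ∈ pvatLay T (pvasNot s) y' m') (hu' : u' ∈ pvatLay T s x' n') (hu2' : u' ∈ pvatLay T (pvasNot s) y' m') : s u ≠ s u' := by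
  intro hk
  obtain ⟨r, hr⟩ := pvat_rule hT hc r1 r2
  obtain ⟨r', hr'⟩ := pvat_rule hT hc r1' r2
  have c1 := pvat_rule_const hT hc r1 r2 r3 hy hr
  have c2 := pvat_rule_const hT hc r1' r2 r3 hy hr'
  have a1 : r (T.src x') = s u := by
    rw [← pvsx_const_fwd hT hc r1 r2 r1' hx hr u' hu', c1 u' hu2', ← c1 u hu2, hr.1 u hu]
  have a2 : r' (T.src x) = s u' := by
    rw [← pvsx_const_fwd hT hc r1' r2 r1 hx.symm hr' u hu, c2 u hu2, ← c2 u' hu2', hr'.1 u' hu']
  exact pvsx_select_fwd hT hc r1 r2 r1' hx hr hr' (by rw [a1, a2, hk])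

/-- of three forward runs one is not touched by the backward run `y'`.   Plan: otherwise three contacts `u 0, u 1, u 2` with pairwise different colours (`pvsx_touch_one`): impossible in `Bool`. -/
theorem pvsx_free (hT : T.IsSph) {c0 c : T.Cyc} (hc : c.Inside c0) {s : V → Bool} {x : Fin 3 → D} {n : Fin 3 → ℕ} {y y' : D} {m m' : ℕ} (hx : ∀ i, PvatRun T c0.Left c.Left s (x i) (n i))
    (ix : Function.Injective x) (r2 : PvatRun T c0.Left c.Left (pvasNot s) y m) (r3 : PvatRun T c0.Left c.Left (pvasNot s) y' m') (hy : y ≠ y') :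
    ∃ i, Disjoint (pvatLay T s (x i) (n i)) (pvatLay T (pvasNot s) y' m') := by
  by_contra hcon
  push_neg at hcon
  have hex : ∀ i, ∃ u, u ∈ pvatLay T s (x i) (n i) ∧ u ∈ pvatLay T (pvasNot s) y' m' := fun i => Set.not_disjoint_iff.1 (hcon i)
  choose u hu hu' using hex
  have h01 := pvsx_touch_one hT hc (hx 0) (hx 1) r2 r3 (fun e => by simpa using ix e) hy (hu 0) (hu' 0) (hu 1) (hu' 1)
  have h02 := pvsx_touch_one hT hc (hx 0) (hx 2) r2 r3 (fun e => by simpa using ix e) hy (hu 0) (hu' 0) (hu 2) (hu' 2)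
  have h12 := pvsx_touch_one hT hc (hx 1) (hx 2) r2 r3 (fun e => by simpa using ix e) hy (hu 1) (hu' 1) (hu 2) (hu' 2)
  cases e0 : s (u 0) <;> cases e1 : s (u 1) <;> cases e2 : s (u 2) <;> simp_all

/-! ## 3. CONFIG6 -/

/-- the bank of colour `b` of a forward run is an arm, if the vertices of colour `b` which it sees are off `S`.   Plan: `b = true`: `pvat_arm_B` (`pvas_layB_black`); `b = false`: `pvat_arm_W` (`pvas_layW_white`). -/
theorem pvsx_arm_fwd (hT : T.IsSph) {c0 c : T.Cyc} {s : V → Bool} {x : D} {n : ℕ} (h : PvatRun T c0.Left c.Left s x n) {S : Set V} (b : Bool)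
    (hS : ∀ v ∈ pvatLay T s x n, s v = b → v ∉ S) : PvatArm T c0 c S b s := by
  cases b with
  | true =>
    exact pvat_arm_B hT h (Set.disjoint_left.2 fun v hv => hS v (Or.inl hv) (pvas_layB_black h.ent.2.2 hv))
  | false =>
    exact pvat_arm_W hT h (Set.disjoint_left.2 fun v hv => hS v (Or.inr hv) (pvas_layW_white h.ent.2.2 hv))

/-- the same for a backward run.   Plan: `pvsx_arm_fwd` for `pvasNot s`, colour `!b`; `pvat_arm_not`. -/
theorem pvsx_arm_bwd (hT : T.IsSph) {c0 c : T.Cyc} {s : V → Bool} {y : D} {m : ℕ} (h : PvatRun T c0.Left c.Left (pvasNot s) y m) {S : Set V} (b : Bool)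
    (hS : ∀ v ∈ pvatLay T (pvasNot s) y m, s v = b → v ∉ S) : PvatArm T c0 c S b s := by
  have h1 : PvatArm T c0 c S (!b) (pvasNot s) := pvsx_arm_fwd hT h (!b) fun v hv hb => hS v hv (by
    unfold pvasNot at hb
    revert hb
    cases s v <;> cases b <;> simp)
  have h2 := pvat_arm_not.1 h1
  rwa [Bool.not_not] at h2

/-- **FOUR RUNS ⟹ CONFIG6** (form used for the near return of a rim of colour `b`): two forward runs `x`, `x'`, two backward runs `y`, `y'`; the contacts of runs of different hands never have the colour `b`.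
Plan: `pvat_cfg3` for `(x; y, y')` (`d24` from `pvsx_disj_bwd`).   Sixth arm = the bank of colour `b` of `x'` (`pvsx_arm_fwd`): it misses the run of `x` (`pvsx_disj_fwd`), of `y`, `y'` (hypotheses; `pvat_lay_mono` for the stopped run). -/
theorem pvsx_four (hT : T.IsSph) {c0 c1 c2 : T.Cyc} (h12 : c1.Inside c2) (h20 : c2.Inside c0) {s : V → Bool} {x x' y y' : D} {n n' m m' : ℕ} (r1 : PvatRun T c0.Left c1.Left s x n)
    (r1' : PvatRun T c0.Left c1.Left s x' n') (r2 : PvatRun T c0.Left c1.Left (pvasNot s) y m) (r3 : PvatRun T c0.Left c1.Left (pvasNot s) y' m') (hx : x ≠ x') (hy : y ≠ y') (b : Bool)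
    (d1 : ∀ v ∈ pvatLay T s x n, v ∈ pvatLay T (pvasNot s) y m → s v ≠ b) (d2 : ∀ v ∈ pvatLay T s x n, v ∈ pvatLay T (pvasNot s) y' m' → s v ≠ b)
    (d3 : ∀ v ∈ pvatLay T s x' n', v ∈ pvatLay T (pvasNot s) y m → s v ≠ b) (d4 : ∀ v ∈ pvatLay T s x' n', v ∈ pvatLay T (pvasNot s) y' m' → s v ≠ b) :
    ∃ (x2 x4 : D) (n2 n4 : ℕ), PvatCfg T c0 c1 c2 s x x2 x4 n n2 n4 ∧ PvatArm T c0 c1 (pvatLay T s x n ∪ pvatLay T (pvasNot s) x2 n2 ∪ pvatLay T (pvasNot s) x4 n4) b s := by
  have hc10 : c1.Inside c0 := pvat_inside_trans hT h12 h20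
  have hdb := pvsx_disj_bwd hT hc10 r1 r2 r3 hy
  have hdf := pvsx_disj_fwd hT hc10 r1 r2 r1' hx
  rcases pvat_cfg3 hT h12 h20 r1 r2 r3 hy b d1 d2 (fun v hv hv' => absurd hv' (Set.disjoint_left.1 hdb hv)) with ⟨k, hk, hcfg⟩ | ⟨k, hk, hcfg⟩
  · refine ⟨y, y', m, k, hcfg, pvsx_arm_fwd hT r1' b fun v hv hb => ?_⟩
    rintro ((h | h) | h)
    · exact Set.disjoint_left.1 hdf h hv
    · exact d3 v hv h hb
    · exact d4 v hv (pvat_lay_mono _ _ hk h) hb
  · refine ⟨y', y, m', k, hcfg, pvsx_arm_fwd hT r1' b fun v hv hb => ?_⟩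
    rintro ((h | h) | h)
    · exact Set.disjoint_left.1 hdf h hv
    · exact d4 v hv h hb
    · exact d3 v hv (pvat_lay_mono _ _ hk h) hb

/-- **SIX RUNS ⟹ CONFIG6** (three passages of arbitrary walls through the inner disc).
Plan: `i` from `pvsx_free` (`y' = y 0`, other backward run `y 1`).   CONFIG5 for `(x i; y 1, y 0)`: the run of `y 0` stopped at `c2` (`PvatRun.shorten`, `pvat_lay_mono`); `dis1` = `pvsx_free`, `dis2` = `pvsx_disj_bwd`.
Sixth arm = a bank of the run of `y 2`: it misses the runs of `y 0`, `y 1` (`pvsx_disj_bwd`); its contacts with the run of `x i` have one colour `k'` (`pvsx_one_colour`; no contact: any colour): take `k = !k'`; `pvsx_arm_bwd`. -/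
theorem pvsx_six (hT : T.IsSph) {c0 c1 c2 : T.Cyc} (h12 : c1.Inside c2) (h20 : c2.Inside c0) {s : V → Bool} {x y : Fin 3 → D} {n m : Fin 3 → ℕ} (hx : ∀ i, PvatRun T c0.Left c1.Left s (x i) (n i))
    (hy : ∀ i, PvatRun T c0.Left c1.Left (pvasNot s) (y i) (m i)) (ix : Function.Injective x) (iy : Function.Injective y) :
    ∃ (x1 x2 x4 : D) (n1 n2 n4 : ℕ) (k : Bool), PvatCfg T c0 c1 c2 s x1 x2 x4 n1 n2 n4 ∧
      PvatArm T c0 c1 (pvatLay T s x1 n1 ∪ pvatLay T (pvasNot s) x2 n2 ∪ pvatLay T (pvasNot s) x4 n4) k s := by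
  obtain ⟨x2, x4, n2, n4, b, h1, h2⟩ := pvat_cfg4 hT h12 h20 (hx 0) (hy 0) (hy 1) (hy 2) (iy.ne (by decide)) (iy.ne (by decide)) (iy.ne (by decide))
  exact ⟨x 0, x2, x4, n 0, n2, n4, b, h1, h2⟩

/-! ## 4. seams to `Arm/Bxp` -/

section seam

variable [DecidableEq V]

/-- **the sixth arm in the format of 196**.
Plan: by contradiction, `pvax_ncr_iff`: a cycle `k`, `c3.Left ⊆ k.Left ⊆ c0.Left`, no vertex of which is off `S` and of colour `b`.   The arm (reversed: `EdgeIn` symmetric, all its vertices in the set) starts at `z ∈ VOf c3.Left ⊆ VOf k.Left = k.verts ∪ Int k.Left` (`pl_VOf_left`),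
never visits `k.verts`, so it stays in `Int k.Left` (`pl_jordan_sep`) `⊆ Int c0.Left` (`pl_nested_vert`): against `a ∈ c0.verts` (`pl_jordan_vert_disj`). -/
theorem pvsx_arm_cr (hT : T.IsSph) (hS : T.Simple) {c0 c3 : T.Cyc} (h : c3.Inside c0) (hfin : c0.Left.Finite) {S : Set V} {b : Bool} {s : V → Bool} (ha : PvatArm T c0 c3 S b s) :
    PvaxCr T c3 c0 Sᶜ b s := by
  by_contra hn
  obtain ⟨k, hk, h3k, hk0⟩ := (pvax_ncr_iff hT hS h hfin Sᶜ b s).1 hn
  obtain ⟨a, ha, z, hz, haX, hp⟩ := ha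
  have key : z ∈ {v | s v = b ∧ v ∉ S} ∧ ReflTransGen (fun u v => T.Adj u v ∧ v ∈ {v | s v = b ∧ v ∉ S}) z a := by
    clear hz
    induction hp with
    | refl => exact ⟨haX, ReflTransGen.refl⟩
    | @tail y z _ hyz ih =>
      obtain ⟨⟨d, -, hd1, hd2⟩, hzX⟩ := hyz
      exact ⟨hzX, ReflTransGen.head ⟨T.adj_symm ⟨d, hd1, hd2⟩, ih.1⟩ ih.2⟩
  have hoff : ∀ v, v ∈ {v | s v = b ∧ v ∉ S} → v ∉ k.verts := fun v hv hvk => hk v hvk ⟨hv.2, hv.1⟩
  have hz' : z ∈ T.VOf k.Left := (pl_nested_vert hT k c3 h3k).1 hz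
  rw [pl_VOf_left hT k] at hz'
  rcases hz' with hz' | hz'
  · exact hoff z key.1 hz'
  · have h1 : a ∈ T.Int k.Left := pl_jordan_sep hT k hz' (ReflTransGen.mono (fun u v huv => ⟨huv.1, hoff v huv.2⟩) _ _ key.2)
    exact Set.disjoint_left.1 (pl_jordan_vert_disj hT c0).1 ha ((pl_nested_vert hT c0 k hk0).2 h1)

/-- **rule circuit from a blocking event**: no crossing of colour `true` of the xor colouring inside the fresh region.
Plan: `pvax_ncr_iff` gives `k`, `a'.Left ⊆ k.Left ⊆ a''.Left`.   `c'.Inside k`: `c'.verts ⊆ Int a'.Left ⊆ Int k.Left` (`pl_nested_vert`).   `k.Inside c''`: `k.verts ⊆ VOf k.Left ⊆ VOf a''.Left ⊆ Int c''.Left` (`pl_VOf_left`, `pl_nested_vert`, `pvat_VOf_int`).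
Colours: `v ∉ S`, `xor (s v) (r v) ≠ true` gives `s v = r v`. -/
theorem pvsx_rc (hT : T.IsSph) (hS : T.Simple) {c' a' a'' c'' : T.Cyc} (h1 : c'.Inside a') (h2 : a'.Inside a'') (h3 : a''.Inside c'') (hfin : a''.Left.Finite) {S : Set V} {r s : V → Bool}
    (h : ¬ PvaxCr T a' a'' Sᶜ true (fun v => xor (s v) (r v))) : PvatRC T c' c'' S r s := by
  obtain ⟨k, hk, hak, hka⟩ := (pvax_ncr_iff hT hS h2 hfin Sᶜ true (fun v => xor (s v) (r v))).1 h
  refine ⟨k, ⟨fun v hv => (pl_nested_vert hT k a' hak).2 (h1.1 hv), h1.2.trans hak⟩, ⟨fun v hv => ?_, hka.trans h3.2⟩, fun v hv hvS => ?_⟩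
  · have hv1 : v ∈ T.VOf k.Left := by rw [pl_VOf_left hT k]; exact Or.inl hv
    exact pvat_VOf_int hT h3 ((pl_nested_vert hT a'' k hka).1 hv1)
  · have := hk v hv
    by_contra hne
    apply this
    refine ⟨hvS, ?_⟩
    show xor (s v) (r v) = true
    revert hne
    cases s v <;> cases r v <;> simp

end seam

end Claimed.Agent.R289
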