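-- KEEP
import Claimed.Agent.R289.Arm.Top
import Claimed.Agent.R289.Arm.Six
import Claimed.Agent.R289.Arm.LocIso
import Claimed.Agent.R289.Defs.Three
import Claimed.Agent.R289.Tr.Cover

/-!
# Row 289 (S0537, Cardy for Poisson-Voronoi), box ARM, file Arm/Top6 : THE SECOND EXIT OF ARM = THREE EXCURSIONS OF ARBITRARY WALLS (SIX ARMS) AT A POINT      (architect + owner helper84; prefix `arms_`, defs `Arms…`, `arms…`)

CONSUMER: TR20 COVER / TR38 = O1 = R-G of the WALL (rulings 9, 9bis of 234): a `δ`-pinch of the frozen set which cuts off the mouth is crossed by the continuation, so walls pass THREE times through `B(y, 3δ)`, the passages being separated by exits of `B(y, ρh/2)`.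
`armtN` of `Arm/Top` (near return of a RIM) does not serve it: the jaws are stubs / the wall along `g0`, no rim.

GOAL: **`arms_exit : ∃ c > 0, Nonempty (PvSixExit c)`**:   an event `F y s S` on `Conf PvPt`, MEASURABLE (the field `cover` of `PvhbLoc` is an outer measure of the JOINT law: a measurable majorant is needed), `P(F y s S) ≤ C (s/S)^(2+c)` eventually
(= the hypothesis of `pvtv_union_abs3`, `Tr/Cover` sec. 7, verbatim), implied by three excursions in ANY local model (`ArmtLoc`: the Delaunay plane `armt_loc_plane`, every bulk family `armt_loc_bulk`).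

THE EVENT.   `ArmsExc T lab col z s S`: three segments `k ↦ pvasIt T col (x i) k`, `k ≤ n i`, of strands of the SAME hand; the face of the first position has a vertex beyond `S` (or an extra vertex), the face of the last one a site within `s`;
positions of different segments are different.   (Same hand + different positions ⟹ different entrances of the big disc ⟹ different excursions.   Two halves of ONE passage have different hands: never counted twice.)
NO NEW COUNT: `pvat_cfg4_aux` of 75 always produces the sixth arm of colour `true`, so the three excursions give `ArmtGeo.Cfg6` VERBATIM and `armt_count` is used with `m' = 0` (`Out` is trivial).      NO NEW FRAME, NO NEW NUMBERS (`armt_frame`, `armt_geo`, `armt_num` at `R = S`).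
(M), (C) = the proofs of 98 (`armt_nr_iso`, `armt_meas`, `armt_cov`): the pattern enters through the bits Near / Far only.

* sec. 0  the event `ArmsExc`, `ArmsSix`, `armsN`, `armsF`, the record `PvSixExit`
* sec. 1  model free DET: `arms_run` (a segment from outside the big disc into the small one contains a run), `arms_cfg4` (= `pvat_cfg4` with the colour `true`), **`arms_three`**, `arms_body` (the body of `Cfg6`)
* sec. 2  DET in the plane model: `arms_near_left`, `arms_far_left`, **`arms_cfg`** (transfer kit of 219 / 22: `Arm/LocIso`, `Tr/Local`)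
* sec. 3  (C), (M): `arms_relabel`, `arms_iso`, `arms_cov`, `arms_meas`
* sec. 4  quenched bound, annealing, numbers, **`arms_prob`**, **`arms_exit`**
* sec. 5  THE EXPORT OF RECORD for the field `cover` (143, `Defs/Three`): `arms_of_three` (`PvxvThree` = `ArmsExc` in the plane, change of centre), `arms_det_pvx`, `arms_up_le`, `arms_ev_sub` (net), **`arms_six : ∃ c > 0, PvxvSix c`**
-/

set_option autoImplicit false
set_option linter.unusedSectionVars false
set_option linter.unusedVariables false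

namespace Claimed.Agent.R289

open MeasureTheory ProbabilityTheory Set Filter Topology Metric Relation
open scoped ENNReal NNReal
open Claims.C0465

/-! ## 0. the event -/

/-- the face of the dart `d` has a vertex which is a site within `r` of `z` -/
def ArmsNearD {V D : Type} (T : PvMap V D) (lab : V → Option ℂ) (z : ℂ) (r : ℝ) (d : D) : Prop :=
  ArmtNear lab z r (T.src d) ∨ ArmtNear lab z r (T.tgt d) ∨ ArmtNear lab z r (T.apex d)

/-- the face of the dart `d` has a vertex which is an extra vertex or a site at distance at least `r` from `z` -/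
def ArmsFarD {V D : Type} (T : PvMap V D) (lab : V → Option ℂ) (z : ℂ) (r : ℝ) (d : D) : Prop :=
  ArmtFar lab z r (T.src d) ∨ ArmtFar lab z r (T.tgt d) ∨ ArmtFar lab z r (T.apex d)

/-- **THREE EXCURSIONS**: three segments of strands of the colouring `col` (same hand) from distance `≥ S` to distance `≤ s`, with different positions -/
def ArmsExc {V D : Type} (T : PvMap V D) (lab : V → Option ℂ) (col : V → Bool) (z : ℂ) (s S : ℝ) : Prop :=
  ∃ (x : Fin 3 → D) (n : Fin 3 → ℕ), (∀ i, pvasBW T col (x i)) ∧ (∀ i, ArmsFarD T lab z S (x i)) ∧ (∀ i, ArmsNearD T lab z s (pvasIt T col (x i) (n i))) ∧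
    ∀ i j, i ≠ j → ∀ k, k ≤ n i → ∀ l, l ≤ n j → pvasIt T col (x i) k ≠ pvasIt T col (x j) l

/-- **three excursions in SOME local model** of the site set `Y` coloured by `σ` -/
def ArmsSix (Y : Set ℂ) (σ : ℂ → Bool) (z : ℂ) (s S : ℝ) : Prop :=
  ∃ (V D : Type) (T : PvMap V D) (lab : V → Option ℂ) (col : V → Bool),
    ArmtLoc Y (closedBall z (4 * S)) T lab ∧ (∀ v p, lab v = some p → col v = σ p) ∧ (ArmsExc T lab col z s S ∨ ArmsExc T lab (pvasNot col) z s S)

/-- the measurable covariant event, cut by the nice site sets -/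
def armsN (z : ℂ) (s S : ℝ) : Set (Conf PvPt) := {η | ArmsSix (cfSites η) (cfCol η) z s S ∧ PvatNice (cfSites η)}

/-- the event of the exit (the site sets which are not nice form a null set) -/
def armsF (z : ℂ) (s S : ℝ) : Set (Conf PvPt) := armsN z s S ∪ {η | ¬ PvatNice (cfSites η)}

/-- **THE SECOND EXIT OF ARM** -/
structure PvSixExit (c : ℝ) where
  C : ℝ
  F : ℂ → ℝ → ℝ → Set (Conf PvPt)
  meas : ∀ (y : ℂ) (s S : ℝ), MeasurableSet (pvConf ⁻¹' F y s S)
  prob : ∀ εs : ℕ → ℝ, (∀ n, 0 < εs n) → Tendsto εs atTop (𝓝 0) → ∀ (y : ℂ) (s S : ℝ), 0 < s → s ≤ S →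
    ∀ᶠ n in atTop, (pvP (εs n) (F y s S)).toReal ≤ C * (s / S) ^ (2 + c)
  det : ∀ (η : Conf PvPt) (y : ℂ) (s S : ℝ) (V D : Type) (T : PvMap V D) (lab : V → Option ℂ) (col : V → Bool),
    ArmtLoc (cfSites η) (closedBall y (4 * S)) T lab → (∀ v p, lab v = some p → col v = cfCol η p) →
      (ArmsExc T lab col y s S ∨ ArmsExc T lab (pvasNot col) y s S) → η ∈ F y s S

theorem arms_eqns_cite : True := by
  have := @ArmsNearD.eq_1; have := @ArmsFarD.eq_1; have := @ArmsExc.eq_1; have := @ArmsSix.eq_1; have := @armsN.eq_1; have := @armsF.eq_1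
  trivial

/-! ## 1. model free DET -/

section det

variable {V D : Type} {T : PvMap V D}

/-- **a segment of a strand from outside `B` into `A` contains a run**.
Plan: `t` = first time `≤ n` in `A` (`Nat.find`), `t > 0`; `a` = `1 +` the last time `< t` outside `B`.   `opp (It a)` lies in the face of `It (a-1)` (`pvasStep`: `opp (opp (nxt ..))`), which is outside `B` (`hB`);  `pvasBW` along the strand (`pvas_bw_it`);
`pvasIt T s (pvasIt T s x a) k = pvasIt T s x (a + k)` (`Function.iterate_add_apply`). -/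
theorem arms_run {B A : Set D} (hB : T.FaceSet B) (hAB : A ⊆ B) {s : V → Bool} {x : D} {n : ℕ} (hx : pvasBW T s x) (h0 : x ∉ B) (hn : pvasIt T s x n ∈ A) :
    ∃ a k, a + k ≤ n ∧ PvatRun T B A s (pvasIt T s x a) k := by
  classical
  -- first time in `A`
  have hex : ∃ t, pvasIt T s x t ∈ A := ⟨n, hn⟩
  set t := Nat.find hex with ht
  have htA : pvasIt T s x t ∈ A := Nat.find_spec hex
  have htn : t ≤ n := Nat.find_min' hex hn
  have hmin : ∀ j, j < t → pvasIt T s x j ∉ A := fun j hj => Nat.find_min hex hj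
  -- last time before `t` outside `B`
  have key : ∀ m, m ≤ t → (∀ j, m ≤ j → j ≤ t → pvasIt T s x j ∈ B) → ∃ a, a ≤ t ∧ 0 < a ∧ pvasIt T s x (a - 1) ∉ B ∧ ∀ j, a ≤ j → j ≤ t → pvasIt T s x j ∈ B := by
    intro m
    induction m with
    | zero => intro _ h; exact absurd (h 0 le_rfl (Nat.zero_le _)) h0
    | succ m ih =>
      intro hm h
      by_cases hmB : pvasIt T s x m ∈ B
      · refine ih (by omega) fun j hj hjt => ?_
        rcases Nat.eq_or_lt_of_le hj with e | e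
        · rw [← e]; exact hmB
        · exact h j e hjt
      · exact ⟨m + 1, hm, Nat.succ_pos _, by simpa using hmB, h⟩
  obtain ⟨a, hat, ha0, haB, hall⟩ := key t le_rfl (fun j h1 h2 => by rw [le_antisymm h2 h1]; exact hAB htA)
  obtain ⟨a', rfl⟩ : ∃ a', a = a' + 1 := ⟨a - 1, by omega⟩
  simp only [Nat.add_sub_cancel] at haB
  refine ⟨a' + 1, t - (a' + 1), by omega, ⟨hall _ le_rfl hat, ?_, pvas_it_bw hx _⟩, fun k hk => ?_, ?_⟩
  · rw [pvas_it_succ, pvas_step_opp_mem hB]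
    exact haB
  · rw [← pvas_it_add]
    exact ⟨hall _ (by omega) (by omega), hmin _ (by omega)⟩
  · rw [← pvas_it_add]
    have : a' + 1 + (t - (a' + 1)) = t := by omega
    rw [this]
    exact htA

/-- core of `arms_cfg4` = `pvat_cfg4_aux` of 75 with the colour of the arm displayed -/
theorem arms_cfg4_aux (hT : T.IsSph) {c0 c1 c2 : T.Cyc} (h12 : c1.Inside c2) (h20 : c2.Inside c0) {s ri rm rk : V → Bool} {x yi ym yk : D} {n ni nm nk : ℕ}
    (r : PvatRun T c0.Left c1.Left s x n) (qi : PvatRun T c0.Left c1.Left (pvasNot s) yi ni) (qm : PvatRun T c0.Left c1.Left (pvasNot s) ym nm)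
    (qk : PvatRun T c0.Left c1.Left (pvasNot s) yk nk) (him : yi ≠ ym) (hik : yi ≠ yk) (hmk : ym ≠ yk)
    (hri : PvatRule T c0.Left c1.Left s x n yi ni ri) (hrm : PvatRule T c0.Left c1.Left s x n ym nm rm) (hrk : PvatRule T c0.Left c1.Left s x n yk nk rk)
    (e1 : ri (T.src ym) = true) (e2 : rm (T.src yk) = true) :
    ∃ (x2 x4 : D) (n2 n4 : ℕ), PvatCfg T c0 c1 c2 s x x2 x4 n n2 n4 ∧
      PvatArm T c0 c1 (pvatLay T s x n ∪ pvatLay T (pvasNot s) x2 n2 ∪ pvatLay T (pvasNot s) x4 n4) true s := by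
  have hc : c1.Inside c0 := pvat_inside_trans hT h12 h20
  have e3 : rk (T.src ym) = false := by
    have := pvat_select hT hc r qm qk hmk hrm hrk
    rw [e2] at this
    cases h : rk (T.src ym)
    · rfl
    · exact absurd h.symm this
  have e4 : rm (T.src yi) = false := by
    have := pvat_select hT hc r qi qm him hri hrm
    rw [e1] at this
    cases h : rm (T.src yi)
    · rfl
    · exact absurd h.symm this
  have dmx : Disjoint (pvatLay T (pvasNot s) ym nm) (pvatLay T s x n) := by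
    rw [Set.disjoint_left]
    intro v hm hx
    have a1 : ri v = true := (pvat_rule_const hT hc r qi qm him hri v hm).trans e1
    have a2 : rk v = false := (pvat_rule_const hT hc r qk qm hmk.symm hrk v hm).trans e3
    have b1 : ri v = s v := hri.1 v hx
    have b2 : rk v = s v := hrk.1 v hx
    rw [b1] at a1
    rw [b2, a1] at a2
    exact Bool.noConfusion a2
  have dmk : Disjoint (pvatLay T (pvasNot s) ym nm) (pvatLay T (pvasNot s) yk nk) := pvat_same_disj hT hc r qm qk hmk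
  have dim : Disjoint (pvatLay T (pvasNot s) yi ni) (pvatLay T (pvasNot s) ym nm) := pvat_same_disj hT hc r qi qm him
  have dik : Disjoint (pvatLay T (pvasNot s) yi ni) (pvatLay T (pvasNot s) yk nk) := pvat_same_disj hT hc r qi qk hik
  obtain ⟨m, hm, qm'⟩ := qm.shorten h12.2 hc.2
  have hsub : pvatLay T (pvasNot s) ym m ⊆ pvatLay T (pvasNot s) ym nm := pvat_lay_mono _ _ hm
  refine ⟨yk, ym, nk, m, ⟨r, qk, qm', dmx.mono_left hsub, dmk.mono_left hsub⟩, ?_⟩
  have hW : Disjoint (pvasLayW T (pvasNot s) yi ni) (pvatLay T s x n ∪ pvatLay T (pvasNot s) yk nk ∪ pvatLay T (pvasNot s) ym m) := by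
    rw [Set.disjoint_left]
    rintro v hv ((hx | hk) | hm')
    · have a1 : rm v = false := (pvat_rule_const hT hc r qm qi him.symm hrm v (Or.inr hv)).trans e4
      have b1 : rm v = s v := hrm.1 v hx
      have c1' : pvasNot s v = false := pvas_layW_white qi.ent.2.2 hv
      have : s v = true := by
        have : (!s v) = false := c1'
        simpa using this
      rw [b1, this] at a1
      exact Bool.noConfusion a1
    · exact Set.disjoint_left.1 dik (Or.inr hv) hk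
    · exact Set.disjoint_left.1 dim (Or.inr hv) (hsub hm')
  have := pvat_arm_W hT qi hW
  rw [pvat_arm_not] at this
  simpa using this

/-- **`pvat_cfg4` of 75 with the colour of the sixth arm: always `true`**.      Plan: the proof of `pvat_cfg4` verbatim (tournament of the three rules), with `arms_cfg4_aux`. -/
theorem arms_cfg4 (hT : T.IsSph) {c0 c1 c2 : T.Cyc} (h12 : c1.Inside c2) (h20 : c2.Inside c0) {s : V → Bool} {x y1 y2 y3 : D} {n m1 m2 m3 : ℕ}
    (r : PvatRun T c0.Left c1.Left s x n) (q1 : PvatRun T c0.Left c1.Left (pvasNot s) y1 m1) (q2 : PvatRun T c0.Left c1.Left (pvasNot s) y2 m2)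
    (q3 : PvatRun T c0.Left c1.Left (pvasNot s) y3 m3) (d12 : y1 ≠ y2) (d13 : y1 ≠ y3) (d23 : y2 ≠ y3) :
    ∃ (x2 x4 : D) (n2 n4 : ℕ), PvatCfg T c0 c1 c2 s x x2 x4 n n2 n4 ∧
      PvatArm T c0 c1 (pvatLay T s x n ∪ pvatLay T (pvasNot s) x2 n2 ∪ pvatLay T (pvasNot s) x4 n4) true s := by
  have hc : c1.Inside c0 := pvat_inside_trans hT h12 h20
  obtain ⟨r1, hr1⟩ := pvat_rule hT hc r q1
  obtain ⟨r2, hr2⟩ := pvat_rule hT hc r q2
  obtain ⟨r3, hr3⟩ := pvat_rule hT hc r q3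
  have s12 := pvat_select hT hc r q1 q2 d12 hr1 hr2
  have s13 := pvat_select hT hc r q1 q3 d13 hr1 hr3
  have s23 := pvat_select hT hc r q2 q3 d23 hr2 hr3
  cases a12 : r1 (T.src y2) <;> cases a21 : r2 (T.src y1) <;> cases a13 : r1 (T.src y3) <;> cases a31 : r3 (T.src y1) <;>
    cases a23 : r2 (T.src y3) <;> cases a32 : r3 (T.src y2) <;> simp only [a12, a21, a13, a31, a23, a32, ne_eq, not_true_eq_false, reduceCtorEq, not_false_eq_true] at s12 s13 s23
  · exact arms_cfg4_aux hT h12 h20 r q3 q2 q1 d23.symm d13.symm d12.symm hr3 hr2 hr1 a32 a21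
  · exact arms_cfg4_aux hT h12 h20 r q2 q3 q1 d23 d12.symm d13.symm hr2 hr3 hr1 a23 a31
  · exact arms_cfg4_aux hT h12 h20 r q2 q1 q3 d12.symm d23 d13 hr2 hr1 hr3 a21 a13
  · exact arms_cfg4_aux hT h12 h20 r q2 q1 q3 d12.symm d23 d13 hr2 hr1 hr3 a21 a13
  · exact arms_cfg4_aux hT h12 h20 r q3 q1 q2 d13.symm d23.symm d12 hr3 hr1 hr2 a31 a12
  · exact arms_cfg4_aux hT h12 h20 r q3 q1 q2 d13.symm d23.symm d12 hr3 hr1 hr2 a31 a12
  · exact arms_cfg4_aux hT h12 h20 r q1 q3 q2 d13 d12 d23.symm hr1 hr3 hr2 a13 a32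
  · exact arms_cfg4_aux hT h12 h20 r q1 q2 q3 d12 d13 d23 hr1 hr2 hr3 a12 a23

/-- three different forward runs ⟹ CONFIG5 + sixth arm of colour `true` (= `pvat_cfg6_three` of 75) -/
theorem arms_cfg6_three (hT : T.IsSph) {c0 c1 c2 : T.Cyc} (hfin : c0.Left.Finite) (h12 : c1.Inside c2) (h20 : c2.Inside c0) {s : V → Bool} {x1 x2 x3 : D} {n1 n2 n3 : ℕ}
    (r1 : PvatRun T c0.Left c1.Left s x1 n1) (r2 : PvatRun T c0.Left c1.Left s x2 n2) (r3 : PvatRun T c0.Left c1.Left s x3 n3) (d12 : x1 ≠ x2) (d13 : x1 ≠ x3) (d23 : x2 ≠ x3) :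
    ∃ (y2 y4 : D) (m2 m4 : ℕ), PvatCfg T c0 c1 c2 s x1 y2 y4 n1 m2 m4 ∧
      PvatArm T c0 c1 (pvatLay T s x1 n1 ∪ pvatLay T (pvasNot s) y2 m2 ∪ pvatLay T (pvasNot s) y4 m4) true s := by
  have hc : c1.Inside c0 := pvat_inside_trans hT h12 h20
  have hB := pl_left_face c0
  have hA := pl_left_face c1
  obtain ⟨m1, q1⟩ := pvat_back_run hB hA hfin hc.2 r1
  obtain ⟨m2, q2⟩ := pvat_back_run hB hA hfin hc.2 r2
  obtain ⟨m3, q3⟩ := pvat_back_run hB hA hfin hc.2 r3
  have hinj := (pvas_exit_bij hB hfin s).injOn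
  have ne : ∀ {a b : D}, pvasIn T c0.Left s a → pvasIn T c0.Left s b → a ≠ b → T.opp (pvasExit T c0.Left s a) ≠ T.opp (pvasExit T c0.Left s b) :=
    fun ha hb hab e => hab (hinj ha hb (T.opp_injective e))
  exact arms_cfg4 hT h12 h20 r1 q1 q2 q3 (ne r1.ent r2.ent d12) (ne r1.ent r3.ent d13) (ne r2.ent r3.ent d23)

/-- **THREE EXCURSIONS ⟹ CONFIG5 + SIXTH ARM** between nested cycles -/
theorem arms_three (hT : T.IsSph) {c0 c1 c2 : T.Cyc} (hfin : c0.Left.Finite) (h12 : c1.Inside c2) (h20 : c2.Inside c0) {s : V → Bool} {x : Fin 3 → D} {n : Fin 3 → ℕ}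
    (hx : ∀ i, pvasBW T s (x i)) (h0 : ∀ i, x i ∉ c0.Left) (hn : ∀ i, pvasIt T s (x i) (n i) ∈ c1.Left)
    (hd : ∀ i j, i ≠ j → ∀ k, k ≤ n i → ∀ l, l ≤ n j → pvasIt T s (x i) k ≠ pvasIt T s (x j) l) :
    ∃ (x1 y2 y4 : D) (n1 m2 m4 : ℕ), PvatCfg T c0 c1 c2 s x1 y2 y4 n1 m2 m4 ∧
      PvatArm T c0 c1 (pvatLay T s x1 n1 ∪ pvatLay T (pvasNot s) y2 m2 ∪ pvatLay T (pvasNot s) y4 m4) true s := by
  have hc : c1.Inside c0 := pvat_inside_trans hT h12 h20
  choose a k hak hr using fun i => arms_run (pl_left_face c0) hc.2 (hx i) (h0 i) (hn i)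
  have ne : ∀ i j, i ≠ j → pvasIt T s (x i) (a i) ≠ pvasIt T s (x j) (a j) := fun i j hij =>
    hd i j hij _ (le_trans (Nat.le_add_right _ _) (hak i)) _ (le_trans (Nat.le_add_right _ _) (hak j))
  obtain ⟨y2, y4, m2, m4, h1, h2⟩ := arms_cfg6_three hT hfin h12 h20 (hr 0) (hr 1) (hr 2) (ne 0 1 (by decide)) (ne 0 2 (by decide)) (ne 1 2 (by decide))
  exact ⟨_, y2, y4, _, m2, m4, h1, h2⟩

/-- the body of `ArmtGeo.Cfg6` -/
theorem arms_body [DecidableEq V] (hT : T.IsSph) (hS : T.Simple) {c0 cm c1 c2 c3 : T.Cyc} (hfin : c0.Left.Finite) (h12 : c1.Inside c2) (h23 : c2.Inside c3) (h3m : c3.Inside cm) (hm0 : cm.Inside c0)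
    {s : V → Bool} {x : Fin 3 → D} {n : Fin 3 → ℕ} (hx : ∀ i, pvasBW T s (x i)) (h0 : ∀ i, x i ∉ c0.Left) (hn : ∀ i, pvasIt T s (x i) (n i) ∈ c1.Left)
    (hd : ∀ i j, i ≠ j → ∀ k, k ≤ n i → ∀ l, l ≤ n j → pvasIt T s (x i) k ≠ pvasIt T s (x j) l) :
    ∃ x1 x2 x4 n1 n2 n4, PvatCfg T c0 c1 c2 s x1 x2 x4 n1 n2 n4 ∧ PvaxCr T c3 cm (pvatLay T s x1 n1 ∪ pvatLay T (pvasNot s) x2 n2 ∪ pvatLay T (pvasNot s) x4 n4)ᶜ true s := by
  have h30 : c3.Inside c0 := pvat_inside_trans hT h3m hm0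
  have h20 : c2.Inside c0 := pvat_inside_trans hT h23 h30
  obtain ⟨x1, y2, y4, n1, m2, m4, h1, h2⟩ := arms_three hT hfin h12 h20 hx h0 hn hd
  refine ⟨x1, y2, y4, n1, m2, m4, h1, ?_⟩
  have h3 := pvsx_arm_cr hT hS h30 hfin (pvat_arm_mono (h12.2.trans h23.2) subset_rfl h2)
  exact pvax_cr_sub hT subset_rfl h3m hm0.2 h3

end det

/-! ## 2. DET in the plane model -/

section mono

variable {V D : Type} {T : PvMap V D}

/-- the pattern is monotone in the bits Near / Far -/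
theorem arms_exc_mono {lab lab' : V → Option ℂ} {col : V → Bool} {z z' : ℂ} {s s' S S' : ℝ} (hn : ∀ v, ArmtNear lab z s v → ArmtNear lab' z' s' v)
    (hf : ∀ v, ArmtFar lab z S v → ArmtFar lab' z' S' v) (h : ArmsExc T lab col z s S) : ArmsExc T lab' col z' s' S' := by
  obtain ⟨x, n, h1, h2, h3, h4⟩ := h
  exact ⟨x, n, h1, fun i => (h2 i).imp (hf _) (Or.imp (hf _) (hf _)), fun i => (h3 i).imp (hn _) (Or.imp (hn _) (hn _)), h4⟩

/-- a crossing from a cycle to itself -/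
theorem arms_cr_self [DecidableEq V] (c : T.Cyc) (s : V → Bool) : ∃ col : Bool, PvaxCr T c c Set.univ col s :=
  ⟨s (T.src (c.e 0)), T.src (c.e 0), ⟨0, rfl⟩, T.src (c.e 0), ⟨0, rfl⟩, ⟨Set.mem_univ _, rfl⟩, ReflTransGen.refl⟩

end mono

section plane

variable {Y : Set ℂ} {V' D' : Type} {T' : PvMap V' D'} {lab' : V' → Option ℂ}

/-- **NEAR**: in a local model the face of a dart with a site within `s` of `z` lies in the twin of a cycle whose interior contains these sites.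
Plan: `p` the site, `v'` the vertex of the face with `lab' v' = some p`.  The plane vertex `⟨p, _⟩` is in `Int c.Left` (`hin`); `pvlocV` relates it to `v'` (`arml_v_of_lab`: a dart of the plane issued from `p` exists since `Int` ... or `hL'.del` + `ArmtLoc.face`);
`pvloc_left_int` gives `v' ∈ Int c'.Left`; all the darts issued from `v'` are in `c'.Left`; the face set `c'.Left` is closed under `nxt` (`pl_left_face`). -/
theorem arms_near_left (h : DelGood Y) {K : Set ℂ} (hL' : ArmtLoc Y K T' lab') {z : ℂ} {s : ℝ} (hsK : ∀ p : ℂ, ‖p - z‖ ≤ s → p ∈ K) {c : (delMap h).Cyc} {c' : T'.Cyc}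
    (P : PvLocCyc (ArmlR K (delMap h) (fun v => some (v : ℂ)) T' lab') c c') (hdom : c.Left ⊆ plDom (ArmlR K (delMap h) (fun v => some (v : ℂ)) T' lab'))
    (hin : ∀ v, ‖dlsPos Y v - z‖ ≤ s → v ∈ (delMap h).Int c.Left) {d' : D'} (hd : ArmsNearD T' lab' z s d') : d' ∈ c'.Left := by
  have L := arml_loc (armt_loc_plane h K) hL'
  have hF := pl_left_face c'
  have key : ∀ e' : D', ArmtNear lab' z s (T'.src e') → e' ∈ c'.Left := by
    rintro e' ⟨p, hp, hps⟩
    have hpY : p ∈ Y := hL'.site _ _ hp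
    have hV : pvlocV (delMap h) T' (ArmlR K (delMap h) (fun v => some (v : ℂ)) T' lab') ⟨p, hpY⟩ (T'.src e') := by
      obtain ⟨d1, d2, hr, e1, e2⟩ := arml_v_of_lab hL' (armt_loc_plane h K) (d := e') (v' := (⟨p, hpY⟩ : Y)) hp rfl (hsK p hps)
      exact ⟨d2, d1, arml_swap hr, e2, e1⟩
    exact pvloc_left_int_fwd L hL'.sph P hdom hV (hin ⟨p, hpY⟩ hps) e' rfl
  rcases hd with hd | hd | hd
  · exact key _ hd
  · exact (hF _).1 (key (T'.nxt d') hd)
  · exact (hF _).1 ((hF _).1 (key (T'.nxt (T'.nxt d')) hd))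

/-- **FAR**: the face of a dart with an extra vertex or a site beyond `S` is not in the twin of a cycle whose closed disc lies within `S`.
Plan: if `d' ∈ c'.Left` then `pvloc_left_bwd` gives `d ∈ c.Left` with `ArmlR .. d d'`: the three vertices of the face of `d'` carry the labels of the three vertices of the face of `d`, which are in `VOf c.Left` (`pl_left_face`): within `S` (`hout`), against `ArmtFar`. -/
theorem arms_far_left (h : DelGood Y) {K : Set ℂ} (hL' : ArmtLoc Y K T' lab') {z : ℂ} {S : ℝ} {c : (delMap h).Cyc} {c' : T'.Cyc}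
    (P : PvLocCyc (ArmlR K (delMap h) (fun v => some (v : ℂ)) T' lab') c c') (hdom : c.Left ⊆ plDom (ArmlR K (delMap h) (fun v => some (v : ℂ)) T' lab'))
    (hout : ∀ v ∈ (delMap h).VOf c.Left, ‖dlsPos Y v - z‖ < S) {d' : D'} (hd : ArmsFarD T' lab' z S d') : d' ∉ c'.Left := by
  intro hd'
  have L := arml_loc (armt_loc_plane h K) hL'
  have hF := pl_left_face c
  obtain ⟨d, hr, hdl⟩ := pvloc_left_bwd L P hdom hd'
  obtain ⟨a, b, c3, -, ⟨h1, h2, h3⟩, ⟨k1, k2, k3⟩⟩ := hr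
  have o1 := hout _ ⟨d, hdl, rfl⟩
  have o2 := hout _ ⟨(delMap h).nxt d, (hF _).2 hdl, rfl⟩
  have o3 := hout _ ⟨(delMap h).nxt ((delMap h).nxt d), (hF _).2 ((hF _).2 hdl), rfl⟩
  have e1 : dlsPos Y ((delMap h).src d) = a := Option.some.inj h1
  have e2 : dlsPos Y ((delMap h).src ((delMap h).nxt d)) = b := Option.some.inj h2
  have e3 : dlsPos Y ((delMap h).src ((delMap h).nxt ((delMap h).nxt d))) = c3 := Option.some.inj h3
  rw [e1] at o1
  rw [e2] at o2
  rw [e3] at o3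
  rcases hd with hd | hd | hd
  · exact absurd (hd a k1) (not_le.2 o1)
  · exact absurd (hd b k2) (not_le.2 o2)
  · exact absurd (hd c3 k3) (not_le.2 o3)

open Classical in
/-- **three excursions in a local model ⟹ the body of CONFIG6 in the plane model**, for five nested cycles of the plane inside `ball z S`.
Plan.  `R = ArmlR K plane T'`, `L = arml_loc (armt_loc_plane h K) hL'`.   All the `Left`s are `⊆ c0.Left ⊆ plDom R` (`arml_sub_dom`, `hout`, `S ≤ 4S`), collar `arml_collar`.   Twins `c0' cm' c1' c2' c3'` (`pvloc_cyc_exists`), nested (`arml_inside`), `c0'.Left` finite (`arml_left_finite`).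
`arms_far_left`, `arms_near_left` give the hypotheses of `arms_body` in `T'`;   back to the plane by `arml_cfg6` for `L.symm`, `P.symm` (domain: `pvloc_left_ran`, collar in `T'` from the collar in the plane), colours `arml_col`. -/
theorem arms_transfer (h : DelGood Y) (σ : ℂ → Bool) {z : ℂ} {s S : ℝ} (hs : 0 < s) (hsS : s ≤ S) {col : V' → Bool} (hL' : ArmtLoc Y (closedBall z (4 * S)) T' lab')
    (hc : ∀ v p, lab' v = some p → col v = σ p) {c0 cm c1 c2 c3 : (delMap h).Cyc} (hfin : c0.Left.Finite) (h12 : c1.Inside c2) (h23 : c2.Inside c3) (h3m : c3.Inside cm) (hm0 : cm.Inside c0)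
    (hin : ∀ v, ‖dlsPos Y v - z‖ ≤ s → v ∈ (delMap h).Int c1.Left) (hout : ∀ v ∈ (delMap h).VOf c0.Left, ‖dlsPos Y v - z‖ < S) (hE : ArmsExc T' lab' col z s S) :
    ∃ x x2 x4 n1 n2 n4, PvatCfg (delMap h) c0 c1 c2 (fun v => σ v) x x2 x4 n1 n2 n4 ∧
      PvaxCr (delMap h) c3 cm (pvatLay (delMap h) (fun v => σ v) x n1 ∪ pvatLay (delMap h) (pvasNot fun v => σ v) x2 n2 ∪ pvatLay (delMap h) (pvasNot fun v => σ v) x4 n4)ᶜ true (fun v => σ v) := by
  have hL := armt_loc_plane h (closedBall z (4 * S))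
  have L := arml_loc hL hL'
  have hT := hL.sph
  have hT' := hL'.sph
  have hS : 0 < S := lt_of_lt_of_le hs hsS
  have hcc : ∀ d d', ArmlR (closedBall z (4 * S)) (delMap h) (fun v => some (v : ℂ)) T' lab' d d' → (fun v : Y => σ v) ((delMap h).src d) = col (T'.src d') :=
    arml_col (σ := σ) (lab := fun v : Y => some (v : ℂ)) (col := fun v : Y => σ v) (fun v p hv => congrArg σ (Option.some.inj hv)) hc
  have htop : ∀ v ∈ (delMap h).VOf c0.Left, ∃ p ∈ closedBall z (4 * S), (fun v : Y => some (v : ℂ)) v = some p := by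
    intro v hv
    refine ⟨v, ?_, rfl⟩
    rw [mem_closedBall, dist_eq_norm]
    have := hout v hv
    unfold dlsPos at this
    linarith
  have d0 := arml_sub_dom hL hL' htop
  have dm := hm0.2.trans d0
  have d3 := h3m.2.trans dm
  have d2 := h23.2.trans d3
  have d1 := h12.2.trans d2
  obtain ⟨c0', P0⟩ := arml_twin L hT _ d0
  obtain ⟨cm', Pm⟩ := arml_twin L hT _ dm
  obtain ⟨c3', P3⟩ := arml_twin L hT _ d3
  obtain ⟨c2', P2⟩ := arml_twin L hT _ d2
  obtain ⟨c1', P1⟩ := arml_twin L hT _ d1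
  have hcolT : ∀ j, (delMap h).opp (c0.e j) ∈ plDom (ArmlR (closedBall z (4 * S)) (delMap h) (fun v => some (v : ℂ)) T' lab') :=
    fun j => arml_collar hL hL' htop ((pl_jordan hT c0).2.1 j)
  have hback : ∀ j, T'.opp (c0'.e j) ∈ plDom (fun d' d => ArmlR (closedBall z (4 * S)) (delMap h) (fun v => some (v : ℂ)) T' lab' d d') :=
    fun j => ⟨_, L.iso.opp_rel (P0.e_rel j) (hcolT j)⟩
  have hsK : ∀ p : ℂ, ‖p - z‖ ≤ s → p ∈ closedBall z (4 * S) := by
    intro p hp
    rw [mem_closedBall, dist_eq_norm]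
    linarith
  obtain ⟨x, n, hx, hfar, hnear, hdis⟩ := hE
  have key := arms_body hT' hL'.simple (arml_left_finite L P0 d0 hfin) (arml_inside L hT' P1 P2 d2 h12) (arml_inside L hT' P2 P3 d3 h23) (arml_inside L hT' P3 Pm dm h3m)
    (arml_inside L hT' Pm P0 d0 hm0) hx (fun i => arms_far_left h hL' P0 d0 hout (hfar i)) (fun i => arms_near_left h hL' hsK P1 d1 hin (hnear i)) hdis
  exact arml_cfg6 L.symm hT' (arml_swap_col hcc) P0.symm Pm.symm P1.symm P2.symm P3.symm (pvloc_left_ran L P0 d0) (pvloc_left_ran L Pm dm) (pvloc_left_ran L P1 d1)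
    (pvloc_left_ran L P2 d2) (pvloc_left_ran L P3 d3) hback key

open Classical in
/-- **THREE EXCURSIONS IN SOME MODEL ⟹ CONFIG6 IN THE PLANE MODEL** (glue) -/
theorem arms_cfg (h : DelGood Y) (σ : ℂ → Bool) {ι : Type} {q : ℝ} {m m' Cl : ℕ} (G : ArmtGeo (delMap h) ι q m m' Cl) {ζ : ι → ℂ} {s S R : ℝ}
    (hG : G.At (dlsPos Y) ζ s S R) (hs : 0 < s) (hsS : s ≤ S) (b : ι) (hN : ArmsSix Y σ (ζ b) s S) :
    G.Cfg6 b (fun v => σ v) ∨ G.Cfg6 b (pvasNot fun v => σ v) := by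
  have hT : (delMap h).IsSph := (armt_loc_plane h Set.univ).sph
  have hγ : ∀ j k, j ≤ k → k ≤ 7 + 2 * m → j < k → (G.γ b j).Inside (G.γ b k) := by
    intro j k hjk
    induction k, hjk using Nat.le_induction with
    | base => intro _ h; exact absurd h (lt_irrefl _)
    | succ k hk ih =>
      intro hk' _
      rcases Nat.eq_or_lt_of_le hk with e | e
      · rw [e]; exact (G.γ_blk b k (by omega)).1
      · exact pvat_inside_trans hT (ih (by omega) e) (G.γ_blk b k (by omega)).1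
  have h12 := hγ 0 3 (by omega) (by omega) (by omega)
  have h23 := hγ 3 6 (by omega) (by omega) (by omega)
  have h3m : (G.γ b 6).Inside (G.δ 0) := pvat_inside_trans hT (hγ 6 (7 + 2 * m) (by omega) le_rfl (by omega)) (G.γ_top b)
  have hm0 : (G.δ 0).Inside (G.δ 1) := (G.δ_blk 0 (by omega)).1
  obtain ⟨V', D', T', lab', col, hL', hc, hE⟩ := hN
  rcases hE with hE | hE
  · exact Or.inl (arms_transfer h σ hs hsS hL' hc (G.fin 1) h12 h23 h3m hm0 (hG.inn b) (hG.mid b) hE)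
  · right
    have hc' : ∀ v p, lab' v = some p → pvasNot col v = (fun p => !σ p) p := fun v p hv => by simp only [pvasNot, hc v p hv]
    exact arms_transfer h (fun p => !σ p) hs hsS hL' hc' (G.fin 1) h12 h23 h3m hm0 (hG.inn b) (hG.mid b) hE

end plane

/-! ## 3. (C), (M)      (the proofs of 98 for `armtN`; the pattern enters through Near / Far only) -/

/-- **RELABELLING** of a local model along a combinatorial isomorphism of a window which contains the sites within `s`, `K` and the Delaunay neighbours of the sites of `K` -/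
theorem arms_relabel {W W' Y Y' : Set ℂ} {σ σ' : ℂ → Bool} {φ : ℂ → ℂ} {z z' : ℂ} {s S : ℝ}
    (h : PvatIso W (armtReg z s S S) Y σ W' (armtReg z' s S S) Y' σ' φ)
    (hsW : ∀ p, ‖p - z‖ ≤ s → p ∈ W) (hKW' : ∀ p, ‖p - z'‖ ≤ 4 * S → p ∈ W')
    (cl : ∀ a b c, DelTri Y a b c → ‖a - z‖ ≤ 4 * S → b ∈ W ∧ c ∈ W)
    (cl' : ∀ a b c, DelTri Y' a b c → ‖a - z'‖ ≤ 4 * S → b ∈ W' ∧ c ∈ W')
    {V D : Type} {T : PvMap V D} {lab : V → Option ℂ} {col : V → Bool} (hL : ArmtLoc Y (closedBall z (4 * S)) T lab) (hc : ∀ v p, lab v = some p → col v = σ p) :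
    ∃ lab' : V → Option ℂ, ArmtLoc Y' (closedBall z' (4 * S)) T lab' ∧ (∀ v p, lab' v = some p → col v = σ' p) ∧
      (∀ v, ArmtNear lab z s v → ArmtNear lab' z' s v) ∧ (∀ v, ArmtFar lab z S v → ArmtFar lab' z' S v) := by
  classical
  obtain ⟨lab', hl⟩ : ∃ lab' : V → Option ℂ, ∀ v p', lab' v = some p' ↔ ∃ p, lab v = some p ∧ p ∈ W ∧ φ p = p' := by
    have aux : ∀ (o : Option ℂ) (p' : ℂ), (o.bind fun p => if p ∈ W then some (φ p) else none) = some p' ↔ ∃ p, o = some p ∧ p ∈ W ∧ φ p = p' := by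
      intro o p'
      cases o with
      | none => simp
      | some p =>
        by_cases hp : p ∈ W
        · simp [hp]
        · simp only [Option.bind_some, if_neg hp, Option.some.injEq]
          constructor
          · intro h0; exact absurd h0 (by simp)
          · rintro ⟨q, rfl, hq, -⟩; exact absurd hq hp
    exact ⟨fun v => (lab v).bind fun p => if p ∈ W then some (φ p) else none, fun v p' => aux (lab v) p'⟩
  have hb : ∀ a ∈ Y ∩ W, (‖φ a - z'‖ ≤ 4 * S ↔ ‖a - z‖ ≤ 4 * S) ∧ (‖φ a - z'‖ ≤ s ↔ ‖a - z‖ ≤ s) ∧ (S ≤ ‖φ a - z'‖ ↔ S ≤ ‖a - z‖) ∧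
      (2 * S ≤ ‖φ a - z'‖ ↔ 2 * S ≤ ‖a - z‖) := by
    intro a ha
    have := h.reg a ha
    simp only [armtReg, Prod.mk.injEq, decide_eq_decide] at this
    exact this
  refine ⟨lab', ⟨hL.sph, hL.simple, ?_, ?_, ?_, ?_⟩, ?_, ?_, ?_⟩
  · intro v w p' hv hw
    obtain ⟨p, hp, hpW, rfl⟩ := (hl v p').1 hv
    obtain ⟨q, hq, hqW, hqe⟩ := (hl w _).1 hw
    have hqp : q = p := h.inj ⟨hL.site w q hq, hqW⟩ ⟨hL.site v p hp, hpW⟩ hqe
    subst hqp
    exact hL.inj v w q hp hq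
  · intro v p' hv
    obtain ⟨p, hp, hpW, rfl⟩ := (hl v p').1 hv
    exact (h.maps p ⟨hL.site v p hp, hpW⟩).1
  · intro a' b' c' ht ha'
    rw [mem_closedBall_iff_norm] at ha'
    obtain ⟨hbW, hcW⟩ := cl' a' b' c' ht ha'
    obtain ⟨a, haY, rfl⟩ := h.surj a' ⟨ht.1, hKW' a' ha'⟩
    obtain ⟨b, hbY, rfl⟩ := h.surj b' ⟨ht.2.1, hbW⟩
    obtain ⟨c0, hcY, rfl⟩ := h.surj c' ⟨ht.2.2.1, hcW⟩
    have ht0 := (h.tri a haY b hbY c0 hcY).1 ht
    obtain ⟨d, d1, d2, d3⟩ := hL.face a b c0 ht0 (mem_closedBall_iff_norm.2 ((hb a haY).1.1 ha'))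
    exact ⟨d, (hl _ _).2 ⟨a, d1, haY.2, rfl⟩, (hl _ _).2 ⟨b, d2, hbY.2, rfl⟩, (hl _ _).2 ⟨c0, d3, hcY.2, rfl⟩⟩
  · intro d a' hd ha'
    obtain ⟨a, ha, haW, rfl⟩ := (hl _ _).1 hd
    have haY : a ∈ Y ∩ W := ⟨hL.site _ a ha, haW⟩
    have haK := (hb a haY).1.1 (mem_closedBall_iff_norm.1 ha')
    obtain ⟨b, c0, hb1, hc1, ht⟩ := hL.del d a ha (mem_closedBall_iff_norm.2 haK)
    obtain ⟨hbW, hcW⟩ := cl a b c0 ht haK
    exact ⟨φ b, φ c0, (hl _ _).2 ⟨b, hb1, hbW, rfl⟩, (hl _ _).2 ⟨c0, hc1, hcW, rfl⟩, (h.tri a haY b ⟨ht.2.1, hbW⟩ c0 ⟨ht.2.2.1, hcW⟩).2 ht⟩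
  · intro v p' hv
    obtain ⟨p, hp, hpW, rfl⟩ := (hl v p').1 hv
    rw [hc v p hp, h.col p ⟨hL.site v p hp, hpW⟩]
  · rintro v ⟨p, hp, hps⟩
    exact ⟨φ p, (hl _ _).2 ⟨p, hp, hsW p hps, rfl⟩, (hb p ⟨hL.site v p hp, hsW p hps⟩).2.1.2 hps⟩
  · intro v f1 p' hv
    obtain ⟨p, hp, hpW, rfl⟩ := (hl _ p').1 hv
    exact (hb p ⟨hL.site _ p hp, hpW⟩).2.2.1.2 (f1 p hp)

/-- the event is invariant under the combinatorial isomorphisms of a large window -/
theorem arms_iso {W W' Y Y' : Set ℂ} {σ σ' : ℂ → Bool} {φ : ℂ → ℂ} {z z' : ℂ} {s S : ℝ}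
    (h : PvatIso W (armtReg z s S S) Y σ W' (armtReg z' s S S) Y' σ' φ)
    (hsW : ∀ p, ‖p - z‖ ≤ s → p ∈ W) (hKW' : ∀ p, ‖p - z'‖ ≤ 4 * S → p ∈ W')
    (cl : ∀ a b c, DelTri Y a b c → ‖a - z‖ ≤ 4 * S → b ∈ W ∧ c ∈ W)
    (cl' : ∀ a b c, DelTri Y' a b c → ‖a - z'‖ ≤ 4 * S → b ∈ W' ∧ c ∈ W')
    (hN : ArmsSix Y σ z s S) : ArmsSix Y' σ' z' s S := by
  obtain ⟨V, D, T, lab, col, hL, hc, hE⟩ := hN
  obtain ⟨lab', hL', hc', hn, hf⟩ := arms_relabel h hsW hKW' cl cl' hL hc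
  exact ⟨V, D, T, lab', col, hL', hc', hE.imp (arms_exc_mono hn hf) (arms_exc_mono hn hf)⟩

theorem arms_cov_aux (a z : ℂ) (s S : ℝ) (η : Conf PvPt) (h : η ∈ armsN z s S) : cfMap (fun w => w + a) η ∈ armsN (z + a) s S := by
  obtain ⟨hN, hnice⟩ := h
  refine ⟨?_, ?_⟩
  · rw [pvat_sites_tr]
    refine arms_iso (W := univ) (W' := univ) (φ := fun w => w + a) (pvat_iso_tr a (cfSites η) (fun _ => Iff.rfl) ?_ fun w _ => pvat_col_tr a η w)
      (fun _ _ => mem_univ _) (fun _ _ => mem_univ _) (fun _ _ _ _ _ => ⟨mem_univ _, mem_univ _⟩) (fun _ _ _ _ _ => ⟨mem_univ _, mem_univ _⟩) hN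
    intro w _
    unfold armtReg
    rw [add_sub_add_right_eq_sub]
  · rw [pvat_sites_tr]
    exact hnice.translate a

/-- **(C)** covariance -/
theorem arms_cov (a z : ℂ) (s S : ℝ) (η : Conf PvPt) : cfMap (fun w => w + a) η ∈ armsN (z + a) s S ↔ η ∈ armsN z s S := by
  refine ⟨fun h => ?_, arms_cov_aux a z s S η⟩
  have h1 := arms_cov_aux (-a) (z + a) s S _ h
  rw [pvat_cfMap_comp, add_neg_cancel_right] at h1
  have e : ((fun w : ℂ => w + -a) ∘ fun w => w + a) = id := by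
    funext w
    simp
  rwa [e, pvat_cfMap_id] at h1

/-- the event reads the colours of the sites only -/
theorem arms_congr {Y : Set ℂ} {σ σ' : ℂ → Bool} (h : ∀ p ∈ Y, σ p = σ' p) {z : ℂ} {s S : ℝ} (hN : ArmsSix Y σ z s S) : ArmsSix Y σ' z s S := by
  obtain ⟨V, D, T, lab, col, hL, hc, hr⟩ := hN
  exact ⟨V, D, T, lab, col, hL, fun v p hv => (hc v p hv).trans (h p (hL.site v p hv)), hr⟩

/-- **(M)** measurability in the sample space -/
theorem arms_meas (z : ℂ) (s S : ℝ) : MeasurableSet (pvConf ⁻¹' armsN z s S) := by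
  have e : armsN z s S = ⋃ n : ℕ, {η : Conf PvPt | ArmsSix (cfSites η) (cfCol η) z s S ∧
      (PvatNice (cfSites η) ∧ ArmtNb (closedBall z (4 * S)) (closedBall z (max (n : ℝ) (max s (4 * S)))) (cfSites η)) ∧ (cfSites η ∩ closedBall z (max (n : ℝ) (max s (4 * S)))).Finite} := by
    ext η
    simp only [armsN, mem_ofPred_eq, mem_iUnion]
    constructor
    · rintro ⟨h1, h2⟩
      obtain ⟨M, hM⟩ := armt_nb_exists h2 z (4 * S)
      obtain ⟨n, hn⟩ := exists_nat_ge M
      exact ⟨n, h1, ⟨h2, hM.mono (closedBall_subset_closedBall (hn.trans (le_max_left _ _)))⟩, h2.finite isBounded_closedBall⟩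
    · rintro ⟨n, h1, ⟨h2, -⟩, -⟩
      exact ⟨h1, h2⟩
  rw [e, preimage_iUnion]
  refine MeasurableSet.iUnion fun n => ?_
  refine pvat_meas (N := fun Y => PvatNice Y ∧ ArmtNb (closedBall z (4 * S)) (closedBall z (max (n : ℝ) (max s (4 * S)))) Y)
    (delm_meas_and pvat_meas_nice (armt_nb_meas measurableSet_closedBall measurableSet_closedBall)) measurableSet_closedBall
    (reg := fun _ => armtReg z s S S) (pvat_reg_pos (armt_measurable_reg z s S S)) (Φ := fun Y σ => ArmsSix Y σ z s S) ?_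
  intro Y σ Y' σ' φ hY hY' hφ h
  exact arms_iso hφ (fun p hp => mem_closedBall_iff_norm.2 (hp.trans ((le_max_left _ _).trans (le_max_right _ _))))
    (fun p hp => mem_closedBall_iff_norm.2 (hp.trans ((le_max_right _ _).trans (le_max_right _ _))))
    (fun a b c ht ha => hY.2 a b c ht (mem_closedBall_iff_norm.2 ha)) (fun a b c ht ha => hY'.2 a b c ht (mem_closedBall_iff_norm.2 ha)) h

theorem arms_meas_F (z : ℂ) (s S : ℝ) : MeasurableSet (pvConf ⁻¹' armsF z s S) := by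
  unfold armsF
  rw [preimage_union]
  exact (arms_meas z s S).union pvat_meas_niceEv.compl

/-- the site sets which are not nice form a null set -/
theorem arms_F_ae {ε : ℝ} (hε : ε ≠ 0) (z : ℂ) (s S : ℝ) : pvP ε (armsF z s S) = pvP ε (armsN z s S) := by
  apply measure_congr
  filter_upwards [pvat_nice_ae hε] with η hη
  exact propext ⟨fun h => h.resolve_right (fun h' => h' hη), Or.inl⟩

/-! ## 4. the quenched bound, annealing, numbers, the exit -/

/-- **the quenched bound on a frame** (glue; `armt_count` at `m' = 0`) -/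
theorem arms_quenched {q : ℝ} (hq : 0 < q) (hq1 : q < 1) : ∃ C : ℝ, 0 ≤ C ∧ ∀ (g : PvGeoT), PvgOk g → ∀ (y : ℂ) (s S : ℝ) (L m : ℕ), 0 < s → s ≤ S →
    2 * (L : ℝ) * s ≤ S / 64 → 5 / 4 * 4 ^ (7 + 2 * m) * s ≤ S / 64 → ArmtFrame q (armtZ y s L) (armtRs s S m 0) (pvgSites g) →
      ∑ p ∈ armtBox L, pvQc (armsN (armtCtr y s p) s S) g ≤ ENNReal.ofReal (C * armtCl * (1 - q) ^ m) := by
  classical
  obtain ⟨C, hC, hcount⟩ := armt_count q hq hq1
  refine ⟨C, hC, ?_⟩
  intro g hg y s S L m hs hsS hL hm hF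
  have hSpos : 0 < S := lt_of_lt_of_le hs hsS
  have hm' : 5 / 4 * 4 ^ (2 + 2 * 0) * (S / 32) + S / 64 ≤ 2 * S := by norm_num; linarith
  obtain ⟨h, G, hAt⟩ := armt_geo hs hL hm hm' hF
  have hsph : (delMap h).IsSph := (armt_loc_plane h Set.univ).sph
  have hsimple : (delMap h).Simple := (armt_loc_plane h Set.univ).simple
  have hfin : ((delMap h).VOf (G.δ (2 + 2 * 0)).Left).Finite := by
    have : (delMap h).VOf (G.δ (2 + 2 * 0)).Left = (delMap h).src '' (G.δ (2 + 2 * 0)).Left := by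
      ext v
      simp only [PvMap.VOf, Set.mem_ofPred_eq, Set.mem_image]
    rw [this]
    exact (G.fin _).image _
  set A : Finset (pvgSites g) := hfin.toFinset with hAdef
  have hA : ∀ v ∈ (delMap h).VOf (G.δ (2 + 2 * 0)).Left, v ∈ A := fun v hv => hfin.mem_toFinset.2 hv
  set ξ : pvgSites g → Bool := fun _ => false with hξ
  have hcol : ∀ (c : PvColT) (z : ℂ), z ∈ pvgSites g → cfCol (cfOf (pvgSites g) (pvgColAt g c)) z = pvgColAt g c z := by
    intro c z hz
    unfold cfCol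
    by_cases hc : pvgColAt g c z = true
    · rw [hc, decide_eq_true_iff]
      exact ⟨hz, hc.symm⟩
    · rw [Bool.not_eq_true] at hc
      rw [hc, decide_eq_false_iff_not]
      rintro ⟨-, h2⟩
      rw [hc] at h2
      exact Bool.noConfusion h2
  have hone : ∀ p : armtBox L, pvQc (armsN (armtCtr y s p) s S) g
      ≤ ENNReal.ofReal (pvaP A ξ (fun σ => (G.Cfg6 p σ ∨ G.Cfg6 p (pvasNot σ)) ∧ G.Out σ)) := by
    intro p
    rw [← armt_col hg A _ (armt_cfg_loc hsph G A hA p) ξ, pvqu_Qc_eq]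
    refine measure_mono fun c hc => ?_
    have h1 : ArmsSix (cfSites (pvConf (pvMerge (g, c)))) (cfCol (pvConf (pvMerge (g, c)))) (armtCtr y s p) s S := hc.1
    rw [hg.conf_eq c, cfOf_sites] at h1
    have h2 : ArmsSix (pvgSites g) (pvgColAt g c) (armtCtr y s p) s S := arms_congr (fun z hz => hcol c z hz) h1
    exact ⟨arms_cfg h (pvgColAt g c) G hAt hs hsS p h2, arms_cr_self (G.δ 2) _⟩
  calc ∑ p ∈ armtBox L, pvQc (armsN (armtCtr y s p) s S) g = ∑ p : armtBox L, pvQc (armsN (armtCtr y s p) s S) g :=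
        (Finset.sum_coe_sort (armtBox L) (fun p => pvQc (armsN (armtCtr y s p) s S) g)).symm
    _ ≤ ∑ p : armtBox L, ENNReal.ofReal (pvaP A ξ (fun σ => (G.Cfg6 p σ ∨ G.Cfg6 p (pvasNot σ)) ∧ G.Out σ)) := Finset.sum_le_sum fun p _ => hone p
    _ = ENNReal.ofReal (∑ p : armtBox L, pvaP A ξ (fun σ => (G.Cfg6 p σ ∨ G.Cfg6 p (pvasNot σ)) ∧ G.Out σ)) :=
        (ENNReal.ofReal_sum_of_nonneg fun p _ => pva_P_nonneg _ _ _).symm
    _ ≤ ENNReal.ofReal (C * armtCl * (1 - q) ^ m) := by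
        refine ENNReal.ofReal_le_ofReal ?_
        have := hcount _ _ _ (delMap h) hsph hsimple m 0 armtCl G A ξ hA
        simpa using this

/-- translation invariance of the probability of the event -/
theorem arms_inv (ε : ℝ) (a z : ℂ) (s S : ℝ) : pvP ε (armsN (z + a) s S) = pvP ε (armsN z s S) := by
  have hn : NullMeasurableSet (armsN (z + a) s S) (pvP ε) := pvcn_bridge_null ε (arms_meas _ _ _)
  have hm : Measurable (cfMap fun w : ℂ => w + a) := measurable_cfMap (by fun_prop)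
  conv_lhs => rw [← pvP_translate a ε]
  rw [Measure.map_apply₀ hm.aemeasurable (by rw [pvP_translate]; exact hn)]
  congr 1
  ext η
  exact arms_cov a z s S η

/-- **annealing + stationarity** (glue) -/
theorem arms_anneal (ε : ℝ) (y : ℂ) (s S : ℝ) (L : ℕ) (Bad : Set PvGeoT) (κ : ℝ≥0∞)
    (h : ∀ g, g ∉ Bad → ∑ p ∈ armtBox L, pvQc (armsN (armtCtr y s p) s S) g ≤ κ) :
    ((2 * L + 1) ^ 2 : ℕ) * pvP ε (armsN y s S) ≤ κ + ((2 * L + 1) ^ 2 : ℕ) * pvGeo ε Bad := by
  set N : ℕ := (2 * L + 1) ^ 2 with hN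
  set B' : Set PvGeoT := toMeasurable (pvGeo ε) Bad with hB'
  have hB'm : MeasurableSet B' := measurableSet_toMeasurable _ _
  have hm : ∀ p : ℤ × ℤ, Measurable (pvQc (armsN (armtCtr y s p) s S)) := fun p => pvqu_Q_meas (arms_meas _ s S)
  have e1 : ∀ p : ℤ × ℤ, pvP ε (armsN y s S) = ∫⁻ g, pvQc (armsN (armtCtr y s p) s S) g ∂(pvGeo ε) := by
    intro p
    rw [← arms_inv ε (l9Pt s p) y s S, pvcn_bridge_apply ε (arms_meas _ s S), ← pvqu_Q_lintegral ε (arms_meas _ s S)]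
    rfl
  have e2 : (N : ℝ≥0∞) * pvP ε (armsN y s S) = ∫⁻ g, ∑ p ∈ armtBox L, pvQc (armsN (armtCtr y s p) s S) g ∂(pvGeo ε) := by
    rw [lintegral_finsetSum _ (fun p _ => hm p), ← Finset.sum_congr rfl (fun p _ => e1 p), Finset.sum_const, armt_box_card, nsmul_eq_mul]
  rw [e2]
  have hle : ∀ g, ∑ p ∈ armtBox L, pvQc (armsN (armtCtr y s p) s S) g ≤ κ + B'.indicator (fun _ => (N : ℝ≥0∞)) g := by
    intro g
    by_cases hg : g ∈ B'
    · rw [Set.indicator_of_mem hg]
      refine le_trans ?_ le_add_self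
      calc ∑ p ∈ armtBox L, pvQc (armsN (armtCtr y s p) s S) g ≤ ∑ _p ∈ armtBox L, (1 : ℝ≥0∞) := Finset.sum_le_sum fun p _ => pvqu_Q_le_one _ g
        _ = N := by rw [Finset.sum_const, armt_box_card, nsmul_eq_mul, mul_one]
    · rw [Set.indicator_of_notMem hg, add_zero]
      exact h g (fun hb => hg (subset_toMeasurable _ _ hb))
  calc ∫⁻ g, ∑ p ∈ armtBox L, pvQc (armsN (armtCtr y s p) s S) g ∂(pvGeo ε) ≤ ∫⁻ g, (κ + B'.indicator (fun _ => (N : ℝ≥0∞)) g) ∂(pvGeo ε) := lintegral_mono hle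
    _ = κ + N * pvGeo ε Bad := by
        rw [lintegral_add_left measurable_const, lintegral_const, measure_univ, mul_one, lintegral_indicator hB'm, lintegral_const,
          Measure.restrict_apply MeasurableSet.univ, Set.univ_inter, measure_toMeasurable]

/-- the numbers: `armt_num` at `R = S` (then `m' = 0`) -/
theorem arms_num (q : ℝ) (hq : 0 < q) (hq1 : q < 1) (C : ℝ) (hC : 0 ≤ C) : ∃ c C' M₀ : ℝ, 0 < c ∧ 0 ≤ C' ∧ 1 ≤ M₀ ∧ ∀ s S : ℝ, 0 < s → M₀ * s ≤ S →
    ∃ L m : ℕ, 2 * (L : ℝ) * s ≤ S / 64 ∧ 5 / 4 * 4 ^ (7 + 2 * m) * s ≤ S / 64 ∧ C * armtCl * (1 - q) ^ m / ((2 * L + 1) ^ 2 : ℕ) ≤ C' * (s / S) ^ (2 + c) := by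
  obtain ⟨c, C', M₀, hc, hC', hM, hnum⟩ := armt_num q hq hq1 C hC
  refine ⟨c, C', M₀, hc, hC', hM, fun s S hs hS => ?_⟩
  have hSpos : 0 < S := lt_of_lt_of_le (by positivity) hS
  obtain ⟨L, m, m', n1, n2, n3, n4⟩ := hnum s S S hs hS le_rfl
  have hm0 : m' = 0 := by
    by_contra hne
    have h1 : (4 : ℝ) ^ 4 ≤ 4 ^ (2 + 2 * m') := pow_le_pow_right₀ (by norm_num) (by omega)
    have h2 : 5 / 4 * (4 : ℝ) ^ 4 * (S / 32) ≤ 5 / 4 * 4 ^ (2 + 2 * m') * (S / 32) := by gcongr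
    norm_num at h2
    linarith
  subst hm0
  refine ⟨L, m, n1, n2, ?_⟩
  rw [div_self hSpos.ne', Real.one_rpow, mul_one, pow_zero, mul_one] at n4
  exact n4

/-- the main range `M₀ s ≤ S` (glue) -/
theorem arms_prob_main : ∃ c C M₀ : ℝ, 0 < c ∧ 0 ≤ C ∧ 1 ≤ M₀ ∧ ∀ εs : ℕ → ℝ, (∀ n, 0 < εs n) → Tendsto εs atTop (𝓝 0) → ∀ (y : ℂ) (s S : ℝ), 0 < s → M₀ * s ≤ S →
    ∀ᶠ n in atTop, (pvP (εs n) (armsN y s S)).toReal ≤ C * (s / S) ^ (2 + c) := by
  obtain ⟨q, hq, hq1, hfr⟩ := armt_frame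
  obtain ⟨C0, hC0, hQ⟩ := arms_quenched hq hq1
  obtain ⟨c, C', M₀, hc, hC', hM, hnum⟩ := arms_num q hq hq1 C0 hC0
  refine ⟨c, C' + 1, M₀, hc, by linarith, hM, fun εs h0 hε y s S hs hS => ?_⟩
  have hsS : s ≤ S := by nlinarith
  have hSpos : 0 < S := lt_of_lt_of_le hs hsS
  obtain ⟨L, m, n1, n2, n4⟩ := hnum s S hs hS
  obtain ⟨δ, hδdef⟩ : ∃ δ, δ = (s / S) ^ (2 + c) := ⟨_, rfl⟩
  have hδ : 0 < δ := by rw [hδdef]; positivity
  have hRs : ∀ r ∈ armtRs s S m 0, 0 < r := by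
    classical
    intro r hr
    unfold armtRs at hr
    rw [Finset.mem_union, Finset.mem_image, Finset.mem_image] at hr
    rcases hr with ⟨j, -, rfl⟩ | ⟨j, -, rfl⟩ <;> positivity
  have hlim := hfr εs h0 hε (armtZ y s L) (armtRs s S m 0) hRs
  have hev : ∀ᶠ n in atTop, pvGeo (εs n) {g | ¬ ArmtFrame q (armtZ y s L) (armtRs s S m 0) (pvgSites g)} ≤ ENNReal.ofReal δ :=
    hlim.eventually (Iic_mem_nhds (ENNReal.ofReal_pos.2 hδ))
  filter_upwards [hev] with n hn
  obtain ⟨Bad, hBad⟩ : ∃ Bad : Set PvGeoT, Bad = {g | ¬ PvgOk g} ∪ {g | ¬ ArmtFrame q (armtZ y s L) (armtRs s S m 0) (pvgSites g)} := ⟨_, rfl⟩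
  have hbad : pvGeo (εs n) Bad ≤ ENNReal.ofReal δ := by
    rw [hBad]
    refine (measure_union_le _ _).trans ?_
    have : pvGeo (εs n) {g | ¬ PvgOk g} = 0 := pvqu_ok_ae (εs n)
    rw [this, zero_add]
    exact hn
  obtain ⟨κ, hκ⟩ : ∃ κ : ℝ, κ = C0 * armtCl * (1 - q) ^ m := ⟨_, rfl⟩
  have hκ0 : 0 ≤ κ := by
    have : 0 ≤ 1 - q := by linarith
    rw [hκ]; positivity
  have hA := arms_anneal (εs n) y s S L Bad (ENNReal.ofReal κ) (fun g hg => by
    rw [hBad] at hg
    simp only [mem_union, mem_ofPred_eq, not_or, not_not] at hg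
    rw [hκ]
    exact hQ g hg.1 y s S L m hs hsS n1 n2 hg.2)
  obtain ⟨N, hN⟩ : ∃ N : ℕ, N = (2 * L + 1) ^ 2 := ⟨_, rfl⟩
  have hNpos : 0 < N := by rw [hN]; positivity
  rw [← hN] at hA n4
  rw [← hκ] at n4
  have h2 : (N : ℝ≥0∞) * pvP (εs n) (armsN y s S) ≤ ENNReal.ofReal (κ + N * δ) := by
    refine hA.trans ?_
    rw [ENNReal.ofReal_add hκ0 (by positivity), ENNReal.ofReal_mul (by positivity), ENNReal.ofReal_natCast]
    gcongr
  have h3 := ENNReal.toReal_le_of_le_ofReal (by positivity) h2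
  rw [ENNReal.toReal_mul, ENNReal.toReal_natCast] at h3
  have hNr : (0 : ℝ) < N := by exact_mod_cast hNpos
  have h4 : (pvP (εs n) (armsN y s S)).toReal ≤ κ / N + δ := by
    rw [div_add' _ _ _ hNr.ne', le_div_iff₀ hNr]
    linarith
  rw [← hδdef] at n4 ⊢
  linarith

/-- **the probability bound**, all `0 < s ≤ S` -/
theorem arms_prob : ∃ c C : ℝ, 0 < c ∧ 0 ≤ C ∧ ∀ εs : ℕ → ℝ, (∀ n, 0 < εs n) → Tendsto εs atTop (𝓝 0) → ∀ (y : ℂ) (s S : ℝ), 0 < s → s ≤ S →
    ∀ᶠ n in atTop, (pvP (εs n) (armsF y s S)).toReal ≤ C * (s / S) ^ (2 + c) := by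
  obtain ⟨c, C, M₀, hc, hC, hM, hmain⟩ := arms_prob_main
  have hM0 : 0 < M₀ := by linarith
  refine ⟨c, max C (M₀ ^ (2 + c)), hc, le_max_of_le_left hC, fun εs h0 hε y s S hs hsS => ?_⟩
  have hSpos : 0 < S := lt_of_lt_of_le hs hsS
  have u0 : 0 ≤ (s / S) ^ (2 + c) := by positivity
  rcases le_or_gt (M₀ * s) S with h | h
  · filter_upwards [hmain εs h0 hε y s S hs h] with n hn
    rw [arms_F_ae (h0 n).ne']
    exact hn.trans (mul_le_mul_of_nonneg_right (le_max_left _ _) u0)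
  · refine Eventually.of_forall fun n => ?_
    have h1 : (pvP (εs n) (armsF y s S)).toReal ≤ 1 := by
      have : pvP (εs n) (armsF y s S) ≤ 1 := prob_le_one
      exact ENNReal.toReal_le_of_le_ofReal zero_le_one (by simpa using this)
    have h2 : 1 ≤ M₀ * (s / S) := by rw [← mul_div_assoc, le_div_iff₀ hSpos]; linarith
    have h3 : (1 : ℝ) ≤ (M₀ * (s / S)) ^ (2 + c) := Real.one_le_rpow h2 (by linarith)
    rw [Real.mul_rpow hM0.le (by positivity)] at h3
    exact h1.trans (h3.trans (mul_le_mul_of_nonneg_right (le_max_right _ _) u0))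

/-- **THE SECOND EXIT OF ARM** -/
theorem arms_exit : ∃ c : ℝ, 0 < c ∧ Nonempty (PvSixExit c) := by
  obtain ⟨c, C, hc, -, hp⟩ := arms_prob
  refine ⟨c, hc, ⟨⟨C, armsF, arms_meas_F, hp, ?_⟩⟩⟩
  intro η y s S V D T lab col hL hcol hE
  by_cases hn : PvatNice (cfSites η)
  · exact Or.inl ⟨⟨V, D, T, lab, col, hL, hcol, hE⟩, hn⟩
  · exact Or.inr hn

/-! ## 5. the export of record `PvxvSix` (`Defs/Three`, 143) -/

/-- the plane map of a nice sample is a local model -/
theorem arms_loc_pvx {ω : PVSample} (h : DelGood (pvxY ω)) (K : Set ℂ) : ArmtLoc (pvxY ω) K (pvxT ω) (fun v => some (v : ℂ)) := by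
  unfold pvxT
  rw [delb_pl_eq h]
  exact armt_loc_plane h K

theorem arms_pvx_col_true (ω : PVSample) : pvxCol ω true = fun v => cfCol (pvConf ω) v.1 := by
  funext v
  unfold pvxCol
  cases cfCol (pvConf ω) v.1 <;> rfl

theorem arms_pvx_col_false (ω : PVSample) : pvxCol ω false = pvasNot fun v => cfCol (pvConf ω) v.1 := by
  funext v
  show (cfCol (pvConf ω) v.1 == false) = !cfCol (pvConf ω) v.1
  cases cfCol (pvConf ω) v.1 <;> rfl

/-- three passages (event of record) are three excursions, with a change of centre -/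
theorem arms_of_three {V D : Type} {T : PvMap V D} {pos : V → ℂ} {σ : V → Bool} {y y' : ℂ} {s S d : ℝ} (hd : ‖y - y'‖ ≤ d) (h : PvxvThree T pos σ y s S) :
    ArmsExc T (fun v => some (pos v)) σ y' (s + d) (S - d) := by
  obtain ⟨x, n, h1, h2⟩ := h
  refine ⟨x, n, fun i => (h1 i).1, fun i => Or.inl ?_, fun i => Or.inl ⟨_, rfl, ?_⟩, h2⟩
  · intro p hp
    have hp' : pos (T.src (x i)) = p := by simpa using hp
    rw [← hp']
    have := pvtv_tri (pos (T.src (x i))) y' y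
    rw [norm_sub_rev y' y] at this
    linarith [(h1 i).2.1]
  · exact (pvtv_tri _ y _).trans (add_le_add (h1 i).2.2 hd)

/-- **DET for the event of record** -/
theorem arms_det_pvx {ω : PVSample} {b : Bool} {y y' : ℂ} {s S d : ℝ} (hd : ‖y - y'‖ ≤ d) (h : PvxvThree (pvxT ω) (pvxPos ω) (pvxCol ω b) y s S) :
    pvConf ω ∈ armsF y' (s + d) (S - d) := by
  by_cases hn : PvatNice (cfSites (pvConf ω))
  · refine Or.inl ⟨⟨_, _, pvxT ω, fun v => some (v : ℂ), fun v => cfCol (pvConf ω) v.1, arms_loc_pvx hn.good _, ?_, ?_⟩, hn⟩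
    · intro v p hv
      have : (v : ℂ) = p := by simpa using hv
      show cfCol (pvConf ω) v.1 = cfCol (pvConf ω) p
      rw [this]
    · have h3 := arms_of_three hd h
      cases b
      · right
        rw [arms_pvx_col_false] at h3
        exact h3
      · left
        rw [arms_pvx_col_true] at h3
        exact h3
  · exact Or.inr hn

/-- the upper probability of a measurable event of configurations -/
theorem arms_up_le (ε : ℝ) {𝒜 : Set (Conf PvPt)} (h : MeasurableSet (pvConf ⁻¹' 𝒜)) : (pvhbUp ε).P {q | pvConf (pvMerge q) ∈ 𝒜} ≤ pvP ε 𝒜 := by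
  unfold pvhbUp
  rw [pvup_iter_P, ← pvqu_Qc_lintegral' ε h]
  exact pvup_int_le _ (pvqu_Q_meas h) fun g => le_rfl


/-- the event of record is covered by the events of the exit at the points of a net -/
theorem arms_ev_sub {x : ℂ} {R s S : ℝ} (hs : 0 < s) (hsR : s ≤ 3 / 2 * R) :
    pvxvEv x R s S ⊆ ⋃ y' ∈ pvtvNet x (3 / 2 * R) s, {q | pvConf (pvMerge q) ∈ armsF y' (s + 2 * s) (S - 2 * s)} := by
  rintro q ⟨b, y, hy, h⟩
  obtain ⟨y', hy', hd⟩ := pvtv_net_cov hs hsR (show ‖y - x‖ ≤ 2 * (3 / 2 * R) by linarith)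
  exact mem_biUnion hy' (arms_det_pvx hd h)

/-- **THE ARM EXPORT FOR `cover`** -/
theorem arms_six : ∃ c : ℝ, 0 < c ∧ PvxvSix c := by
  obtain ⟨c, C, hc, hC, hp⟩ := arms_prob
  refine ⟨c, hc, max (5 ^ c) (49 * (3 / 2) ^ 2 * C * 6 ^ (2 + c)), fun x R s S hs hsS hSR => ?_⟩
  have hSpos : 0 < S := lt_of_lt_of_le hs hsS
  have hRpos : 0 < R := lt_of_lt_of_le hSpos hSR
  have hRS : 1 ≤ (R / S) ^ 2 := one_le_pow₀ ((one_le_div hSpos).2 hSR)
  have u0 : 0 ≤ (s / S) ^ c := by positivity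
  rcases le_or_gt (5 * s) S with h4 | h4
  · -- the main range
    have hS' : 0 < S - 2 * s := by linarith
    have hs3 : s + 2 * s ≤ S - 2 * s := by linarith
    have hev : ∀ y' ∈ pvtvNet x (3 / 2 * R) s, ∀ᶠ ε in 𝓝[>] (0 : ℝ), (pvP ε (armsF y' (s + 2 * s) (S - 2 * s))).toReal ≤ C * ((s + 2 * s) / (S - 2 * s)) ^ (2 + c) := by
      intro y' _
      rw [eventually_iff_seq_eventually]
      intro εs hε
      have h1 := tendsto_nhdsWithin_iff.1 hε
      obtain ⟨N, hN⟩ := eventually_atTop.1 h1.2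
      -- make the sequence positive everywhere
      have h2 := hp (fun n => εs (n + N)) (fun n => hN _ (Nat.le_add_left _ _)) (h1.1.comp (tendsto_add_atTop_nat N)) y' (s + 2 * s) (S - 2 * s) (by linarith) hs3
      obtain ⟨M, hM⟩ := eventually_atTop.1 h2
      refine eventually_atTop.2 ⟨M + N, fun n hn => ?_⟩
      have := hM (n - N) (by omega)
      simpa [Nat.sub_add_cancel (show N ≤ n by omega)] using this
    filter_upwards [(Filter.eventually_all_finset _).2 hev] with ε hε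
    have hsR : s ≤ 3 / 2 * R := by linarith
    have h1 : (pvhbUp ε).P (pvxvEv x R s S) ≤ ∑ y' ∈ pvtvNet x (3 / 2 * R) s, pvP ε (armsF y' (s + 2 * s) (S - 2 * s)) :=
      ((pvhbUp ε).P_mono (arms_ev_sub hs hsR)).trans (((pvhbUp ε).P_biUnion_le _ _).trans (Finset.sum_le_sum fun y' _ => arms_up_le ε (arms_meas_F _ _ _)))
    have h2 : ((pvhbUp ε).P (pvxvEv x R s S)).toReal ≤ ∑ y' ∈ pvtvNet x (3 / 2 * R) s, (pvP ε (armsF y' (s + 2 * s) (S - 2 * s))).toReal := by
      rw [← ENNReal.toReal_sum fun y' _ => measure_ne_top _ _]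
      exact ENNReal.toReal_mono (ENNReal.sum_ne_top.2 fun y' _ => measure_ne_top _ _) h1
    have h3 : ∑ y' ∈ pvtvNet x (3 / 2 * R) s, (pvP ε (armsF y' (s + 2 * s) (S - 2 * s))).toReal ≤ ((pvtvNet x (3 / 2 * R) s).card : ℝ) * (C * ((s + 2 * s) / (S - 2 * s)) ^ (2 + c)) := by
      rw [← nsmul_eq_mul]
      exact Finset.sum_le_card_nsmul _ _ _ hε
    have h4' : ((pvtvNet x (3 / 2 * R) s).card : ℝ) ≤ 49 * (3 / 2 * R / s) ^ 2 := pvtv_net_card hs hsR
    have h5 : (s + 2 * s) / (S - 2 * s) ≤ 6 * (s / S) := by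
      rw [div_le_iff₀ hS']
      have : 6 * (s / S) * (S - 2 * s) = 6 * s * ((S - 2 * s) / S) := by field_simp
      rw [this]
      have : 1 / 2 ≤ (S - 2 * s) / S := by rw [le_div_iff₀ hSpos]; linarith
      nlinarith
    have h6 : ((s + 2 * s) / (S - 2 * s)) ^ (2 + c) ≤ 6 ^ (2 + c) * (s / S) ^ (2 + c) := by
      rw [← Real.mul_rpow (by norm_num) (by positivity)]
      exact Real.rpow_le_rpow (by positivity) h5 (by linarith)
    have h7 : (s / S) ^ (2 + c) = (s / S) ^ 2 * (s / S) ^ c := by rw [Real.rpow_add (by positivity), Real.rpow_two]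
    have h8 : (3 / 2 * R / s) ^ 2 * (s / S) ^ 2 = (3 / 2) ^ 2 * (R / S) ^ 2 := by field_simp
    calc ((pvhbUp ε).P (pvxvEv x R s S)).toReal ≤ ((pvtvNet x (3 / 2 * R) s).card : ℝ) * (C * ((s + 2 * s) / (S - 2 * s)) ^ (2 + c)) := h2.trans h3
      _ ≤ 49 * (3 / 2 * R / s) ^ 2 * (C * (6 ^ (2 + c) * (s / S) ^ (2 + c))) := by gcongr
      _ = 49 * ((3 / 2 * R / s) ^ 2 * (s / S) ^ 2) * C * 6 ^ (2 + c) * (s / S) ^ c := by rw [h7]; ring
      _ = 49 * (3 / 2) ^ 2 * C * 6 ^ (2 + c) * (R / S) ^ 2 * (s / S) ^ c := by rw [h8]; ring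
      _ ≤ max (5 ^ c) (49 * (3 / 2) ^ 2 * C * 6 ^ (2 + c)) * (R / S) ^ 2 * (s / S) ^ c := by
          gcongr
          exact le_max_right _ _
  · -- `S < 5 s`: the bound is trivial
    refine Eventually.of_forall fun ε => ?_
    have h1 : ((pvhbUp ε).P (pvxvEv x R s S)).toReal ≤ 1 :=
      ENNReal.toReal_le_of_le_ofReal zero_le_one (by simpa using (pvhbUp ε).P_le_one _)
    have h2 : 1 ≤ 5 * (s / S) := by rw [← mul_div_assoc, le_div_iff₀ hSpos]; linarith
    have h3 : (1 : ℝ) ≤ (5 * (s / S)) ^ c := Real.one_le_rpow h2 hc.le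
    rw [Real.mul_rpow (by norm_num) (by positivity)] at h3
    calc ((pvhbUp ε).P (pvxvEv x R s S)).toReal ≤ 1 := h1
      _ ≤ 5 ^ c * (s / S) ^ c := h3
      _ = 5 ^ c * 1 * (s / S) ^ c := by ring
      _ ≤ max (5 ^ c) (49 * (3 / 2) ^ 2 * C * 6 ^ (2 + c)) * (R / S) ^ 2 * (s / S) ^ c := by
          gcongr
          exact le_max_left _ _

end Claimed.Agent.R289
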