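-- KEEP
import Claimed.Agent.R289.Arm.Top
import Claimed.Agent.R289.Arm.DictLoc

/-!
# Row 289 (S0537, Cardy for Poisson-Voronoi), box ARM, file Arm/TopGlue : THE END OF `Arm/Top.lean`      (texts of helper186 71 81 110, moved VERBATIM by helper146, 09:55Z; prefix `armt_`)

WHY: `armt_nr_cfg` is proved in `Arm/DictLoc.lean` (137: `pvdl_nr_cfg`), which imports `Arm/Top.lean` for its definitions.      So the consumers of `armt_nr_cfg` sit here, ABOVE both files:
`armt_nr_cfg := pvdl_nr_cfg`, `armt_quenched`, `armt_prob_main`, **`armt_near : ∃ c > 0, Nonempty (PvNearExit c)`** = the exit of ARM (consumer: `exit_l9_arm` of `Exit/Transport.lean`).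
-/

set_option autoImplicit false
set_option linter.unusedSectionVars false
set_option linter.unusedVariables false

namespace Claimed.Agent.R289

open MeasureTheory ProbabilityTheory Set Filter Topology Metric
open scoped ENNReal NNReal
open Claims.C0465

open Classical in
/-- **CONTRACT: NEAR RETURN IN SOME MODEL ⟹ CONFIG6 + OUTER ARM IN THE PLANE MODEL** (deterministic).
Plan.  `(T', lab')` the model, `K = closedBall (ζ b) (4R)`.  All the faces of `(G.δ top).Left` have their vertices within `2R` of `ζ b`: they and their neighbours are faces of the `K`-star, on which `delMap h` and `T'` are isomorphic (labels; `ArmtLoc.face/del/inj/simple`).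
(a) TRANSFER KIT (97 `Pl/Excise`, 219 `Del/Bulk`): a cycle `c` of `delMap h` with `c.Left` in the star gives a cycle `c'` of `T'` with `c'.Left` = image of `c.Left` (the image is closed under `DStep`); `Inside`, `VOf`, `Int`, `pvasIt`, `pvatLay`, `PvatRun`, `PvatCfg`, `PvaxCr` are transported in both directions;
(b) NR-DET in `T'` (228, `Arm/NearRet`): the two visits are in `Int (γ b 0)'.Left` (`At.inn`), the far vertices are off `VOf (δ 1)'.Left` (`At.mid`): EX triple CONFIG6, for `col` or `pvasNot col` (colour of the rim);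
(c) the rim from a visit to the vertex beyond `2R` crosses the outer tower (`At.out`). -/
theorem armt_nr_cfg {Y : Set ℂ} (h : DelGood Y) (σ : ℂ → Bool) {ι : Type} {q : ℝ} {m m' Cl : ℕ} (G : ArmtGeo (delMap h) ι q m m' Cl) {ζ : ι → ℂ} {s S R : ℝ}
    (hG : G.At (dlsPos Y) ζ s S R) (hs : 0 < s) (hsS : s ≤ S) (hSR : S ≤ R) (b : ι) (hN : ArmtNR Y σ (ζ b) s S R) :
    (G.Cfg6 b (fun v => σ v) ∨ G.Cfg6 b (pvasNot fun v => σ v)) ∧ G.Out (fun v => σ v) :=
  pvdl_nr_cfg h σ G hG hs hsS hSR b hN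

/-- **the quenched bound on a frame** (glue) -/
theorem armt_quenched {q : ℝ} (hq : 0 < q) (hq1 : q < 1) : ∃ C : ℝ, 0 ≤ C ∧ ∀ (g : PvGeoT), PvgOk g → ∀ (y : ℂ) (s S R : ℝ) (L m m' : ℕ), 0 < s → s ≤ S → S ≤ R →
    2 * (L : ℝ) * s ≤ S / 64 → 5 / 4 * 4 ^ (7 + 2 * m) * s ≤ S / 64 → 5 / 4 * 4 ^ (2 + 2 * m') * (S / 32) + S / 64 ≤ 2 * R →
    ArmtFrame q (armtZ y s L) (armtRs s S m m') (pvgSites g) →
      ∑ p ∈ armtBox L, pvQc (armtN (armtCtr y s p) s S R) g ≤ ENNReal.ofReal (C * armtCl * (1 - q) ^ m * (1 - q) ^ m') := by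
  classical
  obtain ⟨C, hC, hcount⟩ := armt_count q hq hq1
  refine ⟨C, hC, ?_⟩
  intro g hg y s S R L m m' hs hsS hSR hL hm hm' hF
  obtain ⟨h, G, hAt⟩ := armt_geo hs hL hm hm' hF
  have hsph : (delMap h).IsSph := (armt_loc_plane h Set.univ).sph
  have hsimple : (delMap h).Simple := (armt_loc_plane h Set.univ).simple
  have hfin : ((delMap h).VOf (G.δ (2 + 2 * m')).Left).Finite := by
    have : (delMap h).VOf (G.δ (2 + 2 * m')).Left = (delMap h).src '' (G.δ (2 + 2 * m')).Left := by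
      ext v
      simp only [PvMap.VOf, Set.mem_ofPred_eq, Set.mem_image]
    rw [this]
    exact (G.fin _).image _
  set A : Finset (pvgSites g) := hfin.toFinset with hAdef
  have hA : ∀ v ∈ (delMap h).VOf (G.δ (2 + 2 * m')).Left, v ∈ A := fun v hv => hfin.mem_toFinset.2 hv
  set ξ : pvgSites g → Bool := fun _ => false with hξ
  have hcol : ∀ (c : PvColT) (z : ℂ), z ∈ pvgSites g → cfCol (cfOf (pvgSites g) (pvgColAt g c)) z = pvgColAt g c z := by
    intro c z hz
    unfold cfCol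
    by_cases hc : pvgColAt g c z = true
    · rw [hc, decide_eq_true_iff]
      exact ⟨hz, hc.symm⟩
    · rw [Bool.not_eq_true] at hc
      rw [hc, decide_eq_false_iff_not]
      rintro ⟨-, h2⟩
      rw [hc] at h2
      exact Bool.noConfusion h2
  have hone : ∀ p : armtBox L, pvQc (armtN (armtCtr y s p) s S R) g
      ≤ ENNReal.ofReal (pvaP A ξ (fun σ => (G.Cfg6 p σ ∨ G.Cfg6 p (pvasNot σ)) ∧ G.Out σ)) := by
    intro p
    rw [← armt_col hg A _ (armt_cfg_loc hsph G A hA p) ξ, pvqu_Qc_eq]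
    refine measure_mono fun c hc => ?_
    have h1 : ArmtNR (cfSites (pvConf (pvMerge (g, c)))) (cfCol (pvConf (pvMerge (g, c)))) (armtCtr y s p) s S R := hc.1
    rw [hg.conf_eq c, cfOf_sites] at h1
    have h2 : ArmtNR (pvgSites g) (pvgColAt g c) (armtCtr y s p) s S R := armt_nr_congr (fun z hz => hcol c z hz) h1
    exact armt_nr_cfg h (pvgColAt g c) G hAt hs hsS hSR p h2
  calc ∑ p ∈ armtBox L, pvQc (armtN (armtCtr y s p) s S R) g = ∑ p : armtBox L, pvQc (armtN (armtCtr y s p) s S R) g :=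
        (Finset.sum_coe_sort (armtBox L) (fun p => pvQc (armtN (armtCtr y s p) s S R) g)).symm
    _ ≤ ∑ p : armtBox L, ENNReal.ofReal (pvaP A ξ (fun σ => (G.Cfg6 p σ ∨ G.Cfg6 p (pvasNot σ)) ∧ G.Out σ)) := Finset.sum_le_sum fun p _ => hone p
    _ = ENNReal.ofReal (∑ p : armtBox L, pvaP A ξ (fun σ => (G.Cfg6 p σ ∨ G.Cfg6 p (pvasNot σ)) ∧ G.Out σ)) :=
        (ENNReal.ofReal_sum_of_nonneg fun p _ => pva_P_nonneg _ _ _).symm
    _ ≤ ENNReal.ofReal (C * armtCl * (1 - q) ^ m * (1 - q) ^ m') :=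
        ENNReal.ofReal_le_ofReal (hcount _ _ _ (delMap h) hsph hsimple m m' armtCl G A ξ hA)

/-- the main range `M₀ s ≤ S` (glue) -/
theorem armt_prob_main : ∃ c C M₀ : ℝ, 0 < c ∧ 0 ≤ C ∧ 1 ≤ M₀ ∧ ∀ εs : ℕ → ℝ, (∀ n, 0 < εs n) → Tendsto εs atTop (𝓝 0) → ∀ (y : ℂ) (s S R : ℝ), 0 < s → M₀ * s ≤ S → S ≤ R →
    ∀ᶠ n in atTop, (pvP (εs n) (armtN y s S R)).toReal ≤ C * (s / S) ^ (2 + c) * (S / R) ^ c := by
  obtain ⟨q, hq, hq1, hfr⟩ := armt_frame
  obtain ⟨C0, hC0, hQ⟩ := armt_quenched hq hq1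
  obtain ⟨c, C', M₀, hc, hC', hM, hnum⟩ := armt_num q hq hq1 C0 hC0
  refine ⟨c, C' + 1, M₀, hc, by linarith, hM, fun εs h0 hε y s S R hs hS hR => ?_⟩
  have hsS : s ≤ S := by nlinarith
  have hSpos : 0 < S := lt_of_lt_of_le hs hsS
  have hRpos : 0 < R := lt_of_lt_of_le hSpos hR
  obtain ⟨L, m, m', n1, n2, n3, n4⟩ := hnum s S R hs hS hR
  obtain ⟨δ, hδdef⟩ : ∃ δ, δ = (s / S) ^ (2 + c) * (S / R) ^ c := ⟨_, rfl⟩
  have hδ : 0 < δ := by rw [hδdef]; positivity
  have hRs : ∀ r ∈ armtRs s S m m', 0 < r := by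
    classical
    intro r hr
    unfold armtRs at hr
    rw [Finset.mem_union, Finset.mem_image, Finset.mem_image] at hr
    rcases hr with ⟨j, -, rfl⟩ | ⟨j, -, rfl⟩ <;> positivity
  have hlim := hfr εs h0 hε (armtZ y s L) (armtRs s S m m') hRs
  have hev : ∀ᶠ n in atTop, pvGeo (εs n) {g | ¬ ArmtFrame q (armtZ y s L) (armtRs s S m m') (pvgSites g)} ≤ ENNReal.ofReal δ :=
    hlim.eventually (Iic_mem_nhds (ENNReal.ofReal_pos.2 hδ))
  filter_upwards [hev] with n hn
  obtain ⟨Bad, hBad⟩ : ∃ Bad : Set PvGeoT, Bad = {g | ¬ PvgOk g} ∪ {g | ¬ ArmtFrame q (armtZ y s L) (armtRs s S m m') (pvgSites g)} := ⟨_, rfl⟩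
  have hbad : pvGeo (εs n) Bad ≤ ENNReal.ofReal δ := by
    rw [hBad]
    refine (measure_union_le _ _).trans ?_
    have : pvGeo (εs n) {g | ¬ PvgOk g} = 0 := pvqu_ok_ae (εs n)
    rw [this, zero_add]
    exact hn
  obtain ⟨κ, hκ⟩ : ∃ κ : ℝ, κ = C0 * armtCl * (1 - q) ^ m * (1 - q) ^ m' := ⟨_, rfl⟩
  have hκ0 : 0 ≤ κ := by
    have : 0 ≤ 1 - q := by linarith
    rw [hκ]; positivity
  have hA := armt_anneal (εs n) y s S R L Bad (ENNReal.ofReal κ) (fun g hg => by
    rw [hBad] at hg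
    simp only [mem_union, mem_ofPred_eq, not_or, not_not] at hg
    rw [hκ]
    exact hQ g hg.1 y s S R L m m' hs hsS hR n1 n2 n3 hg.2)
  obtain ⟨N, hN⟩ : ∃ N : ℕ, N = (2 * L + 1) ^ 2 := ⟨_, rfl⟩
  have hNpos : 0 < N := by rw [hN]; positivity
  rw [← hN] at hA n4
  rw [← hκ] at n4
  have h2 : (N : ℝ≥0∞) * pvP (εs n) (armtN y s S R) ≤ ENNReal.ofReal (κ + N * δ) := by
    refine hA.trans ?_
    rw [ENNReal.ofReal_add hκ0 (by positivity), ENNReal.ofReal_mul (by positivity), ENNReal.ofReal_natCast]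
    gcongr
  have h3 := ENNReal.toReal_le_of_le_ofReal (by positivity) h2
  rw [ENNReal.toReal_mul, ENNReal.toReal_natCast] at h3
  have hNr : (0 : ℝ) < N := by exact_mod_cast hNpos
  have h4 : (pvP (εs n) (armtN y s S R)).toReal ≤ κ / N + δ := by
    rw [div_add' _ _ _ hNr.ne', le_div_iff₀ hNr]
    linarith
  have h5 : C' * (s / S) ^ (2 + c) * (S / R) ^ c = C' * δ := by rw [hδdef]; ring
  rw [h5] at n4
  have h6 : (C' + 1) * (s / S) ^ (2 + c) * (S / R) ^ c = (C' + 1) * δ := by rw [hδdef]; ring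
  rw [h6]
  linarith

/-- **THE EXIT** -/
theorem armt_near : ∃ c : ℝ, 0 < c ∧ Nonempty (PvNearExit c) := by
  obtain ⟨c1, C1, M₀, hc1, hC1, hM, hmain⟩ := armt_prob_main
  obtain ⟨C2, a, hC2, ha, harm⟩ := pvr_arm1_vertex
  refine ⟨min c1 a, lt_min hc1 ha, ⟨⟨max C1 (2 * C2 * M₀ ^ 2), armtF, ?_, ?_⟩⟩⟩
  · intro εs h0 hε y s S R hs hsS hSR
    obtain ⟨c, hcdef⟩ : ∃ c, c = min c1 a := ⟨_, rfl⟩
    rw [← hcdef]
    have hcc1 : c ≤ c1 := by rw [hcdef]; exact min_le_left _ _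
    have hca : c ≤ a := by rw [hcdef]; exact min_le_right _ _
    have hSpos : 0 < S := lt_of_lt_of_le hs hsS
    have hRpos : 0 < R := lt_of_lt_of_le hSpos hSR
    have p1 : 0 < s / S := by positivity
    have p2 : 0 < S / R := by positivity
    have q1 : s / S ≤ 1 := (div_le_one hSpos).2 hsS
    have q2 : S / R ≤ 1 := (div_le_one hRpos).2 hSR
    have u0 : 0 ≤ (s / S) ^ (2 + c) := by positivity
    have v0 : 0 ≤ (S / R) ^ c := by positivity
    rcases le_or_gt (M₀ * s) S with h | h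
    · filter_upwards [hmain εs h0 hε y s S R hs h hSR] with n hn
      have hmono : (pvP (εs n) (armtF y s S R)).toReal ≤ (pvP (εs n) (armtN y s S R)).toReal := by
        rw [armt_F_ae (h0 n).ne']
        exact ENNReal.toReal_mono (measure_ne_top _ _) (measure_mono inter_subset_left)
      refine hmono.trans (hn.trans ?_)
      have e1 : (s / S) ^ (2 + c1) ≤ (s / S) ^ (2 + c) := pvxa_rpow_le p1 q1 (by linarith)
      have e2 : (S / R) ^ c1 ≤ (S / R) ^ c := pvxa_rpow_le p2 q2 hcc1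
      calc C1 * (s / S) ^ (2 + c1) * (S / R) ^ c1 ≤ C1 * (s / S) ^ (2 + c) * (S / R) ^ c := by
            apply mul_le_mul (mul_le_mul_of_nonneg_left e1 hC1) e2 (by positivity) (by positivity)
        _ ≤ max C1 (2 * C2 * M₀ ^ 2) * (s / S) ^ (2 + c) * (S / R) ^ c := by
            apply mul_le_mul_of_nonneg_right (mul_le_mul_of_nonneg_right (le_max_left _ _) u0) v0
    · have hev : ∀ᶠ n in atTop, εs n ≤ s := (hε.eventually (gt_mem_nhds hs)).mono fun n hn => le_of_lt hn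
      filter_upwards [hev] with n hn
      have hsub : armtN y s S R ∩ {η | ∃ b, PvArm1 η b y s R} ⊆ {η | PvArm1 η true y s R} ∪ {η | PvArm1 η false y s R} := by
        rintro η ⟨-, b, hb⟩
        cases b
        · right; exact hb
        · left; exact hb
      have hle : pvP (εs n) (armtF y s S R) ≤ ENNReal.ofReal (2 * (C2 * (s / R) ^ a)) := by
        rw [armt_F_ae (h0 n).ne']
        refine (measure_mono hsub).trans ((measure_union_le _ _).trans ?_)
        rw [two_mul, ENNReal.ofReal_add (by positivity) (by positivity)]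
        exact add_le_add (harm _ _ _ _ _ (h0 n) hn (hsS.trans hSR)) (harm _ _ _ _ _ (h0 n) hn (hsS.trans hSR))
      refine (ENNReal.toReal_le_of_le_ofReal (by positivity) hle).trans ?_
      have e1 : (s / R) ^ a ≤ (s / R) ^ c := pvxa_rpow_le (by positivity) ((div_le_one hRpos).2 (hsS.trans hSR)) hca
      have e2 : (s / R) ^ c = (s / S) ^ c * (S / R) ^ c := by
        rw [← Real.mul_rpow p1.le p2.le]
        congr 1
        field_simp
      have e3 : (s / S) ^ c ≤ M₀ ^ 2 * (s / S) ^ (2 + c) := by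
        rw [Real.rpow_add p1, Real.rpow_two]
        have h1 : 1 ≤ M₀ * (s / S) := by rw [← mul_div_assoc, le_div_iff₀ hSpos]; linarith
        have h2 : 1 ≤ (M₀ * (s / S)) ^ 2 := one_le_pow₀ h1
        have h3 : 0 ≤ (s / S) ^ c := by positivity
        calc (s / S) ^ c = 1 * (s / S) ^ c := by ring
          _ ≤ (M₀ * (s / S)) ^ 2 * (s / S) ^ c := mul_le_mul_of_nonneg_right h2 h3
          _ = M₀ ^ 2 * ((s / S) ^ 2 * (s / S) ^ c) := by ring
      calc 2 * (C2 * (s / R) ^ a) ≤ 2 * (C2 * ((s / S) ^ c * (S / R) ^ c)) := by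
            rw [← e2]
            exact mul_le_mul_of_nonneg_left (mul_le_mul_of_nonneg_left e1 hC2.le) (by norm_num)
        _ ≤ 2 * (C2 * ((M₀ ^ 2 * (s / S) ^ (2 + c)) * (S / R) ^ c)) := by
            exact mul_le_mul_of_nonneg_left (mul_le_mul_of_nonneg_left (mul_le_mul_of_nonneg_right e3 v0) hC2.le) (by norm_num)
        _ = (2 * C2 * M₀ ^ 2) * (s / S) ^ (2 + c) * (S / R) ^ c := by ring
        _ ≤ max C1 (2 * C2 * M₀ ^ 2) * (s / S) ^ (2 + c) * (S / R) ^ c := by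
            apply mul_le_mul_of_nonneg_right (mul_le_mul_of_nonneg_right (le_max_right _ _) u0) v0
  · intro X _ 𝔅 η ξ x y s S R hy hs hsS hSR hAdm hOk P hP hret
    exact armt_det X 𝔅 η ξ x y s S R hy hs hsS hSR hAdm hOk P hP hret

end Claimed.Agent.R289
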