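-- KEEP
import Claimed.Agent.R289.Arm.Top6
import Claimed.Agent.R289.Defs.Three
import Claimed.Agent.R289.Tr.Cover

/-!
# Row 289 (S0537, Cardy for Poisson-Voronoi), box ARM, file Arm/TopUnion : THE ARM EXPORT FOR THE FIELD `cover` OF THE WALL      (owner helper222; prefix `armu_`)

GOAL: **`armu_six : ∃ c > 0, PvxvSix c`** (`Defs/Three.lean` of 143), GLUE on `arms_exit` of 84 (`Arm/Top6.lean`).

* `armu_loc`     the plane map of record `pvxT ω` is a local model (`ArmtLoc`) for every region, on the nice site sets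
* `armu_exc`     change of centre: `PvxvThree` at `(y; s, S)`, `‖y - y'‖ ≤ 2s`, `4s ≤ S`  ⟹  `ArmsExc` at `(y'; 3s, S/2)`
* `armu_cap`     `(pvhbUp ε).P (pull-back of A) ≤ pvP ε A` for the events with a measurable pull-back
* `armu_sub`     the event of record is covered by the net
* `armu_main`    the range `6s ≤ S`;      `armu_six`
-/

set_option autoImplicit false
set_option linter.unusedSectionVars false
set_option linter.unusedVariables false

namespace Claimed.Agent.R289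

open MeasureTheory Set Filter Topology Metric
open scoped ENNReal
open Claims.C0465

/-- the plane map of record is a local model for every region, on the nice site sets -/
theorem armu_loc {ω : PVSample} (h : PvatNice (pvxY ω)) (K : Set ℂ) : ArmtLoc (pvxY ω) K (pvxT ω) (fun v => some (v : ℂ)) := by
  unfold pvxT
  rw [delb_pl_eq h.good]
  exact armt_loc_plane h.good K

/-- **change of centre** -/
theorem armu_exc {V D : Type} {T : PvMap V D} {pos : V → ℂ} {σ : V → Bool} {y y' : ℂ} {s S : ℝ} (h : PvxvThree T pos σ y s S) (hy : ‖y - y'‖ ≤ 2 * s) (hsS : 4 * s ≤ S) :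
    ArmsExc T (fun v => some (pos v)) σ y' (3 * s) (S / 2) := by
  obtain ⟨d, n, h1, h2⟩ := h
  refine ⟨d, n, fun i => (h1 i).1, fun i => Or.inl ?_, fun i => Or.inl ⟨_, rfl, ?_⟩, h2⟩
  · intro p hp
    obtain rfl := Option.some.inj hp
    have a1 := (h1 i).2.1
    have a2 : ‖pos (T.src (d i)) - y‖ ≤ ‖pos (T.src (d i)) - y'‖ + ‖y' - y‖ := by
      have := norm_add_le (pos (T.src (d i)) - y') (y' - y)
      rwa [sub_add_sub_cancel] at this
    rw [norm_sub_rev y' y] at a2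
    linarith
  · have a1 := (h1 i).2.2
    have a2 : ‖pos (T.src (pvasIt T σ (d i) (n i))) - y'‖ ≤ ‖pos (T.src (pvasIt T σ (d i) (n i))) - y‖ + ‖y - y'‖ := by
      have := norm_add_le (pos (T.src (pvasIt T σ (d i) (n i))) - y) (y - y')
      rwa [sub_add_sub_cancel] at this
    linarith

/-- the two-level upper probability of an event with a measurable pull-back -/
theorem armu_cap (ε : ℝ) {A : Set (Conf PvPt)} (hA : MeasurableSet (pvConf ⁻¹' A)) : (pvhbUp ε).P (pvMerge ⁻¹' (pvConf ⁻¹' A)) ≤ pvP ε A := by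
  have h1 := pvhb_up_le_law ε ((pvConf ⁻¹' A).indicator fun _ => 1)
  have h2 : (PvUp.ofMeasure (pvLaw ε)).E ((pvConf ⁻¹' A).indicator fun _ => 1) = pvLaw ε (pvConf ⁻¹' A) := pvup_ofMeasure_P (pvLaw ε) _
  rw [h2, ← pvcn_bridge_apply ε hA] at h1
  exact h1

/-- the colourings of record -/
theorem armu_col (ω : PVSample) (b : Bool) : pvxCol ω b = (fun v => cfCol (pvConf ω) v.1) ∨ pvxCol ω b = pvasNot (fun v => cfCol (pvConf ω) v.1) := by
  cases b
  · right
    funext v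
    simp [pvxCol, pvasNot]
  · left
    funext v
    simp [pvxCol]

/-- the event of record is covered by the net -/
theorem armu_sub {c : ℝ} (X : PvSixExit c) {x : ℂ} {R s S : ℝ} (hs : 0 < s) (hsS : 6 * s ≤ S) (hSR : S ≤ R) :
    pvxvEv x R s S ⊆ pvMerge ⁻¹' (pvConf ⁻¹' {η | ¬ PvatNice (cfSites η)}) ∪ ⋃ y ∈ pvtvNet x (3 * R / 2) s, pvMerge ⁻¹' (pvConf ⁻¹' X.F y (3 * s) (S / 2)) := by
  rintro q ⟨b, y, hy, h3⟩
  by_cases hn : PvatNice (cfSites (pvConf (pvMerge q)))
  · right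
    obtain ⟨y', hy', hyy⟩ := pvtv_net_cov (x := x) (w := y) (R := 3 * R / 2) hs (by linarith) (by linarith)
    refine mem_biUnion hy' ?_
    have hE := armu_exc h3 hyy (by linarith)
    refine X.det _ y' (3 * s) (S / 2) _ _ (pvxT (pvMerge q)) (fun v => some (v : ℂ)) (fun v => cfCol (pvConf (pvMerge q)) v.1) (armu_loc hn _) ?_ ?_
    · intro v p hv
      rw [← Option.some.inj hv]
    · rcases armu_col (pvMerge q) b with e | e
      · left; rw [e] at hE; exact hE
      · right; rw [e] at hE; exact hE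
  · left
    exact hn

/-- the main range -/
theorem armu_main {c : ℝ} (X : PvSixExit c) (x : ℂ) {R s S : ℝ} (hs : 0 < s) (hsS : 6 * s ≤ S) (hSR : S ≤ R) :
    ∀ᶠ ε in 𝓝[>] (0 : ℝ), ((pvhbUp ε).P (pvxvEv x R s S)).toReal ≤ 49 * (3 * R / 2 / s) ^ 2 * (X.C * (3 * s / (S / 2)) ^ (2 + c)) := by
  rw [pvhb_eventually_iff]
  intro es h0 he
  have hS : 0 < S := by linarith
  have h1 : ∀ y ∈ pvtvNet x (3 * R / 2) s, ∀ᶠ n in atTop, (pvP (es n) (X.F y (3 * s) (S / 2))).toReal ≤ X.C * (3 * s / (S / 2)) ^ (2 + c) :=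
    fun y _ => X.prob es h0 he y (3 * s) (S / 2) (by positivity) (by linarith)
  have hp0 : 0 ≤ X.C * (3 * s / (S / 2)) ^ (2 + c) := by
    obtain ⟨n, hn⟩ := (X.prob es h0 he x (3 * s) (S / 2) (by positivity) (by linarith)).exists
    exact ENNReal.toReal_nonneg.trans hn
  filter_upwards [(Filter.eventually_all_finset _).2 h1] with n hn
  have hnull : (pvhbUp (es n)).P (pvMerge ⁻¹' (pvConf ⁻¹' {η | ¬ PvatNice (cfSites η)})) = 0 := by
    have hm : MeasurableSet (pvConf ⁻¹' {η : Conf PvPt | ¬ PvatNice (cfSites η)}) := pvat_meas_niceEv.compl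
    refine le_antisymm ((armu_cap (es n) hm).trans (le_of_eq ?_)) zero_le
    exact pvat_nice_ae (h0 n).ne'
  have h2 : (pvhbUp (es n)).P (pvxvEv x R s S) ≤ ∑ y ∈ pvtvNet x (3 * R / 2) s, pvP (es n) (X.F y (3 * s) (S / 2)) := by
    refine ((pvhbUp (es n)).P_mono (armu_sub X hs hsS hSR)).trans (((pvhbUp (es n)).P_union_le _ _).trans ?_)
    rw [hnull, zero_add]
    exact ((pvhbUp (es n)).P_biUnion_le _ _).trans (Finset.sum_le_sum fun y _ => armu_cap (es n) (X.meas y _ _))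
  have hfin : ∀ y ∈ pvtvNet x (3 * R / 2) s, pvP (es n) (X.F y (3 * s) (S / 2)) ≠ ⊤ := fun y _ => measure_ne_top _ _
  calc ((pvhbUp (es n)).P (pvxvEv x R s S)).toReal ≤ (∑ y ∈ pvtvNet x (3 * R / 2) s, pvP (es n) (X.F y (3 * s) (S / 2))).toReal :=
        ENNReal.toReal_mono (ENNReal.sum_ne_top.2 hfin) h2
    _ = ∑ y ∈ pvtvNet x (3 * R / 2) s, (pvP (es n) (X.F y (3 * s) (S / 2))).toReal := ENNReal.toReal_sum hfin
    _ ≤ ∑ _y ∈ pvtvNet x (3 * R / 2) s, X.C * (3 * s / (S / 2)) ^ (2 + c) := Finset.sum_le_sum hn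
    _ = ((pvtvNet x (3 * R / 2) s).card : ℝ) * (X.C * (3 * s / (S / 2)) ^ (2 + c)) := by rw [Finset.sum_const, nsmul_eq_mul]
    _ ≤ 49 * (3 * R / 2 / s) ^ 2 * (X.C * (3 * s / (S / 2)) ^ (2 + c)) := mul_le_mul_of_nonneg_right (pvtv_net_card hs (by linarith)) hp0

/-- **THE ARM EXPORT FOR `cover`** from an exit of 84 -/
theorem armu_six_of {c : ℝ} (hc : 0 < c) (X : PvSixExit c) : PvxvSix c := by
  refine ⟨max (49 * (9 / 4) * (|X.C| * 6 ^ (2 + c))) (6 ^ c), fun x R s S hs hsS hSR => ?_⟩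
  have hS : 0 < S := lt_of_lt_of_le hs hsS
  have hR : 0 < R := lt_of_lt_of_le hS hSR
  have u0 : 0 < s / S := div_pos hs hS
  have u1 : 0 ≤ (s / S) ^ c := (Real.rpow_pos_of_pos u0 c).le
  have u2 : 1 ≤ (R / S) ^ 2 := one_le_pow₀ ((one_le_div hS).2 hSR)
  rcases le_or_gt (6 * s) S with h | h
  · filter_upwards [armu_main X x hs h hSR] with ε hε
    refine hε.trans ?_
    have e1 : 3 * s / (S / 2) = 6 * (s / S) := by field_simp; ring
    have e2 : (6 * (s / S)) ^ (2 + c) = 6 ^ (2 + c) * ((s / S) ^ 2 * (s / S) ^ c) := by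
      rw [Real.mul_rpow (by norm_num) u0.le, Real.rpow_add u0, Real.rpow_two]
    have e3 : 49 * (3 * R / 2 / s) ^ 2 * (|X.C| * (6 ^ (2 + c) * ((s / S) ^ 2 * (s / S) ^ c))) = 49 * (9 / 4) * (|X.C| * 6 ^ (2 + c)) * (R / S) ^ 2 * (s / S) ^ c := by
      field_simp
      ring
    rw [e1, e2]
    calc 49 * (3 * R / 2 / s) ^ 2 * (X.C * (6 ^ (2 + c) * ((s / S) ^ 2 * (s / S) ^ c)))
        ≤ 49 * (3 * R / 2 / s) ^ 2 * (|X.C| * (6 ^ (2 + c) * ((s / S) ^ 2 * (s / S) ^ c))) := by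
          gcongr
          exact le_abs_self _
      _ = 49 * (9 / 4) * (|X.C| * 6 ^ (2 + c)) * (R / S) ^ 2 * (s / S) ^ c := e3
      _ ≤ _ := by
          gcongr
          exact le_max_left _ _
  · refine Eventually.of_forall fun ε => ?_
    have h1 : ((pvhbUp ε).P (pvxvEv x R s S)).toReal ≤ 1 :=
      ENNReal.toReal_le_of_le_ofReal zero_le_one (by simpa using (pvhbUp ε).P_le_one _)
    have h2 : 1 ≤ 6 * (s / S) := by rw [← mul_div_assoc, le_div_iff₀ hS]; linarith
    have h3 : (1 : ℝ) ≤ (6 * (s / S)) ^ c := Real.one_le_rpow h2 hc.le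
    rw [Real.mul_rpow (by norm_num) u0.le] at h3
    have h4 : (0 : ℝ) ≤ 6 ^ c := by positivity
    calc _ ≤ (1 : ℝ) := h1
      _ ≤ 6 ^ c * (s / S) ^ c := h3
      _ ≤ 6 ^ c * (R / S) ^ 2 * (s / S) ^ c := by
          refine mul_le_mul_of_nonneg_right ?_ u1
          nlinarith
      _ ≤ _ := by
          gcongr
          exact le_max_right _ _

/-- **THE ARM EXPORT FOR `cover`** -/
theorem armu_six : ∃ c : ℝ, 0 < c ∧ PvxvSix c := by
  obtain ⟨c, hc, ⟨X⟩⟩ := arms_exit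
  exact ⟨c, hc, armu_six_of hc X⟩

end Claimed.Agent.R289
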